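import Vale.Agent.P347.Shift.MatVec
import Mathlib.Analysis.InnerProductSpace.Spectrum

/-!
# P347: products with a symmetric node by rotation

For a symmetric `J` the points `cos (tJ) z + sin (tJ) g` and `- sin (tJ) z + cos (tJ) g` are
standard for standard `(z, g)` and solve a linear equation, which finitely many Picard rounds
solve from a surrogate `X` of `J` accurate on standard inputs. Averaging over `z` an estimate `F`
of a linear map `T` at the first point gives `T (sin (tJ) g)`; weights exact on polynomials turn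
this into `T (J g)`. No operator is transposed and no square root is taken.
-/

open MeasureTheory ProbabilityTheory Real Finset
open ContinuousLinearMap (adjoint)
open scoped RealInnerProductSpace ENNReal NNReal

namespace Vale.Agent.P347.Shift.Adj

open Vale.Agent.P347.Quarter

variable {ι : Type} [Fintype ι]

/-! ### Functions of a symmetric operator -/

section Calculus

variable {J : Eu ι →L[ℝ] Eu ι} (hJ : adjoint J = J)

lemma isSymmetric (hJ : adjoint J = J) : (J : Eu ι →ₗ[ℝ] Eu ι).IsSymmetric :=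
  ContinuousLinearMap.isSelfAdjoint_iff_isSymmetric.1 hJ

/-- An orthonormal eigenbasis. -/
noncomputable def eb (hJ : adjoint J = J) : OrthonormalBasis (Fin (Fintype.card ι)) ℝ (Eu ι) :=
  (isSymmetric hJ).eigenvectorBasis finrank_euclideanSpace

/-- Its eigenvalues. -/
noncomputable def ev (hJ : adjoint J = J) : Fin (Fintype.card ι) → ℝ :=
  (isSymmetric hJ).eigenvalues finrank_euclideanSpace

/-- A function of the operator. -/
noncomputable def fc (hJ : adjoint J = J) (f : ℝ → ℝ) : Eu ι →L[ℝ] Eu ι :=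
  ∑ i, f (ev hJ i) • (innerSL ℝ (eb hJ i)).smulRight (eb hJ i)

lemma apply_eb (i : Fin (Fintype.card ι)) : J (eb hJ i) = ev hJ i • eb hJ i :=
  (isSymmetric hJ).apply_eigenvectorBasis finrank_euclideanSpace i

lemma fc_eb (f : ℝ → ℝ) (i : Fin (Fintype.card ι)) :
    fc hJ f (eb hJ i) = f (ev hJ i) • eb hJ i := by
  simp [fc, orthonormal_iff_ite.1 (eb hJ).orthonormal]

lemma ext_eb {A B : Eu ι →L[ℝ] Eu ι} (h : ∀ i, A (eb hJ i) = B (eb hJ i)) : A = B :=
  ContinuousLinearMap.coe_injective ((eb hJ).toBasis.ext fun i => by simpa using h i)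

lemma inner_fc (f : ℝ → ℝ) (x y : Eu ι) :
    ⟪fc hJ f x, y⟫ = ∑ i, f (ev hJ i) * (⟪eb hJ i, x⟫ * ⟪eb hJ i, y⟫) := by
  simp [fc, sum_inner, real_inner_smul_left]

lemma adjoint_fc (f : ℝ → ℝ) : adjoint (fc hJ f) = fc hJ f := by
  refine ContinuousLinearMap.ext fun x => ext_inner_right ℝ fun y => ?_
  rw [ContinuousLinearMap.adjoint_inner_left, inner_fc, real_inner_comm, inner_fc]
  exact Finset.sum_congr rfl fun i _ => by ring

lemma fc_id : fc hJ (fun t => t) = J := ext_eb hJ fun i => by rw [fc_eb, apply_eb]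

lemma fc_one : fc hJ (fun _ => 1) = 1 := ext_eb hJ fun i => by simp [fc_eb]

lemma fc_mul (f g : ℝ → ℝ) : (fc hJ f).comp (fc hJ g) = fc hJ fun t => f t * g t :=
  ext_eb hJ fun i => by simp [fc_eb, smul_smul, mul_comm]

lemma fc_add (f g : ℝ → ℝ) : fc hJ f + fc hJ g = fc hJ fun t => f t + g t :=
  ext_eb hJ fun i => by simp [fc_eb, add_smul]

lemma fc_sub (f g : ℝ → ℝ) : fc hJ f - fc hJ g = fc hJ fun t => f t - g t :=
  ext_eb hJ fun i => by simp [fc_eb, sub_smul]

lemma fc_smul (c : ℝ) (f : ℝ → ℝ) : c • fc hJ f = fc hJ fun t => c * f t :=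
  ext_eb hJ fun i => by simp [fc_eb, smul_smul]

lemma fc_sum {κ : Type} (s : Finset κ) (f : κ → ℝ → ℝ) :
    ∑ k ∈ s, fc hJ (f k) = fc hJ fun t => ∑ k ∈ s, f k t :=
  ext_eb hJ fun i => by simp [fc_eb, Finset.sum_smul]

lemma abs_ev_le (i : Fin (Fintype.card ι)) : |ev hJ i| ≤ ‖J‖ := by
  have h := J.le_opNorm (eb hJ i)
  rw [apply_eb, norm_smul, norm_eq_abs, (eb hJ).norm_eq_one] at h
  simpa using h

lemma norm_fc_le (f : ℝ → ℝ) {C : ℝ} (hC : 0 ≤ C) (h : ∀ t, |t| ≤ ‖J‖ → |f t| ≤ C) :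
    ‖fc hJ f‖ ≤ C := by
  refine ContinuousLinearMap.opNorm_le_bound _ hC fun x => ?_
  rw [← pow_le_pow_iff_left₀ (norm_nonneg _) (by positivity) two_ne_zero, mul_pow,
    ← (eb hJ).sum_sq_norm_inner_left x, ← (eb hJ).sum_sq_norm_inner_left (fc hJ f x),
    Finset.mul_sum]
  refine Finset.sum_le_sum fun i _ => ?_
  have e : ⟪fc hJ f x, eb hJ i⟫ = f (ev hJ i) * ⟪x, eb hJ i⟫ := by
    rw [← adjoint_fc hJ f, ContinuousLinearMap.adjoint_inner_left, fc_eb, real_inner_smul_right]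
  rw [e, norm_mul, mul_pow, norm_eq_abs]
  exact mul_le_mul_of_nonneg_right
    (pow_le_pow_left₀ (abs_nonneg _) (h _ (abs_ev_le hJ i)) 2) (sq_nonneg _)

end Calculus

/-! ### Taylor bounds -/

/-- The exponential against its Taylor polynomial. -/
lemma norm_exp_sub_le {z : ℂ} (hz : ‖z‖ ≤ 1) {n : ℕ} (hn : 0 < n) :
    ‖Complex.exp z - ∑ m ∈ Finset.range n, z ^ m / m.factorial‖ ≤ 2 * ‖z‖ ^ n := by
  refine (Complex.exp_bound hz hn).trans ?_
  rw [mul_comm 2]
  refine mul_le_mul_of_nonneg_left ?_ (by positivity)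
  have h1 : (1 : ℝ) ≤ n := by exact_mod_cast hn
  have h2 : (1 : ℝ) ≤ n.factorial := by exact_mod_cast n.factorial_pos
  have h3 : (0 : ℝ) < n.factorial * n := by positivity
  rw [← div_eq_mul_inv, div_le_iff₀ h3]
  push_cast
  nlinarith

lemma norm_exp_I_sub_le {y : ℝ} (hy : |y| ≤ 1) {n : ℕ} (hn : 0 < n) :
    ‖Complex.exp ((y : ℂ) * Complex.I) -
      ∑ m ∈ Finset.range n, ((y : ℂ) * Complex.I) ^ m / m.factorial‖ ≤ 2 * |y| ^ n := by
  have e : ‖(y : ℂ) * Complex.I‖ = |y| := by simp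
  have := norm_exp_sub_le (z := (y : ℂ) * Complex.I) (e ▸ hy) hn
  rwa [e] at this

/-- Odd interpolation: sines reproduce the identity. -/
theorem abs_sum_sin_sub_le {μ : Type} [Fintype μ] {c ρ : μ → ℝ} {lam : ℝ} {R : ℕ} (hR : 2 ≤ R)
    (hc : ∀ k < R, ∑ m, c m * ρ m ^ k = if k = 1 then lam else 0) {t : ℝ}
    (ht : ∀ m, |ρ m * t| ≤ 1) :
    |∑ m, c m * sin (ρ m * t) - lam * t| ≤ 2 * ∑ m, |c m| * |ρ m * t| ^ R := by
  set w : μ → ℂ := fun m => ((ρ m * t : ℝ) : ℂ) * Complex.I with hw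
  have hP : ∑ m, (c m : ℂ) * ∑ k ∈ Finset.range R, w m ^ k / k.factorial =
      ((lam * t : ℝ) : ℂ) * Complex.I := by
    simp only [Finset.mul_sum]
    rw [Finset.sum_comm, Finset.sum_eq_single 1]
    · simp only [hw, pow_one, Nat.factorial_one, Nat.cast_one, div_one, Complex.ofReal_mul]
      rw [Finset.sum_congr rfl fun m _ => show (c m : ℂ) * ((ρ m : ℂ) * t * Complex.I) =
        ((c m * ρ m ^ 1 : ℝ) : ℂ) * (t * Complex.I) by push_cast; ring, ← Finset.sum_mul,
        ← Complex.ofReal_sum, hc 1 (by omega), if_pos rfl, mul_assoc]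
    · intro k hk hk1
      rw [Finset.sum_congr rfl fun m _ => show (c m : ℂ) * (w m ^ k / k.factorial) =
        ((c m * ρ m ^ k : ℝ) : ℂ) * (((t : ℂ) * Complex.I) ^ k / k.factorial) by
          simp only [hw, Complex.ofReal_mul, Complex.ofReal_pow, mul_pow]; ring,
        ← Finset.sum_mul, ← Complex.ofReal_sum, hc k (Finset.mem_range.1 hk), if_neg hk1]
      simp
    · intro h; exact absurd (Finset.mem_range.2 (by omega)) h
  have hS : ∑ m, c m * sin (ρ m * t) - lam * t =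
      (∑ m, (c m : ℂ) *
        (Complex.exp (w m) - ∑ k ∈ Finset.range R, w m ^ k / k.factorial)).im := by
    simp only [mul_sub, Finset.sum_sub_distrib, hP, Complex.sub_im, Complex.im_sum]
    congr 1
    · refine Finset.sum_congr rfl fun m _ => ?_
      rw [Complex.im_ofReal_mul, hw, Complex.exp_ofReal_mul_I_im]
    · simp
  rw [hS, Finset.mul_sum]
  refine (Complex.abs_im_le_norm _).trans ((norm_sum_le _ _).trans ?_)
  refine Finset.sum_le_sum fun m _ => ?_
  rw [norm_mul, Complex.norm_real, norm_eq_abs, mul_left_comm]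
  exact mul_le_mul_of_nonneg_left (norm_exp_I_sub_le (ht m) (by omega)) (abs_nonneg _)

/-- A rule exact up to degree `N` integrates the rotation: both components. -/
theorem quad_rot_le {μ : Type} [Fintype μ] {q u : μ → ℝ} {N : ℕ} (hN : 0 < N)
    (hq : ∀ k < N, ∑ j, q j * u j ^ k = 1 / (k + 1)) (hu : ∀ j, |u j| ≤ 1) {y : ℝ}
    (hy : |y| ≤ 1) :
    |y * ∑ j, q j * cos (u j * y) - sin y| ≤ 2 * ((∑ j, |q j|) + 1) * |y| ^ (N + 1) ∧
      |y * ∑ j, q j * sin (u j * y) - (1 - cos y)| ≤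
        2 * ((∑ j, |q j|) + 1) * |y| ^ (N + 1) := by
  set a : ℂ := (y : ℂ) * Complex.I with ha
  set S : ℂ := ∑ j, (q j : ℂ) * Complex.exp (((u j * y : ℝ) : ℂ) * Complex.I) with hS0
  set P : ℂ := ∑ j, (q j : ℂ) *
    ∑ k ∈ Finset.range N, (((u j * y : ℝ) : ℂ) * Complex.I) ^ k / k.factorial with hP0
  have hP : a * P = (∑ k ∈ Finset.range (N + 1), a ^ k / k.factorial) - 1 := by
    rw [Finset.sum_range_succ']
    simp only [pow_zero, Nat.factorial_zero, Nat.cast_one, div_one, add_sub_cancel_right]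
    simp only [hP0, Finset.mul_sum]
    rw [Finset.sum_comm]
    refine Finset.sum_congr rfl fun k hk => ?_
    rw [Finset.sum_congr rfl fun j _ => show
      a * ((q j : ℂ) * ((((u j * y : ℝ) : ℂ) * Complex.I) ^ k / k.factorial)) =
        ((q j * u j ^ k : ℝ) : ℂ) * (a ^ (k + 1) / k.factorial) by
          simp only [ha, Complex.ofReal_mul, Complex.ofReal_pow, mul_pow, pow_succ]; ring,
      ← Finset.sum_mul, ← Complex.ofReal_sum, hq k (Finset.mem_range.1 hk), Nat.factorial_succ]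
    push_cast
    field_simp
  have hae : ‖a‖ = |y| := by simp [ha]
  have h1 : ‖S - P‖ ≤ (∑ j, |q j|) * (2 * |y| ^ N) := by
    simp only [hS0, hP0, ← Finset.sum_sub_distrib, ← mul_sub, Finset.sum_mul]
    refine (norm_sum_le _ _).trans (Finset.sum_le_sum fun j _ => ?_)
    rw [norm_mul, Complex.norm_real, norm_eq_abs]
    have hj : |u j * y| ≤ |y| := by
      rw [abs_mul]; exact mul_le_of_le_one_left (abs_nonneg _) (hu j)
    refine mul_le_mul_of_nonneg_left ((norm_exp_I_sub_le (hj.trans hy) hN).trans ?_) (abs_nonneg _)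
    gcongr
  have h2 : ‖a * S - (Complex.exp a - 1)‖ ≤ 2 * ((∑ j, |q j|) + 1) * |y| ^ (N + 1) := by
    have e : a * S - (Complex.exp a - 1) = a * (S - P) -
        (Complex.exp a - ∑ k ∈ Finset.range (N + 1), a ^ k / k.factorial) := by
      rw [mul_sub, hP]; ring
    rw [e]
    refine (norm_sub_le _ _).trans ?_
    rw [norm_mul, hae]
    have := norm_exp_I_sub_le hy (Nat.succ_pos N)
    rw [← ha] at this
    have h3 := mul_le_mul_of_nonneg_left h1 (abs_nonneg y)
    rw [pow_succ'] at this ⊢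
    nlinarith
  have hre : S.re = ∑ j, q j * cos (u j * y) := by
    simp only [hS0, Complex.re_sum, Complex.re_ofReal_mul, Complex.exp_ofReal_mul_I_re]
  have him : S.im = ∑ j, q j * sin (u j * y) := by
    simp only [hS0, Complex.im_sum, Complex.im_ofReal_mul, Complex.exp_ofReal_mul_I_im]
  constructor
  · refine le_of_eq_of_le ?_ ((Complex.abs_im_le_norm _).trans h2)
    rw [← hre, ha]
    simp [Complex.exp_ofReal_mul_I_im]
  · refine le_of_eq_of_le ?_ ((Complex.abs_re_le_norm _).trans h2)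
    rw [← him, ha]
    simp [Complex.exp_ofReal_mul_I_re]
    rw [← abs_neg]
    ring_nf

/-! ### Mean square norms -/

section Norms

variable {E : Type*} [NormedAddCommGroup E] [InnerProductSpace ℝ E] [FiniteDimensional ℝ E]

omit [InnerProductSpace ℝ E] [FiniteDimensional ℝ E] in
lemma sq_eLpNorm {α : Type*} [MeasurableSpace α] (μ : Measure α) (f : α → E) :
    eLpNorm f 2 μ ^ 2 = ∫⁻ a, ‖f a‖ₑ ^ 2 ∂μ := by
  have h := eLpNorm_nnreal_pow_eq_lintegral (μ := μ) (f := f) (p := (2 : ℝ≥0)) two_ne_zero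
  simpa using h

omit [FiniteDimensional ℝ E] in
/-- Averaging a variable out contracts. -/
theorem eLpNorm_integral_le {α β : Type*} [MeasurableSpace α] [MeasurableSpace β]
    {μ : Measure α}
    [IsProbabilityMeasure μ] {ν : Measure β} [SFinite ν] {h : α × β → E}
    (hm : StronglyMeasurable h) :
    eLpNorm (fun b => ∫ a, h (a, b) ∂μ) 2 ν ≤ eLpNorm h 2 (μ.prod ν) := by
  rw [← ENNReal.pow_le_pow_left_iff two_ne_zero, sq_eLpNorm, sq_eLpNorm,
    lintegral_prod_symm _ (hm.enorm.pow_const 2).aemeasurable]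
  refine lintegral_mono fun b => ?_
  have hs : StronglyMeasurable fun a => h (a, b) := hm.comp_measurable measurable_prodMk_right
  have h1 := eLpNorm_le_eLpNorm_of_exponent_le (μ := μ) (p := 1) (q := 2) one_le_two
    hs.aestronglyMeasurable
  rw [eLpNorm_one_eq_lintegral_enorm] at h1
  refine (pow_le_pow_left' ((enorm_integral_le_lintegral_enorm _).trans h1) 2).trans_eq ?_
  exact sq_eLpNorm μ _

omit [InnerProductSpace ℝ E] [FiniteDimensional ℝ E] in
/-- A bound uniform in one variable is a bound on the product. -/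
theorem eLpNorm_prod_le {α β : Type*} [MeasurableSpace α] [MeasurableSpace β] {μ : Measure α}
    [IsProbabilityMeasure μ] {ν : Measure β} [SFinite ν] {h : α × β → E}
    (hm : StronglyMeasurable h) {ε : ℝ≥0∞} (hε : ∀ a, eLpNorm (fun b => h (a, b)) 2 ν ≤ ε) :
    eLpNorm h 2 (μ.prod ν) ≤ ε := by
  rw [← ENNReal.pow_le_pow_left_iff two_ne_zero, sq_eLpNorm,
    lintegral_prod _ (hm.enorm.pow_const 2).aemeasurable]
  refine (lintegral_mono fun a => ?_).trans_eq (by simp : ∫⁻ _, ε ^ 2 ∂μ = ε ^ 2)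
  rw [← sq_eLpNorm ν fun b => h (a, b)]
  exact pow_le_pow_left' (hε a) 2

lemma eLpNorm_id : eLpNorm (fun x : Eu ι => x) 2 (gam ι) = ENNReal.ofReal √(Fintype.card ι) := by
  rw [← (ENNReal.pow_right_strictMono two_ne_zero).injective.eq_iff, sq_eLpNorm,
    ← ENNReal.ofReal_pow (sqrt_nonneg _), sq_sqrt (Nat.cast_nonneg _),
    ← (integral_norm_sq (ι := ι)).2,
    ofReal_integral_eq_lintegral_ofReal integral_norm_sq.1 (ae_of_all _ fun x => sq_nonneg _)]
  exact lintegral_congr fun x => by rw [ENNReal.ofReal_pow (norm_nonneg _), ofReal_norm]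

omit [FiniteDimensional ℝ E] in
lemma eLpNorm_clm_le (T : Eu ι →L[ℝ] E) {C : ℝ} (h : ‖T‖ ≤ C) :
    eLpNorm (fun x => T x) 2 (gam ι) ≤ ENNReal.ofReal (C * √(Fintype.card ι)) := by
  refine (eLpNorm_le_mul_eLpNorm_of_ae_le_mul (g := fun x : Eu ι => x) (c := C)
    (ae_of_all _ fun x => (T.le_opNorm x).trans
      (mul_le_mul_of_nonneg_right h (norm_nonneg _))) 2).trans_eq ?_
  rw [eLpNorm_id, ← ENNReal.ofReal_mul ((norm_nonneg T).trans h)]

lemma ofReal_abs (a : ℝ) : ‖a‖ₑ = ENNReal.ofReal |a| := by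
  rw [← ofReal_norm, norm_eq_abs]

omit [FiniteDimensional ℝ E] in
lemma eLpNorm_sum_smul_le {α : Type*} [MeasurableSpace α] {m : Measure α} {μ : Type} [Fintype μ]
    (c : μ → ℝ) {f : μ → α → E} (hf : ∀ i, AEStronglyMeasurable (f i) m) {C : ℝ}
    (h : ∀ i, eLpNorm (f i) 2 m ≤ ENNReal.ofReal C) :
    eLpNorm (fun a => ∑ i, c i • f i a) 2 m ≤ ENNReal.ofReal ((∑ i, |c i|) * C) := by
  have e : (fun a => ∑ i, c i • f i a) = ∑ i, c i • f i := by
    funext a; simp
  rw [e]
  refine (eLpNorm_sum_le (fun i _ => (hf i).const_smul _) one_le_two).trans ?_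
  by_cases hC : 0 ≤ C
  · rw [Finset.sum_mul, ENNReal.ofReal_sum_of_nonneg fun i _ => mul_nonneg (abs_nonneg _) hC]
    refine Finset.sum_le_sum fun i _ => ?_
    rw [eLpNorm_const_smul, ofReal_abs, ENNReal.ofReal_mul (abs_nonneg _)]
    exact mul_le_mul' le_rfl (h i)
  · refine le_of_eq_of_le (Finset.sum_eq_zero fun i _ => ?_) zero_le
    have := h i
    rw [ENNReal.ofReal_of_nonpos (le_of_lt (not_le.1 hC)), nonpos_iff_eq_zero] at this
    rw [eLpNorm_const_smul, this, mul_zero]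

/-- A linear estimate survives a compensated mixing, in the form used below. -/
theorem eLpNorm_avg_sub_le {C Q : Eu ι →L[ℝ] Eu ι}
    (h : C.comp (adjoint C) + Q.comp (adjoint Q) = 1) {F : Eu ι → E} (hF : Continuous F)
    (T : Eu ι →L[ℝ] E) {W : Eu ι × Eu ι → Eu ι} (hW : Continuous W) {M δ B : ℝ} (hM : 0 ≤ M)
    (hδ : 0 ≤ δ) (hB : 0 ≤ B) (hLip : ∀ x y, ‖F x - F y‖ ≤ M * ‖x - y‖)
    (hF2 : eLpNorm (fun x => F x - T x) 2 (gam ι) ≤ ENNReal.ofReal δ)
    (hWB : eLpNorm (fun p => W p - MatVec.mix C Q p) 2 ((gam ι).prod (gam ι)) ≤ ENNReal.ofReal B) :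
    eLpNorm (fun g => ∫ z, F (W (z, g)) ∂gam ι - T (Q g)) 2 (gam ι) ≤
      ENNReal.ofReal (δ + M * B) := by
  set γ := gam ι
  set D : Eu ι × Eu ι → E := fun p => F (W p) - T (MatVec.mix C Q p)
  have hmix := MatVec.continuous_mix C Q
  have hDc : Continuous D := by fun_prop
  have hD : eLpNorm D 2 (γ.prod γ) ≤ ENNReal.ofReal (δ + M * B) := by
    have e : D = (fun p => F (W p) - F (MatVec.mix C Q p)) +
        ((fun x => F x - T x) ∘ MatVec.mix C Q) := by
      funext p; simp [D]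
    have c1 : Continuous fun x => F x - T x := by fun_prop
    have c2 : Continuous fun p => F (W p) - F (MatVec.mix C Q p) := by fun_prop
    rw [e]
    refine (eLpNorm_add_le c2.aestronglyMeasurable (c1.comp hmix).aestronglyMeasurable
      one_le_two).trans ?_
    rw [eLpNorm_comp_measurePreserving c1.aestronglyMeasurable (MatVec.measurePreserving_mix h),
      add_comm δ]
    refine (add_le_add ((eLpNorm_le_mul_eLpNorm_of_ae_le_mul (c := M)
      (ae_of_all _ fun p => hLip (W p) (MatVec.mix C Q p)) 2).trans (mul_le_mul' le_rfl hWB))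
      hF2).trans ?_
    rw [← ENNReal.ofReal_mul hM, ← ENNReal.ofReal_add (mul_nonneg hM hB) hδ]
  have hi : Integrable D (γ.prod γ) :=
    (MemLp.integrable one_le_two ⟨hDc.aestronglyMeasurable, hD.trans_lt ENNReal.ofReal_lt_top⟩)
  have e : (fun g => ∫ z, F (W (z, g)) ∂γ - T (Q g)) =ᵐ[γ] fun g => ∫ z, D (z, g) ∂γ := by
    filter_upwards [hi.prod_left_ae] with g hg
    have hL : Integrable (fun z => T (MatVec.mix C Q (z, g))) γ := by
      simp only [MatVec.mix, map_add]
      exact ((T.comp C).integrable_comp IsGaussian.integrable_fun_id).add (integrable_const _)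
    have hFW : Integrable (fun z => F (W (z, g))) γ := by
      have := hg.add hL
      simpa [D, Pi.add_def] using this
    rw [integral_sub hFW hL]
    congr 1
    exact (MatVec.avg_linear T g).symm
  rw [eLpNorm_congr_ae e]
  exact (eLpNorm_integral_le hDc.stronglyMeasurable).trans hD

end Norms

/-! ### The rotation from a surrogate -/

section Rotation

variable {J : Eu ι →L[ℝ] Eu ι} (hJ : adjoint J = J)

/-- `cos (τJ) z + sin (τJ) g`. -/
noncomputable def rotW (hJ : adjoint J = J) (τ : ℝ) (p : Eu ι × Eu ι) : Eu ι :=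
  MatVec.mix (fc hJ fun t => cos (τ * t)) (fc hJ fun t => sin (τ * t)) p

/-- `- sin (τJ) z + cos (τJ) g`. -/
noncomputable def rotV (hJ : adjoint J = J) (τ : ℝ) (p : Eu ι × Eu ι) : Eu ι :=
  MatVec.mix (fc hJ fun t => -sin (τ * t)) (fc hJ fun t => cos (τ * t)) p

lemma compensated (f g : ℝ → ℝ) (h : ∀ t, f t * f t + g t * g t = 1) :
    (fc hJ f).comp (adjoint (fc hJ f)) + (fc hJ g).comp (adjoint (fc hJ g)) = 1 := by
  rw [adjoint_fc, adjoint_fc, fc_mul, fc_mul, fc_add, funext h, fc_one]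

/-- Picard rounds for the rotation, from the surrogate `X`. -/
noncomputable def pic {μ : Type} [Fintype μ] (X : Eu ι → Eu ι) (q u : μ → ℝ) :
    ℕ → ℝ → Eu ι × Eu ι → Eu ι × Eu ι
  | 0, _, p => p
  | k + 1, τ, p =>
    (p.1 + τ • ∑ j, q j • X (pic X q u k (τ * u j) p).2,
      p.2 - τ • ∑ j, q j • X (pic X q u k (τ * u j) p).1)

lemma continuous_pic {μ : Type} [Fintype μ] {X : Eu ι → Eu ι} (hX : Continuous X) (q u : μ → ℝ) :
    ∀ (k : ℕ) (τ : ℝ), Continuous (pic X q u k τ)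
  | 0, _ => continuous_id
  | k + 1, τ => by
    have h := fun j => continuous_pic hX q u k (τ * u j)
    exact ((continuous_fst.add ((continuous_finsetSum _ fun j _ =>
        (hX.comp (continuous_snd.comp (h j))).const_smul (q j)).const_smul τ))).prodMk
      (continuous_snd.sub ((continuous_finsetSum _ fun j _ =>
        (hX.comp (continuous_fst.comp (h j))).const_smul (q j)).const_smul τ))

/-- The error of the Picard rounds. -/
def picErr (r a : ℝ) (B0 : ℝ) : ℕ → ℝ
  | 0 => B0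
  | k + 1 => r * picErr r a B0 k + a

lemma picErr_le {r a B0 : ℝ} (h0 : 0 ≤ r) (hr : r ≤ 1 / 2) (ha : 0 ≤ a) :
    ∀ k, picErr r a B0 k ≤ r ^ k * B0 + 2 * a
  | 0 => by simp [picErr]; linarith
  | k + 1 => by
    have := mul_le_mul_of_nonneg_left (picErr_le (B0 := B0) h0 hr ha k) h0
    rw [picErr, pow_succ', mul_assoc]
    nlinarith

lemma picErr_nonneg {r a B0 : ℝ} (h0 : 0 ≤ r) (ha : 0 ≤ a) (hB : 0 ≤ B0) :
    ∀ k, 0 ≤ picErr r a B0 k
  | 0 => hB
  | k + 1 => add_nonneg (mul_nonneg h0 (picErr_nonneg h0 ha hB k)) ha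

lemma eLpNorm_fst (T : Eu ι →L[ℝ] Eu ι) {C : ℝ} (h : ‖T‖ ≤ C) :
    eLpNorm (fun p : Eu ι × Eu ι => T p.1) 2 ((gam ι).prod (gam ι)) ≤
      ENNReal.ofReal (C * √(Fintype.card ι)) :=
  (eLpNorm_comp_measurePreserving (T.continuous.aestronglyMeasurable)
    measurePreserving_fst).trans_le (eLpNorm_clm_le T h)

lemma eLpNorm_snd (T : Eu ι →L[ℝ] Eu ι) {C : ℝ} (h : ‖T‖ ≤ C) :
    eLpNorm (fun p : Eu ι × Eu ι => T p.2) 2 ((gam ι).prod (gam ι)) ≤
      ENNReal.ofReal (C * √(Fintype.card ι)) :=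
  (eLpNorm_comp_measurePreserving (T.continuous.aestronglyMeasurable)
    measurePreserving_snd).trans_le (eLpNorm_clm_le T h)

lemma eLpNorm_pair (S T : Eu ι →L[ℝ] Eu ι) {C : ℝ} (hS : ‖S‖ ≤ C) (hT : ‖T‖ ≤ C) :
    eLpNorm (fun p : Eu ι × Eu ι => S p.1 + T p.2) 2 ((gam ι).prod (gam ι)) ≤
      ENNReal.ofReal (2 * C * √(Fintype.card ι)) := by
  refine (eLpNorm_add_le (by fun_prop : Continuous fun p : Eu ι × Eu ι => S p.1).aestronglyMeasurable
    (by fun_prop : Continuous fun p : Eu ι × Eu ι => T p.2).aestronglyMeasurable one_le_two).trans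
    ((add_le_add (eLpNorm_fst S hS) (eLpNorm_snd T hT)).trans_eq ?_)
  have hC : 0 ≤ C := (norm_nonneg _).trans hS
  rw [← ENNReal.ofReal_add (by positivity) (by positivity)]
  ring_nf

/-- One component of a Picard round against one component of the exact rotation. -/
lemma round_le {μ : Type} [Fintype μ] {q : μ → ℝ} {X : Eu ι → Eu ι} (hX : Continuous X)
    {M ε : ℝ} (hM : 0 ≤ M) (hε : 0 ≤ ε) (hLip : ∀ x y, ‖X x - X y‖ ≤ M * ‖x - y‖)
    (hXJ : eLpNorm (fun x => X x - J x) 2 (gam ι) ≤ ENNReal.ofReal ε)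
    {A : μ → Eu ι × Eu ι → Eu ι} (hA : ∀ j, Continuous (A j)) {C Q : μ → Eu ι →L[ℝ] Eu ι}
    (hCQ : ∀ j, (C j).comp (adjoint (C j)) + (Q j).comp (adjoint (Q j)) = 1) {B : ℝ} (hB : 0 ≤ B)
    (hAB : ∀ j, eLpNorm (fun p => A j p - MatVec.mix (C j) (Q j) p) 2 ((gam ι).prod (gam ι)) ≤
      ENNReal.ofReal B)
    (s : ℝ) {T : ℝ} (hs : |s| ≤ T) {S U : Eu ι →L[ℝ] Eu ι} {rem : ℝ} (hrem : 0 ≤ rem)
    (hS : ‖s • ∑ j, q j • J.comp (C j) - S‖ ≤ rem)
    (hU : ‖s • ∑ j, q j • J.comp (Q j) - U‖ ≤ rem) :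
    eLpNorm (fun p : Eu ι × Eu ι => s • ∑ j, q j • X (A j p) - (S p.1 + U p.2)) 2
        ((gam ι).prod (gam ι)) ≤
      ENNReal.ofReal (T * (∑ j, |q j|) * M * B +
        (T * (∑ j, |q j|) * ε + 2 * rem * √(Fintype.card ι))) := by
  set m := (gam ι).prod (gam ι)
  set f : μ → Eu ι × Eu ι → Eu ι := fun j p => X (A j p) - J (MatVec.mix (C j) (Q j) p)
  have hmix := fun j => MatVec.continuous_mix (C j) (Q j)
  have hf : ∀ j, AEStronglyMeasurable (f j) m := fun j =>
    (by fun_prop : Continuous (f j)).aestronglyMeasurable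
  have hfb : ∀ j, eLpNorm (f j) 2 m ≤ ENNReal.ofReal (M * B + ε) := by
    intro j
    have e : f j = (fun p => X (A j p) - X (MatVec.mix (C j) (Q j) p)) +
        ((fun x => X x - J x) ∘ MatVec.mix (C j) (Q j)) := by funext p; simp [f]
    have c1 : Continuous fun x => X x - J x := by fun_prop
    have c2 : Continuous fun p => X (A j p) - X (MatVec.mix (C j) (Q j) p) := by fun_prop
    rw [e, ENNReal.ofReal_add (mul_nonneg hM hB) hε, ENNReal.ofReal_mul hM]
    refine (eLpNorm_add_le c2.aestronglyMeasurable (c1.comp (hmix j)).aestronglyMeasurable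
      one_le_two).trans (add_le_add ?_ ?_)
    · exact (eLpNorm_le_mul_eLpNorm_of_ae_le_mul (c := M)
        (ae_of_all _ fun p => hLip _ _) 2).trans (mul_le_mul' le_rfl (hAB j))
    · rwa [eLpNorm_comp_measurePreserving c1.aestronglyMeasurable
        (MatVec.measurePreserving_mix (hCQ j))]
  set S' := s • ∑ j, q j • J.comp (C j) - S
  set U' := s • ∑ j, q j • J.comp (Q j) - U
  have e : (fun p : Eu ι × Eu ι => s • ∑ j, q j • X (A j p) - (S p.1 + U p.2)) =
      (fun p => s • ∑ j, q j • f j p) + fun p : Eu ι × Eu ι => S' p.1 + U' p.2 := by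
    funext p
    simp [f, S', U', MatVec.mix, Finset.sum_add_distrib, smul_add, smul_sub]
    abel
  rw [e]
  refine (eLpNorm_add_le ?_ ?_ one_le_two).trans
    ((add_le_add (b := ENNReal.ofReal (T * ((∑ j, |q j|) * (M * B + ε)))) ?_
      (eLpNorm_pair S' U' hS hU)).trans_eq ?_)
  · exact (by fun_prop : Continuous fun p => s • ∑ j, q j • f j p).aestronglyMeasurable
  · exact (by fun_prop : Continuous fun p : Eu ι × Eu ι => S' p.1 + U' p.2).aestronglyMeasurable
  · show eLpNorm (fun p => s • ∑ j, q j • f j p) 2 m ≤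
      ENNReal.ofReal (T * ((∑ j, |q j|) * (M * B + ε)))
    rw [show (fun p => s • ∑ j, q j • f j p) = s • fun p => ∑ j, q j • f j p from rfl,
      eLpNorm_const_smul, ofReal_abs, ENNReal.ofReal_mul ((abs_nonneg s).trans hs)]
    exact mul_le_mul' (ENNReal.ofReal_le_ofReal hs) (eLpNorm_sum_smul_le q hf hfb)
  · have hT : 0 ≤ T := (abs_nonneg s).trans hs
    rw [← ENNReal.ofReal_add (by positivity) (by positivity)]
    ring_nf

variable {μ : Type} [Fintype μ]

/-- **Picard rounds compute the rotation.** -/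
theorem pic_le {q u : μ → ℝ} {N : ℕ} (hN : 0 < N)
    (hq : ∀ k < N, ∑ j, q j * u j ^ k = 1 / (k + 1)) (hu : ∀ j, |u j| ≤ 1)
    {X : Eu ι → Eu ι} (hX : Continuous X) {M ε : ℝ} (hM : 0 ≤ M) (hε : 0 ≤ ε)
    (hLip : ∀ x y, ‖X x - X y‖ ≤ M * ‖x - y‖)
    (hXJ : eLpNorm (fun x => X x - J x) 2 (gam ι) ≤ ENNReal.ofReal ε)
    {T L : ℝ} (hL : ‖J‖ ≤ L) (hTL : T * L ≤ 1) :
    ∀ (k : ℕ) (τ : ℝ), |τ| ≤ T →
      let B := picErr (T * (∑ j, |q j|) * M) (T * (∑ j, |q j|) * ε +
        2 * (2 * ((∑ j, |q j|) + 1) * (T * L) ^ (N + 1)) * √(Fintype.card ι))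
        (2 * 2 * √(Fintype.card ι)) k
      eLpNorm (fun p => (pic X q u k τ p).1 - rotW hJ τ p) 2 ((gam ι).prod (gam ι)) ≤
          ENNReal.ofReal B ∧
        eLpNorm (fun p => (pic X q u k τ p).2 - rotV hJ τ p) 2 ((gam ι).prod (gam ι)) ≤
          ENNReal.ofReal B
  | 0, τ, _ => by
    have hcs : ∀ f : ℝ → ℝ, (∀ t, |f t| ≤ 2) → ‖fc hJ f‖ ≤ 2 := fun f h =>
      norm_fc_le hJ f zero_le_two fun t _ => h t
    have e1 : (fun p => (pic X q u 0 τ p).1 - rotW hJ τ p) = fun p : Eu ι × Eu ι =>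
        (fc hJ fun t => 1 - cos (τ * t)) p.1 + (fc hJ fun t => -sin (τ * t)) p.2 := by
      funext p
      rw [← fc_sub, fc_one]
      rw [show (fc hJ fun t => -sin (τ * t)) = -fc hJ fun t => sin (τ * t) by
        rw [← neg_one_smul ℝ (fc hJ fun t => sin (τ * t)), fc_smul]; simp]
      simp [pic, rotW, MatVec.mix]; abel
    have e2 : (fun p => (pic X q u 0 τ p).2 - rotV hJ τ p) = fun p : Eu ι × Eu ι =>
        (fc hJ fun t => sin (τ * t)) p.1 + (fc hJ fun t => 1 - cos (τ * t)) p.2 := by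
      funext p
      rw [← fc_sub, fc_one]
      have : (fc hJ fun t => sin (τ * t)) = -fc hJ fun t => -sin (τ * t) := by
        rw [← neg_one_smul ℝ (fc hJ fun t => -sin (τ * t)), fc_smul]; simp
      simp [pic, rotV, MatVec.mix, this]; abel
    simp only [picErr, e1, e2]
    have h1 : ∀ t, |1 - cos (τ * t)| ≤ 2 := fun t => abs_le.2
      ⟨by linarith [cos_le_one (τ * t)], by linarith [neg_one_le_cos (τ * t)]⟩
    have h2 : ∀ t, |sin (τ * t)| ≤ 2 := fun t => (abs_sin_le_one _).trans one_le_two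
    exact ⟨eLpNorm_pair _ _ (hcs _ h1) (hcs _ fun t => by rw [abs_neg]; exact h2 t),
      eLpNorm_pair _ _ (hcs _ h2) (hcs _ h1)⟩
  | k + 1, τ, hτ => by
    intro B
    have hT : 0 ≤ T := (abs_nonneg τ).trans hτ
    have hQ : 0 ≤ ∑ j, |q j| := Finset.sum_nonneg fun j _ => abs_nonneg _
    have hL0 : 0 ≤ L := (norm_nonneg _).trans hL
    have hj : ∀ j, |τ * u j| ≤ T := fun j => by
      rw [abs_mul]; exact (mul_le_of_le_one_right (abs_nonneg _) (hu j)).trans hτ
    have ih := fun j => pic_le hN hq hu hX hM hε hLip hXJ hL hTL k (τ * u j) (hj j)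
    have hB : 0 ≤ picErr (T * (∑ j, |q j|) * M) (T * (∑ j, |q j|) * ε +
        2 * (2 * ((∑ j, |q j|) + 1) * (T * L) ^ (N + 1)) * √(Fintype.card ι))
        (2 * 2 * √(Fintype.card ι)) k :=
      picErr_nonneg (by positivity) (by positivity) (by positivity) k
    have hc := fun j => continuous_pic hX q u k (τ * u j)
    have key : ∀ (a : ℝ) (f : ℝ → ℝ) (g : μ → ℝ → ℝ), (∀ t, |t| ≤ ‖J‖ →
        |a * ∑ j, q j * (t * g j t) - f t| ≤ 2 * ((∑ j, |q j|) + 1) * |τ * t| ^ (N + 1)) →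
        ‖a • ∑ j, q j • J.comp (fc hJ (g j)) - fc hJ f‖ ≤
          2 * ((∑ j, |q j|) + 1) * (T * L) ^ (N + 1) := by
      intro a f g h
      have e : a • ∑ j, q j • J.comp (fc hJ (g j)) - fc hJ f =
          fc hJ fun t => a * ∑ j, q j * (t * g j t) - f t := by
        conv_lhs => enter [1, 2, 2, j]; rw [show J.comp (fc hJ (g j)) =
          (fc hJ fun t => t).comp (fc hJ (g j)) by rw [fc_id], fc_mul, fc_smul]
        rw [fc_sum, fc_smul, fc_sub]
      rw [e]
      refine norm_fc_le hJ _ (by positivity) fun t ht => (h t ht).trans ?_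
      rw [abs_mul]
      gcongr
      exact ht.trans hL
    have hy : ∀ t, |t| ≤ ‖J‖ → |τ * t| ≤ 1 := fun t ht => by
      rw [abs_mul]
      exact (mul_le_mul hτ (ht.trans hL) (abs_nonneg _) hT).trans hTL
    have hsum : ∀ (t : ℝ) (h : ℝ → ℝ), τ * ∑ j, q j * (t * h (τ * u j * t)) =
        τ * t * ∑ j, q j * h (u j * (τ * t)) := fun t h => by
      rw [Finset.mul_sum, Finset.mul_sum]
      exact Finset.sum_congr rfl fun j _ => by rw [show τ * u j * t = u j * (τ * t) by ring]; ring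
    constructor
    · have h := round_le hX hM hε hLip hXJ (A := fun j p => (pic X q u k (τ * u j) p).2)
        (fun j => continuous_snd.comp (hc j))
        (C := fun j => fc hJ fun t => -sin (τ * u j * t))
        (Q := fun j => fc hJ fun t => cos (τ * u j * t))
        (fun j => compensated hJ _ _ fun t => by
          nlinarith [sin_sq_add_cos_sq (τ * u j * t)])
        hB (fun j => (ih j).2) τ hτ (S := fc hJ fun t => cos (τ * t) - 1)
        (U := fc hJ fun t => sin (τ * t))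
        (rem := 2 * ((∑ j, |q j|) + 1) * (T * L) ^ (N + 1)) (by positivity)
        (key _ _ _ fun t ht => by
          have := (quad_rot_le hN hq hu (hy t ht)).2
          rw [← abs_neg] at this
          refine le_of_eq_of_le (congrArg _ ?_) this
          rw [← hsum t sin]
          simp [Finset.mul_sum]; ring)
        (key _ _ _ fun t ht => by
          rw [hsum t cos]; exact (quad_rot_le hN hq hu (hy t ht)).1)
      refine le_of_eq_of_le (congrArg (fun f => eLpNorm f 2 _) (funext fun p => ?_)) h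
      rw [← fc_sub, fc_one]
      simp [pic, rotW, MatVec.mix]; abel
    · have h := round_le hX hM hε hLip hXJ (A := fun j p => (pic X q u k (τ * u j) p).1)
        (fun j => continuous_fst.comp (hc j))
        (C := fun j => fc hJ fun t => cos (τ * u j * t))
        (Q := fun j => fc hJ fun t => sin (τ * u j * t))
        (fun j => compensated hJ _ _ fun t => by
          nlinarith [sin_sq_add_cos_sq (τ * u j * t)])
        hB (fun j => (ih j).1) (-τ) (by rwa [abs_neg]) (q := q) (T := T)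
        (S := fc hJ fun t => -sin (τ * t))
        (U := fc hJ fun t => cos (τ * t) - 1)
        (rem := 2 * ((∑ j, |q j|) + 1) * (T * L) ^ (N + 1)) (by positivity)
        (key _ _ _ fun t ht => by
          refine le_of_eq_of_le ?_ (quad_rot_le hN hq hu (hy t ht)).1
          rw [← hsum t cos, ← abs_neg]
          ring_nf
          simp only [mul_comm t (q _)])
        (key _ _ _ fun t ht => by
          refine le_of_eq_of_le ?_ (quad_rot_le hN hq hu (hy t ht)).2
          rw [← hsum t sin, ← abs_neg]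
          ring_nf
          simp only [mul_comm t (q _)])
      refine le_of_eq_of_le (congrArg (fun f => eLpNorm f 2 _) (funext fun p => ?_)) h
      rw [← fc_sub, fc_one]
      simp [pic, rotV, MatVec.mix, sub_eq_add_neg]; abel

end Rotation

/-! ### The rules -/

section Rules

variable {E : Type*} [NormedAddCommGroup E] [InnerProductSpace ℝ E] [FiniteDimensional ℝ E]
  {μ ν : Type} [Fintype μ] [Fintype ν]

/-- **The node rule**: an estimate `F` of the linear map `T` and a surrogate `X` of the symmetric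
`J` give an estimate of `lam T J`. -/
theorem node_le {J : Eu ι →L[ℝ] Eu ι} (hJ : adjoint J = J) {X : Eu ι → Eu ι} (hX : Continuous X)
    {M ε : ℝ} (hM : 0 ≤ M) (hε : 0 ≤ ε) (hLip : ∀ x y, ‖X x - X y‖ ≤ M * ‖x - y‖)
    (hXJ : eLpNorm (fun x => X x - J x) 2 (gam ι) ≤ ENNReal.ofReal ε)
    {q u : ν → ℝ} {N : ℕ} (hN : 0 < N) (hq : ∀ k < N, ∑ j, q j * u j ^ k = 1 / (k + 1))
    (hu : ∀ j, |u j| ≤ 1) {c ρ : μ → ℝ} {lam : ℝ} {R : ℕ} (hR : 2 ≤ R)
    (hc : ∀ k < R, ∑ m, c m * ρ m ^ k = if k = 1 then lam else 0)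
    {T L : ℝ} (hT : 0 ≤ T) (hρ : ∀ m, |ρ m| ≤ T) (hL : ‖J‖ ≤ L) (hTL : T * L ≤ 1)
    (hr : T * (∑ j, |q j|) * M ≤ 1 / 2)
    {F : Eu ι → E} (hF : Continuous F) {M' δ : ℝ} (hM' : 0 ≤ M') (hδ : 0 ≤ δ)
    (hLip' : ∀ x y, ‖F x - F y‖ ≤ M' * ‖x - y‖) (S : Eu ι →L[ℝ] E)
    (hFS : eLpNorm (fun x => F x - S x) 2 (gam ι) ≤ ENNReal.ofReal δ) (K : ℕ) :
    eLpNorm (fun g => ∑ m, c m • ∫ z, F (pic X q u K (ρ m) (z, g)).1 ∂gam ι - lam • S (J g)) 2
        (gam ι) ≤
      ENNReal.ofReal ((∑ m, |c m|) * (δ + M' * ((T * (∑ j, |q j|) * M) ^ K *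
          (4 * √(Fintype.card ι)) + 2 * (T * (∑ j, |q j|) * ε +
            4 * ((∑ j, |q j|) + 1) * (T * L) ^ (N + 1) * √(Fintype.card ι)))) +
        ‖S‖ * (2 * (∑ m, |c m|) * (T * L) ^ R) * √(Fintype.card ι)) := by
  have hQ : 0 ≤ ∑ j, |q j| := Finset.sum_nonneg fun j _ => abs_nonneg _
  have hL0 : 0 ≤ L := (norm_nonneg _).trans hL
  set B : ℝ := (T * (∑ j, |q j|) * M) ^ K * (4 * √(Fintype.card ι)) + 2 * (T * (∑ j, |q j|) * ε +
    4 * ((∑ j, |q j|) + 1) * (T * L) ^ (N + 1) * √(Fintype.card ι))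
  have hB : ∀ m, eLpNorm (fun p => (pic X q u K (ρ m) p).1 - rotW hJ (ρ m) p) 2
      ((gam ι).prod (gam ι)) ≤ ENNReal.ofReal B := fun m => by
    refine (pic_le hJ hN hq hu hX hM hε hLip hXJ hL hTL K (ρ m) (hρ m)).1.trans
      (ENNReal.ofReal_le_ofReal ((picErr_le (by positivity) hr (by positivity) K).trans_eq ?_))
    simp only [B]; ring
  have hB0 : 0 ≤ B := by positivity
  set G : μ → Eu ι → E := fun m g =>
    ∫ z, F (pic X q u K (ρ m) (z, g)).1 ∂gam ι - S ((fc hJ fun t => sin (ρ m * t)) g)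
  have hG : ∀ m, eLpNorm (G m) 2 (gam ι) ≤ ENNReal.ofReal (δ + M' * B) := fun m =>
    eLpNorm_avg_sub_le (compensated hJ _ _ fun t => by nlinarith [sin_sq_add_cos_sq (ρ m * t)])
      hF S (continuous_fst.comp (continuous_pic hX q u K (ρ m))) hM' hδ hB0 hLip' hFS (hB m)
  have hGm : ∀ m, AEStronglyMeasurable (G m) (gam ι) := fun m => by
    refine ((StronglyMeasurable.integral_prod_left'
      (f := fun p => F (pic X q u K (ρ m) p).1)
      (hF.comp (continuous_fst.comp (continuous_pic hX q u K (ρ m)))).stronglyMeasurable).sub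
      ?_).aestronglyMeasurable
    exact (by fun_prop : Continuous fun g => S ((fc hJ fun t => sin (ρ m * t)) g)).stronglyMeasurable
  set D : Eu ι →L[ℝ] Eu ι := fc hJ fun t => ∑ m, c m * sin (ρ m * t) - lam * t
  have e : (fun g => ∑ m, c m • ∫ z, F (pic X q u K (ρ m) (z, g)).1 ∂gam ι - lam • S (J g)) =
      (fun g => ∑ m, c m • G m g) + fun g => (S.comp D) g := by
    funext g
    have hD : D g = ∑ m, c m • (fc hJ fun t => sin (ρ m * t)) g - lam • J g := by
      have hl : (fc hJ fun t => lam * t) = lam • J := by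
        rw [← fc_smul hJ lam fun t => t, fc_id]
      simp only [D, ← fc_sub, hl, ← fc_sum, ← fc_smul]
      simp
    simp [G, hD, smul_sub, Finset.sum_sub_distrib, map_sum]
  have hD : ‖S.comp D‖ ≤ ‖S‖ * (2 * (∑ m, |c m|) * (T * L) ^ R) := by
    refine (ContinuousLinearMap.opNorm_comp_le _ _).trans (mul_le_mul_of_nonneg_left
      (norm_fc_le hJ _ (by positivity) fun t ht => ?_) (norm_nonneg _))
    have hmt : ∀ m, |ρ m * t| ≤ T * L := fun m => by
      rw [abs_mul]; exact mul_le_mul (hρ m) (ht.trans hL) (abs_nonneg _) hT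
    refine (abs_sum_sin_sub_le hR hc fun m => (hmt m).trans hTL).trans ?_
    rw [mul_assoc, Finset.sum_mul]
    gcongr with m
    exact hmt m
  rw [e]
  refine (eLpNorm_add_le (Finset.aestronglyMeasurable_fun_sum _ fun m _ => (hGm m).const_smul _)
    (S.comp D).continuous.aestronglyMeasurable one_le_two).trans
    ((add_le_add (eLpNorm_sum_smul_le c hGm hG) (eLpNorm_clm_le _ hD)).trans_eq ?_)
  rw [← ENNReal.ofReal_add (by positivity) (by positivity)]

/-- **The comb rule**: a static matrix enters by a dilation. -/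
theorem comb_le {C Q : Eu ι →L[ℝ] Eu ι} (h : C.comp (adjoint C) + Q.comp (adjoint Q) = 1)
    {F : Eu ι → E} (hF : Continuous F) {M δ : ℝ} (hM : 0 ≤ M) (hδ : 0 ≤ δ)
    (hLip : ∀ x y, ‖F x - F y‖ ≤ M * ‖x - y‖) (S : Eu ι →L[ℝ] E)
    (hFS : eLpNorm (fun x => F x - S x) 2 (gam ι) ≤ ENNReal.ofReal δ) :
    eLpNorm (fun g => MatVec.avg C Q F g - S (Q g)) 2 (gam ι) ≤ ENNReal.ofReal δ := by
  have := eLpNorm_avg_sub_le h hF S (MatVec.continuous_mix C Q) hM hδ le_rfl hLip hFS
    (by simp)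
  simpa [MatVec.avg, MatVec.mix] using this

omit [FiniteDimensional ℝ E] in
/-- **The mean rule**: a bound uniform in the averaged variable passes to the average. -/
theorem mean_le {α : Type*} [MeasurableSpace α] {m : Measure α} [IsProbabilityMeasure m]
    {h : α × Eu ι → E} (hm : StronglyMeasurable h) {ε : ℝ≥0∞}
    (hε : ∀ a, eLpNorm (fun g => h (a, g)) 2 (gam ι) ≤ ε) :
    eLpNorm (fun g => ∫ a, h (a, g) ∂m) 2 (gam ι) ≤ ε :=
  (eLpNorm_integral_le hm).trans (eLpNorm_prod_le hm hε)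

end Rules

end Vale.Agent.P347.Shift.Adj
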