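import Vale.Agent.P347.Shift.Bessel
import Vale.Agent.P347.Quarter.Smooth
import Vale.Agent.P347.Quarter.Quad.Scalar

/-!
# P347: extraction of the linear chaos of a Gaussian average

`mv ρ f x = E f (ρ x + √(1 - ρ²) Z)`.  A combination of `mv ρ_m F` whose weights reproduce
`λ ρ` up to degree `R` differs from `λ` times the linear chaos of `F` by a term whose mean
derivatives of order `< R` vanish, so iterated Poincaré and Bessel give the error
`∑ |c_m| (2 |ρ_m|)^R` times the size of the first derivative of `F`, in every dimension.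
-/

open MeasureTheory ProbabilityTheory Real Finset
open scoped RealInnerProductSpace ContDiff

namespace Vale.Agent.P347.Shift

open Quarter

variable {ι : Type} [Fintype ι] [DecidableEq ι] {κ : Type} [Fintype κ]

lemma norm_sq_fderiv (f : Eu ι → ℝ) (x : Eu ι) : ‖fderiv ℝ f x‖ ^ 2 = ∑ k, pd k f x ^ 2 := by
  simp [norm_sq_functional, pd, ei, EuclideanSpace.basisFun_apply]

/-- Poincaré's inequality. -/
theorem dsq_zero_le_one {f : Eu ι → ℝ} (hf : f.HasTemperateGrowth) (h0 : ∫ x, f x ∂gam ι = 0) :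
    dsq 0 f ≤ dsq 1 f := by
  have hi : ∀ k, Integrable (fun x => pd k f x ^ 2) (gam ι) := fun k =>
    tg_integrable ((tg_pd k hf).fun_pow 2)
  have h := poincare_gam (hf.1.of_le (by simp)) (tg_integrable (hf.fun_pow 2))
    (by simp only [norm_sq_fderiv]; exact integrable_finsetSum _ fun k _ => hi k)
  rw [h0] at h
  simp only [norm_sq_fderiv, integral_finsetSum _ fun k _ => hi k] at h
  simpa [dsq] using h

/-- Iterated Poincaré inequality. -/
theorem dsq_zero_le_iter : ∀ (R : ℕ) {f : Eu ι → ℝ}, f.HasTemperateGrowth →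
    (∀ i < R, ∀ α : Fin i → ι, ∫ x, pdi i α f x ∂gam ι = 0) → dsq 0 f ≤ dsq R f
  | 0, _, _, _ => le_rfl
  | R + 1, f, hf, h => by
    refine (dsq_zero_le_one hf (h 0 (Nat.succ_pos R) Fin.elim0)).trans ?_
    simp only [dsq]
    refine sum_le_sum fun k _ => ?_
    have := dsq_zero_le_iter R (tg_pd k hf) fun i hi α => by
      rw [← pdi_pd i α hf k, ← pdi_cons]
      exact h (i + 1) (Nat.succ_lt_succ hi) _
    simpa [dsq] using this

/-- The Mehler average with correlation `ρ`. -/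
noncomputable def mv (ρ : ℝ) (f : Eu ι → ℝ) : Eu ι → ℝ := smo ρ (√(1 - ρ ^ 2)) f fun _ => 1

omit [DecidableEq ι] in
lemma tg_one : (fun _ : Eu ι => (1 : ℝ)).HasTemperateGrowth := Function.HasTemperateGrowth.const 1

lemma sq_sum_sqrt {ρ : ℝ} (h : ρ ^ 2 ≤ 1) : ρ ^ 2 + √(1 - ρ ^ 2) ^ 2 = 1 := by
  rw [sq_sqrt (by linarith)]; ring

section Bounded

variable {h : Eu ι → ℝ} {C : ℝ}

omit [DecidableEq ι] in
lemma mv_apply (ρ : ℝ) (f : Eu ι → ℝ) (x : Eu ι) :
    mv ρ f x = ∫ w, f (ρ • x + √(1 - ρ ^ 2) • w) ∂gam ι := by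
  simp [mv, smo]

omit [DecidableEq ι] in
/-- The average preserves the mean. -/
theorem integral_mv (hc : Continuous h) (hC : ∀ y, |h y| ≤ C) {ρ : ℝ} (hρ : ρ ^ 2 ≤ 1) :
    ∫ x, mv ρ h x ∂gam ι = ∫ x, h x ∂gam ι := by
  have hi : Integrable (fun p : Eu ι × Eu ι => h (ρ • p.1 + √(1 - ρ ^ 2) • p.2))
      ((gam ι).prod (gam ι)) := (integrable_const C).mono'
    (hc.comp (by fun_prop)).aestronglyMeasurable (ae_of_all _ fun p => hC _)
  simp only [mv_apply]
  rw [← integral_prod _ hi, ← integral_map (φ := fun p : Eu ι × Eu ι => ρ • p.1 + √(1 - ρ ^ 2) • p.2)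
    (by fun_prop) hc.aestronglyMeasurable, gauss_combine, sq_sum_sqrt hρ]
  simp

omit [DecidableEq ι] in
/-- Mehler averages compose. -/
theorem mv_mv (hc : Continuous h) (hC : ∀ y, |h y| ≤ C) {s t : ℝ} (hs : s ^ 2 ≤ 1)
    (ht : t ^ 2 ≤ 1) : mv t (mv s h) = mv (s * t) h := by
  funext x
  set u := √(1 - t ^ 2)
  set v := √(1 - s ^ 2)
  have hi : Integrable (fun p : Eu ι × Eu ι => h ((s * t) • x + ((s * u) • p.1 + v • p.2)))
      ((gam ι).prod (gam ι)) := (integrable_const C).mono'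
    (hc.comp (by fun_prop)).aestronglyMeasurable (ae_of_all _ fun p => hC _)
  have e : √((s * u) ^ 2 + v ^ 2) = √(1 - (s * t) ^ 2) := by
    congr 1
    rw [mul_pow, sq_sqrt (by linarith), sq_sqrt (by linarith)]
    ring
  calc mv t (mv s h) x
      = ∫ a, ∫ b, h ((s * t) • x + ((s * u) • a + v • b)) ∂gam ι ∂gam ι := by
        simp only [mv_apply, smul_add, smul_smul, add_assoc, u, v]
    _ = ∫ p, h ((s * t) • x + ((s * u) • p.1 + v • p.2)) ∂(gam ι).prod (gam ι) :=
        (integral_prod _ hi).symm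
    _ = mv (s * t) h x := by
        rw [← integral_map (φ := fun p : Eu ι × Eu ι => (s * u) • p.1 + v • p.2)
          (f := fun y => h ((s * t) • x + y)) (by fun_prop)
          (hc.comp (by fun_prop)).aestronglyMeasurable, gauss_combine,
          integral_map (f := fun y => h ((s * t) • x + y)) (by fun_prop)
            (hc.comp (by fun_prop)).aestronglyMeasurable, e, mv_apply]

omit [DecidableEq ι] in
lemma abs_mv_le (hc : Continuous h) (hC : ∀ y, |h y| ≤ C) (ρ : ℝ) (x : Eu ι) :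
    |mv ρ h x| ≤ C := by
  simpa [mv] using abs_smo_le (a := ρ) (b := √(1 - ρ ^ 2)) hc hC tg_one x

/-- Derivatives of an affine reparametrisation. -/
lemma pdi_affine : ∀ (i : ℕ) (α : Fin i → ι) {f : Eu ι → ℝ}, f.HasTemperateGrowth →
    ∀ (y : Eu ι) (b : ℝ),
      pdi i α (fun w => f (y + b • w)) = fun w => b ^ i * pdi i α f (y + b • w)
  | 0, _, _, _, _, _ => by funext w; simp [pdi]
  | i + 1, α, f, hf, y, b => by
    funext w
    simp only [pdi, pdi_affine i _ hf y b]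
    set g := pdi i (fun l => α l.succ) f
    have hg : DifferentiableAt ℝ g (y + b • w) := tg_differentiable (tg_pdi i _ hf) _
    have h1 : HasFDerivAt (fun w : Eu ι => y + b • w) (b • ContinuousLinearMap.id ℝ (Eu ι)) w :=
      ((hasFDerivAt_id w).const_smul b).const_add y
    have h2 := (hg.hasFDerivAt.comp w h1).const_mul (b ^ i)
    simp only [pd, Function.comp_def] at h2 ⊢
    rw [h2.fderiv]
    simp [pow_succ]
    ring

omit [DecidableEq ι] in
lemma tg_affine {f : Eu ι → ℝ} (hf : f.HasTemperateGrowth) (y : Eu ι) (b : ℝ) :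
    (fun w => f (y + b • w)).HasTemperateGrowth :=
  hf.comp ((Function.HasTemperateGrowth.const y).fun_add
    (b • ContinuousLinearMap.id ℝ (Eu ι)).hasTemperateGrowth)

/-- Derivatives commute with the average. -/
theorem pdi_mv_eq (hf : h.HasTemperateGrowth) (hC : ∀ y, |h y| ≤ C) {t : ℝ} (ht : t ^ 2 < 1)
    (i : ℕ) (α : Fin i → ι) (x : Eu ι) :
    pdi i α (mv t h) x = t ^ i * mv t (pdi i α h) x := by
  have hb : √(1 - t ^ 2) ≠ 0 := (sqrt_pos.2 (by linarith)).ne'
  have e := congrFun (sum_mul_pdi_smo (a := t) hf.1.continuous hC hb i fun β =>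
    if β = α then 1 else 0) x
  simp only [ite_mul, one_mul, zero_mul, sum_ite_eq', mem_univ, if_true] at e
  unfold mv
  rw [e]
  simp only [smo]
  rw [integral_congr_ae (ae_of_all _ fun w => mul_comm _ _),
    integral_dpow_mul i _ (tg_affine hf (t • x) _)]
  simp only [pdi_affine i _ hf, ite_mul, one_mul, zero_mul, sum_ite_eq', mem_univ, if_true,
    integral_const_mul, mul_one]
  rw [← mul_assoc, ← mul_pow, div_mul_cancel₀ _ hb]

/-- The mean derivatives of an average of a bounded function. -/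
theorem integral_pdi_mv (hc : Continuous h) (hC : ∀ y, |h y| ≤ C) {ρ : ℝ} (hρ : |ρ| ≤ 1 / 2)
    (i : ℕ) (α : Fin i → ι) :
    ∫ x, pdi i α (mv ρ h) x ∂gam ι =
      (4 / 3 * ρ) ^ i * ∫ x, pdi i α (mv (3 / 4) h) x ∂gam ι := by
  obtain ⟨h1, h2⟩ := abs_le.1 hρ
  have ht : (4 / 3 * ρ) ^ 2 < 1 := by nlinarith
  have hb : √(1 - (3 / 4 : ℝ) ^ 2) ≠ 0 := (sqrt_pos.2 (by norm_num)).ne'
  have hg : (mv (3 / 4) h).HasTemperateGrowth := tg_smo hc hC hb tg_one
  have e : mv ρ h = mv (4 / 3 * ρ) (mv (3 / 4) h) := by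
    rw [mv_mv hc hC (by norm_num) ht.le]; congr 1; ring
  obtain ⟨B, hB⟩ := (contDiff_smo_aux (a := (3 / 4 : ℝ)) hc hC hb i tg_one).2
  have hpb : ∀ y, |pdi i α (mv (3 / 4) h) y| ≤ ((3 / 4 : ℝ) / √(1 - (3 / 4 : ℝ) ^ 2)) ^ i *
      (C * ∫ w, |dpow i (fun β => if β = α then 1 else 0) w| ∂gam ι) := fun y => by
    have e' := congrFun (sum_mul_pdi_smo (a := (3 / 4 : ℝ)) hc hC hb i fun β =>
      if β = α then 1 else 0) y
    simp only [ite_mul, one_mul, zero_mul, sum_ite_eq', mem_univ, if_true] at e'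
    rw [show pdi i α (mv (3 / 4) h) y = _ from e', abs_mul, abs_of_nonneg (a := _ ^ i) (by positivity)]
    exact mul_le_mul_of_nonneg_left (abs_smo_le hc hC (tg_dpow i _) y) (by positivity)
  rw [e, integral_congr_ae (ae_of_all _ fun x => pdi_mv_eq hg (abs_mv_le hc hC _) ht i α x),
    integral_const_mul, integral_mv (tg_pdi i α hg).1.continuous hpb ht.le]

end Bounded

section Lipschitz

variable {F : Eu ι → ℝ} {M : ℝ}

omit [DecidableEq ι] in
lemma norm_le_lin (hF : ContDiff ℝ 1 F) (hM : ∀ y, ‖fderiv ℝ F y‖ ≤ M) (y : Eu ι) :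
    |F y| ≤ |F 0| + M * ‖y‖ := by
  have h := convex_univ.norm_image_sub_le_of_norm_fderiv_le
    (fun z _ => hF.differentiable one_ne_zero z) (fun z _ => hM z)
    (Set.mem_univ (0 : Eu ι)) (Set.mem_univ y)
  rw [sub_zero, norm_eq_abs] at h
  linarith [abs_sub_abs_le_abs_sub (F y) (F 0)]

omit [DecidableEq ι] in
lemma integrable_shift_lip (hF : ContDiff ℝ 1 F) (hM : ∀ y, ‖fderiv ℝ F y‖ ≤ M) (z : Eu ι)
    (b : ℝ) : Integrable (fun w => F (z + b • w)) (gam ι) := by
  have hn : Integrable (fun w : Eu ι => ‖w‖) (gam ι) :=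
    integrable_gam_of_le continuous_norm (C := 1) (K := 1) fun w => by
      rw [norm_norm, one_mul, one_mul]; linarith [add_one_le_exp ‖w‖]
  have hM0 : 0 ≤ M := (norm_nonneg _).trans (hM 0)
  refine ((integrable_const (|F 0| + M * ‖z‖)).add (hn.const_mul (M * |b|))).mono'
    (hF.continuous.comp (by fun_prop)).aestronglyMeasurable (ae_of_all _ fun w => ?_)
  simp only [Pi.add_apply, norm_eq_abs]
  refine (norm_le_lin hF hM _).trans ?_
  have := norm_add_le z (b • w)
  rw [norm_smul, norm_eq_abs] at this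
  nlinarith [mul_le_mul_of_nonneg_left this hM0]

omit [DecidableEq ι] in
/-- The average of a Lipschitz function is differentiable. -/
theorem hasFDerivAt_mv (hF : ContDiff ℝ 1 F) (hM : ∀ y, ‖fderiv ℝ F y‖ ≤ M) (ρ : ℝ) (x : Eu ι) :
    HasFDerivAt (mv ρ F) (∫ w, ρ • fderiv ℝ F (ρ • x + √(1 - ρ ^ 2) • w) ∂gam ι) x ∧
      Integrable (fun w => ρ • fderiv ℝ F (ρ • x + √(1 - ρ ^ 2) • w)) (gam ι) := by
  set b := √(1 - ρ ^ 2)
  have hd : ∀ (z w : Eu ι), HasFDerivAt (fun z => F (ρ • z + b • w))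
      (ρ • fderiv ℝ F (ρ • z + b • w)) z := fun z w => by
    have h1 : HasFDerivAt (fun z : Eu ι => ρ • z + b • w) (ρ • ContinuousLinearMap.id ℝ (Eu ι)) z :=
      ((hasFDerivAt_id z).const_smul ρ).add_const _
    refine ((hF.differentiable one_ne_zero _).hasFDerivAt.comp z h1).congr_fderiv ?_
    ext v; simp
  have hl : Continuous fun w : Eu ι => ρ • x + b • w := by fun_prop
  have hc : Continuous fun w => ρ • fderiv ℝ F (ρ • x + b • w) :=
    ((hF.continuous_fderiv one_ne_zero).comp hl).const_smul ρ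
  have hb : ∀ z w : Eu ι, ‖ρ • fderiv ℝ F (ρ • z + b • w)‖ ≤ |ρ| * M := fun z w => by
    rw [norm_smul, norm_eq_abs]; exact mul_le_mul_of_nonneg_left (hM _) (abs_nonneg _)
  have hm : ∀ z : Eu ι, AEStronglyMeasurable (fun w => F (ρ • z + b • w)) (gam ι) := fun z => by
    have hz : Continuous fun w : Eu ι => ρ • z + b • w := by fun_prop
    exact (hF.continuous.comp hz).aestronglyMeasurable
  refine ⟨?_, (integrable_const (|ρ| * M)).mono' hc.aestronglyMeasurable (ae_of_all _ (hb x))⟩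
  have e : mv ρ F = fun z => ∫ w, F (ρ • z + b • w) ∂gam ι := funext fun z => mv_apply ρ F z
  rw [e]
  exact hasFDerivAt_integral_of_dominated_of_fderiv_le (s := Metric.ball x 1)
    (F' := fun z w => ρ • fderiv ℝ F (ρ • z + b • w)) (bound := fun _ => |ρ| * M)
    (Metric.ball_mem_nhds _ one_pos) (Filter.Eventually.of_forall hm)
    (integrable_shift_lip hF hM _ _) hc.aestronglyMeasurable
    (ae_of_all _ fun w z _ => hb z w) (integrable_const _) (ae_of_all _ fun w z _ => hd z w)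

theorem pd_mv (hF : ContDiff ℝ 1 F) (hM : ∀ y, ‖fderiv ℝ F y‖ ≤ M) (ρ : ℝ) (k : ι) :
    pd k (mv ρ F) = fun x => ρ * mv ρ (pd k F) x := by
  funext x
  obtain ⟨h, hi⟩ := hasFDerivAt_mv hF hM ρ x
  unfold pd
  rw [h.fderiv, ContinuousLinearMap.integral_apply hi]
  simp only [smul_apply, smul_eq_mul, integral_const_mul, mv_apply]

omit [DecidableEq ι] in
lemma differentiable_mv (hF : ContDiff ℝ 1 F) (hM : ∀ y, ‖fderiv ℝ F y‖ ≤ M) (ρ : ℝ) :
    Differentiable ℝ (mv ρ F) := fun x => (hasFDerivAt_mv hF hM ρ x).1.differentiableAt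

lemma abs_pd_le (hM : ∀ y, ‖fderiv ℝ F y‖ ≤ M) (k : ι) (y : Eu ι) : |pd k F y| ≤ M := by
  have h := (fderiv ℝ F y).le_opNorm (ei k)
  have e : ‖ei k‖ = (1 : ℝ) := by simp [ei]
  rw [e, mul_one, norm_eq_abs] at h
  exact h.trans (hM y)

lemma continuous_pd (hF : ContDiff ℝ 1 F) (k : ι) : Continuous (pd k F) :=
  (hF.continuous_fderiv one_ne_zero).clm_apply continuous_const

theorem tg_mv (hF : ContDiff ℝ 1 F) (hM : ∀ y, ‖fderiv ℝ F y‖ ≤ M) {ρ : ℝ} (hρ : ρ ^ 2 < 1) :
    (mv ρ F).HasTemperateGrowth := by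
  have hb : √(1 - ρ ^ 2) ≠ 0 := (sqrt_pos.2 (by linarith)).ne'
  set L : ι → ℝ →L[ℝ] Eu ι →L[ℝ] ℝ := fun k =>
    ρ • ContinuousLinearMap.toSpanSingleton ℝ (EuclideanSpace.proj (𝕜 := ℝ) k)
  have e : fderiv ℝ (mv ρ F) = fun x => ∑ k, L k (mv ρ (pd k F) x) := by
    funext x
    refine ContinuousLinearMap.coe_injective ((EuclideanSpace.basisFun ι ℝ).toBasis.ext fun k => ?_)
    have := congrFun (pd_mv hF hM ρ k) x
    simp [pd, ei] at this
    simp [L, EuclideanSpace.basisFun_apply, this]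
  have hd : (fderiv ℝ (mv ρ F)).HasTemperateGrowth := by
    rw [e]
    exact .sum fun k _ =>
      (L k).hasTemperateGrowth.comp (tg_smo (continuous_pd hF k) (abs_pd_le hM k) hb tg_one)
  have hM0 : 0 ≤ M := (norm_nonneg _).trans (hM 0)
  have hD : ∀ x, ‖fderiv ℝ (mv ρ F) x‖ ≤ ∑ k, ‖L k‖ * M := fun x => by
    rw [e]
    refine (norm_sum_le _ _).trans (sum_le_sum fun k _ => ((L k).le_opNorm _).trans ?_)
    exact mul_le_mul_of_nonneg_left (abs_mv_le (continuous_pd hF k) (abs_pd_le hM k) ρ x)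
      (norm_nonneg _)
  refine hd.of_fderiv (differentiable_mv hF hM ρ) (k := 1)
    (C := |mv ρ F 0| + ∑ k, ‖L k‖ * M) fun x => ?_
  have h := convex_univ.norm_image_sub_le_of_norm_fderiv_le
    (fun z _ => differentiable_mv hF hM ρ z) (fun z _ => hD z)
    (Set.mem_univ (0 : Eu ι)) (Set.mem_univ x)
  rw [sub_zero, norm_eq_abs] at h
  rw [norm_eq_abs, pow_one]
  have hS : 0 ≤ ∑ k, ‖L k‖ * M := sum_nonneg fun k _ => by positivity
  nlinarith [abs_sub_abs_le_abs_sub (mv ρ F x) (mv ρ F 0), abs_nonneg (mv ρ F 0), norm_nonneg x]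

omit [DecidableEq ι] in
theorem integral_mv_lip (hF : ContDiff ℝ 1 F) (hM : ∀ y, ‖fderiv ℝ F y‖ ≤ M) {ρ : ℝ}
    (hρ : ρ ^ 2 ≤ 1) : ∫ x, mv ρ F x ∂gam ι = ∫ x, F x ∂gam ι := by
  have hM0 : 0 ≤ M := (norm_nonneg _).trans (hM 0)
  have hn : Integrable (fun w : Eu ι => ‖w‖) (gam ι) :=
    integrable_gam_of_le continuous_norm (C := 1) (K := 1) fun w => by
      rw [norm_norm, one_mul, one_mul]; linarith [add_one_le_exp ‖w‖]
  have hi : Integrable (fun p : Eu ι × Eu ι => F (ρ • p.1 + √(1 - ρ ^ 2) • p.2))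
      ((gam ι).prod (gam ι)) := by
    refine (((integrable_const |F 0|).add ((hn.comp_fst (gam ι)).const_mul (M * |ρ|))).add
      ((hn.comp_snd (gam ι)).const_mul (M * |√(1 - ρ ^ 2)|))).mono'
      (hF.continuous.comp (by fun_prop)).aestronglyMeasurable (ae_of_all _ fun p => ?_)
    simp only [Pi.add_apply, norm_eq_abs]
    refine (norm_le_lin hF hM _).trans ?_
    have := norm_add_le (ρ • p.1) (√(1 - ρ ^ 2) • p.2)
    rw [norm_smul, norm_smul, norm_eq_abs, norm_eq_abs] at this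
    nlinarith [mul_le_mul_of_nonneg_left this hM0]
  simp only [mv_apply]
  rw [← integral_prod _ hi, ← integral_map (φ := fun p : Eu ι × Eu ι => ρ • p.1 + √(1 - ρ ^ 2) • p.2)
    (by fun_prop) hF.continuous.aestronglyMeasurable, gauss_combine, sq_sum_sqrt hρ]
  simp

end Lipschitz

section Main

variable {μ : Type} [Fintype μ]

omit [DecidableEq ι] in
lemma tg_comb (c : μ → ℝ) {f : μ → Eu ι → ℝ} (hf : ∀ m, (f m).HasTemperateGrowth) :
    (fun x => ∑ m, c m * f m x).HasTemperateGrowth :=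
  .sum fun m _ => (Function.HasTemperateGrowth.const (c m)).fun_mul (hf m)

lemma pdi_comb : ∀ (i : ℕ) (α : Fin i → ι) (c : μ → ℝ) {f : μ → Eu ι → ℝ},
    (∀ m, (f m).HasTemperateGrowth) →
      pdi i α (fun x => ∑ m, c m * f m x) = fun x => ∑ m, c m * pdi i α (f m) x
  | 0, _, _, _, _ => rfl
  | i + 1, α, c, f, hf => by
    funext x
    simp only [pdi, pdi_comb i _ c hf]
    have hd : ∀ m, DifferentiableAt ℝ (pdi i (fun l => α l.succ) (f m)) x := fun m =>
      tg_differentiable (tg_pdi i _ (hf m)) x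
    simp only [pd]
    rw [fderiv_fun_sum fun m _ => (hd m).const_mul _]
    simp [fderiv_const_mul (hd _)]

lemma pdi_const_mul (i : ℕ) (α : Fin i → ι) (a : ℝ) {f : Eu ι → ℝ} (hf : f.HasTemperateGrowth) :
    pdi i α (fun x => a * f x) = fun x => a * pdi i α f x := by
  simpa using pdi_comb (μ := Unit) i α (fun _ => a) (f := fun _ => f) fun _ => hf

lemma dsq_const_mul : ∀ (j : ℕ) (a : ℝ) {f : Eu ι → ℝ}, f.HasTemperateGrowth →
    dsq j (fun x => a * f x) = a ^ 2 * dsq j f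
  | 0, a, f, _ => by simp [dsq, mul_pow, integral_const_mul]
  | j + 1, a, f, hf => by
    simp only [dsq, mul_sum]
    refine sum_congr rfl fun k _ => ?_
    rw [← dsq_const_mul j a (tg_pd k hf)]
    congr 1
    funext x
    simp [pd, fderiv_const_mul (tg_differentiable hf x)]

lemma Dn_const_mul (j : ℕ) (a : ℝ) {f : κ → Eu ι → ℝ} (hf : ∀ r, (f r).HasTemperateGrowth) :
    Dn j (fun r x => a * f r x) = |a| * Dn j f := by
  simp only [Dn, DS, dsq_const_mul j a (hf _), ← mul_sum]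
  rw [sqrt_mul (sq_nonneg a), sqrt_sq_eq_abs]

omit [Fintype μ] in
lemma Dn_comb_le (j : ℕ) (c : μ → ℝ) {f : μ → κ → Eu ι → ℝ}
    (hf : ∀ m r, (f m r).HasTemperateGrowth) (s : Finset μ) :
    Dn j (fun r x => ∑ m ∈ s, c m * f m r x) ≤ ∑ m ∈ s, |c m| * Dn j (f m) := by
  classical
  induction s using Finset.induction_on with
  | empty => simp [Dn, DS, dsq_zero_fun]
  | insert a s ha ih =>
    simp only [sum_insert ha]
    refine (Dn_add_le j (fun r => (Function.HasTemperateGrowth.const (c a)).fun_mul (hf a r))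
      fun r => .sum fun m _ => (Function.HasTemperateGrowth.const (c m)).fun_mul (hf m r)).trans
      (add_le_add (Dn_const_mul j (c a) (hf a)).le ih)

/-- A linear functional. -/
noncomputable def linf (a : ι → ℝ) : Eu ι → ℝ := fun x => ∑ k, a k * x k

omit [DecidableEq ι] in
lemma tg_linf (a : ι → ℝ) : (linf a).HasTemperateGrowth := tg_comb a tg_coord

lemma pd_linf (a : ι → ℝ) (k : ι) : pd k (linf a) = fun _ => a k := by
  have h := pdi_comb (μ := ι) 1 (fun _ => k) a tg_coord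
  funext x
  unfold linf
  simpa [pdi, pd_coord] using congrFun h x

lemma pdi_succ' (i : ℕ) (α : Fin (i + 1) → ι) {f : Eu ι → ℝ} (hf : f.HasTemperateGrowth) :
    pdi (i + 1) α f = pdi i (fun l => α l.succ) (pd (α 0) f) := pdi_pd i _ hf (α 0)

lemma pdi_const : ∀ (i : ℕ) (α : Fin i → ι) (a : ℝ),
    pdi i α (fun _ : Eu ι => a) = fun _ => if i = 0 then a else 0
  | 0, _, _ => by simp [pdi]
  | i + 1, α, a => by simp [pdi, pdi_const i, pd_const]

variable {F : κ → Eu ι → ℝ} {B : ℝ}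

lemma norm_fderiv_le_of_sum (hB : ∀ y, ∑ r, ∑ k, pd k (F r) y ^ 2 ≤ B) (r : κ) (y : Eu ι) :
    ‖fderiv ℝ (F r) y‖ ≤ √B := by
  refine le_sqrt_of_sq_le ?_
  rw [norm_sq_fderiv]
  exact (single_le_sum (f := fun r => ∑ k, pd k (F r) y ^ 2)
    (fun _ _ => sum_nonneg fun _ _ => sq_nonneg _) (mem_univ r)).trans (hB y)

/-- **Extraction of the linear chaos**: a combination of Mehler averages reproducing `lam * ρ` up
to degree `R + 2` is `lam` times the linear chaos, up to `∑ |c| (2 |ρ|) ^ (R + 2)`. -/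
theorem extract_scalar {c ρ : μ → ℝ} {lam : ℝ} (hρ : ∀ m, |ρ m| ≤ 1 / 2) (R : ℕ)
    (hc : ∀ k < R + 2, ∑ m, c m * ρ m ^ k = if k = 1 then lam else 0)
    (hF : ∀ r, ContDiff ℝ 1 (F r)) (hB : ∀ y, ∑ r, ∑ k, pd k (F r) y ^ 2 ≤ B) :
    (∀ r, (fun x => ∑ m, c m * mv (ρ m) (F r) x -
        lam * linf (fun k => ∫ y, pd k (F r) y ∂gam ι) x).HasTemperateGrowth) ∧
    ∑ r, ∫ x, (∑ m, c m * mv (ρ m) (F r) x -
        lam * linf (fun k => ∫ y, pd k (F r) y ∂gam ι) x) ^ 2 ∂gam ι ≤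
      (∑ m, |c m| * (2 * |ρ m|) ^ (R + 2)) ^ 2 * ((R + 1).factorial * B) := by
  have hB0 : 0 ≤ B := (sum_nonneg fun _ _ => sum_nonneg fun _ _ => sq_nonneg _).trans (hB 0)
  have hM := norm_fderiv_le_of_sum hB
  have hp : ∀ r k y, |pd k (F r) y| ≤ √B := fun r k y => abs_pd_le (hM r) k y
  have hcp : ∀ r k, Continuous (pd k (F r)) := fun r k => continuous_pd (hF r) k
  have h1 : ∀ m, ρ m ^ 2 < 1 := fun m => by
    nlinarith [sq_abs (ρ m), hρ m, abs_nonneg (ρ m)]
  set a : κ → ι → ℝ := fun r k => ∫ y, pd k (F r) y ∂gam ι with ha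
  set f : Option μ → κ → Eu ι → ℝ := fun o r =>
    o.elim (linf (a r)) fun m => mv (ρ m) (F r)
  set c' : Option μ → ℝ := fun o => o.elim (-lam) c
  have hf : ∀ o r, (f o r).HasTemperateGrowth := by
    rintro (_ | m) r
    exacts [tg_linf _, tg_mv (hF r) (hM r) (h1 m)]
  have e : ∀ r, (fun x => ∑ m, c m * mv (ρ m) (F r) x - lam * linf (a r) x) =
      fun x => ∑ o, c' o * f o r x := fun r => funext fun x => by
    simp [Fintype.sum_option, f, c', sub_eq_add_neg, add_comm]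
  have he : ∀ r, (fun x => ∑ o, c' o * f o r x).HasTemperateGrowth := fun r =>
    tg_comb c' fun o => hf o r
  refine ⟨fun r => by rw [e r]; exact he r, ?_⟩
  have hsm : ∀ m r k, (mv (ρ m) (pd k (F r))).HasTemperateGrowth := fun m r k =>
    tg_smo (hcp r k) (hp r k) (sqrt_pos.2 (by linarith [h1 m])).ne' tg_one
  have hzero : ∀ r, ∀ i < R + 2, ∀ α : Fin i → ι,
      ∫ x, pdi i α (fun x => ∑ o, c' o * f o r x) x ∂gam ι = 0 := by
    intro r i hi α
    rw [pdi_comb i α c' fun o => hf o r, integral_finsetSum _ fun o _ =>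
      (tg_integrable (tg_pdi i α (hf o r))).const_mul _, Fintype.sum_option]
    simp only [integral_const_mul, f, c', Option.elim_none, Option.elim_some]
    rcases i with _ | i
    · have hl : ∫ x, linf (a r) x ∂gam ι = 0 := by
        have h0 : ∀ k, ∫ x : Eu ι, x k ∂gam ι = 0 := fun k => by
          have := integral_pd (Function.HasTemperateGrowth.const (1 : ℝ) :
            (fun _ : Eu ι => (1 : ℝ)).HasTemperateGrowth) k
          simpa [pd_const] using this.symm
        simp only [linf]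
        rw [integral_finsetSum _ fun k _ => (tg_integrable (tg_coord k)).const_mul _]
        simp [integral_const_mul, h0]
      simp only [pdi, hl, integral_mv_lip (hF r) (hM r) (h1 _).le, ← sum_mul]
      have := hc 0 (by omega)
      simp only [pow_zero, mul_one] at this
      simp [this]
    · set b := α 0
      set β : Fin i → ι := fun l => α l.succ
      set A := ∫ x, pdi i β (mv (3 / 4) (pd b (F r))) x ∂gam ι
      have eT : ∀ m, ∫ x, pdi (i + 1) α (mv (ρ m) (F r)) x ∂gam ι =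
          ρ m ^ (i + 1) * ((4 / 3) ^ i * A) := fun m => by
        rw [pdi_succ' i α (tg_mv (hF r) (hM r) (h1 m)), pd_mv (hF r) (hM r),
          pdi_const_mul i _ _ (hsm m r b), integral_const_mul,
          integral_pdi_mv (hcp r b) (hp r b) (hρ m)]
        ring
      have hcs : ∑ m, c m * ∫ x, pdi (i + 1) α (mv (ρ m) (F r)) x ∂gam ι =
          (if i + 1 = 1 then lam else 0) * ((4 / 3) ^ i * A) := by
        rw [← hc (i + 1) hi, sum_mul]
        exact sum_congr rfl fun m _ => by rw [eT, mul_assoc]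
      rw [hcs, pdi_succ' i α (tg_linf _), pd_linf, pdi_const]
      rcases i with _ | i
      · have hA : A = a r b := integral_mv (hcp r b) (hp r b) (by norm_num)
        simp [hA]
        ring
      · simp
  have hlin : Dn (R + 2) (fun r => linf (a r)) = 0 := by
    simp [Dn, DS, dsq, pd_linf, pd_const, dsq_zero_fun]
  have hT : ∀ m, Dn (R + 2) (fun r => mv (ρ m) (F r)) ≤
      (2 * |ρ m|) ^ (R + 2) * √((R + 1).factorial * B) := by
    intro m
    set b := √(1 - ρ m ^ 2)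
    have hb : 0 < b := sqrt_pos.2 (by linarith [h1 m])
    have hbb : 1 / 2 ≤ b := le_sqrt_of_sq_le (by nlinarith [sq_abs (ρ m), hρ m, abs_nonneg (ρ m)])
    have hs := (DS_smo_le (a := ρ m) (κ := ι × κ) hb.ne' (h := fun p => pd p.1 (F p.2))
      (fun p => hcp p.2 p.1) (B := B) (fun y => by
        rw [Fintype.sum_prod_type, sum_comm]; exact hB y) (R + 1)).2.2
    rw [Dn, DS_succ]
    simp only [pd_mv (hF _) (hM _)]
    have e2 : DS (R + 1) (fun p : ι × κ => fun x => ρ m * mv (ρ m) (pd p.1 (F p.2)) x) =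
        ρ m ^ 2 * DS (R + 1) fun p : ι × κ => mv (ρ m) (pd p.1 (F p.2)) := by
      simp only [DS, mul_sum]
      exact sum_congr rfl fun p _ => dsq_const_mul _ _ (hsm m p.2 p.1)
    rw [e2, sqrt_le_iff]
    refine ⟨by positivity, (mul_le_mul_of_nonneg_left hs (sq_nonneg _)).trans ?_⟩
    rw [mul_pow _ (√_), sq_sqrt (by positivity)]
    have h2 : (ρ m / b) ^ 2 ≤ (2 * |ρ m|) ^ 2 := by
      rw [div_pow, div_le_iff₀ (by positivity), mul_pow, sq_abs]
      have hb2 : 1 / 4 ≤ b ^ 2 := by nlinarith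
      nlinarith [mul_le_mul_of_nonneg_left hb2 (sq_nonneg (ρ m))]
    have h3 : ρ m ^ 2 * ((ρ m / b) ^ (R + 1)) ^ 2 ≤ ((2 * |ρ m|) ^ (R + 2)) ^ 2 := by
      rw [← pow_mul, ← pow_mul, mul_comm (R + 1), mul_comm (R + 2), pow_mul, pow_mul,
        pow_succ' _ (R + 1)]
      refine mul_le_mul ?_ (pow_le_pow_left₀ (sq_nonneg _) h2 _) (by positivity) (sq_nonneg _)
      rw [mul_pow, sq_abs]
      nlinarith [sq_nonneg (ρ m)]
    calc ρ m ^ 2 * (((ρ m / b) ^ (R + 1)) ^ 2 * (R + 1).factorial * B)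
        = (ρ m ^ 2 * ((ρ m / b) ^ (R + 1)) ^ 2) * ((R + 1).factorial * B) := by ring
      _ ≤ _ := mul_le_mul_of_nonneg_right h3 (by positivity)
  set K := ∑ m, |c m| * (2 * |ρ m|) ^ (R + 2)
  have hK : Dn (R + 2) (fun r x => ∑ o, c' o * f o r x) ≤ K * √((R + 1).factorial * B) := by
    refine (Dn_comb_le (R + 2) c' hf univ).trans ?_
    rw [Fintype.sum_option, show Dn (R + 2) (f none) = 0 from hlin, mul_zero, zero_add,
      sum_mul]
    exact sum_le_sum fun m _ => by
      rw [mul_assoc]; exact mul_le_mul_of_nonneg_left (hT m) (abs_nonneg _)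
  calc ∑ r, ∫ x, (∑ m, c m * mv (ρ m) (F r) x - lam * linf (a r) x) ^ 2 ∂gam ι
      = ∑ r, dsq 0 (fun x => ∑ o, c' o * f o r x) := sum_congr rfl fun r _ => by
        rw [← e r, dsq]
    _ ≤ DS (R + 2) fun r x => ∑ o, c' o * f o r x :=
        sum_le_sum fun r _ => dsq_zero_le_iter (R + 2) (he r) (hzero r)
    _ ≤ _ := by
        rw [← Dn_sq]
        refine (pow_le_pow_left₀ (Dn_nonneg _ _) hK 2).trans_eq ?_
        rw [mul_pow, sq_sqrt (by positivity)]

/-- The Mehler average of a field. -/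
noncomputable def mvec {E : Type*} [NormedAddCommGroup E] [NormedSpace ℝ E] (ρ : ℝ)
    (G : Eu ι → E) (x : Eu ι) : E :=
  ∫ w, G (ρ • x + √(1 - ρ ^ 2) • w) ∂gam ι

/-- **Extraction for a field**: the error against `lam` times the linear chaos `∫ DG`. -/
theorem extract {G : Eu ι → Eu κ} (hG : ContDiff ℝ 1 G) {B : ℝ}
    (hB : ∀ y, ∑ k, ‖fderiv ℝ G y (ei k)‖ ^ 2 ≤ B) {c ρ : μ → ℝ} {lam : ℝ}
    (hρ : ∀ m, |ρ m| ≤ 1 / 2) (R : ℕ)
    (hc : ∀ k < R + 2, ∑ m, c m * ρ m ^ k = if k = 1 then lam else 0) :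
    Integrable (fun x => ‖∑ m, c m • mvec (ρ m) G x -
        lam • (∫ y, fderiv ℝ G y ∂gam ι) x‖ ^ 2) (gam ι) ∧
    ∫ x, ‖∑ m, c m • mvec (ρ m) G x - lam • (∫ y, fderiv ℝ G y ∂gam ι) x‖ ^ 2 ∂gam ι ≤
      (∑ m, |c m| * (2 * |ρ m|) ^ (R + 2)) ^ 2 * ((R + 1).factorial * B) := by
  set F : κ → Eu ι → ℝ := fun r y => G y r
  have hF : ∀ r, ContDiff ℝ 1 (F r) := fun r =>
    (EuclideanSpace.proj (𝕜 := ℝ) r).contDiff.comp hG
  have hd : ∀ r y, fderiv ℝ (F r) y = (EuclideanSpace.proj (𝕜 := ℝ) r).comp (fderiv ℝ G y) :=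
    fun r y => ((EuclideanSpace.proj (𝕜 := ℝ) r).hasFDerivAt.comp y
      (hG.differentiable one_ne_zero y).hasFDerivAt).fderiv
  have hBF : ∀ y, ∑ r, ∑ k, pd k (F r) y ^ 2 ≤ B := fun y => by
    rw [sum_comm]
    refine le_of_eq_of_le (sum_congr rfl fun k _ => ?_) (hB y)
    simp [pd, hd, EuclideanSpace.norm_sq_eq]
  have hB0 : 0 ≤ B := (sum_nonneg fun _ _ => sq_nonneg _).trans (hB 0)
  have hnG : ∀ y, ‖fderiv ℝ G y‖ ≤ √B := fun y => by
    refine ContinuousLinearMap.opNorm_le_bound _ (sqrt_nonneg _) fun v => ?_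
    rw [← pow_le_pow_iff_left₀ (norm_nonneg _) (by positivity) two_ne_zero, mul_pow,
      sq_sqrt hB0, EuclideanSpace.norm_sq_eq]
    calc ∑ r, ‖fderiv ℝ G y v r‖ ^ 2 ≤ ∑ r, ‖fderiv ℝ (F r) y‖ ^ 2 * ‖v‖ ^ 2 := by
          refine sum_le_sum fun r _ => ?_
          rw [← mul_pow]
          refine pow_le_pow_left₀ (norm_nonneg _) (le_of_eq_of_le ?_
            ((fderiv ℝ (F r) y).le_opNorm v)) 2
          simp [hd]
      _ ≤ B * ‖v‖ ^ 2 := by
          rw [← sum_mul]
          refine mul_le_mul_of_nonneg_right ?_ (sq_nonneg _)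
          simp only [norm_sq_fderiv]
          exact hBF y
  have hiG : Integrable (fun y => fderiv ℝ G y) (gam ι) :=
    (integrable_const √B).mono' (hG.continuous_fderiv one_ne_zero).aestronglyMeasurable
      (ae_of_all _ hnG)
  have hiv : ∀ z b, Integrable (fun w => G (z + b • w)) (gam ι) := fun z b =>
    Integrable.of_eval_piLp fun r => integrable_shift_lip (hF r) (norm_fderiv_le_of_sum hBF r) z b
  have hmv : ∀ m r x, mvec (ρ m) G x r = mv (ρ m) (F r) x := fun m r x => by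
    rw [mv_apply, mvec]
    exact ((EuclideanSpace.proj (𝕜 := ℝ) r).integral_comp_comm (hiv _ _)).symm
  have hL : ∀ r x, (∫ y, fderiv ℝ G y ∂gam ι) x r =
      linf (fun k => ∫ y, pd k (F r) y ∂gam ι) x := fun r x => by
    have e1 : ∀ k, ∫ y, pd k (F r) y ∂gam ι = (∫ y, fderiv ℝ G y ∂gam ι) (ei k) r := fun k => by
      have h2 := (EuclideanSpace.proj (𝕜 := ℝ) r).integral_comp_comm
        (hiG.apply_continuousLinearMap (ei k))
      rw [ContinuousLinearMap.integral_apply hiG]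
      simpa [pd, hd] using h2
    have hx : x = ∑ k, x k • ei k := by
      conv_lhs => rw [← (EuclideanSpace.basisFun ι ℝ).sum_repr x]
      simp [ei]
    conv_lhs => rw [hx]
    simp [linf, e1, mul_comm]
  obtain ⟨ht, hE⟩ := extract_scalar hρ R hc hF hBF
  have en : ∀ x, ‖∑ m, c m • mvec (ρ m) G x - lam • (∫ y, fderiv ℝ G y ∂gam ι) x‖ ^ 2 =
      ∑ r, (∑ m, c m * mv (ρ m) (F r) x -
        lam * linf (fun k => ∫ y, pd k (F r) y ∂gam ι) x) ^ 2 := fun x => by
    simp [EuclideanSpace.norm_sq_eq, hmv, hL]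
  have hi := fun r => tg_integrable ((ht r).fun_pow 2)
  simp only [en]
  rw [integral_finsetSum _ fun r _ => hi r]
  exact ⟨integrable_finsetSum _ fun r _ => hi r, hE⟩

end Main

section Node

variable {d : ℕ} {W : Sp d → ℝ} {G : Sp d → Sp d} {H : Sp d → Sp d →L[ℝ] Sp d} {η : ℝ}
  {μ : Type} [Fintype μ]

/-- **The surrogate of a node**: for `y ↦ G (p + σ y)` the linear chaos is `σ E H (p + σ Z)`, and
the error is the Bessel bound with `B = η² σ² d`. -/
theorem extract_node (hW : IsPot W G H 0 η) (hη : 0 ≤ η) (p : Sp d) (σ : ℝ) {c ρ : μ → ℝ}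
    {lam : ℝ} (hρ : ∀ m, |ρ m| ≤ 1 / 2) (R : ℕ)
    (hc : ∀ k < R + 2, ∑ m, c m * ρ m ^ k = if k = 1 then lam else 0) :
    Integrable (fun x => ‖∑ m, c m • mvec (ρ m) (fun y => G (p + σ • y)) x -
        (lam * σ) • (∫ y, H (p + σ • y) ∂gd d) x‖ ^ 2) (gd d) ∧
    ∫ x, ‖∑ m, c m • mvec (ρ m) (fun y => G (p + σ • y)) x -
        (lam * σ) • (∫ y, H (p + σ • y) ∂gd d) x‖ ^ 2 ∂gd d ≤
      (∑ m, |c m| * (2 * |ρ m|) ^ (R + 2)) ^ 2 * ((R + 1).factorial * ((η * σ) ^ 2 * d)) := by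
  have hd : ∀ y, HasFDerivAt (fun y => G (p + σ • y)) (σ • H (p + σ • y)) y := fun y => by
    have h1 : HasFDerivAt (fun y : Sp d => p + σ • y) (σ • ContinuousLinearMap.id ℝ (Sp d)) y :=
      ((hasFDerivAt_id y).const_smul σ).const_add p
    refine ((hW.hasHess _).comp y h1).congr_fderiv ?_
    ext v; simp
  have hG : ContDiff ℝ 1 fun y => G (p + σ • y) := hW.contDiff_grad.comp (by fun_prop)
  have hB : ∀ y, ∑ k, ‖fderiv ℝ (fun y => G (p + σ • y)) y (ei k)‖ ^ 2 ≤ (η * σ) ^ 2 * d := by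
    intro y
    refine (sum_le_sum (g := fun _ => (η * σ) ^ 2) fun k _ => ?_).trans_eq (by simp; ring)
    rw [(hd y).fderiv, smul_apply, norm_smul, mul_pow, norm_eq_abs, sq_abs, mul_pow η σ,
      mul_comm (η ^ 2)]
    refine mul_le_mul_of_nonneg_left (pow_le_pow_left₀ (norm_nonneg _) ?_ 2) (sq_nonneg σ)
    refine ((H _).le_opNorm _).trans ?_
    simpa [ei] using hW.norm_hess hη (p + σ • y)
  have h := extract hG hB hρ R hc
  have e : ∫ y, fderiv ℝ (fun y => G (p + σ • y)) y ∂gd d = σ • ∫ y, H (p + σ • y) ∂gd d := by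
    simp only [fun y => (hd y).fderiv, integral_smul]
  simpa only [gd, e, smul_apply, smul_smul] using h

/-- The surrogate of a node is Lipschitz in its centre and its argument. -/
theorem mvec_node_lip (hW : IsPot W G H 0 η) (hη : 0 ≤ η) (σ ρ : ℝ) (p p' x x' : Sp d) :
    ‖mvec ρ (fun y => G (p + σ • y)) x - mvec ρ (fun y => G (p' + σ • y)) x'‖ ≤
      η * (‖p - p'‖ + |σ * ρ| * ‖x - x'‖) := by
  have e : ∀ q z : Sp d, (fun w => G (q + σ • (ρ • z + √(1 - ρ ^ 2) • w))) =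
      fun w => G ((1 : ℝ) • (q + (σ * ρ) • z) + (σ * √(1 - ρ ^ 2)) • w) := fun q z => by
    funext w
    simp [smul_add, smul_smul, add_assoc]
  have hi : ∀ q z : Sp d, Integrable (fun w => G (q + σ • (ρ • z + √(1 - ρ ^ 2) • w))) (gd d) :=
    fun q z => by rw [e]; exact integrable_grad_comp hW hη _ _ _
  simp only [mvec]
  rw [← integral_sub (hi p x) (hi p' x')]
  refine (norm_integral_le_integral_norm _).trans ?_
  refine (integral_mono ((hi p x).sub (hi p' x')).norm (integrable_const _) fun w => ?_).trans_eq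
    (by simp : ∫ _w, η * (‖p - p'‖ + |σ * ρ| * ‖x - x'‖) ∂gd d = _)
  refine (hW.norm_grad_sub hη _ _).trans (mul_le_mul_of_nonneg_left ?_ hη)
  have : p + σ • (ρ • x + √(1 - ρ ^ 2) • w) - (p' + σ • (ρ • x' + √(1 - ρ ^ 2) • w)) =
      (p - p') + (σ * ρ) • (x - x') := by
    simp only [smul_add, smul_sub, smul_smul]; abel
  rw [this]
  refine (norm_add_le _ _).trans ?_
  rw [norm_smul, norm_eq_abs]

end Node

section Weights

open Polynomial

/-- Weights: fixed coefficients on the nodes `lam * node`, with all the constants. -/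
theorem exists_extract_weights (R : ℕ) : ∃ (w : Fin (R + 2) → ℝ) (C : ℝ), 0 ≤ C ∧
    ∀ lam : ℝ, |lam| ≤ 1 / 2 →
      (∀ m, |lam * Quad.node (R + 2) m| ≤ 1 / 2) ∧
      (∀ k < R + 2, ∑ m, w m * (lam * Quad.node (R + 2) m) ^ k = if k = 1 then lam else 0) ∧
      ∑ m, |w m| * (2 * |lam * Quad.node (R + 2) m|) ^ (R + 2) ≤ C * |lam| ^ (R + 2) ∧
      ∑ m, |w m| * |lam * Quad.node (R + 2) m| ≤ C * |lam| := by
  set v := Quad.node (R + 2) with hv
  set w : Fin (R + 2) → ℝ := fun m => (derivative (Lagrange.basis univ v m)).eval 0 with hw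
  have hnode : ∀ m, |v m| ≤ 1 := fun m => by
    rw [hv, Quad.node, abs_of_nonneg (by positivity), div_le_one (by positivity)]
    exact_mod_cast m.isLt.le
  have hmom : ∀ k < R + 2, ∑ m, w m * v m ^ k = if k = 1 then 1 else 0 := by
    intro k hk
    have hP : (X ^ k : ℝ[X]) = Lagrange.interpolate univ v fun i => v i ^ k := by
      apply Lagrange.eq_interpolate_of_eval_eq _ (Quad.node_injOn (R + 2))
      · rw [degree_X_pow, card_univ, Fintype.card_fin]; exact_mod_cast hk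
      · intro i _; simp [hv]
    have h := congrArg (fun p : ℝ[X] => (derivative p).eval 0) hP
    simp only [Lagrange.interpolate_apply, map_sum, derivative_C_mul, eval_finsetSum, eval_mul,
      eval_C, derivative_X_pow, eval_pow, eval_X] at h
    rw [sum_congr rfl fun m _ => mul_comm (w m) (v m ^ k), hw, ← h]
    rcases k with _ | _ | k <;> simp
  refine ⟨w, (∑ m, |w m|) * 2 ^ (R + 2), by positivity, fun lam hl =>
    ⟨fun m => ?_, fun k hk => ?_, ?_, ?_⟩⟩
  · rw [abs_mul]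
    exact (mul_le_mul hl (hnode m) (abs_nonneg _) (by norm_num)).trans (by norm_num)
  · simp only [mul_pow, mul_left_comm (w _)]
    rw [← mul_sum, hmom k hk]
    rcases k with _ | _ | k <;> simp
  · rw [sum_mul, sum_mul]
    refine sum_le_sum fun m _ => ?_
    rw [mul_assoc, ← mul_pow]
    refine mul_le_mul_of_nonneg_left (pow_le_pow_left₀ (by positivity) ?_ _) (abs_nonneg _)
    rw [abs_mul, ← mul_assoc]
    exact mul_le_of_le_one_right (by positivity) (hnode m)
  · rw [sum_mul, sum_mul]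
    refine sum_le_sum fun m _ => ?_
    rw [mul_assoc]
    refine mul_le_mul_of_nonneg_left ?_ (abs_nonneg _)
    rw [abs_mul]
    exact (mul_le_of_le_one_right (abs_nonneg _) (hnode m)).trans
      (le_mul_of_one_le_left (abs_nonneg _) (one_le_pow₀ (by norm_num)))

end Weights

end Vale.Agent.P347.Shift
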