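import Vale.Agent.P347.Shift.Adj
import Vale.Agent.P347.Shift.Extract

/-!
# P347: the surrogate of a node for the rotation rule

For a field `V` with symmetric derivative at most `L`, the operator of the node at centre `e` is
`J = E DV (e + σ Z)`.  A fixed combination of nodes at the centres `e + σ ρ x`, with smoothing
`σ √(1 - ρ²)`, is close to `J x` in mean square and Lipschitz, with constants free of `d` and `σ`.
-/

open MeasureTheory ProbabilityTheory Real Finset
open ContinuousLinearMap (adjoint)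
open scoped RealInnerProductSpace ENNReal NNReal

namespace Vale.Agent.P347.Shift.Adj

open Vale.Agent.P347.Quarter

variable {d : ℕ} {V : Sp d → Sp d} {L : ℝ}

/-- The operator of a node. -/
noncomputable def nodeJ (V : Sp d → Sp d) (σ : ℝ) (e : Sp d) : Sp d →L[ℝ] Sp d :=
  ∫ w, fderiv ℝ V (e + σ • w) ∂gd d

section Field

variable (hV : ContDiff ℝ 1 V) (hb : ∀ x, ‖fderiv ℝ V x‖ ≤ L)

include hV hb

lemma norm_field_sub (x y : Sp d) : ‖V x - V y‖ ≤ L * ‖x - y‖ :=
  convex_univ.norm_image_sub_le_of_norm_fderiv_le (fun z _ => hV.differentiable one_ne_zero z)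
    (fun z _ => hb z) (Set.mem_univ y) (Set.mem_univ x)

lemma integrable_hess (σ : ℝ) (e : Sp d) :
    Integrable (fun w => fderiv ℝ V (e + σ • w)) (gd d) :=
  (integrable_const L).mono'
    ((hV.continuous_fderiv one_ne_zero).comp (by fun_prop)).aestronglyMeasurable
    (ae_of_all _ fun _ => hb _)

omit hV in
lemma norm_nodeJ_le (σ : ℝ) (e : Sp d) : ‖nodeJ V σ e‖ ≤ L :=
  (norm_integral_le_of_norm_le_const (ae_of_all _ fun _ => hb _)).trans_eq (by simp)

lemma adjoint_nodeJ (hs : ∀ x u v, ⟪fderiv ℝ V x u, v⟫ = ⟪u, fderiv ℝ V x v⟫) (σ : ℝ)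
    (e : Sp d) : adjoint (nodeJ V σ e) = nodeJ V σ e := by
  have hi := integrable_hess hV hb σ e
  refine ContinuousLinearMap.ext fun u => ext_inner_right ℝ fun v => ?_
  rw [ContinuousLinearMap.adjoint_inner_left, real_inner_comm _ (nodeJ V σ e u), nodeJ,
    ContinuousLinearMap.integral_apply hi, ContinuousLinearMap.integral_apply hi,
    ← integral_inner (hi.apply_continuousLinearMap v) u,
    ← integral_inner (hi.apply_continuousLinearMap u) v]
  refine integral_congr_ae (ae_of_all _ fun w => ?_)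
  simp only
  rw [← hs, real_inner_comm]

lemma integrable_shift (σ : ℝ) (e : Sp d) : Integrable (fun w => V (e + σ • w)) (gd d) := by
  refine ((integrable_const ‖V e‖).add (integrable_norm_gd.const_mul (L * |σ|))).mono'
    (hV.continuous.comp (by fun_prop)).aestronglyMeasurable (ae_of_all _ fun w => ?_)
  have h := norm_field_sub hV hb (e + σ • w) e
  rw [add_sub_cancel_left, norm_smul, norm_eq_abs] at h
  simp only [Pi.add_apply]
  nlinarith [norm_le_insert' (V (e + σ • w)) (V e)]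

lemma norm_smth_sub (σ : ℝ) (x y : Sp d) :
    ‖smth 1 σ V x - smth 1 σ V y‖ ≤ L * ‖x - y‖ := by
  simp only [smth, one_smul]
  rw [← integral_sub (integrable_shift hV hb σ x) (integrable_shift hV hb σ y)]
  refine (norm_integral_le_of_norm_le_const (ae_of_all _ fun w => ?_)).trans_eq
    (by simp : L * ‖x - y‖ * (gd d).real Set.univ = _)
  simpa using norm_field_sub hV hb (x + σ • w) (y + σ • w)

/-- The derivative of a node is its operator. -/
theorem hasFDerivAt_node (σ : ℝ) (e : Sp d) :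
    HasFDerivAt (smth 1 σ V) (nodeJ V σ e) e := by
  have hd : ∀ z w : Sp d, HasFDerivAt (fun z => V (z + σ • w)) (fderiv ℝ V (z + σ • w)) z :=
    fun z w => by
      have := (hV.differentiable one_ne_zero (z + σ • w)).hasFDerivAt.comp z
        ((hasFDerivAt_id z).add_const (σ • w))
      exact this.congr_fderiv (by ext u; simp)
  have e1 : smth 1 σ V = fun z => ∫ w, V (z + σ • w) ∂gd d := funext fun z => by simp [smth]
  rw [e1]
  exact hasFDerivAt_integral_of_dominated_of_fderiv_le (s := Metric.ball e 1)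
    (F' := fun z w => fderiv ℝ V (z + σ • w)) (bound := fun _ => L)
    (Metric.ball_mem_nhds _ one_pos)
    (Filter.Eventually.of_forall fun z => (integrable_shift hV hb σ z).aestronglyMeasurable)
    (integrable_shift hV hb σ e) (integrable_hess hV hb σ e).aestronglyMeasurable
    (ae_of_all _ fun w z _ => hb _) (integrable_const _) (ae_of_all _ fun w z _ => hd z w)

end Field

variable {μ : Type} [Fintype μ]

/-- The surrogate: nodes at the centres `e + σ ρ x`. -/
noncomputable def surr (V : Sp d → Sp d) (σ : ℝ) (c ρ : μ → ℝ) (lam : ℝ) (e x : Sp d) : Sp d :=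
  ∑ m, (c m / (lam * σ)) • smth 1 (σ * √(1 - ρ m ^ 2)) V (e + (σ * ρ m) • x)

variable (hV : ContDiff ℝ 1 V) (hb : ∀ x, ‖fderiv ℝ V x‖ ≤ L)

include hV hb

/-- The surrogate is Lipschitz in the centre and in the vector. -/
theorem norm_surr_sub {σ lam : ℝ} (hσ : 0 < σ) (c ρ : μ → ℝ) (e e' x x' : Sp d) :
    ‖surr V σ c ρ lam e x - surr V σ c ρ lam e' x'‖ ≤
      L * ((∑ m, |c m|) / |lam| / σ * ‖e - e'‖ +
        (∑ m, |c m| * |ρ m|) / |lam| * ‖x - x'‖) := by
  simp only [surr, ← Finset.sum_sub_distrib, ← smul_sub]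
  have h : ∀ m, ‖(c m / (lam * σ)) • (smth 1 (σ * √(1 - ρ m ^ 2)) V (e + (σ * ρ m) • x) -
      smth 1 (σ * √(1 - ρ m ^ 2)) V (e' + (σ * ρ m) • x'))‖ ≤
      L * (|c m| / |lam| / σ * ‖e - e'‖ + |c m| * |ρ m| / |lam| * ‖x - x'‖) := fun m => by
    have hL : 0 ≤ L := (norm_nonneg _).trans (hb 0)
    have he : ‖e + (σ * ρ m) • x - (e' + (σ * ρ m) • x')‖ ≤
        ‖e - e'‖ + σ * |ρ m| * ‖x - x'‖ := by
      rw [add_sub_add_comm, ← smul_sub]
      refine (norm_add_le _ _).trans_eq ?_
      rw [norm_smul, norm_eq_abs, abs_mul, abs_of_pos hσ]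
    rw [norm_smul, norm_eq_abs, abs_div, abs_mul, abs_of_pos hσ]
    refine (mul_le_mul_of_nonneg_left ((norm_smth_sub hV hb _ _ _).trans
      (mul_le_mul_of_nonneg_left he hL)) (by positivity)).trans_eq ?_
    rcases eq_or_ne lam 0 with rfl | hl
    · simp
    · field_simp
  refine (norm_sum_le _ _).trans ((Finset.sum_le_sum fun m _ => h m).trans_eq ?_)
  rw [← Finset.mul_sum, Finset.sum_add_distrib, ← Finset.sum_mul, ← Finset.sum_mul,
    Finset.sum_div, Finset.sum_div, Finset.sum_div]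

lemma continuous_surr {σ lam : ℝ} (c ρ : μ → ℝ) (e : Sp d) :
    Continuous (surr V σ c ρ lam e) := by
  have h : ∀ s, Continuous (smth 1 s V) := fun s =>
    (LipschitzWith.of_dist_le_mul (K := L.toNNReal) fun x y => by
      rw [dist_eq_norm, dist_eq_norm]
      exact (norm_smth_sub hV hb s x y).trans
        (mul_le_mul_of_nonneg_right (le_coe_toNNReal L) (norm_nonneg _))).continuous
  refine continuous_finsetSum (ι := μ) _ fun m _ => Continuous.const_smul ?_ (c m / (lam * σ))
  exact (h (σ * √(1 - ρ m ^ 2))).comp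
    (by fun_prop : Continuous fun x : Sp d => e + (σ * ρ m) • x)

/-- The surrogate is close to the operator of the node on standard vectors. -/
theorem eLpNorm_surr_sub {σ lam : ℝ} (hσ : 0 < σ) (hlam : lam ≠ 0) {c ρ : μ → ℝ}
    (hρ : ∀ m, |ρ m| ≤ 1 / 2) (R : ℕ)
    (hc : ∀ k < R + 2, ∑ m, c m * ρ m ^ k = if k = 1 then lam else 0) (e : Sp d) :
    eLpNorm (fun x => surr V σ c ρ lam e x - nodeJ V σ e x) 2 (gd d) ≤
      ENNReal.ofReal ((∑ m, |c m| * (2 * |ρ m|) ^ (R + 2)) / |lam| *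
        √((R + 1).factorial) * L * √d) := by
  set G : Sp d → Sp d := fun y => V (e + σ • y) with hG0
  have hG : ContDiff ℝ 1 G := hV.comp (by fun_prop)
  have hd : ∀ y, HasFDerivAt G (σ • fderiv ℝ V (e + σ • y)) y := fun y => by
    have h1 : HasFDerivAt (fun y : Sp d => e + σ • y) (σ • ContinuousLinearMap.id ℝ (Sp d)) y :=
      ((hasFDerivAt_id y).const_smul σ).const_add e
    refine ((hV.differentiable one_ne_zero _).hasFDerivAt.comp y h1).congr_fderiv ?_
    ext v; simp
  have hL : 0 ≤ L := (norm_nonneg _).trans (hb 0)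
  have hB : ∀ y, ∑ k, ‖fderiv ℝ G y (ei k)‖ ^ 2 ≤ (L * σ) ^ 2 * d := fun y => by
    refine (Finset.sum_le_card_nsmul _ _ ((L * σ) ^ 2) fun k _ => ?_).trans_eq (by simp; ring)
    refine pow_le_pow_left₀ (norm_nonneg _) ?_ 2
    rw [(hd y).fderiv, smul_apply, norm_smul, norm_eq_abs, abs_of_pos hσ, mul_comm]
    refine mul_le_mul_of_nonneg_right (((fderiv ℝ V _).le_opNorm _).trans ?_) hσ.le
    simpa [ei] using hb (e + σ • y)
  have hJ : (∫ y, fderiv ℝ G y ∂gd d) = σ • nodeJ V σ e := by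
    simp only [fun y => (hd y).fderiv, integral_smul, nodeJ]
  obtain ⟨hi, hE⟩ := extract hG hB hρ R hc
  simp only [gd] at hJ
  rw [hJ] at hi hE
  set f : Sp d → Sp d := fun x =>
    ∑ m, c m • mvec (ρ m) G x - lam • (σ • nodeJ V σ e) x
  have ef : (fun x => surr V σ c ρ lam e x - nodeJ V σ e x) = (lam * σ)⁻¹ • f := by
    funext x
    have hne : lam * σ ≠ 0 := mul_ne_zero hlam hσ.ne'
    simp only [f, surr, mvec, smth, gd, G, Pi.smul_apply, smul_sub, Finset.smul_sum, smul_smul,
      smul_apply, one_smul, smul_add, add_assoc, inv_mul_cancel₀ hne]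
    congr 1
    exact Finset.sum_congr rfl fun m _ => by simp [div_eq_inv_mul]
  have hf : eLpNorm f 2 (gd d) ≤ ENNReal.ofReal ((∑ m, |c m| * (2 * |ρ m|) ^ (R + 2)) *
      √((R + 1).factorial) * (L * σ) * √d) := by
    rw [← ENNReal.pow_le_pow_left_iff two_ne_zero, sq_eLpNorm,
      ← ENNReal.ofReal_pow (by positivity)]
    simp only [gd, ← ofReal_norm, ← ENNReal.ofReal_pow (norm_nonneg _)]
    rw [← ofReal_integral_eq_lintegral_ofReal hi (ae_of_all _ fun x => sq_nonneg _)]
    refine ENNReal.ofReal_le_ofReal (hE.trans_eq ?_)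
    rw [mul_pow _ √(d : ℝ), mul_pow _ (L * σ), mul_pow _ √((R + 1).factorial : ℝ),
      sq_sqrt (Nat.cast_nonneg d), sq_sqrt (Nat.cast_nonneg _)]
    ring
  rw [ef, eLpNorm_const_smul, ofReal_abs]
  refine (mul_le_mul' le_rfl hf).trans_eq ?_
  rw [← ENNReal.ofReal_mul (abs_nonneg _), abs_inv, abs_mul, abs_of_pos hσ]
  congr 1
  field_simp

omit hV hb in
/-- Weights for the surrogate, and for the sines: constants free of the scale `lam`. -/
theorem exists_surr_weights (R : ℕ) : ∃ (w v : Fin (R + 2) → ℝ) (C : ℝ), 0 ≤ C ∧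
    (∑ m, |w m|) ≤ C ∧ (∀ m, |v m| ≤ 1) ∧ ∀ lam : ℝ, 0 < lam → lam ≤ 1 / 2 →
      (∀ m, |lam * v m| ≤ 1 / 2) ∧
      (∀ k < R + 2, ∑ m, w m * (lam * v m) ^ k = if k = 1 then lam else 0) ∧
      (∑ m, |w m| * (2 * |lam * v m|) ^ (R + 2)) / |lam| ≤ C * lam ^ (R + 1) ∧
      (∑ m, |w m| * |lam * v m|) / |lam| ≤ C := by
  obtain ⟨w, C, hC, h⟩ := exists_extract_weights R
  refine ⟨w, Quad.node (R + 2), max C (∑ m, |w m|), hC.trans (le_max_left _ _), le_max_right _ _,
    fun m => ?_, fun lam hl hl2 => ?_⟩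
  · rw [Quad.node, abs_of_nonneg (by positivity), div_le_one (by positivity)]
    exact_mod_cast m.isLt.le
  obtain ⟨h1, h2, h3, h4⟩ := h lam (by rwa [abs_of_pos hl])
  rw [abs_of_pos hl] at h3 h4 ⊢
  refine ⟨h1, h2, (div_le_iff₀ hl).2 (h3.trans ?_), (div_le_iff₀ hl).2 (h4.trans ?_)⟩
  · rw [mul_assoc, ← pow_succ]
    exact mul_le_mul_of_nonneg_right (le_max_left _ _) (by positivity)
  · exact mul_le_mul_of_nonneg_right (le_max_left _ _) hl.le

end Vale.Agent.P347.Shift.Adj
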