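import Vale.Agent.P347.Shift.AdjNode

/-!
# P347: the adjoint rule of a node, with all parameters chosen

For the node `x ↦ E V (α x + p x + σ Z)` the adjoint of the derivative in `x` is
`α J + (Dp)† J`.  With weights depending on the order `N` alone, the surrogate of `J` at scale
`lam` and the rotation at angle `t` compute it from an estimate `F` of `(Dp)†`.
-/

open MeasureTheory ProbabilityTheory Real Finset
open ContinuousLinearMap (adjoint)
open scoped RealInnerProductSpace ENNReal NNReal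

namespace Vale.Agent.P347.Shift.Adj

open Vale.Agent.P347.Quarter

/-- **The node rule with its parameters.** -/
theorem exists_node_rule (N : ℕ) :
    ∃ (w v : Fin (N + 2) → ℝ) (q u : Fin (N + 2) → ℝ) (C : ℝ), 1 ≤ C ∧
      (∀ m, |v m| ≤ 1) ∧ (∀ m, |u m| ≤ 1) ∧ ∑ m, w m = 0 ∧
      ∀ (d : ℕ) (V : Sp d → Sp d) (L σ lam t α M δ : ℝ) (e : Sp d) (P : Sp d →L[ℝ] Sp d)
        (F : Sp d → Sp d),
        ContDiff ℝ 1 V → (∀ x, ‖fderiv ℝ V x‖ ≤ L) →
        (∀ x u v, ⟪fderiv ℝ V x u, v⟫ = ⟪u, fderiv ℝ V x v⟫) →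
        0 < σ → 0 < lam → lam ≤ 1 / 2 → 0 < t → t * L * C ≤ 1 →
        Continuous F → 0 ≤ M → 0 ≤ δ → (∀ x y, ‖F x - F y‖ ≤ M * ‖x - y‖) →
        eLpNorm (fun x => F x - adjoint P x) 2 (gd d) ≤ ENNReal.ofReal δ →
        eLpNorm (fun g => α • surr V σ w (fun m => lam * v m) lam e g +
            t⁻¹ • ∑ m, w m • ∫ z, F (pic (surr V σ w (fun m => lam * v m) lam e) q u N
              (t * v m) (z, g)).1 ∂gd d -
            adjoint ((nodeJ V σ e).comp (α • ContinuousLinearMap.id ℝ (Sp d) + P)) g) 2 (gd d) ≤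
          ENNReal.ofReal (C * (|α| * L * lam ^ (N + 1) * √d + t⁻¹ * δ +
            t⁻¹ * (M + ‖P‖) * ((t * L) ^ N + t * L * lam ^ (N + 1)) * √d)) := by
  obtain ⟨w, v, C0, hC0, hw, hv, hW⟩ := exists_surr_weights N
  set q : Fin (N + 2) → ℝ := Quad.nc (N + 2)
  set u : Fin (N + 2) → ℝ := Quad.node (N + 2)
  set Q : ℝ := ∑ j, |q j|
  set s : ℝ := √((N + 1).factorial)
  have hQ : 0 ≤ Q := Finset.sum_nonneg fun j _ => abs_nonneg _
  have hu : ∀ j, |u j| ≤ 1 := fun j => by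
    simp only [u, Quad.node]
    rw [abs_of_nonneg (by positivity), div_le_one (by positivity)]
    exact_mod_cast j.isLt.le
  set A : ℝ := C0 * s + C0 + C0 * ((Q * C0) ^ N * 4 + 2 * Q * (C0 * s) + 8 * (Q + 1)) + 2 * C0
  refine ⟨w, v, q, u, 1 + 2 * Q * C0 + A, ?_, hv, hu, ?_, ?_⟩
  · have : 0 ≤ A := by positivity
    linarith [mul_nonneg hQ hC0]
  · obtain ⟨-, h, -, -⟩ := hW (1 / 2) (by norm_num) le_rfl
    simpa using h 0 (by omega)
  intro d V L σ lam t α M δ e P F hV hb hs hσ hl hl2 ht htL hF hM hδ hLip hFP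
  have hL : 0 ≤ L := (norm_nonneg _).trans (hb 0)
  have hA : 0 ≤ A := by positivity
  have htL0 : 0 ≤ t * L := by positivity
  have htL1 : t * L ≤ 1 := by
    refine le_trans (le_mul_of_one_le_right htL0 ?_) htL
    linarith [mul_nonneg hQ hC0]
  obtain ⟨h1, h2, h3, h4⟩ := hW lam hl hl2
  obtain ⟨-, h2'', -, -⟩ := hW (1 / 2) (by norm_num) le_rfl
  have h2' : ∀ k < N + 2, ∑ m, w m * (t * v m) ^ k = if k = 1 then t else 0 := fun k hk => by
    rw [Finset.sum_congr rfl fun m _ => show w m * (t * v m) ^ k =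
      (2 * t) ^ k * (w m * (1 / 2 * v m) ^ k) by
        rw [show t * v m = 2 * t * (1 / 2 * v m) by ring, mul_pow]; ring,
      ← Finset.mul_sum, h2'' k hk]
    rcases eq_or_ne k 1 with rfl | hk1
    · simp; ring
    · simp [hk1]
  set ρ : Fin (N + 2) → ℝ := fun m => lam * v m
  set X := surr V σ w ρ lam e
  set J := nodeJ V σ e
  have hJ : adjoint J = J := adjoint_nodeJ hV hb hs σ e
  set ε : ℝ := C0 * lam ^ (N + 1) * s * L * √d
  have hXJ : eLpNorm (fun x => X x - J x) 2 (gd d) ≤ ENNReal.ofReal ε := by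
    refine (eLpNorm_surr_sub hV hb hσ hl.ne' h1 N h2 e).trans (ENNReal.ofReal_le_ofReal ?_)
    simp only [ε, s]
    gcongr
  have hXL : ∀ x y, ‖X x - X y‖ ≤ C0 * L * ‖x - y‖ := fun x y => by
    refine (norm_surr_sub hV hb hσ w ρ e e x y).trans ?_
    rw [sub_self, norm_zero, mul_zero, zero_add, mul_comm C0, mul_assoc]
    exact mul_le_mul_of_nonneg_left (mul_le_mul_of_nonneg_right h4 (norm_nonneg _)) hL
  have hX : Continuous X := continuous_surr hV hb w ρ e
  set B : ℝ := (t * Q * (C0 * L)) ^ N * (4 * √d) + 2 * (t * Q * ε +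
    4 * (Q + 1) * (t * L) ^ (N + 2 + 1) * √d)
  have hr : t * Q * (C0 * L) ≤ 1 / 2 := by
    have := (mul_le_mul_of_nonneg_left
      (show 2 * Q * C0 ≤ 1 + 2 * Q * C0 + A by linarith) htL0).trans htL
    linarith
  have hn := node_le (ι := Fin d) hJ hX (M := C0 * L) (ε := ε) (by positivity) (by positivity)
    hXL hXJ (q := q) (u := u) (N := N + 2) (by omega)
    (fun k hk => Quad.nc_exact (N + 2) hk) hu (c := w) (ρ := fun m => t * v m) (lam := t)
    (R := N + 2) (by omega) h2' (T := t) (L := L) ht.le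
    (fun m => by
      rw [abs_mul, abs_of_pos ht]
      exact mul_le_of_le_one_right ht.le (hv m))
    (norm_nodeJ_le hb σ e) htL1
    hr
    hF (M' := M) (δ := δ) hM hδ hLip (adjoint P) hFP N
  simp only [Fintype.card_fin, LinearIsometryEquiv.norm_map] at hn
  set O : Sp d → Sp d := fun g =>
    ∑ m, w m • ∫ z, F (pic X q u N (t * v m) (z, g)).1 ∂gd d
  have eT : ∀ g, adjoint (J.comp (α • ContinuousLinearMap.id ℝ (Sp d) + P)) g =
      α • J g + adjoint P (J g) := fun g => by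
    rw [ContinuousLinearMap.adjoint_comp, map_add, map_smulₛₗ,
      ContinuousLinearMap.adjoint_id, hJ]
    simp
  have hOm : AEStronglyMeasurable (fun g => O g - t • adjoint P (J g)) (gd d) := by
    refine ((Finset.stronglyMeasurable_fun_sum univ fun m _ =>
      (StronglyMeasurable.integral_prod_left' (f := fun p => F (pic X q u N (t * v m) p).1)
        (hF.comp (continuous_fst.comp (continuous_pic hX q u N (t * v m)))).stronglyMeasurable
        ).const_smul (w m)).sub ?_).aestronglyMeasurable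
    exact (by fun_prop : Continuous fun g => t • adjoint P (J g)).stronglyMeasurable
  have e1 : (fun g => α • X g + t⁻¹ • O g -
      adjoint (J.comp (α • ContinuousLinearMap.id ℝ (Sp d) + P)) g) =
      α • (fun g => X g - J g) + t⁻¹ • fun g => O g - t • adjoint P (J g) := by
    funext g
    simp only [eT, Pi.add_apply, Pi.smul_apply, smul_sub, smul_smul, inv_mul_cancel₀ ht.ne',
      one_smul]
    abel
  rw [e1]
  refine (eLpNorm_add_le ?_ (hOm.const_smul _) one_le_two).trans ?_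
  · exact ((hX.sub (by fun_prop)).const_smul α).aestronglyMeasurable
  rw [eLpNorm_const_smul, eLpNorm_const_smul, ofReal_abs, ofReal_abs, abs_of_pos (inv_pos.2 ht)]
  refine (add_le_add (mul_le_mul' le_rfl hXJ) (mul_le_mul' le_rfl hn)).trans ?_
  rw [← ENNReal.ofReal_mul (abs_nonneg _), ← ENNReal.ofReal_mul (inv_nonneg.2 ht.le),
    ← ENNReal.ofReal_add (by positivity) (by positivity)]
  refine ENNReal.ofReal_le_ofReal ?_
  have p1 : (t * L) ^ (N + 2 + 1) ≤ (t * L) ^ N := pow_le_pow_of_le_one htL0 htL1 (by omega)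
  have p2 : (t * L) ^ (N + 2) ≤ (t * L) ^ N := pow_le_pow_of_le_one htL0 htL1 (by omega)
  set E : ℝ := (t * L) ^ N + t * L * lam ^ (N + 1)
  have hE1 : (t * L) ^ N ≤ E := le_add_of_nonneg_right (by positivity)
  have hE2 : t * L * lam ^ (N + 1) ≤ E := le_add_of_nonneg_left (by positivity)
  have hB : B ≤ ((Q * C0) ^ N * 4 + 2 * Q * (C0 * s) + 8 * (Q + 1)) * E * √d := by
    have e2 : B = (Q * C0) ^ N * 4 * (t * L) ^ N * √d +
        2 * Q * (C0 * s) * (t * L * lam ^ (N + 1)) * √d +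
        8 * (Q + 1) * (t * L) ^ (N + 2 + 1) * √d := by
      simp only [B, ε]
      rw [show t * Q * (C0 * L) = (Q * C0) * (t * L) by ring, mul_pow]
      ring
    rw [e2, add_mul, add_mul, add_mul, add_mul]
    gcongr
    exact p1.trans hE1
  have hP : ‖P‖ * (2 * (∑ m, |w m|) * (t * L) ^ (N + 2)) * √d ≤
      2 * C0 * (‖P‖ * E * √d) := by
    rw [show 2 * C0 * (‖P‖ * E * √d) = ‖P‖ * (2 * C0 * E) * √d by ring]
    gcongr
    exact p2.trans hE1
  set W : ℝ := ∑ m, |w m|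
  set K : ℝ := (Q * C0) ^ N * 4 + 2 * Q * (C0 * s) + 8 * (Q + 1)
  have hW0 : 0 ≤ W := Finset.sum_nonneg fun m _ => abs_nonneg _
  have h5 : W * (δ + M * B) ≤ C0 * (δ + M * (K * E * √d)) := by gcongr
  have hK : 0 ≤ K := by positivity
  have hE : 0 ≤ E := le_trans (by positivity) hE1
  have hs0 : 0 ≤ s := sqrt_nonneg _
  have b1 : 0 ≤ 2 * Q * C0 := by positivity
  have b2 : 0 ≤ C0 * K := mul_nonneg hC0 hK
  have b3 : 0 ≤ C0 * s := mul_nonneg hC0 hs0
  have hAe : A = C0 * s + C0 + C0 * K + 2 * C0 := rfl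
  have a1 : C0 * s ≤ 1 + 2 * Q * C0 + A := by linarith
  have a2 : C0 ≤ 1 + 2 * Q * C0 + A := by linarith
  have a3 : C0 * K ≤ 1 + 2 * Q * C0 + A := by linarith
  have a4 : 2 * C0 ≤ 1 + 2 * Q * C0 + A := by linarith
  have ht' : 0 ≤ t⁻¹ := inv_nonneg.2 ht.le
  calc |α| * ε + t⁻¹ * (W * (δ + M * B) + ‖P‖ * (2 * W * (t * L) ^ (N + 2)) * √d)
      ≤ |α| * ε + t⁻¹ * (C0 * (δ + M * (K * E * √d)) + 2 * C0 * (‖P‖ * E * √d)) := by gcongr
    _ = C0 * s * (|α| * L * lam ^ (N + 1) * √d) + C0 * (t⁻¹ * δ) +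
        C0 * K * (t⁻¹ * M * E * √d) + 2 * C0 * (t⁻¹ * ‖P‖ * E * √d) := by
      simp only [ε]; ring
    _ ≤ (1 + 2 * Q * C0 + A) * (|α| * L * lam ^ (N + 1) * √d) +
        (1 + 2 * Q * C0 + A) * (t⁻¹ * δ) + (1 + 2 * Q * C0 + A) * (t⁻¹ * M * E * √d) +
        (1 + 2 * Q * C0 + A) * (t⁻¹ * ‖P‖ * E * √d) := by
      gcongr
    _ = _ := by ring

end Vale.Agent.P347.Shift.Adj
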