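import Vale.Agent.P347.Quarter.Tilt

/-!
# P347: all derivatives of a tilted mean

For a log-concave tilt `gibbs W` of the Gaussian law and a Lipschitz `f` the derivatives of
`θ ↦ E f` under the linear tilts `z ↦ W z - ⟪θ, z⟫` are bounded in Frobenius norm by `n! L`
(times a power of the Poincaré constant), uniformly in the dimension.  The derivative of order `n` is `E (f P)` for an Appell polynomial `P`:
its gradient consists of Appell polynomials of order `n - 1`, so the Poincaré inequality gives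
`‖P‖₂ ≤ n! ‖M‖_F` by induction.  No derivative of the Hessian of `W` enters.
-/

open MeasureTheory ProbabilityTheory Real Finset
open scoped RealInnerProductSpace ContDiff

namespace Vale.Agent.P347.Shift

open Quarter

/-- The mean of `f` under the linear tilt `θ` of `gibbs W`. -/
noncomputable def tiltMean {d : ℕ} (W f : Sp d → ℝ) (θ : Sp d) : ℝ :=
  ∫ z, f z ∂gibbs fun z => W z - ⟪θ, z⟫

namespace Appell

variable {d : ℕ} {W : Sp d → ℝ} {G : Sp d → Sp d} {H : Sp d → Sp d →L[ℝ] Sp d} {η : ℝ}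

/-- Continuous functions of exponential growth. -/
def ExpB (f : Sp d → ℝ) : Prop := Continuous f ∧ ∃ C K : ℝ, ∀ z, |f z| ≤ C * exp (K * ‖z‖)

lemma expB_const (c : ℝ) : ExpB (fun _ : Sp d => c) :=
  ⟨continuous_const, |c|, 0, fun z => by simp⟩

lemma expB_coord (i : Fin d) : ExpB (fun z : Sp d => z i) :=
  ⟨(EuclideanSpace.proj (𝕜 := ℝ) i).continuous, 1, 1, fun z => by
    have h : ‖z i‖ ≤ ‖z‖ := PiLp.norm_apply_le z i
    rw [Real.norm_eq_abs] at h
    linarith [add_one_le_exp ‖z‖, norm_nonneg z, (one_mul ‖z‖).symm ▸ h, one_mul ‖z‖,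
      show exp (1 * ‖z‖) = exp ‖z‖ by rw [one_mul]]⟩

lemma ExpB.mul {f g : Sp d → ℝ} (hf : ExpB f) (hg : ExpB g) : ExpB fun z => f z * g z := by
  obtain ⟨hf, C, K, h⟩ := hf
  obtain ⟨hg, C', K', h'⟩ := hg
  refine ⟨hf.mul hg, C * C', K + K', fun z => ?_⟩
  rw [abs_mul, add_mul, exp_add]
  calc |f z| * |g z| ≤ (C * exp (K * ‖z‖)) * (C' * exp (K' * ‖z‖)) :=
        mul_le_mul (h z) (h' z) (abs_nonneg _) ((abs_nonneg _).trans (h z))
    _ = _ := by ring

lemma ExpB.add {f g : Sp d → ℝ} (hf : ExpB f) (hg : ExpB g) : ExpB fun z => f z + g z := by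
  obtain ⟨hf, C, K, h⟩ := hf
  obtain ⟨hg, C', K', h'⟩ := hg
  have hC : 0 ≤ C := by
    have := (abs_nonneg _).trans (h 0)
    rwa [norm_zero, mul_zero, exp_zero, mul_one] at this
  have hC' : 0 ≤ C' := by
    have := (abs_nonneg _).trans (h' 0)
    rwa [norm_zero, mul_zero, exp_zero, mul_one] at this
  refine ⟨hf.add hg, C + C', max K K', fun z => (abs_add_le _ _).trans ?_⟩
  rw [add_mul]
  refine add_le_add ((h z).trans ?_) ((h' z).trans ?_)
  · exact mul_le_mul_of_nonneg_left (exp_le_exp.2 (mul_le_mul_of_nonneg_right (le_max_left _ _)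
      (norm_nonneg z))) hC
  · exact mul_le_mul_of_nonneg_left (exp_le_exp.2 (mul_le_mul_of_nonneg_right (le_max_right _ _)
      (norm_nonneg z))) hC'

lemma expB_sum {α : Type*} [Fintype α] {f : α → Sp d → ℝ} (hf : ∀ a, ExpB (f a)) :
    ExpB fun z => ∑ a, f a z := by
  classical
  suffices h : ∀ s : Finset α, ExpB fun z => ∑ a ∈ s, f a z from h univ
  intro s
  induction s using Finset.induction_on with
  | empty => simpa using expB_const (d := d) 0
  | insert a s ha ih => simpa [Finset.sum_insert ha] using (hf a).add ih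

lemma expB_lip {f : Sp d → ℝ} (hf : ContDiff ℝ 1 f) {L : ℝ} (hL : ∀ z, ‖fderiv ℝ f z‖ ≤ L) :
    ExpB f := by
  have hL0 : 0 ≤ L := (norm_nonneg _).trans (hL 0)
  refine ⟨hf.continuous, |f 0| + L, 1, fun z => ?_⟩
  have h := convex_univ.norm_image_sub_le_of_norm_fderiv_le
    (fun y _ => hf.differentiable one_ne_zero y) (fun y _ => hL y) (Set.mem_univ 0) (Set.mem_univ z)
  rw [sub_zero, Real.norm_eq_abs] at h
  have e1 := add_one_le_exp ‖z‖
  rw [one_mul]
  nlinarith [abs_sub_abs_le_abs_sub (f z) (f 0), norm_nonneg z, abs_nonneg (f 0),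
    mul_le_mul_of_nonneg_left e1 hL0,
    mul_le_mul_of_nonneg_left (show 1 ≤ exp ‖z‖ by linarith [norm_nonneg z]) (abs_nonneg (f 0))]

/-- The unnormalised tilted integral. -/
noncomputable def Zt (W f : Sp d → ℝ) (θ : Sp d) : ℝ :=
  ∫ z, exp (⟪θ, z⟫ - W z) * f z ∂gd d

lemma exp_tilt_le (hW : IsPot W G H 0 η) {θ : Sp d} {r : ℝ} (hθ : ‖θ‖ ≤ r) (z : Sp d) :
    exp (⟪θ, z⟫ - W z) ≤ exp (-W 0) * exp ((r + ‖G 0‖) * ‖z‖) := by
  rw [← exp_add]
  refine exp_le_exp.2 ?_
  nlinarith [real_inner_le_norm θ z, hW.lower le_rfl z,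
    mul_le_mul_of_nonneg_right hθ (norm_nonneg z)]

lemma Zt_bound (hW : IsPot W G H 0 η) {f : Sp d → ℝ} {C K : ℝ}
    (hb : ∀ z, |f z| ≤ C * exp (K * ‖z‖)) {θ : Sp d} {r : ℝ} (hθ : ‖θ‖ ≤ r) (z : Sp d) :
    |exp (⟪θ, z⟫ - W z) * f z| ≤ exp (-W 0) * C * exp ((r + ‖G 0‖ + K) * ‖z‖) := by
  rw [abs_mul, abs_exp, add_mul (r + ‖G 0‖), exp_add]
  calc exp (⟪θ, z⟫ - W z) * |f z|
      ≤ (exp (-W 0) * exp ((r + ‖G 0‖) * ‖z‖)) * (C * exp (K * ‖z‖)) :=
        mul_le_mul (exp_tilt_le hW hθ z) (hb z) (abs_nonneg _) (by positivity)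
    _ = _ := by ring

lemma Zt_integrable (hW : IsPot W G H 0 η) {f : Sp d → ℝ} (hf : ExpB f) (θ : Sp d) :
    Integrable (fun z => exp (⟪θ, z⟫ - W z) * f z) (gd d) := by
  obtain ⟨hc, C, K, h⟩ := hf
  have hWc := hW.contDiff.continuous
  refine integrable_gam_of_le (by fun_prop) (C := exp (-W 0) * C) (K := ‖θ‖ + ‖G 0‖ + K)
    fun z => ?_
  rw [Real.norm_eq_abs]
  exact Zt_bound hW h le_rfl z

lemma Zt_add (hW : IsPot W G H 0 η) {f g : Sp d → ℝ} (hf : ExpB f) (hg : ExpB g) (θ : Sp d) :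
    Zt W (fun z => f z + g z) θ = Zt W f θ + Zt W g θ := by
  simp only [Zt, mul_add]
  exact integral_add (Zt_integrable hW hf θ) (Zt_integrable hW hg θ)

lemma Zt_mul_const (f : Sp d → ℝ) (c : ℝ) (θ : Sp d) :
    Zt W (fun z => f z * c) θ = Zt W f θ * c := by
  simp only [Zt, ← mul_assoc]
  exact integral_mul_const c _

/-- The derivative of the tilted integral multiplies the integrand by the variable. -/
lemma hasFDerivAt_Zt (hW : IsPot W G H 0 η) {f : Sp d → ℝ} (hf : ExpB f) (θ : Sp d) :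
    HasFDerivAt (Zt W f)
      (∑ i, Zt W (fun z => f z * z i) θ • EuclideanSpace.proj (𝕜 := ℝ) i) θ := by
  obtain ⟨hc, C, K, h⟩ := hf
  have hWc := hW.contDiff.continuous
  set F' : Sp d → Sp d → Sp d →L[ℝ] ℝ := fun θ z => (exp (⟪θ, z⟫ - W z) * f z) • innerSL ℝ z
  have hF' : ∀ θ, Continuous (F' θ) := fun θ =>
    Continuous.smul (show Continuous fun z => exp (⟪θ, z⟫ - W z) * f z by fun_prop)
      (innerSL ℝ).continuous
  set B : Sp d → ℝ := fun z => exp (-W 0) * C * exp ((‖θ‖ + 1 + ‖G 0‖ + K + 1) * ‖z‖)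
  have hb : ∀ z, ∀ θ' ∈ Metric.ball θ (1 : ℝ), ‖F' θ' z‖ ≤ B z := by
    intro z θ' h'
    rw [mem_ball_iff_norm] at h'
    have hθ' : ‖θ'‖ ≤ ‖θ‖ + 1 := by linarith [norm_sub_norm_le θ' θ]
    rw [norm_smul, innerSL_apply_norm, Real.norm_eq_abs]
    refine (mul_le_mul (Zt_bound hW h hθ' z) (show ‖z‖ ≤ exp ‖z‖ by
      linarith [add_one_le_exp ‖z‖]) (norm_nonneg _) ((abs_nonneg _).trans
        (Zt_bound hW h hθ' z))).trans_eq ?_
    simp only [B]
    rw [mul_assoc (exp (-W 0) * C), ← exp_add]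
    ring_nf
  have hd := (hasFDerivAt_integral_of_dominated_of_fderiv_le (μ := gd d)
    (F := fun θ z => exp (⟪θ, z⟫ - W z) * f z) (F' := F') (bound := B)
    (Metric.ball_mem_nhds θ one_pos)
    (Filter.Eventually.of_forall fun θ' => (show Continuous fun z => exp (⟪θ', z⟫ - W z) * f z by
      fun_prop).aestronglyMeasurable)
    (Zt_integrable hW ⟨hc, C, K, h⟩ θ) (hF' θ).aestronglyMeasurable
    (ae_of_all _ hb)
    (integrable_gam_of_le (f := B) (continuous_const.mul (continuous_exp.comp (continuous_const.mul continuous_norm)))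
      (C := exp (-W 0) * C)
      (K := ‖θ‖ + 1 + ‖G 0‖ + K + 1) fun z => by
      rw [Real.norm_eq_abs, abs_of_nonneg]
      exact (norm_nonneg _).trans (hb z θ (Metric.mem_ball_self one_pos)))
    (ae_of_all _ fun z θ' _ => by
      have h1 : HasFDerivAt (fun t : Sp d => ⟪t, z⟫) (innerSL ℝ z) θ' := by
        refine ((innerSL ℝ z).hasFDerivAt).congr_of_eventuallyEq
          (Filter.Eventually.of_forall fun t => ?_)
        simp [real_inner_comm]
      refine ((h1.sub_const (W z)).exp.mul_const (f z)).congr_fderiv ?_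
      simp only [F', smul_smul]
      congr 1
      ring))
  refine hd.congr_fderiv ?_
  refine ContinuousLinearMap.ext fun v => ?_
  have hint : Integrable (F' θ) (gd d) :=
    integrable_gam_of_le (hF' θ) (C := exp (-W 0) * C) (K := ‖θ‖ + 1 + ‖G 0‖ + K + 1) fun z =>
      hb z θ (Metric.mem_ball_self one_pos)
  rw [ContinuousLinearMap.integral_apply hint]
  simp only [_root_.sum_apply, smul_apply, PiLp.proj_apply, smul_eq_mul, Zt,
    ← integral_mul_const]
  rw [← integral_finsetSum]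
  · refine integral_congr_ae (ae_of_all _ fun z => ?_)
    simp only [F', smul_apply, innerSL_apply_apply, smul_eq_mul, PiLp.inner_apply, mul_sum]
    refine sum_congr rfl fun i _ => ?_
    simp
    ring
  · intro i _
    exact (Zt_integrable hW (ExpB.mul ⟨hc, C, K, h⟩ (expB_coord i)) θ).mul_const _

lemma contDiff_Zt (hW : IsPot W G H 0 η) : ∀ {n : ℕ} {f : Sp d → ℝ}, ExpB f →
    ContDiff ℝ n (Zt W f)
  | 0, f, hf => contDiff_zero.2 (continuous_iff_continuousAt.2 fun θ =>
      (hasFDerivAt_Zt hW hf θ).continuousAt)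
  | n + 1, f, hf => by
    rw [Nat.cast_succ, contDiff_succ_iff_hasFDerivAt]
    exact ⟨fun θ => ∑ i, Zt W (fun z => f z * z i) θ • EuclideanSpace.proj (𝕜 := ℝ) i,
      ContDiff.sum fun i _ => (contDiff_Zt hW (hf.mul (expB_coord i))).smul contDiff_const,
      hasFDerivAt_Zt hW hf⟩

lemma contDiff_Zt_top (hW : IsPot W G H 0 η) {f : Sp d → ℝ} (hf : ExpB f) :
    ContDiff ℝ ∞ (Zt W f) :=
  contDiff_infty.2 fun _ => contDiff_Zt hW hf

lemma Zt_one_pos (hW : IsPot W G H 0 η) (θ : Sp d) : 0 < Zt W (fun _ => 1) θ := by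
  simp only [Zt, mul_one]
  exact integral_exp_pos (by simpa using Zt_integrable hW (expB_const 1) θ)

/-- A linear tilt is again a potential. -/
lemma isPot_tilt {lo : ℝ} (hW : IsPot W G H lo η) (θ : Sp d) :
    IsPot (fun z => W z - ⟪θ, z⟫) (fun z => G z - θ) H lo η := by
  refine ⟨fun z => ?_, fun z => (hW.hasHess z).sub_const θ, hW.contHess, hW.symHess, hW.loHess,
    hW.hiHess⟩
  refine ((hW.hasGrad z).sub ((innerSL ℝ θ).hasFDerivAt)).congr_fderiv ?_
  simp [map_sub]

lemma integral_tilt (f : Sp d → ℝ) (θ : Sp d) :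
    ∫ z, f z ∂gibbs (fun z => W z - ⟪θ, z⟫) = Zt W f θ / Zt W (fun _ => 1) θ := by
  rw [IsPot.integral_gibbs]
  simp [Zt, neg_sub]

/-- The coordinate vector. -/
noncomputable def ei (i : Fin d) : Sp d := EuclideanSpace.single i (1 : ℝ)

/-- The partial derivative. -/
noncomputable def dp (i : Fin d) (u : Sp d → ℝ) : Sp d → ℝ := fun θ => fderiv ℝ u θ (ei i)

/-- Iterated partial derivatives, the last index first. -/
noncomputable def dIter : (n : ℕ) → (Fin n → Fin d) → (Sp d → ℝ) → Sp d → ℝ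
  | 0, _, u => u
  | n + 1, p, u => dIter n (Fin.init p) (dp (p (Fin.last n)) u)

/-- The Appell recursion: `z` multiplies, `u` differentiates. -/
noncomputable def R : (n : ℕ) → (Fin n → Fin d) → (Sp d → ℝ) → Sp d → Sp d → ℝ
  | 0, _, u, θ, _ => u θ
  | n + 1, p, u, θ, z =>
    z (p (Fin.last n)) * R n (Fin.init p) u θ z +
      R n (Fin.init p) (dp (p (Fin.last n)) u) θ z

lemma contDiff_dp {u : Sp d → ℝ} (hu : ContDiff ℝ ∞ u) (i : Fin d) : ContDiff ℝ ∞ (dp i u) :=
  (hu.fderiv_right (m := ∞) (by simp)).clm_apply contDiff_const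

lemma dIter_add : ∀ (n : ℕ) (p : Fin n → Fin d) {u v : Sp d → ℝ}, ContDiff ℝ ∞ u →
    ContDiff ℝ ∞ v → dIter n p (fun θ => u θ + v θ) = fun θ => dIter n p u θ + dIter n p v θ
  | 0, _, _, _, _, _ => rfl
  | n + 1, p, u, v, hu, hv => by
    have e : dp (p (Fin.last n)) (fun θ => u θ + v θ) =
        fun θ => dp (p (Fin.last n)) u θ + dp (p (Fin.last n)) v θ := funext fun θ => by
      simp [dp, fderiv_fun_add (hu.differentiable (by simp) θ) (hv.differentiable (by simp) θ)]
    simp only [dIter, e]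
    exact dIter_add n _ (contDiff_dp hu _) (contDiff_dp hv _)

lemma iteratedFDeriv_eq_dIter : ∀ (n : ℕ) (p : Fin n → Fin d) {u : Sp d → ℝ}, ContDiff ℝ ∞ u →
    ∀ θ, iteratedFDeriv ℝ n u θ (fun i => ei (p i)) = dIter n p u θ
  | 0, _, _, _, _ => by simp [dIter]
  | n + 1, p, u, hu, θ => by
    rw [iteratedFDeriv_succ_apply_right, dIter,
      ← iteratedFDeriv_eq_dIter n _ (contDiff_dp hu _)]
    unfold dp
    rw [iteratedFDeriv_clm_apply_const_apply
      (hu.fderiv_right (m := ∞) (by simp)) (i := n) (WithTop.coe_le_coe.2 le_top)]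
    rfl

lemma expB_R : ∀ (n : ℕ) (p : Fin n → Fin d) (u : Sp d → ℝ) (θ : Sp d), ExpB (R n p u θ)
  | 0, _, u, θ => expB_const (u θ)
  | n + 1, p, u, θ => ((expB_coord _).mul (expB_R n _ u θ)).add (expB_R n _ _ θ)

lemma contDiff_R : ∀ (n : ℕ) (p : Fin n → Fin d) (u : Sp d → ℝ) (θ : Sp d),
    ContDiff ℝ 1 (R n p u θ)
  | 0, _, _, _ => contDiff_const
  | n + 1, p, u, θ =>
    ((EuclideanSpace.proj (𝕜 := ℝ) (p (Fin.last n))).contDiff.mul (contDiff_R n _ u θ)).add
      (contDiff_R n _ _ θ)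

/-- The derivatives of a tilted integral times `u`. -/
lemma dIter_Zt (hW : IsPot W G H 0 η) : ∀ (n : ℕ) (p : Fin n → Fin d) {f u : Sp d → ℝ},
    ExpB f → ContDiff ℝ ∞ u → ∀ θ,
      dIter n p (fun θ => Zt W f θ * u θ) θ = Zt W (fun z => f z * R n p u θ z) θ
  | 0, _, f, u, _, _, θ => by simp only [dIter, R, Zt_mul_const]
  | n + 1, p, f, u, hf, hu, θ => by
    set i := p (Fin.last n)
    have e : dp i (fun θ => Zt W f θ * u θ) =
        fun θ => Zt W (fun z => f z * z i) θ * u θ + Zt W f θ * dp i u θ := funext fun θ => by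
      have h := (hasFDerivAt_Zt hW hf θ).mul (hu.differentiable (by simp) θ).hasFDerivAt
      simp only [dp]
      rw [show (fun θ => Zt W f θ * u θ) = Zt W f * u from rfl, h.fderiv]
      simp [ei, add_comm, mul_comm]
    have hfi := hf.mul (expB_coord i)
    simp only [dIter, R]
    rw [e, dIter_add n _ ((contDiff_Zt_top hW hfi).mul hu)
      ((contDiff_Zt_top hW hf).mul (contDiff_dp hu i))]
    beta_reduce
    rw [dIter_Zt hW n _ hfi hu, dIter_Zt hW n _ hf (contDiff_dp hu i),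
      ← Zt_add hW (hfi.mul (expB_R n _ u θ)) (hf.mul (expB_R n _ _ θ))]
    congr 1
    funext z
    ring

lemma dIter_zero : ∀ (n : ℕ) (p : Fin n → Fin d), dIter n p (fun _ => (0 : ℝ)) = fun _ => 0
  | 0, _ => rfl
  | n + 1, p => by
    have : dp (p (Fin.last n)) (fun _ : Sp d => (0 : ℝ)) = fun _ => 0 := funext fun θ => by
      simp [dp]
    simp only [dIter, this, dIter_zero n]

/-- The gradient removes one slot at a time. -/
lemma fderiv_R : ∀ (n : ℕ) (p : Fin (n + 1) → Fin d) (u : Sp d → ℝ) (θ z : Sp d) (k : Fin d),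
    fderiv ℝ (R (n + 1) p u θ) z (ei k) =
      ∑ s : Fin (n + 1), if p s = k then R n (fun j => p (s.succAbove j)) u θ z else 0
  | 0, p, u, θ, z, k => by
    have h := ((EuclideanSpace.proj (𝕜 := ℝ) (p 0)).hasFDerivAt (x := z)).mul_const (u θ)
      |>.add_const (dp (p 0) u θ)
    have e : R 1 p u θ = fun z : Sp d => EuclideanSpace.proj (𝕜 := ℝ) (p 0) z * u θ +
        dp (p 0) u θ := funext fun z => by simp [R]
    rw [e, h.fderiv]
    simp [ei, R]
  | n + 1, p, u, θ, z, k => by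
    set i := p (Fin.last (n + 1))
    have h1 := (EuclideanSpace.proj (𝕜 := ℝ) i).hasFDerivAt (x := z) |>.mul
      ((contDiff_R (n + 1) (Fin.init p) u θ).differentiable one_ne_zero z).hasFDerivAt
    have h := h1.add
      ((contDiff_R (n + 1) (Fin.init p) (dp i u) θ).differentiable one_ne_zero z).hasFDerivAt
    have e : R (n + 2) p u θ = (EuclideanSpace.proj (𝕜 := ℝ) i : Sp d → ℝ) *
        R (n + 1) (Fin.init p) u θ + R (n + 1) (Fin.init p) (dp i u) θ := funext fun z => by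
      simp [R, i]
    rw [e, h.fderiv, Fin.sum_univ_castSucc (n := n + 1)]
    simp only [_root_.add_apply, smul_apply, smul_eq_mul, PiLp.proj_apply,
      Fin.succAbove_last, fderiv_R n]
    have hs : ∀ s : Fin (n + 1),
        Fin.init (fun j => p ((Fin.castSucc s).succAbove j)) =
            (fun j => Fin.init p (s.succAbove j)) ∧
          p ((Fin.castSucc s).succAbove (Fin.last n)) = i := fun s => by
      refine ⟨funext fun j => ?_, ?_⟩
      · simp [Fin.init]
      · rw [Fin.succAbove_ne_last_last (Fin.castSucc_lt_last s).ne]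
    have hR : ∀ s : Fin (n + 1), R (n + 1) (fun j => p ((Fin.castSucc s).succAbove j)) u θ z =
        z i * R n (fun j => Fin.init p (s.succAbove j)) u θ z +
          R n (fun j => Fin.init p (s.succAbove j)) (dp i u) θ z := fun s => by
      simp only [R, (hs s).1, (hs s).2]
    simp only [hR]
    have hk : (ei k : Sp d) i = if i = k then 1 else 0 := by simp [ei]
    rw [hk, mul_sum]
    simp only [mul_ite, mul_one, mul_zero]
    have hif : ∀ (c : Prop) [Decidable c] (a b : ℝ),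
        (if c then a + b else 0) = (if c then a else 0) + (if c then b else 0) := fun c _ a b => by
      split_ifs <;> simp
    simp only [hif, Fin.init, sum_add_distrib]
    ring!

lemma norm_sq_clm (T : Sp d →L[ℝ] ℝ) : ‖T‖ ^ 2 = ∑ k, T (ei k) ^ 2 := by
  set v := (InnerProductSpace.toDual ℝ (Sp d)).symm T with hv
  have e : ∀ k, T (ei k) = v k := fun k => by
    rw [show T (ei k) = ⟪v, ei k⟫ from (InnerProductSpace.toDual_symm_apply).symm,
      ei, real_inner_comm, EuclideanSpace.inner_single_left]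
    simp
  have hn : ‖T‖ = ‖v‖ := ((InnerProductSpace.toDual ℝ (Sp d)).symm.norm_map T).symm
  simp only [e, hn, EuclideanSpace.norm_sq_eq, Real.norm_eq_abs, sq_abs]

/-- Normalised Appell polynomial of a family of coefficients. -/
noncomputable def P (W : Sp d → ℝ) (n : ℕ) (M : (Fin n → Fin d) → ℝ) (θ z : Sp d) : ℝ :=
  Zt W (fun _ => 1) θ * ∑ p, M p * R n p (fun θ => (Zt W (fun _ => 1) θ)⁻¹) θ z

lemma expB_P (n : ℕ) (M : (Fin n → Fin d) → ℝ) (θ : Sp d) : ExpB (P W n M θ) :=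
  (expB_const _).mul (expB_sum fun p => (expB_const (M p)).mul (expB_R n p _ θ))

lemma contDiff_P (n : ℕ) (M : (Fin n → Fin d) → ℝ) (θ : Sp d) : ContDiff ℝ 1 (P W n M θ) :=
  contDiff_const.mul (ContDiff.sum fun p _ => contDiff_const.mul (contDiff_R n p _ θ))

lemma fderiv_P (n : ℕ) (M : (Fin (n + 1) → Fin d) → ℝ) (θ z : Sp d) (k : Fin d) :
    fderiv ℝ (P W (n + 1) M θ) z (ei k) =
      ∑ s : Fin (n + 1), P W n (fun q => M (Fin.insertNth s k q)) θ z := by
  set u := fun θ => (Zt W (fun _ => 1) θ)⁻¹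
  have h := (HasFDerivAt.fun_sum (u := univ) fun p _ =>
    ((contDiff_R (n + 1) p u θ).differentiable one_ne_zero z).hasFDerivAt.const_mul (M p)).const_mul
      (Zt W (fun _ => 1) θ)
  have e : P W (n + 1) M θ =
      fun z => Zt W (fun _ => 1) θ * ∑ p, M p * R (n + 1) p u θ z := rfl
  rw [e, h.fderiv]
  simp only [_root_.sum_apply, smul_apply, smul_eq_mul, fderiv_R, P]
  rw [← mul_sum]
  congr 1
  simp only [mul_sum, mul_ite, mul_zero]
  rw [sum_comm]
  refine sum_congr rfl fun s _ => ?_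
  rw [← (Fin.insertNthEquiv (fun _ : Fin (n + 1) => Fin d) s).sum_comp, Fintype.sum_prod_type]
  simp [Fin.insertNthEquiv, u]

lemma mean_P (hW : IsPot W G H 0 η) (n : ℕ) (M : (Fin (n + 1) → Fin d) → ℝ) (θ : Sp d) :
    ∫ z, P W (n + 1) M θ z ∂gibbs (fun z => W z - ⟪θ, z⟫) = 0 := by
  set u := fun θ => (Zt W (fun _ => 1) θ)⁻¹
  have hu : ContDiff ℝ ∞ u :=
    (contDiff_Zt_top hW (expB_const 1)).inv fun θ => (Zt_one_pos hW θ).ne'
  have := (isPot_tilt hW θ).isProb le_rfl
  have hR : ∀ p, ∫ z, R (n + 1) p u θ z ∂gibbs (fun z => W z - ⟪θ, z⟫) = 0 := fun p => by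
    have h := dIter_Zt hW (n + 1) p (expB_const 1) hu θ
    have e : (fun θ => Zt W (fun _ => 1) θ * u θ) = fun _ => (1 : ℝ) := funext fun θ =>
      mul_inv_cancel₀ (Zt_one_pos hW θ).ne'
    have e1 : dp (p (Fin.last n)) (fun _ : Sp d => (1 : ℝ)) = fun _ => 0 := funext fun θ => by
      simp [dp]
    rw [e, dIter, e1, dIter_zero] at h
    simp only [one_mul] at h
    rw [integral_tilt, ← h, zero_div]
  have hi : ∀ p, Integrable (R (n + 1) p u θ) (gibbs fun z => W z - ⟪θ, z⟫) := fun p => by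
    obtain ⟨hc, C, K, hb⟩ := expB_R (n + 1) p u θ
    exact (isPot_tilt hW θ).integrable_gibbs_of_le le_rfl hc fun z => by
      rw [Real.norm_eq_abs]; exact hb z
  simp only [P]
  rw [integral_const_mul, integral_finsetSum _ fun p _ => (hi p).const_mul (M p)]
  simp only [integral_const_mul]
  simp [u] at hR ⊢
  simp [hR]

lemma integrable_tilt (hW : IsPot W G H 0 η) {f : Sp d → ℝ} (hf : ExpB f) (θ : Sp d) :
    Integrable f (gibbs fun z => W z - ⟪θ, z⟫) := by
  obtain ⟨hc, C, K, hb⟩ := hf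
  exact (isPot_tilt hW θ).integrable_gibbs_of_le le_rfl hc fun z => by
    rw [Real.norm_eq_abs]; exact hb z

lemma integrable_sq_tilt (hW : IsPot W G H 0 η) {f : Sp d → ℝ} (hf : ExpB f) (θ : Sp d) :
    Integrable (fun z => f z ^ 2) (gibbs fun z => W z - ⟪θ, z⟫) := by
  simpa only [sq] using integrable_tilt hW (hf.mul hf) θ

/-- **Appell polynomials are bounded by the Frobenius norm of their coefficients.** -/
theorem norm_P {lo : ℝ} (hW' : IsPot W G H lo η) (hlo : 0 ≤ lo) (θ : Sp d) : ∀ (n : ℕ) (M : (Fin n → Fin d) → ℝ),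
    ∫ z, P W n M θ z ^ 2 ∂gibbs (fun z => W z - ⟪θ, z⟫) ≤
      (n.factorial : ℝ) ^ 2 * (1 + lo)⁻¹ ^ n * ∑ p, M p ^ 2 := by
  have hW := IsPot.mono hW' hlo
  have hc : 0 ≤ (1 + lo)⁻¹ := by positivity
  have := (isPot_tilt hW θ).isProb le_rfl
  intro n
  induction n with
  | zero =>
    intro M
    have hK := (Zt_one_pos hW θ).ne'
    simp [P, R]
    refine le_of_eq ?_
    field_simp
  | succ n ih =>
    intro M
    have hP := expB_P (W := W) (n + 1) M θ
    have hgrad : (fun z => ‖fderiv ℝ (P W (n + 1) M θ) z‖ ^ 2) =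
        fun z => ∑ k, (∑ s : Fin (n + 1), P W n (fun q => M (Fin.insertNth s k q)) θ z) ^ 2 :=
      funext fun z => by simp only [norm_sq_clm, fderiv_P]
    have hsum : ∀ k, ExpB fun z =>
        ∑ s : Fin (n + 1), P W n (fun q => M (Fin.insertNth s k q)) θ z := fun k =>
      expB_sum fun s => expB_P n _ θ
    have hi : ∀ k (s : Fin (n + 1)),
        Integrable (fun z => P W n (fun q => M (Fin.insertNth s k q)) θ z ^ 2)
          (gibbs fun z => W z - ⟪θ, z⟫) := fun k s => integrable_sq_tilt hW (expB_P n _ θ) θ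
    have hi2 : ∀ k, Integrable
        (fun z => (∑ s : Fin (n + 1), P W n (fun q => M (Fin.insertNth s k q)) θ z) ^ 2)
          (gibbs fun z => W z - ⟪θ, z⟫) := fun k => integrable_sq_tilt hW (hsum k) θ
    have h := (isPot_tilt hW' θ).poincare hlo (contDiff_P (W := W) (n + 1) M θ)
      (integrable_sq_tilt hW hP θ) (by rw [hgrad]; exact integrable_finsetSum _ fun k _ => hi2 k)
    rw [mean_P hW, hgrad, integral_finsetSum _ fun k _ => hi2 k] at h
    simp only [ne_eq, OfNat.ofNat_ne_zero, not_false_eq_true, zero_pow, sub_zero] at h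
    refine h.trans ?_
    have hk : ∀ k, ∫ z, (∑ s : Fin (n + 1), P W n (fun q => M (Fin.insertNth s k q)) θ z) ^ 2
          ∂gibbs (fun z => W z - ⟪θ, z⟫) ≤
        (n + 1 : ℝ) * ∑ s : Fin (n + 1),
          ((n.factorial : ℝ) ^ 2 * (1 + lo)⁻¹ ^ n) * ∑ q, M (Fin.insertNth s k q) ^ 2 := fun k => by
      refine (integral_mono (hi2 k) ((integrable_finsetSum univ fun s _ => hi k s).const_mul
        (n + 1 : ℝ)) fun z => ?_).trans ?_
      · simpa using sq_sum_le_card_mul_sum_sq (s := univ)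
          (f := fun s : Fin (n + 1) => P W n (fun q => M (Fin.insertNth s k q)) θ z)
      · rw [integral_const_mul, integral_finsetSum _ fun s _ => hi k s]
        exact mul_le_mul_of_nonneg_left (sum_le_sum fun s _ => ih _) (by positivity)
    refine (mul_le_mul_of_nonneg_left (sum_le_sum fun k _ => hk k) hc).trans_eq ?_
    rw [← mul_sum, sum_comm]
    have e : ∀ s : Fin (n + 1), ∑ k, ((n.factorial : ℝ) ^ 2 * (1 + lo)⁻¹ ^ n) * ∑ q, M (Fin.insertNth s k q) ^ 2 =
        ((n.factorial : ℝ) ^ 2 * (1 + lo)⁻¹ ^ n) * ∑ p, M p ^ 2 := fun s => by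
      rw [← mul_sum]
      congr 1
      rw [← (Fin.insertNthEquiv (fun _ : Fin (n + 1) => Fin d) s).sum_comp (fun p => M p ^ 2),
        Fintype.sum_prod_type]
      rfl
    simp only [e, sum_const, card_univ, Fintype.card_fin, nsmul_eq_mul, Nat.factorial_succ]
    rw [pow_succ]
    push_cast
    ring

end Appell

open Appell

variable {d : ℕ} {W : Sp d → ℝ} {G : Sp d → Sp d} {H : Sp d → Sp d →L[ℝ] Sp d} {η : ℝ}

lemma tiltMean_eq (f : Sp d → ℝ) :
    tiltMean W f = fun θ => Zt W f θ * (Zt W (fun _ => 1) θ)⁻¹ :=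
  funext fun θ => by rw [tiltMean, integral_tilt, div_eq_mul_inv]

/-- Tilted means of functions of exponential growth are smooth. -/
theorem tiltMean_contDiff (hW : IsPot W G H 0 η) {f : Sp d → ℝ} (hf : Continuous f) {C K : ℝ}
    (hb : ∀ z, |f z| ≤ C * exp (K * ‖z‖)) : ContDiff ℝ ∞ (tiltMean W f) := by
  rw [tiltMean_eq]
  exact (contDiff_Zt_top hW ⟨hf, C, K, hb⟩).mul
    ((contDiff_Zt_top hW (expB_const 1)).inv fun θ => (Zt_one_pos hW θ).ne')

/-- **All derivatives of a tilted mean**, in Frobenius norm and independent of the dimension. -/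
theorem appell {lo : ℝ} (hW' : IsPot W G H lo η) (hlo : 0 ≤ lo) {f : Sp d → ℝ} (hf : ContDiff ℝ 1 f) {L : ℝ}
    (hL : ∀ z, ‖fderiv ℝ f z‖ ≤ L) (n : ℕ) (θ : Sp d) :
    ∑ p : Fin (n + 1) → Fin d,
        iteratedFDeriv ℝ (n + 1) (tiltMean W f) θ (fun i => EuclideanSpace.single (p i) 1) ^ 2 ≤
      (((n + 1).factorial : ℝ) * L) ^ 2 * (1 + lo)⁻¹ ^ (n + 2) := by
  have hW := IsPot.mono hW' hlo
  have hfe := expB_lip hf hL
  set u := fun θ => (Zt W (fun _ => 1) θ)⁻¹
  have hu : ContDiff ℝ ∞ u :=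
    (contDiff_Zt_top hW (expB_const 1)).inv fun θ => (Zt_one_pos hW θ).ne'
  have hprob := (isPot_tilt hW θ).isProb le_rfl
  set M : (Fin (n + 1) → Fin d) → ℝ := fun p =>
    iteratedFDeriv ℝ (n + 1) (tiltMean W f) θ (fun i => ei (p i)) with hMdef
  change ∑ p, M p ^ 2 ≤ _
  have hM : ∀ p, M p = Zt W (fun z => f z * R (n + 1) p u θ z) θ := fun p => by
    rw [hMdef]
    beta_reduce
    rw [tiltMean_eq, iteratedFDeriv_eq_dIter _ _ ((contDiff_Zt_top hW hfe).mul hu),
      dIter_Zt hW _ _ hfe hu]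
  set S := ∑ p, M p ^ 2
  set μ := gibbs fun z => W z - ⟪θ, z⟫
  have hS : S = ∫ z, f z * P W (n + 1) M θ z ∂μ := by
    have hK := (Zt_one_pos hW θ).ne'
    have hRi : ∀ p, Integrable (fun z => f z * R (n + 1) p u θ z) μ := fun p =>
      integrable_tilt hW (hfe.mul (expB_R _ _ _ _)) θ
    have e : (fun z => f z * P W (n + 1) M θ z) = fun z =>
        ∑ p, (Zt W (fun _ => 1) θ * M p) * (f z * R (n + 1) p u θ z) := funext fun z => by
      simp only [P, mul_sum, u]
      exact sum_congr rfl fun p _ => by ring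
    rw [e, integral_finsetSum _ fun p _ => (hRi p).const_mul _]
    refine sum_congr rfl fun p _ => ?_
    rw [integral_const_mul, integral_tilt, ← hM p]
    field_simp
  set m := ∫ z, f z ∂μ
  have hfi : Integrable f μ := integrable_tilt hW hfe θ
  have hPi : Integrable (P W (n + 1) M θ) μ := integrable_tilt hW (expB_P _ _ _) θ
  have hfm : ExpB fun z => f z + -m := hfe.add (expB_const _)
  have hS2 : S = ∫ z, (f z + -m) * P W (n + 1) M θ z ∂μ := by
    simp only [add_mul]
    rw [integral_add (integrable_tilt hW (hfe.mul (expB_P _ _ _)) θ) (hPi.const_mul _),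
      integral_const_mul, mean_P hW, mul_zero, add_zero]
    exact hS
  have hvar : ∫ z, (f z + -m) ^ 2 ∂μ ≤ (1 + lo)⁻¹ * L ^ 2 := by
    have hp := (gibbs_poincare (isPot_tilt hW' θ) hlo hf (A := L) (B := 0)
      (fun z => by simpa using hL z)).2
    simp only [← sub_eq_add_neg]
    refine hp.trans (mul_le_mul_of_nonneg_left ?_ (by positivity))
    refine ((le_abs_self _).trans ((norm_integral_le_of_norm_le_const (μ := μ) (C := L ^ 2)
      (f := fun z => ‖fderiv ℝ f z‖ ^ 2) (ae_of_all _ fun z => ?_)).trans_eq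
        (by rw [probReal_univ, mul_one])))
    rw [Real.norm_eq_abs, abs_of_nonneg (sq_nonneg _)]
    exact pow_le_pow_left₀ (norm_nonneg _) (hL z) 2
  have hP2 := norm_P hW' hlo θ (n + 1) M
  -- Cauchy–Schwarz through the discriminant
  have key : ∀ t : ℝ, 0 ≤ (1 + lo)⁻¹ * L ^ 2 * (t * t) + 2 * S * t +
      ((n + 1).factorial : ℝ) ^ 2 * (1 + lo)⁻¹ ^ (n + 1) * S := fun t => by
    have hi1 : Integrable (fun z => (f z + -m) ^ 2) μ := integrable_sq_tilt hW hfm θ
    have hi3 : Integrable (fun z => P W (n + 1) M θ z ^ 2) μ :=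
      integrable_sq_tilt hW (expB_P _ _ _) θ
    have hi2 : Integrable (fun z => (f z + -m) * P W (n + 1) M θ z) μ :=
      integrable_tilt hW (hfm.mul (expB_P _ _ _)) θ
    have h0 : 0 ≤ ∫ z, (t * (f z + -m) + P W (n + 1) M θ z) ^ 2 ∂μ :=
      integral_nonneg fun z => sq_nonneg _
    have e : (fun z => (t * (f z + -m) + P W (n + 1) M θ z) ^ 2) = fun z =>
        (t * t * (f z + -m) ^ 2 + 2 * t * ((f z + -m) * P W (n + 1) M θ z)) +
          P W (n + 1) M θ z ^ 2 := funext fun z => by ring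
    have i12 : Integrable (fun z => t * t * (f z + -m) ^ 2 +
        2 * t * ((f z + -m) * P W (n + 1) M θ z)) μ := (hi1.const_mul _).add (hi2.const_mul _)
    rw [e, integral_add i12 hi3, integral_add (hi1.const_mul _) (hi2.const_mul _),
      integral_const_mul, integral_const_mul, ← hS2] at h0
    nlinarith [mul_le_mul_of_nonneg_left hvar (mul_self_nonneg t)]
  have hd := discrim_le_zero key
  rw [discrim] at hd
  have hS0 : 0 ≤ S := sum_nonneg fun p _ => sq_nonneg _
  rcases hS0.eq_or_lt with h | h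
  · rw [← h]; positivity
  · rw [pow_succ _ (n + 1)]; nlinarith [h]

end Vale.Agent.P347.Shift
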