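import Vale.Agent.P347.Shift.Spec

/-!
# P347: the two halves of the emission of expressions

`PtDepth` is `PtSpec` at one nesting depth. `NodeSpec` emits one smoothed box at a centre known
through an emitter. `MeanSpec` emits one mean when expressions of the depth of its body are emitted.
-/

open MeasureTheory ProbabilityTheory Real
open scoped RealInnerProductSpace ENNReal

namespace Vale.Agent.P347.Shift

open Quarter

/-- Expressions satisfying `P` are emitted to order `n`. -/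
def PtOn (K n : ℕ) (P : ∀ {κ : Type} {J v : ℕ}, Expr κ J v → Prop) : Prop :=
  ∀ B : ℝ, ∃ (B' : ℝ) (A : ℕ), ∀ θ : ℝ, 0 < θ → ∀ Cb : ℝ, 0 ≤ Cb → ∃ C η₀ : ℝ,
    0 < η₀ ∧ ∀ (d J v : ℕ) (κ α : Type) [MeasurableSpace α] (η L b : ℝ) (Nb : ℕ) (sc : κ → ℝ)
      (𝒱 : κ → (Sp d → Sp d) → Sp d → Sp d) (e : Expr κ J v) (kap : Fin J → ℝ)
      (X : α → Fin v → Sp d) (q : Fin J → Emitter d α),
      1 ≤ d → 0 < η → η ≤ η₀ → 0 ≤ L → L ≤ 4 * η → 0 < b → 1 ≤ Nb →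
      (∀ k, 0 ≤ sc k) → (∀ j, 0 < kap j) → Measurable X → P e →
      e.Good η L sc B (B * η ^ (-pA K)) (pW K n) → e.Fill kap →
      e.sm L sc * η ^ (-pW K n) ≤ B * b →
      (∀ k, ∀ m ≤ n, IsBox d K η L (sc k) m B' Cb Nb (𝒱 k)) →
      ∃ p : Emitter d α,
        (p.cost : ℝ) ≤ C * η ^ (-θ) * (e.size : ℝ) ^ A * ((Nb : ℝ) + 1 + ∑ j, (q j).cost) ∧
        ∀ G, Adm η G → ∀ (c : α → Fin J → Sp d) (ec : Fin J → α → ℝ),
          (∀ j a, 0 ≤ ec j a) → (∀ j, Measurable fun a => c a j) →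
          (∀ j, Emits (q j) G (fun a => c a j) (kap j) (ec j)) →
          Emits p G (fun a => e.eval (fun k => 𝒱 k G) (c a) (X a)) b fun a =>
            C * e.sm L sc *
              (η ^ ((n : ℝ) * pE K) * (√d + e.cen (fun k => 𝒱 k G) (c a) (X a)) +
                ∑ j, ec j a / kap j)

/-- Emission of the expressions of depth at most `D`. -/
def PtDepth (K n D : ℕ) : Prop := PtOn K n fun {_ _ _} e => e.depth ≤ D

lemma ptSpec_iff (K n : ℕ) : PtSpec K n ↔ ∀ D, PtDepth K n D := Iff.rfl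

/-- A smoothed box at a centre known at half of the smoothing. -/
def NodeSpec (K n : ℕ) : Prop :=
  ∀ B : ℝ, ∃ B' : ℝ, ∀ θ : ℝ, 0 < θ → ∀ Cb : ℝ, 0 ≤ Cb → ∃ C η₀ : ℝ,
    0 < η₀ ∧ ∀ (d : ℕ) (α : Type) [MeasurableSpace α] (η L b σ S : ℝ) (Nb : ℕ)
      (𝒱 : (Sp d → Sp d) → Sp d → Sp d) (q : Emitter d α),
      1 ≤ d → 0 < η → η ≤ η₀ → 0 ≤ L → L ≤ 4 * η → 0 < b → 1 ≤ Nb →
      0 < σ → σ ≤ B * S → 0 ≤ S → S ≤ B → L * S * η ^ (-pW K n) ≤ B * b →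
      (∀ m ≤ n, IsBox d K η L S m B' Cb Nb 𝒱) →
      ∃ p : Emitter d α, (p.cost : ℝ) ≤ C * η ^ (-θ) * ((Nb : ℝ) + 1 + q.cost) ∧
        ∀ G, Adm η G → ∀ (Φ : α → Sp d) (ec : α → ℝ), Measurable Φ → (∀ a, 0 ≤ ec a) →
          Emits q G Φ (σ / 2) ec →
          Emits p G (fun a => smth 1 σ (𝒱 G) (Φ a)) b fun a =>
            C * (L * S * (η ^ ((n : ℝ) * pE K) * (√d + ‖Φ a‖)) + L * ec a)

/-- A mean, given the emission of the expressions of the depth of its body. -/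
def MeanSpec (K n : ℕ) : Prop :=
  ∀ D, PtDepth K n D → PtOn K n fun {_ J _} e =>
    ∃ (C : Fin J → ℝ) (e₀ : _), e = Expr.mean C e₀ ∧ e₀.depth ≤ D

end Vale.Agent.P347.Shift
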