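import Vale.Agent.P347.Shift.SpecGlue
import Vale.Agent.P347.Shift.PtParts

/-!
# P347: the two inductions

Emission of expressions by induction on the order, then the tilted velocity as a box of every order,
give the whitened step of every order.
-/

namespace Vale.Agent.P347.Shift

variable {K : ℕ}

/-- Emission at every order up to the top, from its crude case and its inductive step. -/
theorem ptSpec_of_step (h0 : PtSpec K 0)
    (hs : ∀ n, 0 < n → n ≤ pTop K → (∀ m < n, PtSpec K m) → PtSpec K n) :
    ∀ n, n ≤ pTop K → PtSpec K n := by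
  intro n
  induction n using Nat.strong_induction_on with
  | _ n ih =>
    intro hn
    rcases Nat.eq_zero_or_pos n with rfl | hpos
    · exact h0
    · exact hs n hpos hn fun m hm => ih m hm (by omega)

/-- The tilted velocity is a box of every order up to the top. -/
theorem tiltBox_of_step (h0 : TiltBox K 0) (hp : ∀ n, n ≤ pTop K → PtSpec K n)
    (hs : ∀ m, 0 < m → m ≤ pTop K → PtSpec K m → (∀ i < m, TiltBox K i) → TiltBox K m) :
    ∀ m, m ≤ pTop K → TiltBox K m := by
  intro m
  induction m using Nat.strong_induction_on with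
  | _ m ih =>
    intro hm
    rcases Nat.eq_zero_or_pos m with rfl | hpos
    · exact h0
    · exact hs m hpos hm (hp m hm) fun i hi => ih i hi (by omega)

/-- The whitened step of order `K`, from the pieces. -/
theorem whiteSpec_of_steps (hp0 : PtSpec K 0)
    (hps : ∀ n, 0 < n → n ≤ pTop K → (∀ m < n, PtSpec K m) → PtSpec K n) (hb0 : TiltBox K 0)
    (hbs : ∀ m, 0 < m → m ≤ pTop K → PtSpec K m → (∀ i < m, TiltBox K i) → TiltBox K m)
    (hw : (∀ n, n ≤ pTop K → PtSpec K n) → (∀ n, n ≤ pTop K → TiltBox K n) → WhiteSpec K) :
    WhiteSpec K :=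
  have hp := ptSpec_of_step hp0 hps
  hw hp (tiltBox_of_step hb0 hp hbs)

end Vale.Agent.P347.Shift
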