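import Vale.Agent.P347.Shift.Diverg

/-!
# P347: Bessel's inequality for derivatives of Gaussian smoothings

`dpow i c` is the `i`-fold divergence of the constant tensor `c`.  Its squared `L²` norm is at most
`i! |c|²`, so the derivatives of order `i` of `x ↦ ∫ h (a x + b w)` have squared Frobenius norm at
most `i! (a/b)^(2i) ∫ h (a x + b w)²`, in every dimension.
-/

open MeasureTheory ProbabilityTheory Real Finset
open scoped RealInnerProductSpace ContDiff

namespace Vale.Agent.P347.Shift

open Quarter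

variable {ι : Type} [Fintype ι] [DecidableEq ι] {κ : Type} [Fintype κ]

/-- The iterated divergence of a constant tensor. -/
noncomputable def dpow : (i : ℕ) → ((Fin i → ι) → ℝ) → Eu ι → ℝ
  | 0, c => fun _ => c Fin.elim0
  | i + 1, c => delta fun k => dpow i fun β => c (Fin.cons k β)

lemma tg_dpow : ∀ (i : ℕ) (c : (Fin i → ι) → ℝ), (dpow i c).HasTemperateGrowth
  | 0, _ => Function.HasTemperateGrowth.const _
  | i + 1, _ => tg_delta fun _ => tg_dpow i _

omit [DecidableEq ι] in
lemma sum_fin_cons {i : ℕ} (F : (Fin (i + 1) → ι) → ℝ) :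
    ∑ α, F α = ∑ k, ∑ β : Fin i → ι, F (Fin.cons k β) := by
  rw [← (Fin.consEquiv fun _ => ι).sum_comp, Fintype.sum_prod_type]
  rfl

lemma pd_const (r : ℝ) (k : ι) : pd k (fun _ : Eu ι => r) = fun _ => 0 := by
  funext x; simp [pd]

lemma dsq_zero_fun : ∀ j : ℕ, dsq j (fun _ : Eu ι => (0 : ℝ)) = 0
  | 0 => by simp [dsq]
  | j + 1 => by simp [dsq, pd_const, dsq_zero_fun j]

/-- The derivatives of the iterated divergence of a family of constant tensors. -/
theorem DS_dpow_le : ∀ (i j : ℕ) {κ : Type} [Fintype κ] (c : κ → (Fin i → ι) → ℝ),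
    DS j (fun a => dpow i (c a)) ≤
      ((i.factorial * i.descFactorial j : ℕ) : ℝ) * ∑ a, ∑ α, c a α ^ 2
  | 0, 0, κ, _, c => by simp [DS, dsq, dpow, Subsingleton.elim (default : Fin 0 → ι) Fin.elim0]
  | 0, j + 1, κ, _, c => by simp [DS, dsq, dpow, pd_const, dsq_zero_fun]
  | i + 1, j, κ, _, c => by
    set e : κ × ι → (Fin i → ι) → ℝ := fun p β => c p.1 (Fin.cons p.2 β)
    set S := ∑ a, ∑ α, c a α ^ 2 with hS'
    have hS : 0 ≤ S := sum_nonneg fun _ _ => sum_nonneg fun _ _ => sq_nonneg _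
    have he : ∑ p, ∑ β, e p β ^ 2 = S := by
      rw [hS', Fintype.sum_prod_type]
      exact sum_congr rfl fun a _ => (sum_fin_cons fun α => c a α ^ 2).symm
    have ih : ∀ m, DS m (fun p => dpow i (e p)) ≤
        ((i.factorial * i.descFactorial m : ℕ) : ℝ) * S := fun m => he ▸ DS_dpow_le i m e
    have h := Dn_delta_le_sqrt j (U := fun a k => dpow i fun β => c a (Fin.cons k β))
      fun a k => tg_dpow i _
    change Dn j (fun a => dpow (i + 1) (c a)) ≤ √(DS j (fun p => dpow i (e p)) +
      DS (j + 1) (fun p => dpow i (e p))) + j * √(DS (j - 1) fun p => dpow i (e p)) at h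
    rw [← Dn_sq]
    suffices hb : Dn j (fun a => dpow (i + 1) (c a)) ≤
        √((((i + 1).factorial * (i + 1).descFactorial j : ℕ) : ℝ) * S) by
      exact (pow_le_pow_left₀ (Dn_nonneg _ _) hb 2).trans_eq (sq_sqrt (by positivity))
    refine h.trans (le_trans (add_le_add (sqrt_le_sqrt (add_le_add (ih j) (ih (j + 1))))
      (mul_le_mul_of_nonneg_left (sqrt_le_sqrt (ih (j - 1))) j.cast_nonneg)) ?_)
    rcases j with _ | m
    · simp only [Nat.descFactorial_zero, zero_add, Nat.descFactorial_one, mul_one, Nat.cast_zero,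
        zero_mul, add_zero, Nat.factorial_succ]
      refine le_of_eq (congrArg _ ?_)
      push_cast
      ring
    · simp only [Nat.add_sub_cancel]
      set D : ℝ := ((i.factorial * i.descFactorial m : ℕ) : ℝ) * S
      have hn : i.descFactorial (m + 1) + i.descFactorial (m + 1 + 1) =
          (i - m) ^ 2 * i.descFactorial m := by
        rw [Nat.descFactorial_succ i (m + 1), Nat.descFactorial_succ i m]
        rcases Nat.lt_or_ge m i with hm | hm
        · obtain ⟨t, rfl⟩ : ∃ t, i = m + 1 + t := ⟨i - m - 1, by omega⟩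
          rw [Nat.add_sub_cancel_left, show m + 1 + t - m = t + 1 by omega]
          ring
        · simp [Nat.sub_eq_zero_of_le hm]
      have e1 : ((i.factorial * i.descFactorial (m + 1) : ℕ) : ℝ) * S +
          ((i.factorial * i.descFactorial (m + 1 + 1) : ℕ) : ℝ) * S =
            ((i - m : ℕ) : ℝ) ^ 2 * D := by
        simp only [D]
        rw [← add_mul, ← Nat.cast_add, ← Nat.mul_add, hn]
        push_cast
        ring
      have e2 : (((i + 1).factorial * (i + 1).descFactorial (m + 1) : ℕ) : ℝ) * S =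
          ((i + 1 : ℕ) : ℝ) ^ 2 * D := by
        rw [Nat.factorial_succ, Nat.succ_descFactorial_succ]
        simp only [D]
        push_cast
        ring
      rw [e1, e2, sqrt_mul (sq_nonneg _), sqrt_mul (sq_nonneg _), sqrt_sq (Nat.cast_nonneg _),
        sqrt_sq (Nat.cast_nonneg _), ← add_mul]
      rcases Nat.lt_or_ge i m with hm | hm
      · simp [D, Nat.descFactorial_eq_zero_iff_lt.2 hm]
      · refine le_of_eq (congrArg (· * √D) ?_)
        rw [Nat.cast_sub hm]
        push_cast
        ring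

/-- The squared norm of an iterated divergence. -/
theorem integral_dpow_sq_le (i : ℕ) (c : (Fin i → ι) → ℝ) :
    ∫ x, dpow i c x ^ 2 ∂gam ι ≤ i.factorial * ∑ α, c α ^ 2 := by
  simpa [DS, dsq] using DS_dpow_le i 0 (κ := Unit) fun _ => c

/-- The iterated partial derivative; the first index is taken last. -/
noncomputable def pdi : (i : ℕ) → (Fin i → ι) → (Eu ι → ℝ) → Eu ι → ℝ
  | 0, _, f => f
  | i + 1, α, f => pd (α 0) (pdi i (fun l => α l.succ) f)

lemma pdi_cons (i : ℕ) (k : ι) (β : Fin i → ι) (f : Eu ι → ℝ) :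
    pdi (i + 1) (Fin.cons k β) f = pd k (pdi i β f) := by simp [pdi]

lemma tg_pdi : ∀ (i : ℕ) (α : Fin i → ι) {f : Eu ι → ℝ},
    f.HasTemperateGrowth → (pdi i α f).HasTemperateGrowth
  | 0, _, _, hf => hf
  | i + 1, _, _, hf => tg_pd _ (tg_pdi i _ hf)

lemma pdi_pd : ∀ (i : ℕ) (α : Fin i → ι) {f : Eu ι → ℝ} (_ : f.HasTemperateGrowth) (k : ι),
    pd k (pdi i α f) = pdi i α (pd k f)
  | 0, _, _, _, _ => rfl
  | i + 1, α, f, hf, k => by
    simp only [pdi]
    rw [pd_comm (tg_pdi i _ hf) (α 0) k, pdi_pd i _ hf k]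

/-- The seminorms as sums over index tuples. -/
theorem dsq_eq_sum : ∀ (i : ℕ) {f : Eu ι → ℝ}, f.HasTemperateGrowth →
    dsq i f = ∑ α, ∫ x, pdi i α f x ^ 2 ∂gam ι
  | 0, f, _ => by simp [dsq, pdi]
  | i + 1, f, hf => by
    simp only [dsq]
    rw [sum_fin_cons]
    refine sum_congr rfl fun k _ => ?_
    rw [dsq_eq_sum i (tg_pd k hf)]
    simp only [pdi_cons, pdi_pd i _ hf k]

/-- The adjoint of the iterated derivative. -/
theorem integral_dpow_mul : ∀ (i : ℕ) (c : (Fin i → ι) → ℝ) {f : Eu ι → ℝ},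
    f.HasTemperateGrowth →
    ∫ x, dpow i c x * f x ∂gam ι = ∑ α, c α * ∫ x, pdi i α f x ∂gam ι
  | 0, c, f, _ => by
    simp [dpow, pdi, integral_const_mul, Subsingleton.elim (default : Fin 0 → ι) Fin.elim0]
  | i + 1, c, f, hf => by
    rw [dpow, integral_delta_mul (fun _ => tg_dpow i _) hf, sum_fin_cons]
    refine sum_congr rfl fun k _ => ?_
    rw [integral_dpow_mul i _ (tg_pd k hf)]
    simp only [pdi_cons, pdi_pd i _ hf k]

/-- The abstract form of Bessel's inequality. -/
theorem bessel_of_repr {i : ℕ} {T : (Fin i → ι) → ℝ} {g : Eu ι → ℝ} {r : ℝ}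
    (hg : AEStronglyMeasurable g (gam ι)) (hg2 : Integrable (fun x => g x ^ 2) (gam ι))
    (hT : ∑ α, T α ^ 2 = r * ∫ x, g x * dpow i T x ∂gam ι) :
    ∑ α, T α ^ 2 ≤ r ^ 2 * i.factorial * ∫ x, g x ^ 2 ∂gam ι := by
  have hd := tg_dpow i T
  have hd2 := tg_integrable (hd.fun_pow 2)
  have hi : Integrable (fun x => g x * dpow i T x) (gam ι) := by
    refine ((hg2.add hd2).div_const 2).mono' (hg.mul hd.1.continuous.aestronglyMeasurable)
      (ae_of_all _ fun x => ?_)
    simp only [Pi.add_apply, norm_eq_abs, abs_mul]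
    nlinarith [sq_nonneg (|g x| - |dpow i T x|), sq_abs (g x), sq_abs (dpow i T x)]
  set F : ℝ := (i.factorial : ℝ)
  have hF : 0 < F := by simp only [F]; exact_mod_cast i.factorial_pos
  have h0 : 0 ≤ ∫ x, (r * F * g x - dpow i T x) ^ 2 ∂gam ι := integral_nonneg fun _ => sq_nonneg _
  have e : (fun x => (r * F * g x - dpow i T x) ^ 2) = fun x =>
      (r * F) ^ 2 * g x ^ 2 - 2 * F * (r * (g x * dpow i T x)) + dpow i T x ^ 2 :=
    funext fun x => by ring
  have iA := hg2.const_mul ((r * F) ^ 2)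
  have iB := (hi.const_mul r).const_mul (2 * F)
  have iAB : Integrable
      (fun x => (r * F) ^ 2 * g x ^ 2 - 2 * F * (r * (g x * dpow i T x))) (gam ι) := iA.sub iB
  rw [e, integral_add iAB hd2, integral_sub iA iB, integral_const_mul, integral_const_mul,
    integral_const_mul, ← hT] at h0
  have h1 := integral_dpow_sq_le i T
  nlinarith

/-- Bessel's inequality for the Gaussian law. -/
theorem bessel (i : ℕ) {f : Eu ι → ℝ} (hf : f.HasTemperateGrowth) :
    ∑ α, (∫ x, pdi i α f x ∂gam ι) ^ 2 ≤ i.factorial * ∫ x, f x ^ 2 ∂gam ι := by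
  simpa using bessel_of_repr (r := 1) hf.1.continuous.aestronglyMeasurable
    (tg_integrable (hf.fun_pow 2)) (i := i) (T := fun α => ∫ x, pdi i α f x ∂gam ι) (by
      rw [one_mul]
      simp only [mul_comm (f _)]
      rw [integral_dpow_mul i _ hf]
      simp [sq])

/-- The smoothing of `h` against the kernel `P`. -/
noncomputable def smo (a b : ℝ) (h P : Eu ι → ℝ) (x : Eu ι) : ℝ :=
  ∫ w, h (a • x + b • w) * P w ∂gam ι

/-- The kernel of one derivative. -/
noncomputable def kap (k : ι) (P : Eu ι → ℝ) : Eu ι → ℝ := fun w => w k * P w - pd k P w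

omit [DecidableEq ι] in
lemma smo_one {d : ℕ} (a b : ℝ) (h : Sp d → ℝ) : smo a b h (fun _ => 1) = smth a b h := by
  funext x; simp [smo, smth]

lemma tg_kap (k : ι) {P : Eu ι → ℝ} (hP : P.HasTemperateGrowth) :
    (kap k P).HasTemperateGrowth :=
  ((tg_coord k).fun_mul hP).fun_sub (tg_pd k hP)

lemma delta_eq_sum_kap (U : ι → Eu ι → ℝ) : delta U = fun w => ∑ k, kap k (U k) w := rfl

section Smoothing

variable {h : Eu ι → ℝ} {C : ℝ} {a b : ℝ}

omit [DecidableEq ι] in
lemma integrable_smo_kernel (hc : Continuous h) (hC : ∀ y, |h y| ≤ C) {P : Eu ι → ℝ}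
    (hP : P.HasTemperateGrowth) (x : Eu ι) :
    Integrable (fun w => h (a • x + b • w) * P w) (gam ι) :=
  (tg_integrable hP).bdd_mul (hc.comp (by fun_prop)).aestronglyMeasurable
    (ae_of_all _ fun w => hC _)

omit [DecidableEq ι] in
/-- The derivative of a smoothing, as a functional. -/
theorem hasFDerivAt_smo (hc : Continuous h) (hC : ∀ y, |h y| ≤ C) (hb : b ≠ 0)
    {P : Eu ι → ℝ} (hP : P.HasTemperateGrowth) (x : Eu ι) :
    HasFDerivAt (smo a b h P)
      ((a / b) • ∫ u, h (a • x + b • u) • (P u • innerSL ℝ u - fderiv ℝ P u) ∂gam ι) x := by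
  obtain ⟨D, K, hD⟩ := tg_bound hP
  have hD0 : 0 ≤ D := by
    have := (abs_nonneg _).trans (hD 0).1
    simpa using this
  have hC0 : 0 ≤ C := (abs_nonneg _).trans (hC 0)
  set g : Eu ι → ℝ := fun u => h (a • x + b • u)
  have hgc : Continuous g := hc.comp (by fun_prop)
  have hPc := hP.1.continuous
  have hPd : Continuous (fderiv ℝ P) := hP.1.continuous_fderiv (by simp)
  set E : Eu ι → Eu ι → ℝ := fun m u => exp (⟪m, u⟫ - ‖m‖ ^ 2 / 2)
  set F : Eu ι → Eu ι → ℝ := fun m u => g u * (P (u - m) * E m u)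
  set F' : Eu ι → Eu ι → Eu ι →L[ℝ] ℝ := fun m u =>
    g u • (P (u - m) • (E m u • (innerSL ℝ u - innerSL ℝ m)) + E m u • -fderiv ℝ P (u - m))
  have hE : ∀ m u, HasFDerivAt (fun m => E m u) (E m u • (innerSL ℝ u - innerSL ℝ m)) m := by
    intro m u
    have h1 := ((innerSL ℝ u).hasFDerivAt (x := m)).sub
      ((hasStrictFDerivAt_norm_sq m).hasFDerivAt.const_mul (1 / 2 : ℝ))
    refine (h1.exp.congr_of_eventuallyEq (Filter.Eventually.of_forall fun z => ?_)).congr_fderiv ?_
    · simp only [E, Pi.sub_apply, innerSL_apply_apply, real_inner_comm z u]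
      ring_nf
    · simp only [E, Pi.sub_apply, innerSL_apply_apply, real_inner_comm m u]
      ext v
      simp
      left
      ring
  have hd : ∀ m u, HasFDerivAt (fun m => F m u) (F' m u) m := by
    intro m u
    have h1 : HasFDerivAt (fun m => P (u - m)) (-fderiv ℝ P (u - m)) m := by
      have := (tg_differentiable hP (u - m)).hasFDerivAt.comp m ((hasFDerivAt_id m).const_sub u)
      simpa [Function.comp_def] using this
    exact ((h1.mul (hE m u)).const_mul (g u))
  have hcF : ∀ m, Continuous (F m) := fun m => by simp only [F, E]; fun_prop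
  have hcF' : Continuous (F' 0) := by
    simp only [F', E]
    fun_prop
  have hb1 : ∀ u, ∀ m ∈ Metric.ball (0 : Eu ι) 1,
      ‖F' m u‖ ≤ C * (2 * D * exp |K|) * exp ((|K| + 2) * ‖u‖) := by
    intro u m hm
    rw [Metric.mem_ball, dist_zero_right] at hm
    have hmu : ‖u - m‖ ≤ ‖u‖ + 1 := (norm_sub_le _ _).trans (by linarith)
    have he : D * exp (K * ‖u - m‖) ≤ D * exp |K| * exp (|K| * ‖u‖) := by
      rw [mul_assoc, ← exp_add]
      refine mul_le_mul_of_nonneg_left (exp_le_exp.2 ?_) hD0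
      nlinarith [mul_le_mul_of_nonneg_left hmu (abs_nonneg K), le_abs_self K,
        mul_le_mul_of_nonneg_right (le_abs_self K) (norm_nonneg (u - m))]
    have h1 := (hD (u - m)).1.trans he
    have h2 := (hD (u - m)).2.trans he
    have h3 : E m u ≤ exp ‖u‖ := exp_le_exp.2 (by
      nlinarith [real_inner_le_norm m u, sq_nonneg ‖m‖,
        mul_le_mul_of_nonneg_right hm.le (norm_nonneg u)])
    have hE0 : 0 ≤ E m u := (exp_pos _).le
    have h4 : ‖innerSL ℝ u - innerSL ℝ m‖ ≤ exp ‖u‖ := by
      rw [← map_sub, innerSL_apply_norm]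
      exact (norm_sub_le _ _).trans (by linarith [add_one_le_exp ‖u‖])
    have h5 : 1 ≤ exp ‖u‖ := one_le_exp (norm_nonneg u)
    set A := D * exp |K| * exp (|K| * ‖u‖)
    have hA : 0 ≤ A := by positivity
    calc ‖F' m u‖ ≤ C * (|P (u - m)| * (E m u * ‖innerSL ℝ u - innerSL ℝ m‖) +
          E m u * ‖fderiv ℝ P (u - m)‖) := by
          simp only [F']
          rw [norm_smul, norm_eq_abs]
          refine mul_le_mul (hC _) ((norm_add_le _ _).trans (le_of_eq ?_)) (norm_nonneg _) hC0
          rw [norm_smul, norm_smul, norm_smul, norm_neg, norm_eq_abs, norm_eq_abs, abs_of_nonneg hE0]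
      _ ≤ C * (A * (exp ‖u‖ * exp ‖u‖) + exp ‖u‖ * A) := by gcongr
      _ ≤ C * (2 * A * (exp ‖u‖ * exp ‖u‖)) := by
          gcongr
          nlinarith [mul_le_mul_of_nonneg_left h5 (mul_nonneg hA (exp_pos ‖u‖).le)]
      _ = C * (2 * D * exp |K|) * exp ((|K| + 2) * ‖u‖) := by
          simp only [A]
          rw [add_mul, exp_add, show (2 : ℝ) * ‖u‖ = ‖u‖ + ‖u‖ by ring, exp_add]
          ring
  have hi0 : Integrable (F 0) (gam ι) := by
    have := integrable_smo_kernel (a := a) (b := b) hc hC hP x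
    refine this.congr (ae_of_all _ fun u => ?_)
    simp [F, E, g]
  have hm0 := hasFDerivAt_integral_of_dominated_of_fderiv_le (μ := gam ι) (x₀ := (0 : Eu ι))
    (s := Metric.ball 0 1) (F := F) (F' := F')
    (bound := fun u => C * (2 * D * exp |K|) * exp ((|K| + 2) * ‖u‖))
    (Metric.ball_mem_nhds _ one_pos)
    (Filter.Eventually.of_forall fun m => (hcF m).aestronglyMeasurable) hi0
    hcF'.aestronglyMeasurable (ae_of_all _ hb1)
    ((integrable_exp_norm_gam _).const_mul _) (ae_of_all _ fun u m _ => hd m u)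
  have hlin : HasFDerivAt (fun y : Eu ι => (a / b) • (y - x))
      ((a / b) • ContinuousLinearMap.id ℝ (Eu ι)) x :=
    ((hasFDerivAt_id x).sub_const x).const_smul (a / b)
  have hz : (a / b) • (x - x) = (0 : Eu ι) := by simp
  rw [← hz] at hm0
  refine ((hm0.comp x hlin).congr_of_eventuallyEq
    (Filter.Eventually.of_forall fun y => ?_)).congr_fderiv ?_
  · set m := (a / b) • (y - x) with hm'
    have e : ∀ w : Eu ι, a • y + b • w = a • x + b • (w + m) := fun w => by
      rw [hm', smul_add, smul_smul, mul_div_cancel₀ a hb, smul_sub]; abel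
    have hh : Continuous fun u : Eu ι => g u * P (u - m) :=
      hgc.mul (hPc.comp (by fun_prop))
    have := integral_map (μ := gam ι) (φ := fun w => w + m)
      (f := fun u => g u * P (u - m)) (by fun_prop) hh.aestronglyMeasurable
    rw [gauss_translate, integral_tilted, (integral_exp_inner m).2] at this
    simp only [add_sub_cancel_right] at this
    show smo a b h P y = ∫ u, F m u ∂gam ι
    simp only [smo, e]
    rw [← this]
    refine integral_congr_ae (ae_of_all _ fun u => ?_)
    simp only [F, E, smul_eq_mul, exp_sub]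
    ring
  · rw [ContinuousLinearMap.comp_smul, ContinuousLinearMap.comp_id]
    congr 1
    refine integral_congr_ae (ae_of_all _ fun u => ?_)
    simp [F', E, g, sub_eq_add_neg]

lemma pd_smo (hc : Continuous h) (hC : ∀ y, |h y| ≤ C) (hb : b ≠ 0) {P : Eu ι → ℝ}
    (hP : P.HasTemperateGrowth) (k : ι) (x : Eu ι) :
    pd k (smo a b h P) x = a / b * smo a b h (kap k P) x := by
  obtain ⟨D, K, hD⟩ := tg_bound hP
  have hi : Integrable (fun u => h (a • x + b • u) • (P u • innerSL ℝ u - fderiv ℝ P u)) (gam ι) := by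
    refine Integrable.bdd_smul (φ := fun u => h (a • x + b • u)) ?_ C
      (hc.comp (by fun_prop)).aestronglyMeasurable
      (ae_of_all _ fun u => hC _)
    refine integrable_gam_of_le (C := 2 * D) (K := |K| + 1)
      ((hP.1.continuous.smul (innerSL ℝ (E := Eu ι)).continuous).sub
        (hP.1.continuous_fderiv (by simp))) fun u => ?_
    have h1 := (hD u).1
    have h2 := (hD u).2
    have e1 : D * exp (K * ‖u‖) * exp ‖u‖ ≤ D * exp ((|K| + 1) * ‖u‖) := by
      have hD0 : 0 ≤ D := by simpa using (abs_nonneg _).trans (hD 0).1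
      rw [mul_assoc, ← exp_add]
      refine mul_le_mul_of_nonneg_left (exp_le_exp.2 ?_) hD0
      nlinarith [le_abs_self K, norm_nonneg u]
    have h5 : 1 ≤ exp ‖u‖ := one_le_exp (norm_nonneg u)
    have hA : 0 ≤ D * exp (K * ‖u‖) := (abs_nonneg _).trans h1
    calc ‖P u • innerSL ℝ u - fderiv ℝ P u‖ ≤ |P u| * ‖u‖ + ‖fderiv ℝ P u‖ := by
          refine (norm_sub_le _ _).trans (le_of_eq ?_)
          rw [norm_smul, innerSL_apply_norm, norm_eq_abs]
      _ ≤ D * exp (K * ‖u‖) * exp ‖u‖ + D * exp (K * ‖u‖) * exp ‖u‖ := by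
          refine add_le_add (mul_le_mul h1 ?_ (norm_nonneg _) hA)
            (h2.trans (le_mul_of_one_le_right hA h5))
          linarith [add_one_le_exp ‖u‖]
      _ ≤ 2 * D * exp ((|K| + 1) * ‖u‖) := by linarith
  unfold pd
  rw [(hasFDerivAt_smo hc hC hb hP x).fderiv, smul_apply, ContinuousLinearMap.integral_apply hi,
    smul_eq_mul]
  congr 1
  refine integral_congr_ae (ae_of_all _ fun u => ?_)
  simp [kap, pd, ei, EuclideanSpace.inner_single_right, mul_comm]

omit [DecidableEq ι] in
lemma abs_smo_le (hc : Continuous h) (hC : ∀ y, |h y| ≤ C) {P : Eu ι → ℝ}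
    (hP : P.HasTemperateGrowth) (x : Eu ι) :
    |smo a b h P x| ≤ C * ∫ w, |P w| ∂gam ι := by
  rw [← integral_const_mul]
  refine abs_integral_le_integral_abs.trans (integral_mono
    (integrable_smo_kernel hc hC hP x).abs ((tg_integrable hP).abs.const_mul C) fun w => ?_)
  rw [abs_mul]
  exact mul_le_mul_of_nonneg_right (hC _) (abs_nonneg _)

lemma contDiff_smo_aux (hc : Continuous h) (hC : ∀ y, |h y| ≤ C) (hb : b ≠ 0) :
    ∀ (n : ℕ) {P : Eu ι → ℝ}, P.HasTemperateGrowth → ContDiff ℝ n (smo a b h P) ∧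
      ∃ B, ∀ x, ‖iteratedFDeriv ℝ n (smo a b h P) x‖ ≤ B
  | 0, P, hP => by
    have hd : Differentiable ℝ (smo a b h P) := fun x =>
      (hasFDerivAt_smo hc hC hb hP x).differentiableAt
    exact ⟨contDiff_zero.2 hd.continuous, C * ∫ w, |P w| ∂gam ι, fun x => by
      rw [norm_iteratedFDeriv_zero, norm_eq_abs]; exact abs_smo_le hc hC hP x⟩
  | n + 1, P, hP => by
    have ih := fun k => contDiff_smo_aux hc hC hb n (tg_kap k hP)
    choose B hB using fun k => (ih k).2
    set L : ι → ℝ →L[ℝ] Eu ι →L[ℝ] ℝ := fun k =>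
      (a / b) • ContinuousLinearMap.toSpanSingleton ℝ (EuclideanSpace.proj (𝕜 := ℝ) k)
    have hd : Differentiable ℝ (smo a b h P) := fun x =>
      (hasFDerivAt_smo hc hC hb hP x).differentiableAt
    have e : fderiv ℝ (smo a b h P) = fun x => ∑ k, L k (smo a b h (kap k P) x) := by
      funext x
      refine ContinuousLinearMap.coe_injective ((EuclideanSpace.basisFun ι ℝ).toBasis.ext fun k => ?_)
      have := pd_smo (a := a) hc hC hb hP k x
      simp [pd, ei] at this
      simp [L, EuclideanSpace.basisFun_apply, this]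
    have hL : ∀ k, ContDiff ℝ n (fun x => L k (smo a b h (kap k P) x)) := fun k =>
      (L k).contDiff.comp (ih k).1
    refine ⟨?_, ∑ k, ‖L k‖ * B k, fun x => ?_⟩
    · rw [Nat.cast_add, Nat.cast_one, contDiff_succ_iff_fderiv, e]
      exact ⟨hd, by simp, ContDiff.sum fun k _ => hL k⟩
    · rw [← norm_iteratedFDeriv_fderiv, e, iteratedFDeriv_sum (fun k _ => hL k),
        Finset.sum_apply]
      refine (norm_sum_le _ _).trans (sum_le_sum fun k _ => ?_)
      exact ((L k).norm_iteratedFDeriv_comp_left (ih k).1.contDiffAt le_rfl).trans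
        (mul_le_mul_of_nonneg_left (hB k x) (norm_nonneg _))

/-- A smoothing of a bounded continuous function is of temperate growth. -/
theorem tg_smo (hc : Continuous h) (hC : ∀ y, |h y| ≤ C) (hb : b ≠ 0) {P : Eu ι → ℝ}
    (hP : P.HasTemperateGrowth) : (smo a b h P).HasTemperateGrowth := by
  refine ⟨contDiff_infty.2 fun n => (contDiff_smo_aux hc hC hb n hP).1, fun n => ?_⟩
  obtain ⟨B, hB⟩ := (contDiff_smo_aux (a := a) hc hC hb n hP).2
  exact ⟨0, B, fun x => by simpa using hB x⟩

/-- The contraction of a derivative of the smoothing with a tensor. -/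
theorem sum_mul_pdi_smo (hc : Continuous h) (hC : ∀ y, |h y| ≤ C) (hb : b ≠ 0) :
    ∀ (i : ℕ) (c : (Fin i → ι) → ℝ),
      (fun x => ∑ α, c α * pdi i α (smo a b h fun _ => 1) x) =
        fun x => (a / b) ^ i * smo a b h (dpow i c) x
  | 0, c => by
    funext x
    simp [pdi, dpow, smo, ← integral_const_mul, Subsingleton.elim (default : Fin 0 → ι) Fin.elim0,
      mul_comm]
  | i + 1, c => by
    have h1 := tg_smo (a := a) hc hC hb (Function.HasTemperateGrowth.const (1 : ℝ) :
      (fun _ : Eu ι => (1 : ℝ)).HasTemperateGrowth)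
    funext x
    have hd : ∀ k, (fun x => pd k (fun y => ∑ β, c (Fin.cons k β) *
        pdi i β (smo a b h fun _ => 1) y) x) x =
          ∑ β, c (Fin.cons k β) * pd k (pdi i β (smo a b h fun _ => 1)) x := fun k => by
      simp only [pd]
      rw [fderiv_fun_sum fun β _ => (tg_differentiable (tg_pdi i β h1) x).const_mul _]
      simp [fderiv_const_mul (tg_differentiable (tg_pdi i _ h1) x)]
    rw [sum_fin_cons]
    simp only [pdi_cons]
    rw [sum_congr rfl fun k _ => (hd k).symm]
    have hk : ∀ k, pd k (fun x => (a / b) ^ i * smo a b h (dpow i fun β => c (Fin.cons k β)) x) x =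
        (a / b) ^ (i + 1) * smo a b h (kap k (dpow i fun β => c (Fin.cons k β))) x := fun k => by
      have hd' := hasFDerivAt_smo (a := a) hc hC hb (tg_dpow i fun β => c (Fin.cons k β)) x
      have := pd_smo (a := a) hc hC hb (tg_dpow i fun β => c (Fin.cons k β)) k x
      simp only [pd] at this ⊢
      rw [fderiv_const_mul hd'.differentiableAt, smul_apply, smul_eq_mul, this]
      ring
    simp only [sum_mul_pdi_smo hc hC hb i, hk]
    rw [← mul_sum]
    congr 1
    simp only [smo, dpow, delta_eq_sum_kap, mul_sum]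
    rw [integral_finsetSum _ fun k _ => integrable_smo_kernel hc hC (tg_kap k (tg_dpow i _)) x]

/-- **Bessel for a smoothing**, pointwise. -/
theorem sum_sq_pdi_smo_le (hc : Continuous h) (hC : ∀ y, |h y| ≤ C) (hb : b ≠ 0) (i : ℕ)
    (x : Eu ι) :
    ∑ α, pdi i α (smo a b h fun _ => 1) x ^ 2 ≤
      ((a / b) ^ i) ^ 2 * i.factorial * ∫ w, h (a • x + b • w) ^ 2 ∂gam ι := by
  refine bessel_of_repr (g := fun w => h (a • x + b • w))
    (hc.comp (by fun_prop)).aestronglyMeasurable
    ((integrable_const (C ^ 2)).mono' ((hc.comp (by fun_prop)).pow 2).aestronglyMeasurable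
      (ae_of_all _ fun w => ?_)) ?_
  · rw [norm_pow, norm_eq_abs]; exact pow_le_pow_left₀ (abs_nonneg _) (hC _) 2
  · have := congrFun (sum_mul_pdi_smo (a := a) hc hC hb i
      fun α => pdi i α (smo a b h fun _ => 1) x) x
    simpa [smo, sq] using this

end Smoothing

/-- **Bessel for a family of smoothings**: if the family has Euclidean norm at most `√B` at every
point, the derivatives of order `i` of its smoothings have squared norm at most
`i! (a/b)^(2i) B`. -/
theorem DS_smo_le {a b B : ℝ} (hb : b ≠ 0) {h : κ → Eu ι → ℝ} (hc : ∀ r, Continuous (h r))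
    (hB : ∀ y, ∑ r, h r y ^ 2 ≤ B) (i : ℕ) :
    (∀ r, (smo a b (h r) fun _ => 1).HasTemperateGrowth) ∧
      (∀ x, ∑ r, ∑ α, pdi i α (smo a b (h r) fun _ => 1) x ^ 2 ≤
        ((a / b) ^ i) ^ 2 * i.factorial * B) ∧
      DS i (fun r => smo a b (h r) fun _ => 1) ≤ ((a / b) ^ i) ^ 2 * i.factorial * B := by
  have hC : ∀ r y, |h r y| ≤ √B := fun r y => abs_le_sqrt
    ((single_le_sum (f := fun r => h r y ^ 2) (fun _ _ => sq_nonneg _) (mem_univ r)).trans (hB y))
  have ht := fun r => tg_smo (a := a) (hc r) (hC r) hb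
    (Function.HasTemperateGrowth.const (1 : ℝ) : (fun _ : Eu ι => (1 : ℝ)).HasTemperateGrowth)
  have hp : ∀ x, ∑ r, ∑ α, pdi i α (smo a b (h r) fun _ => 1) x ^ 2 ≤
      ((a / b) ^ i) ^ 2 * i.factorial * B := fun x => by
    have hi : ∀ r, Integrable (fun w => h r (a • x + b • w) ^ 2) (gam ι) := fun r =>
      (integrable_const (√B ^ 2)).mono' (((hc r).comp (by fun_prop)).pow 2).aestronglyMeasurable
        (ae_of_all _ fun w => by
          rw [norm_pow, norm_eq_abs]; exact pow_le_pow_left₀ (abs_nonneg _) (hC r _) 2)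
    refine (sum_le_sum fun r _ => sum_sq_pdi_smo_le (hc r) (hC r) hb i x).trans ?_
    rw [← mul_sum, ← integral_finsetSum _ fun r _ => hi r]
    refine mul_le_mul_of_nonneg_left ?_ (by positivity)
    exact (integral_mono (integrable_finsetSum _ fun r _ => hi r) (integrable_const B)
      fun w => hB _).trans_eq (by simp)
  refine ⟨ht, hp, ?_⟩
  have hi : ∀ r α, Integrable (fun x => pdi i α (smo a b (h r) fun _ => 1) x ^ 2) (gam ι) :=
    fun r α => tg_integrable ((tg_pdi i α (ht r)).fun_pow 2)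
  simp only [DS, dsq_eq_sum i (ht _), ← integral_finsetSum _ fun α _ => hi _ α]
  rw [← integral_finsetSum _ fun r _ => integrable_finsetSum _ fun α _ => hi r α]
  exact (integral_mono (integrable_finsetSum _ fun r _ => integrable_finsetSum _ fun α _ => hi r α)
    (integrable_const _) hp).trans_eq (by simp)

end Vale.Agent.P347.Shift
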