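import Vale.Agent.P347.Shift.Diverg

/-!
# P347: skew generators of Gauss preserving flows

For an antisymmetric matrix field `M` put `field M k = delta (M · k)`.  The vector field `field M`
preserves the standard Gaussian law, and its derivation `gen M f = ∑ k field_k ∂_k f` is the
divergence of `M ∇ f`.  With row bounds on the derivatives of `M` this gives the loss free bound
`Nn θ r (gen M f) ≤ genC r * (B / θ ^ 2) * Nn θ (r + 2) f` in the weighted norms
`Nn θ r f = ∑ j ≤ r, θ ^ j * Dn j f` (`θ = √τ` for a smoothing `τ`), and its iterates.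
-/

open MeasureTheory Real Finset

namespace Vale.Agent.P347.Shift

open Quarter

variable {ι : Type} [Fintype ι] [DecidableEq ι] {κ : Type} [Fintype κ]

/-- The squared derivatives of order `j` at a point. -/
noncomputable def psq : ℕ → (Eu ι → ℝ) → Eu ι → ℝ
  | 0, f => fun x => f x ^ 2
  | j + 1, f => fun x => ∑ i, psq j (pd i f) x

lemma psq_nonneg : ∀ (j : ℕ) (f : Eu ι → ℝ) (x : Eu ι), 0 ≤ psq j f x
  | 0, _, _ => sq_nonneg _
  | j + 1, _, _ => sum_nonneg fun _ _ => psq_nonneg j _ _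

lemma tg_psq : ∀ (j : ℕ) {f : Eu ι → ℝ}, f.HasTemperateGrowth → (psq j f).HasTemperateGrowth
  | 0, _, hf => hf.fun_pow 2
  | j + 1, _, hf => .sum fun i _ => tg_psq j (tg_pd i hf)

lemma pd_neg (i : ι) (f : Eu ι → ℝ) : pd i (fun x => -f x) = fun x => -pd i f x := by
  funext x
  simp [pd, fderiv_fun_neg]

lemma pd_sum {ν : Type} (s : Finset ν) {F : ν → Eu ι → ℝ}
    (hF : ∀ a, (F a).HasTemperateGrowth) (i : ι) :
    pd i (fun x => ∑ a ∈ s, F a x) = fun x => ∑ a ∈ s, pd i (F a) x := by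
  funext x
  simp [pd, fderiv_fun_sum fun a _ => tg_differentiable (hF a) x]

lemma pd_mul_const {f : Eu ι → ℝ} (hf : f.HasTemperateGrowth) (i : ι) (c : ℝ) :
    pd i (fun x => f x * c) = fun x => pd i f x * c := by
  funext x
  simp [pd, fderiv_mul_const (tg_differentiable hf x) c, mul_comm c]

lemma psq_neg : ∀ (j : ℕ) (f : Eu ι → ℝ), psq j (fun x => -f x) = psq j f
  | 0, f => by funext x; simp [psq]
  | j + 1, f => by funext x; simp [psq, pd_neg, psq_neg j]

lemma dsq_eq_integral : ∀ (j : ℕ) {f : Eu ι → ℝ}, f.HasTemperateGrowth →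
    dsq j f = ∫ x, psq j f x ∂gam ι
  | 0, _, _ => rfl
  | j + 1, f, hf => by
    simp only [dsq, psq]
    rw [integral_finsetSum _ fun i _ => tg_integrable (tg_psq j (tg_pd i hf))]
    exact sum_congr rfl fun i _ => dsq_eq_integral j (tg_pd i hf)

lemma Dn_equiv {κ' : Type} [Fintype κ'] (e : κ' ≃ κ) (j : ℕ) (V : κ → Eu ι → ℝ) :
    Dn j (fun a => V (e a)) = Dn j V := by
  simp only [Dn, DS]
  rw [e.sum_comp fun a => dsq j (V a)]

lemma Dn_succ (j : ℕ) (V : κ → Eu ι → ℝ) :
    Dn (j + 1) V = Dn j fun p : ι × κ => pd p.1 (V p.2) := by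
  simp only [Dn, DS_succ]

/-- The weighted sum of the derivative norms up to order `r`. -/
noncomputable def Nn (θ : ℝ) (r : ℕ) (V : κ → Eu ι → ℝ) : ℝ := ∑ j ∈ range (r + 1), θ ^ j * Dn j V

lemma Nn_nonneg {θ : ℝ} (hθ : 0 ≤ θ) (r : ℕ) (V : κ → Eu ι → ℝ) : 0 ≤ Nn θ r V :=
  sum_nonneg fun j _ => mul_nonneg (pow_nonneg hθ j) (Dn_nonneg j V)

lemma Dn_le_Nn {θ : ℝ} (hθ : 0 ≤ θ) {j r : ℕ} (h : j ≤ r) (V : κ → Eu ι → ℝ) :
    θ ^ j * Dn j V ≤ Nn θ r V :=
  single_le_sum (f := fun j => θ ^ j * Dn j V)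
    (fun j _ => mul_nonneg (pow_nonneg hθ j) (Dn_nonneg j V)) (mem_range.2 (by omega))

lemma Nn_mono {θ : ℝ} (hθ : 0 ≤ θ) {r s : ℕ} (h : r ≤ s) (V : κ → Eu ι → ℝ) :
    Nn θ r V ≤ Nn θ s V :=
  sum_le_sum_of_subset_of_nonneg (range_mono (by omega)) fun j _ _ =>
    mul_nonneg (pow_nonneg hθ j) (Dn_nonneg j V)

/-- Pointwise bounds, uniform in the vector, for the derivatives of a matrix field. -/
def RowBd {ρ : Type} [Fintype ρ] (T : ρ → κ → Eu ι → ℝ) (B : ℕ → ℝ) : Prop :=
  ∀ (m : ℕ) (x : Eu ι) (v : κ → ℝ),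
    ∑ a, psq m (fun y => ∑ k, T a k y * v k) x ≤ B m ^ 2 * ∑ k, v k ^ 2

/-- Leibniz' rule with row bounds. -/
theorem Dn_mulVec_le (j : ℕ) {τ ρ : Type} [Fintype τ] [Fintype ρ] {T : ρ → κ → Eu ι → ℝ}
    {U : τ → κ → Eu ι → ℝ} {B : ℕ → ℝ} (hT : ∀ a k, (T a k).HasTemperateGrowth)
    (hU : ∀ p k, (U p k).HasTemperateGrowth) (hB : ∀ m, 0 ≤ B m) (h : RowBd T B) :
    Dn j (fun q : τ × ρ => fun x => ∑ k, T q.2 k x * U q.1 k x) ≤
      ∑ m ∈ range (j + 1), (j.choose m : ℝ) * (B m * Dn (j - m) fun r : τ × κ => U r.1 r.2) := by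
  induction j generalizing τ ρ T U B with
  | zero =>
    have hq : ∀ q : τ × ρ, (fun x => ∑ k, T q.2 k x * U q.1 k x).HasTemperateGrowth := fun q =>
      .sum fun k _ => (hT q.2 k).fun_mul (hU q.1 k)
    have key : DS 0 (fun q : τ × ρ => fun x => ∑ k, T q.2 k x * U q.1 k x) ≤
        B 0 ^ 2 * DS 0 fun r : τ × κ => U r.1 r.2 := by
      simp only [DS, dsq]
      rw [← integral_finsetSum _ fun q _ => tg_integrable ((hq q).fun_pow 2),
        ← integral_finsetSum _ fun r _ => tg_integrable ((hU r.1 r.2).fun_pow 2),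
        ← integral_const_mul]
      refine integral_mono (integrable_finsetSum _ fun q _ => tg_integrable ((hq q).fun_pow 2))
        ((integrable_finsetSum _ fun r _ => tg_integrable ((hU r.1 r.2).fun_pow 2)).const_mul _)
        fun x => ?_
      simp only [Fintype.sum_prod_type, mul_sum]
      refine sum_le_sum fun p _ => ?_
      have := h 0 x fun k => U p k x
      rw [mul_sum] at this
      simpa [psq] using this
    simp only [zero_add, range_one, sum_singleton, Nat.choose_self, Nat.cast_one, one_mul,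
      Nat.sub_zero]
    rw [Dn, Dn]
    refine (sqrt_le_sqrt key).trans (le_of_eq ?_)
    rw [sqrt_mul (sq_nonneg _), sqrt_sq (hB 0)]
  | succ j ih =>
    set T' : ι × ρ → κ → Eu ι → ℝ := fun a k => pd a.1 (T a.2 k) with hT'
    set U' : ι × τ → κ → Eu ι → ℝ := fun p k => pd p.1 (U p.2 k) with hU'
    have hTt : ∀ a k, (T' a k).HasTemperateGrowth := fun a k => tg_pd _ (hT a.2 k)
    have hUt : ∀ p k, (U' p k).HasTemperateGrowth := fun p k => tg_pd _ (hU p.2 k)
    have h' : RowBd T' fun m => B (m + 1) := by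
      intro m x v
      refine le_trans (le_of_eq ?_) (h (m + 1) x v)
      simp only [hT', Fintype.sum_prod_type, psq]
      rw [sum_comm]
      refine sum_congr rfl fun a _ => sum_congr rfl fun i _ => ?_
      rw [pd_sum _ (fun k => (hT a k).fun_mul (.const (v k))) i]
      simp only [pd_mul_const (hT a _)]
    have e : Dn (j + 1) (fun q : τ × ρ => fun x => ∑ k, T q.2 k x * U q.1 k x) =
        Dn j fun q : ι × (τ × ρ) => fun x =>
          (∑ k, T' (q.1, q.2.2) k x * U q.2.1 k x) +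
            ∑ k, T q.2.2 k x * U' (q.1, q.2.1) k x := by
      rw [Dn_succ]
      congr 1
      funext q x
      rw [pd_sum _ (fun k => (hT q.2.2 k).fun_mul (hU q.2.1 k)) q.1]
      simp only [hT', hU', pd_mul (hT q.2.2 _) (hU q.2.1 _), sum_add_distrib]
    let e1 : ι × (τ × ρ) ≃ τ × (ι × ρ) :=
      ⟨fun q => (q.2.1, (q.1, q.2.2)), fun q => (q.2.1, (q.1, q.2.2)), fun _ => rfl, fun _ => rfl⟩
    let e2 : ι × (τ × ρ) ≃ (ι × τ) × ρ :=
      ⟨fun q => ((q.1, q.2.1), q.2.2), fun q => (q.1.1, (q.1.2, q.2)), fun _ => rfl, fun _ => rfl⟩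
    let e3 : (ι × τ) × κ ≃ ι × (τ × κ) :=
      ⟨fun q => (q.1.1, (q.1.2, q.2)), fun q => ((q.1, q.2.1), q.2.2), fun _ => rfl, fun _ => rfl⟩
    have hU3 : ∀ m, Dn m (fun r : (ι × τ) × κ => U' r.1 r.2) =
        Dn (m + 1) fun r : τ × κ => U r.1 r.2 := fun m => by
      rw [Dn_succ]
      exact Dn_equiv e3 m fun p : ι × (τ × κ) => pd p.1 (U p.2.1 p.2.2)
    rw [e]
    refine (Dn_add_le j (fun q => .sum fun k _ => (hTt _ k).fun_mul (hU _ k))
      fun q => .sum fun k _ => (hT _ k).fun_mul (hUt _ k)).trans ?_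
    have i1 := ih hTt hU (fun m => hB (m + 1)) h'
    have i2 := ih hT hUt hB h
    rw [← Dn_equiv e1] at i1
    rw [← Dn_equiv e2] at i2
    refine (add_le_add i1 i2).trans (le_of_eq ?_)
    rw [sum_choose_succ_mul (fun m n => B m * Dn n fun r : τ × κ => U r.1 r.2) j, add_comm]
    congr 1
    refine sum_congr rfl fun m hm => ?_
    rw [hU3, show j - m + 1 = j + 1 - m by have := mem_range.1 hm; omega]

/-- The Gauss divergence free field of an antisymmetric matrix field. -/
noncomputable def field (M : ι → ι → Eu ι → ℝ) (k : ι) : Eu ι → ℝ := delta fun i => M i k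

/-- The derivation of `field M`. -/
noncomputable def gen (M : ι → ι → Eu ι → ℝ) (f : Eu ι → ℝ) : Eu ι → ℝ :=
  fun x => ∑ k, field M k x * pd k f x

/-- The matrix field applied to a gradient. -/
noncomputable def skew (M : ι → ι → Eu ι → ℝ) (f : Eu ι → ℝ) (i : ι) : Eu ι → ℝ :=
  fun x => ∑ k, M i k x * pd k f x

section Gen

variable {M : ι → ι → Eu ι → ℝ} (hM : ∀ i k, (M i k).HasTemperateGrowth)

include hM

lemma tg_field (k : ι) : (field M k).HasTemperateGrowth := tg_delta fun i => hM i k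

lemma tg_gen {f : Eu ι → ℝ} (hf : f.HasTemperateGrowth) : (gen M f).HasTemperateGrowth :=
  .sum fun k _ => (tg_field hM k).fun_mul (tg_pd k hf)

lemma tg_skew {f : Eu ι → ℝ} (hf : f.HasTemperateGrowth) (i : ι) :
    (skew M f i).HasTemperateGrowth :=
  .sum fun k _ => (hM i k).fun_mul (tg_pd k hf)

/-- The derivation is the divergence of `M ∇ f`. -/
theorem delta_skew (hanti : ∀ i k x, M k i x = -M i k x) {f : Eu ι → ℝ}
    (hf : f.HasTemperateGrowth) : delta (skew M f) = gen M f := by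
  funext x
  have e : ∀ i, pd i (skew M f i) x =
      ∑ k, (pd i (M i k) x * pd k f x + M i k x * pd i (pd k f) x) := fun i => by
    unfold skew
    rw [pd_sum _ (fun k => (hM i k).fun_mul (tg_pd k hf)) i]
    simp only [pd_mul (hM i _) (tg_pd _ hf)]
  have z : ∑ i, ∑ k, M i k x * pd i (pd k f) x = 0 := by
    have : ∑ i, ∑ k, M i k x * pd i (pd k f) x = -∑ i, ∑ k, M i k x * pd i (pd k f) x := by
      conv_lhs => rw [sum_comm]
      rw [← sum_neg_distrib]
      refine sum_congr rfl fun i _ => ?_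
      rw [← sum_neg_distrib]
      exact sum_congr rfl fun k _ => by rw [hanti i k x, pd_comm hf i k]; ring
    linarith
  have g : gen M f x = ∑ i, ∑ k, (x i * M i k x - pd i (M i k) x) * pd k f x := by
    simp only [gen, field, delta, sum_mul]
    exact sum_comm
  have d : delta (skew M f) x = ∑ i, (x i * ∑ k, M i k x * pd k f x - pd i (skew M f i) x) := rfl
  rw [d, g]
  simp only [e, sum_sub_distrib, sum_add_distrib, z, add_zero, sub_mul, mul_assoc, ← mul_sum]

/-- The field preserves the Gaussian law. -/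
theorem integral_gen (hanti : ∀ i k x, M k i x = -M i k x) {f : Eu ι → ℝ}
    (hf : f.HasTemperateGrowth) : ∫ x, gen M f x ∂gam ι = 0 := by
  rw [← delta_skew hM hanti hf]
  exact integral_delta (tg_skew hM hf)

/-- Derivatives of the generator on a family. -/
theorem Dn_gen_le (hanti : ∀ i k x, M k i x = -M i k x) {B : ℕ → ℝ} {B₀ θ : ℝ} (hθ : 0 < θ)
    (hθ1 : θ ≤ 1) (hB : ∀ m, 0 ≤ B m) (h : RowBd M B) (j : ℕ)
    (h₀ : ∀ m ≤ j + 1, θ ^ m * B m ≤ B₀) {τ : Type} [Fintype τ] {f : τ → Eu ι → ℝ}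
    (hf : ∀ p, (f p).HasTemperateGrowth) :
    θ ^ j * Dn j (fun p => gen M (f p)) ≤
      (j + 2) * 2 ^ (j + 1) * (B₀ / θ ^ 2) * Nn θ (j + 2) f := by
  have hB0 : 0 ≤ B₀ := by
    have := (hB 0).trans_eq (by simp : B 0 = θ ^ 0 * B 0)
    exact this.trans (h₀ 0 (by omega))
  have hN : 0 ≤ Nn θ (j + 2) f := Nn_nonneg hθ.le _ _
  set K := (2 : ℝ) ^ (j + 1) * B₀ * Nn θ (j + 2) f with hK
  have hK0 : 0 ≤ K := mul_nonneg (by positivity) hN
  have key : ∀ n ≤ j + 1, θ ^ (n + 1) * Dn n (fun q : τ × ι => skew M (f q.1) q.2) ≤ K := fun n hn => by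
    refine (mul_le_mul_of_nonneg_left (Dn_mulVec_le n hM (U := fun p k => pd k (f p))
      (fun p k => tg_pd k (hf p)) hB h) (by positivity)).trans ?_
    have e : ∀ m, Dn m (fun r : τ × ι => pd r.2 (f r.1)) = Dn (m + 1) f := fun m => by
      rw [Dn_succ]
      exact Dn_equiv (Equiv.prodComm τ ι) m fun p : ι × τ => pd p.1 (f p.2)
    rw [mul_sum]
    calc ∑ m ∈ range (n + 1), θ ^ (n + 1) *
          ((n.choose m : ℝ) * (B m * Dn (n - m) fun r : τ × ι => pd r.2 (f r.1)))
        ≤ ∑ m ∈ range (n + 1), (n.choose m : ℝ) * (B₀ * Nn θ (j + 2) f) :=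
          sum_le_sum fun m hm => by
            have hm' := mem_range.1 hm
            rw [e, show n + 1 = m + (n - m + 1) by omega, pow_add,
              show ∀ a b c u v : ℝ, a * b * (c * (u * v)) = c * (a * u * (b * v)) by intros; ring]
            exact mul_le_mul_of_nonneg_left (mul_le_mul (h₀ m (by omega))
              (Dn_le_Nn hθ.le (by omega) f) (mul_nonneg (pow_nonneg hθ.le _) (Dn_nonneg _ _)) hB0)
              (Nat.cast_nonneg _)
      _ = 2 ^ n * (B₀ * Nn θ (j + 2) f) := by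
          rw [← sum_mul, ← Nat.cast_sum, Nat.sum_range_choose]
          push_cast
          rfl
      _ ≤ 2 ^ (j + 1) * (B₀ * Nn θ (j + 2) f) :=
          mul_le_mul_of_nonneg_right (pow_le_pow_right₀ (by norm_num) hn) (mul_nonneg hB0 hN)
      _ = _ := (mul_assoc _ _ _).symm
  have hd := Dn_delta_le j (U := fun p => skew M (f p)) fun p i => tg_skew hM (hf p) i
  simp only [delta_skew hM hanti (hf _)] at hd
  have hθ2 : θ ^ 2 ≤ 1 := pow_le_one₀ hθ.le hθ1
  have h1 : θ ^ (j + 2) * Dn j (fun q : τ × ι => skew M (f q.1) q.2) ≤ K := by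
    refine le_trans ?_ (key j (by omega))
    exact mul_le_mul_of_nonneg_right (pow_le_pow_of_le_one hθ.le hθ1 (by omega)) (Dn_nonneg _ _)
  have h2 := key (j + 1) le_rfl
  have h3 : (j : ℝ) * (θ ^ (j + 2) * Dn (j - 1) (fun q : τ × ι => skew M (f q.1) q.2)) ≤ j * K := by
    refine mul_le_mul_of_nonneg_left (le_trans ?_ (key (j - 1) (by omega))) (Nat.cast_nonneg _)
    exact mul_le_mul_of_nonneg_right (pow_le_pow_of_le_one hθ.le hθ1 (by omega)) (Dn_nonneg _ _)
  have hkey : θ ^ 2 * (θ ^ j * Dn j (fun p => gen M (f p))) ≤ (j + 2) * K := by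
    rw [← mul_assoc, ← pow_add, add_comm 2 j]
    refine (mul_le_mul_of_nonneg_left hd (by positivity)).trans ?_
    rw [show j + 1 + 1 = j + 2 by omega] at h2
    linarith
  refine (le_of_mul_le_mul_left ?_ (pow_pos hθ 2))
  refine hkey.trans (le_of_eq ?_)
  rw [hK]
  field_simp

end Gen

/-- The constant of one application of the generator. -/
noncomputable def genC (r : ℕ) : ℝ := (r + 1) * ((r + 2) * 2 ^ (r + 1))

lemma genC_nonneg (r : ℕ) : 0 ≤ genC r := by unfold genC; positivity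

theorem Nn_gen_le {M : ι → ι → Eu ι → ℝ} (hM : ∀ i k, (M i k).HasTemperateGrowth)
    (hanti : ∀ i k x, M k i x = -M i k x) {B : ℕ → ℝ} {B₀ θ : ℝ} (hθ : 0 < θ) (hθ1 : θ ≤ 1)
    (hB : ∀ m, 0 ≤ B m) (h : RowBd M B) (r : ℕ) (h₀ : ∀ m ≤ r + 1, θ ^ m * B m ≤ B₀) {τ : Type}
    [Fintype τ] {f : τ → Eu ι → ℝ} (hf : ∀ p, (f p).HasTemperateGrowth) :
    Nn θ r (fun p => gen M (f p)) ≤ genC r * (B₀ / θ ^ 2) * Nn θ (r + 2) f := by
  have hB0 : 0 ≤ B₀ := by
    have := (hB 0).trans_eq (by simp : B 0 = θ ^ 0 * B 0)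
    exact this.trans (h₀ 0 (by omega))
  calc Nn θ r (fun p => gen M (f p))
      ≤ ∑ _j ∈ range (r + 1), (r + 2) * 2 ^ (r + 1) * (B₀ / θ ^ 2) * Nn θ (r + 2) f :=
        sum_le_sum fun j hj => by
          have hj' : j ≤ r := Nat.lt_succ_iff.1 (mem_range.1 hj)
          refine (Dn_gen_le hM hanti hθ hθ1 hB h j (fun m hm => h₀ m (by omega)) hf).trans ?_
          have h2 : (0 : ℝ) ≤ Nn θ (j + 2) f := Nn_nonneg hθ.le _ _
          gcongr
          · norm_num
          · exact Nn_mono hθ.le (by omega) f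
    _ = _ := by
        rw [sum_const, card_range, nsmul_eq_mul, genC]
        push_cast
        ring

/-- The constant of the iterates. -/
noncomputable def iterC : ℕ → ℕ → ℝ
  | 0, _ => 1
  | r + 1, s => genC s * iterC r (s + 2)

lemma iterC_nonneg : ∀ r s : ℕ, 0 ≤ iterC r s
  | 0, _ => zero_le_one
  | r + 1, s => mul_nonneg (genC_nonneg s) (iterC_nonneg r (s + 2))

lemma tg_iterate {M : ι → ι → Eu ι → ℝ} (hM : ∀ i k, (M i k).HasTemperateGrowth) :
    ∀ (r : ℕ) {f : Eu ι → ℝ}, f.HasTemperateGrowth → ((gen M)^[r] f).HasTemperateGrowth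
  | 0, _, hf => hf
  | r + 1, f, hf => by
    rw [Function.iterate_succ_apply']
    exact tg_gen hM (tg_iterate hM r hf)

/-- Iterates of the generator: each costs one factor `B₀ / θ²` and no power of the dimension. -/
theorem Nn_iterate_le {M : ι → ι → Eu ι → ℝ} (hM : ∀ i k, (M i k).HasTemperateGrowth)
    (hanti : ∀ i k x, M k i x = -M i k x) {B : ℕ → ℝ} {B₀ θ : ℝ} (hθ : 0 < θ) (hθ1 : θ ≤ 1)
    (hB : ∀ m, 0 ≤ B m) (h : RowBd M B) {τ : Type} [Fintype τ] {f : τ → Eu ι → ℝ}
    (hf : ∀ p, (f p).HasTemperateGrowth) :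
    ∀ r s : ℕ, (∀ m ≤ s + 2 * r, θ ^ m * B m ≤ B₀) →
      Nn θ s (fun p => (gen M)^[r] (f p)) ≤
        iterC r s * (B₀ / θ ^ 2) ^ r * Nn θ (s + 2 * r) f
  | 0, s, _ => by simp [iterC]
  | r + 1, s, h₀ => by
    have hB0 : 0 ≤ B₀ := by
      have := (hB 0).trans_eq (by simp : B 0 = θ ^ 0 * B 0)
      exact this.trans (h₀ 0 (by omega))
    have e : (fun p => (gen M)^[r + 1] (f p)) = fun p => gen M ((gen M)^[r] (f p)) :=
      funext fun p => Function.iterate_succ_apply' _ _ _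
    rw [e]
    refine (Nn_gen_le hM hanti hθ hθ1 hB h s (fun m hm => h₀ m (by omega))
      fun p => tg_iterate hM r (hf p)).trans ?_
    have ih := Nn_iterate_le hM hanti hθ hθ1 hB h hf r (s + 2) fun m hm => h₀ m (by omega)
    rw [show s + 2 + 2 * r = s + 2 * (r + 1) by ring] at ih
    refine (mul_le_mul_of_nonneg_left ih
      (mul_nonneg (genC_nonneg s) (div_nonneg hB0 (by positivity)))).trans (le_of_eq ?_)
    simp only [iterC, pow_succ]
    ring

section Block

variable {α β : Type} [Fintype α] [DecidableEq α] [Fintype β] [DecidableEq β]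

/-- The antisymmetric block field of a matrix field `Q`. -/
def blk (Q : β → α → Eu (α ⊕ β) → ℝ) : α ⊕ β → α ⊕ β → Eu (α ⊕ β) → ℝ
  | .inl _, .inl _ => fun _ => 0
  | .inl k, .inr a => Q a k
  | .inr a, .inl k => fun x => -Q a k x
  | .inr _, .inr _ => fun _ => 0

variable {Q : β → α → Eu (α ⊕ β) → ℝ}

omit [DecidableEq α] [DecidableEq β] in
lemma blk_anti : ∀ i k x, blk Q k i x = -blk Q i k x := by
  rintro (i | i) (k | k) x <;> simp [blk]

omit [DecidableEq α] [DecidableEq β] in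
lemma tg_blk (hQ : ∀ a k, (Q a k).HasTemperateGrowth) :
    ∀ i k, (blk Q i k).HasTemperateGrowth := by
  rintro (i | i) (k | k)
  · exact .const 0
  · exact hQ k i
  · exact (hQ i k).neg
  · exact .const 0

/-- Row bounds of the block field from those of `Q` and of its transpose. -/
theorem rowBd_blk {B : ℕ → ℝ} (h1 : RowBd Q B) (h2 : RowBd (fun k a => Q a k) B) :
    RowBd (blk Q) B := by
  intro m x v
  have e1 : ∀ k : α, (fun y => ∑ j, blk Q (.inl k) j y * v j) =
      fun y => ∑ a, Q a k y * v (.inr a) := fun k => by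
    funext y; simp [blk, Fintype.sum_sum_type]
  have e2 : ∀ a : β, (fun y => ∑ j, blk Q (.inr a) j y * v j) =
      fun y => -∑ k, Q a k y * v (.inl k) := fun a => by
    funext y; simp [blk, Fintype.sum_sum_type]
  rw [Fintype.sum_sum_type]
  simp only [e1, e2, psq_neg]
  rw [Fintype.sum_sum_type, mul_add, add_comm (B m ^ 2 * _)]
  exact add_le_add (h2 m x fun a => v (.inr a)) (h1 m x fun k => v (.inl k))

/-- The component of the field on the second block is the divergence of the rows of `Q`. -/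
lemma field_blk_inr (a : β) (x : Eu (α ⊕ β)) :
    field (blk Q) (.inr a) x = ∑ k, (x (.inl k) * Q a k x - pd (.inl k) (Q a k) x) := by
  simp [field, delta, Fintype.sum_sum_type, blk, pd]

/-- The component on the first block, when `Q` does not depend on the second. -/
lemma field_blk_inl (hg : ∀ a k x, pd (.inr a) (Q a k) x = 0) (k : α) (x : Eu (α ⊕ β)) :
    field (blk Q) (.inl k) x = -∑ a, x (.inr a) * Q a k x := by
  have e : ∀ a, pd (.inr a) (fun y => -Q a k y) x = 0 := fun a => by simp [pd_neg, hg]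
  simp only [field, delta, Fintype.sum_sum_type, blk, e]
  simp [pd]

end Block

end Vale.Agent.P347.Shift
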