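import Vale.Agent.P347.Shift.Bessel
import Vale.Agent.P347.Shift.Skew

/-!
# P347: squared derivatives as sums over index tuples and over iterated derivatives

`psq j f x = ∑ α, (pdi j α f x)² = ∑ p, (D^j f x (e ∘ p))²`, and the smoothing of a matrix field
with `‖T y v‖ ≤ η ‖v‖` has row bounds `√(m!) |a / b| ^ m η`.
-/

open MeasureTheory Real Finset

namespace Vale.Agent.P347.Shift

open Quarter

variable {ι : Type} [Fintype ι] [DecidableEq ι] {κ : Type} [Fintype κ]

/-- An iterated partial derivative is an entry of the iterated derivative. -/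
theorem pdi_eq_iteratedFDeriv : ∀ (i : ℕ) (α : Fin i → ι) {f : Eu ι → ℝ}
    (_ : f.HasTemperateGrowth) (x : Eu ι),
    pdi i α f x = iteratedFDeriv ℝ i f x fun l => ei (α l)
  | 0, _, f, _, x => by simp [pdi]
  | i + 1, α, f, hf, x => by
    have hd : ContDiff ℝ 1 (iteratedFDeriv ℝ i f) :=
      hf.1.iteratedFDeriv_right (by exact_mod_cast le_top)
    have hm : DifferentiableAt ℝ (iteratedFDeriv ℝ i f) x := hd.differentiable one_ne_zero x
    rw [pdi, iteratedFDeriv_succ_apply_left]
    have e : pdi i (fun l => α l.succ) f = fun y => iteratedFDeriv ℝ i f y fun l => ei (α l.succ) :=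
      funext fun y => pdi_eq_iteratedFDeriv i _ hf y
    rw [pd, e, fderiv_continuousMultilinear_apply_const_apply hm]
    rfl

/-- The squared derivatives as a sum over index tuples. -/
theorem psq_eq_sum : ∀ (i : ℕ) {f : Eu ι → ℝ}, f.HasTemperateGrowth → ∀ x,
    psq i f x = ∑ α, pdi i α f x ^ 2
  | 0, f, _, x => by simp [psq, pdi]
  | i + 1, f, hf, x => by
    simp only [psq]
    rw [sum_fin_cons]
    refine sum_congr rfl fun k _ => ?_
    rw [psq_eq_sum i (tg_pd k hf) x]
    simp only [pdi_cons, pdi_pd i _ hf k]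

/-- The squared derivatives as a sum over the entries of the iterated derivative. -/
theorem psq_eq_iteratedFDeriv (i : ℕ) {f : Eu ι → ℝ} (hf : f.HasTemperateGrowth) (x : Eu ι) :
    psq i f x = ∑ p : Fin i → ι, iteratedFDeriv ℝ i f x (fun l => ei (p l)) ^ 2 := by
  simp only [psq_eq_sum i hf, pdi_eq_iteratedFDeriv i _ hf x]

/-- Row bounds for a smoothed matrix field. -/
theorem rowBd_smo {ρ : Type} [Fintype ρ] {T : ρ → κ → Eu ι → ℝ} {η a b : ℝ} (hη : 0 ≤ η)
    (hb : b ≠ 0) (hc : ∀ r k, Continuous (T r k))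
    (hT : ∀ y (v : κ → ℝ), ∑ r, (∑ k, T r k y * v k) ^ 2 ≤ η ^ 2 * ∑ k, v k ^ 2) :
    (∀ r k, (smo a b (T r k) fun _ => 1).HasTemperateGrowth) ∧
      RowBd (fun r k => smo a b (T r k) fun _ => 1) fun m => √(m.factorial : ℝ) * |a / b| ^ m * η := by
  classical
  have hC : ∀ r k y, |T r k y| ≤ η := fun r k y => by
    refine abs_le_of_sq_le_sq ?_ hη
    have h := hT y (Pi.single k 1)
    simp only [Pi.single_apply, mul_ite, mul_one, mul_zero, sum_ite_eq', mem_univ, if_true,
      ite_pow, one_pow, ne_eq, OfNat.ofNat_ne_zero, not_false_eq_true, zero_pow] at h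
    exact (single_le_sum (f := fun r => T r k y ^ 2) (fun _ _ => sq_nonneg _) (mem_univ r)).trans h
  refine ⟨fun r k => tg_smo (hc r k) (hC r k) hb (Function.HasTemperateGrowth.const (1 : ℝ)),
    fun m x v => ?_⟩
  set h : ρ → Eu ι → ℝ := fun r y => ∑ k, T r k y * v k with hh
  have hhc : ∀ r, Continuous (h r) := fun r => continuous_finsetSum _ fun k _ => (hc r k).mul_const _
  obtain ⟨ht, hp, -⟩ := DS_smo_le (a := a) hb hhc (fun y => hT y v) m
  have e : ∀ r, (fun y => ∑ k, smo a b (T r k) (fun _ => 1) y * v k) =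
      smo a b (h r) fun _ => 1 := fun r => by
    funext y
    simp only [smo, hh, mul_one]
    rw [integral_finsetSum _ fun k _ => ?_]
    · simp only [integral_mul_const]
    · exact ((integrable_const η).mono' ((hc r k).comp (by fun_prop)).aestronglyMeasurable
        (ae_of_all _ fun w => hC r k _)).mul_const _
  simp only [e, psq_eq_sum m (ht _)]
  refine (hp x).trans (le_of_eq ?_)
  rw [mul_pow, mul_pow, sq_sqrt (Nat.cast_nonneg _), pow_right_comm |a / b|, sq_abs,
    pow_right_comm (a / b)]
  ring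

end Vale.Agent.P347.Shift
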