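import Vale.Agent.P347.Shift.TimeComp

/-!
# P347: composite rules on geometric time intervals

The integral over `[0, T]`, `T < 1`, is cut at `min T (1 - 2⁻ʲ)` and every block into `N` pieces
carrying a rule exact below degree `r + 1`. The error is `N⁻⁽ʳ⁺¹⁾` times the integral of
`(1 - t) ^ (r + 1) * |f⁽ʳ⁺¹⁾ t|`, so no factor of the logarithm of the distance to `1` is lost.
Only derivatives on an open interval around `[0, T]` are assumed.
-/

open MeasureTheory Real Finset
open scoped ContDiff Topology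

namespace Vale.Agent.P347.Shift.CompQuad

open Quarter

/-- `F (k + 1)` is the derivative of `F k` on `(α, β)`. -/
def Derivs (F : ℕ → ℝ → ℝ) (α β : ℝ) : Prop :=
  ∀ k, ∀ t ∈ Set.Ioo α β, HasDerivAt (F k) (F (k + 1) t) t

variable {F : ℕ → ℝ → ℝ} {α β : ℝ}

lemma Derivs.iteratedDeriv_eq (h : Derivs F α β) (k : ℕ) {t : ℝ} (ht : t ∈ Set.Ioo α β) :
    iteratedDeriv k (F 0) t = F k t := by
  induction k generalizing t with
  | zero => simp
  | succ k ih =>
    rw [iteratedDeriv_succ]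
    refine ((h k t ht).congr_of_eventuallyEq ?_).deriv
    filter_upwards [isOpen_Ioo.mem_nhds ht] with s hs using ih hs

lemma Derivs.contDiffOn_nat (h : Derivs F α β) (n k : ℕ) :
    ContDiffOn ℝ n (F k) (Set.Ioo α β) := by
  induction n generalizing k with
  | zero =>
    exact contDiffOn_zero.2 fun t ht => (h k t ht).continuousAt.continuousWithinAt
  | succ n ih =>
    push_cast
    refine (contDiffOn_succ_iff_deriv_of_isOpen isOpen_Ioo).2
      ⟨fun t ht => (h k t ht).differentiableAt.differentiableWithinAt, by simp, ?_⟩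
    exact (ih (k + 1)).congr fun t ht => (h k t ht).deriv

/-- A smooth function on the line with the derivatives `F k` on a compact subinterval. -/
theorem Derivs.exists_ext (h : Derivs F α β) {a b : ℝ} (ha : α < a) (hab : a ≤ b) (hb : b < β) :
    ∃ G : ℝ → ℝ, ContDiff ℝ ∞ G ∧ ∀ t ∈ Set.Icc a b, ∀ k, iteratedDeriv k G t = F k t := by
  obtain ⟨e, he, hea, heb⟩ : ∃ e, 0 < e ∧ 3 * e ≤ a - α ∧ 3 * e ≤ β - b :=
    ⟨min (a - α) (β - b) / 3, by positivity,
      by linarith [min_le_left (a - α) (β - b)], by linarith [min_le_right (a - α) (β - b)]⟩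
  let χ : ContDiffBump ((a + b) / 2) :=
    ⟨(b - a) / 2 + e, (b - a) / 2 + 2 * e, by linarith, by linarith⟩
  have hri : χ.rIn = (b - a) / 2 + e := rfl
  have hro : χ.rOut = (b - a) / 2 + 2 * e := rfl
  have hsmooth : ∀ t ∈ Set.Ioo α β, ContDiffAt ℝ ∞ (F 0) t := fun t ht =>
    contDiffAt_infty.2 fun n => (h.contDiffOn_nat n 0).contDiffAt (isOpen_Ioo.mem_nhds ht)
  refine ⟨fun t => χ t * F 0 t, contDiff_iff_contDiffAt.2 fun t => ?_, fun t ht k => ?_⟩
  · by_cases ht : t ∈ Set.Ioo α β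
    · exact χ.contDiffAt.mul (hsmooth t ht)
    · refine (contDiffAt_const (c := (0 : ℝ))).congr_of_eventuallyEq ?_
      have hout : t ∉ tsupport (χ : ℝ → ℝ) := fun hc => ht <| by
        rw [χ.tsupport_eq, Real.closedBall_eq_Icc, Set.mem_Icc] at hc
        constructor <;> linarith [hc.1, hc.2]
      filter_upwards [notMem_tsupport_iff_eventuallyEq.1 hout] with s hs
      simp [hs]
  · have heq : (fun s => χ s * F 0 s) =ᶠ[𝓝 t] F 0 := by
      have hm : t ∈ Metric.ball ((a + b) / 2) χ.rIn := by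
        rw [Real.ball_eq_Ioo]
        constructor <;> linarith [ht.1, ht.2]
      filter_upwards [Metric.isOpen_ball.mem_nhds hm] with s hs
      rw [χ.one_of_mem_closedBall (Metric.ball_subset_closedBall hs), one_mul]
    rw [heq.iteratedDeriv_eq k, h.iteratedDeriv_eq k ⟨ha.trans_le ht.1, ht.2.trans_lt hb⟩]

variable {r : ℕ} {ν : Type} [Fintype ν] {w c : ν → ℝ}

/-- A composite rule on `[a, b]`. -/
theorem error_block (hR : Rule r w c) (h : Derivs F α β) {a b : ℝ} (ha : α < a) (hab : a ≤ b)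
    (hb : b < β) {N : ℕ} (hN : 0 < N) :
    |(∫ t in a..b, F 0 t) -
        ∑ j ∈ range N, ∑ i, (b - a) / N * w i * F 0 (a + (b - a) / N * (j + c i))| ≤
      (1 + ∑ i, |w i|) * ((b - a) / N) ^ (r + 1) * ∫ t in a..b, |F (r + 1) t| := by
  obtain ⟨G, hG, hGF⟩ := h.exists_ext ha hab hb
  have e := hR.error_comp (g := fun t => G (a + t)) (hG.comp (contDiff_const.add contDiff_id))
    (sub_nonneg.2 hab) hN
  simp only [iteratedDeriv_comp_const_add] at e
  rw [intervalIntegral.integral_comp_add_left (fun u => G u),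
    intervalIntegral.integral_comp_add_left (fun u => |iteratedDeriv (r + 1) G u|)] at e
  simp only [add_zero, add_sub_cancel] at e
  have h0 : ∀ t ∈ Set.Icc a b, G t = F 0 t := fun t ht => by simpa using hGF t ht 0
  have hu : Set.uIcc a b = Set.Icc a b := Set.uIcc_of_le hab
  rw [intervalIntegral.integral_congr (fun t ht => h0 t (hu ▸ ht)),
    intervalIntegral.integral_congr (f := fun t => |iteratedDeriv (r + 1) G t|)
      (g := fun t => |F (r + 1) t|) (fun t ht => by simp only [hGF t (hu ▸ ht)])] at e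
  refine le_trans (le_of_eq ?_) e
  congr 2
  refine sum_congr rfl fun j hj => sum_congr rfl fun i _ => ?_
  rw [h0]
  have hd : 0 ≤ (b - a) / N := by have := sub_nonneg.2 hab; positivity
  have hj' : (j : ℝ) + 1 ≤ N := by exact_mod_cast mem_range.1 hj
  have h1 : (b - a) / N * (j + c i) ≤ (b - a) / N * N :=
    mul_le_mul_of_nonneg_left (by linarith [(hR.mem i).2]) hd
  rw [div_mul_cancel₀ _ (by positivity)] at h1
  exact ⟨le_add_of_nonneg_right (mul_nonneg hd (add_nonneg j.cast_nonneg (hR.mem i).1)),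
    by linarith⟩

/-- The geometric cuts of `[0, T]`. -/
noncomputable def cut (T : ℝ) (j : ℕ) : ℝ := min T (1 - (1 / 2) ^ j)

/-- The number of geometric blocks in `[0, T]`. -/
noncomputable def blocks (T : ℝ) : ℕ := ⌈logb 2 (1 / (1 - T))⌉₊

/-- The nodes. -/
noncomputable def node (T : ℝ) (N : ℕ) (c : ν → ℝ) (p : Fin (blocks T) × Fin N × ν) : ℝ :=
  cut T p.1 + (cut T (p.1 + 1) - cut T p.1) / N * ((p.2.1 : ℕ) + c p.2.2)

/-- The weights. -/
noncomputable def wgt (T : ℝ) (N : ℕ) (w : ν → ℝ) (p : Fin (blocks T) × Fin N × ν) : ℝ :=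
  (cut T (p.1 + 1) - cut T p.1) / N * w p.2.2

variable {T : ℝ}

lemma cut_zero (hT : 0 ≤ T) : cut T 0 = 0 := by simp [cut, hT]

lemma cut_le (T : ℝ) (j : ℕ) : cut T j ≤ T := min_le_left _ _

lemma cut_mono (T : ℝ) : Monotone (cut T) := fun _ _ hij =>
  min_le_min le_rfl (sub_le_sub_left (pow_le_pow_of_le_one (by norm_num) (by norm_num) hij) 1)

lemma cut_nonneg (hT : 0 ≤ T) (j : ℕ) : 0 ≤ cut T j :=
  (cut_zero hT).symm.le.trans (cut_mono T j.zero_le)

/-- A block is shorter than its distance to `1`. -/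
lemma cut_sub_le (hT : T < 1) (j : ℕ) {t : ℝ} (ht : t ≤ cut T (j + 1)) :
    cut T (j + 1) - cut T j ≤ 1 - t := by
  have e : (1 / 2 : ℝ) ^ (j + 1) = (1 / 2) ^ j * (1 / 2) := pow_succ _ _
  have h1 := cut_le T (j + 1)
  have h2 : cut T (j + 1) ≤ 1 - (1 / 2) ^ (j + 1) := min_le_right _ _
  rcases le_total T (1 - (1 / 2) ^ j) with h | h
  · rw [show cut T j = T from min_eq_left h]; linarith
  · rw [show cut T j = 1 - (1 / 2) ^ j from min_eq_right h]; linarith

lemma cut_blocks (hT : T < 1) : cut T (blocks T) = T := by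
  have h1 : 0 < 1 - T := by linarith
  have h : 1 / (1 - T) ≤ (2 : ℝ) ^ blocks T := by
    rw [← rpow_natCast, ← rpow_logb (b := 2) (by norm_num) (by norm_num) (one_div_pos.2 h1)]
    exact rpow_le_rpow_of_exponent_le (by norm_num) (Nat.le_ceil _)
  refine min_eq_left ?_
  have := one_div_le_one_div_of_le (one_div_pos.2 h1) h
  rw [one_div_one_div, ← one_div_pow] at this
  linarith

/-- There are logarithmically many blocks. -/
lemma blocks_le (hT0 : 0 ≤ T) (hT : T < 1) : (blocks T : ℝ) ≤ logb 2 (1 / (1 - T)) + 1 :=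
  (Nat.ceil_lt_add_one (logb_nonneg (by norm_num)
    (by rw [le_div_iff₀ (by linarith)]; linarith))).le

lemma card_nodes (T : ℝ) (N : ℕ) (ν : Type) [Fintype ν] :
    Fintype.card (Fin (blocks T) × Fin N × ν) = blocks T * (N * Fintype.card ν) := by simp

lemma node_mem (hR : Rule r w c) (hT : 0 ≤ T) {N : ℕ} (p : Fin (blocks T) × Fin N × ν) :
    0 ≤ node T N c p ∧ node T N c p ≤ T := by
  have hd : 0 ≤ (cut T (p.1 + 1) - cut T p.1) / N :=
    div_nonneg (sub_nonneg.2 (cut_mono T (Nat.le_succ _))) N.cast_nonneg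
  have hN : (0 : ℝ) < N := by exact_mod_cast p.2.1.pos
  have hj : ((p.2.1 : ℕ) : ℝ) + 1 ≤ N := by exact_mod_cast p.2.1.isLt
  refine ⟨add_nonneg (cut_nonneg hT _) (mul_nonneg hd
    (add_nonneg (Nat.cast_nonneg _) (hR.mem _).1)), ?_⟩
  have h1 : (cut T (p.1 + 1) - cut T p.1) / N * ((p.2.1 : ℕ) + c p.2.2) ≤
      (cut T (p.1 + 1) - cut T p.1) / N * N :=
    mul_le_mul_of_nonneg_left (by linarith [(hR.mem p.2.2).2]) hd
  rw [div_mul_cancel₀ _ hN.ne'] at h1
  have := cut_le T (p.1 + 1)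
  unfold node
  linarith

lemma sum_abs_wgt (hT0 : 0 ≤ T) (hT : T < 1) {N : ℕ} (hN : 0 < N) :
    ∑ p, |wgt T N w p| = T * ∑ i, |w i| := by
  have hd : ∀ j : ℕ, 0 ≤ (cut T (j + 1) - cut T j) / N := fun j =>
    div_nonneg (sub_nonneg.2 (cut_mono T (Nat.le_succ _))) N.cast_nonneg
  simp only [wgt, Fintype.sum_prod_type, abs_mul, abs_of_nonneg (hd _), ← mul_sum]
  simp only [sum_const, card_univ, Fintype.card_fin, nsmul_eq_mul, ← mul_assoc, ← sum_mul]
  rw [← sum_div, div_mul_cancel₀ _ (show (N : ℝ) ≠ 0 by positivity), Fin.sum_univ_eq_sum_range (fun j => cut T (j + 1) - cut T j), sum_range_sub (cut T),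
    cut_zero hT0, cut_blocks hT, sub_zero]

/-- The geometric composite rule. -/
theorem error (hR : Rule r w c) (h : Derivs F α β) (hα : α < 0) (hT0 : 0 ≤ T) (hTβ : T < β)
    (hT : T < 1) {N : ℕ} (hN : 0 < N) :
    |(∫ t in (0:ℝ)..T, F 0 t) - ∑ p, wgt T N w p * F 0 (node T N c p)| ≤
      (1 + ∑ i, |w i|) / (N : ℝ) ^ (r + 1) *
        ∫ t in (0:ℝ)..T, (1 - t) ^ (r + 1) * |F (r + 1) t| := by
  have hsub : ∀ j, Set.uIcc (cut T j) (cut T (j + 1)) ⊆ Set.Ioo α β := fun j => by
    rw [Set.uIcc_of_le (cut_mono T (Nat.le_succ _))]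
    exact fun t ht => ⟨hα.trans_le ((cut_nonneg hT0 j).trans ht.1),
      (ht.2.trans (cut_le T _)).trans_lt hTβ⟩
  have hcont : ∀ k, ContinuousOn (F k) (Set.Ioo α β) := fun k t ht =>
    (h k t ht).continuousAt.continuousWithinAt
  have hw : ContinuousOn (fun t => (1 - t) ^ (r + 1) * |F (r + 1) t|) (Set.Ioo α β) :=
    ((continuous_const.sub continuous_id).pow _).continuousOn.mul (hcont _).abs
  have hsum : ∀ {φ : ℝ → ℝ}, ContinuousOn φ (Set.Ioo α β) →
      ∫ t in (0:ℝ)..T, φ t = ∑ j ∈ range (blocks T), ∫ t in cut T j..cut T (j + 1), φ t :=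
    fun {φ} hφ => by
      rw [intervalIntegral.sum_integral_adjacent_intervals fun j _ =>
        (hφ.mono (hsub j)).intervalIntegrable, cut_zero hT0, cut_blocks hT]
  set W := 1 + ∑ i, |w i|
  have hW : 0 ≤ W := add_nonneg zero_le_one (sum_nonneg fun _ _ => abs_nonneg _)
  have piece : ∀ j, |(∫ t in cut T j..cut T (j + 1), F 0 t) -
      ∑ k ∈ range N, ∑ i, (cut T (j + 1) - cut T j) / N * w i *
        F 0 (cut T j + (cut T (j + 1) - cut T j) / N * (k + c i))| ≤
      W / (N : ℝ) ^ (r + 1) * ∫ t in cut T j..cut T (j + 1), (1 - t) ^ (r + 1) * |F (r + 1) t| :=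
    fun j => by
      have hle := cut_mono T (Nat.le_succ j)
      refine (error_block hR h (hα.trans_le (cut_nonneg hT0 j)) hle
        ((cut_le T _).trans_lt hTβ) hN).trans ?_
      rw [div_pow, mul_div_assoc', div_mul_eq_mul_div, div_mul_eq_mul_div, mul_assoc,
        ← intervalIntegral.integral_const_mul]
      refine div_le_div_of_nonneg_right (mul_le_mul_of_nonneg_left ?_ hW) (by positivity)
      refine intervalIntegral.integral_mono_on hle
        ((((hcont (r + 1)).abs.mono (hsub j))).intervalIntegrable.const_mul _)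
        (hw.mono (hsub j)).intervalIntegrable fun t ht => ?_
      exact mul_le_mul_of_nonneg_right
        (pow_le_pow_left₀ (sub_nonneg.2 hle) (cut_sub_le hT j ht.2) _) (abs_nonneg _)
  have hs : ∑ p, wgt T N w p * F 0 (node T N c p) = ∑ j ∈ range (blocks T), ∑ k ∈ range N, ∑ i,
      (cut T (j + 1) - cut T j) / N * w i *
        F 0 (cut T j + (cut T (j + 1) - cut T j) / N * (k + c i)) := by
    rw [Fintype.sum_prod_type, ← Fin.sum_univ_eq_sum_range]
    refine sum_congr rfl fun j _ => ?_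
    rw [Fintype.sum_prod_type, ← Fin.sum_univ_eq_sum_range]
    rfl
  rw [hs, hsum (hcont 0), hsum hw, ← sum_sub_distrib, mul_sum]
  exact (abs_sum_le_sum_abs _ _).trans (sum_le_sum fun j _ => piece j)

/-- The geometric composite rule in mean square, summed over coordinates. -/
theorem error_sq {Ω : Type} [MeasurableSpace Ω] {μ : Measure Ω} [SFinite μ] {κ : Type} [Fintype κ]
    {f : κ → Ω → ℕ → ℝ → ℝ} (hR : Rule r w c) (hf : ∀ a x, Derivs (f a x) α β) (hα : α < 0)
    (hT0 : 0 ≤ T) (hTβ : T < β) (hT : T < 1) {N : ℕ} (hN : 0 < N)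
    (hm : ∀ a, AEStronglyMeasurable (fun p : ℝ × Ω => f a p.2 (r + 1) p.1)
      ((volume.restrict (Set.Ioc 0 T)).prod μ))
    (hi : ∀ a, ∀ t ∈ Set.Icc 0 T, Integrable (fun x => f a x (r + 1) t ^ 2) μ) {M : ℝ}
    (hM : ∀ t ∈ Set.Icc 0 T, ∑ a, ∫ x, ((1 - t) ^ (r + 1) * f a x (r + 1) t) ^ 2 ∂μ ≤ M ^ 2) :
    ∑ a, ∫ x, ((∫ t in (0:ℝ)..T, f a x 0 t) - ∑ p, wgt T N w p * f a x 0 (node T N c p)) ^ 2 ∂μ ≤
      ((1 + ∑ i, |w i|) / (N : ℝ) ^ (r + 1) * T * M) ^ 2 := by
  set E := (1 + ∑ i, |w i|) / (N : ℝ) ^ (r + 1)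
  set ρ := (volume : Measure ℝ).restrict (Set.Ioc 0 T)
  let u : κ → ℝ × Ω → ℝ := fun a p => ((1 - p.1) ^ (r + 1) * f a p.2 (r + 1) p.1) ^ 2
  have hTm : ∀ᵐ t ∂ρ, t ∈ Set.Icc 0 T :=
    (ae_restrict_mem measurableSet_Ioc).mono fun t ht => Set.Ioc_subset_Icc_self ht
  have hum : ∀ a, AEStronglyMeasurable (u a) (ρ.prod μ) := fun a =>
    (((measurable_const.sub measurable_fst).pow_const (r + 1)).aestronglyMeasurable.mul (hm a)).pow 2
  have hut : ∀ a, ∀ t ∈ Set.Icc 0 T, Integrable (fun x => u a (t, x)) μ := fun a t ht => by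
    simpa only [u, mul_pow] using (hi a t ht).const_mul _
  have hle : ∀ a, ∀ t ∈ Set.Icc 0 T, ∫ x, u a (t, x) ∂μ ≤ M ^ 2 := fun a t ht =>
    le_trans (single_le_sum (f := fun b => ∫ x, u b (t, x) ∂μ)
      (fun b _ => integral_nonneg fun x => sq_nonneg _) (mem_univ a)) (hM t ht)
  have hU : ∀ a, Integrable (u a) (ρ.prod μ) := fun a => by
    refine (integrable_prod_iff (hum a)).2 ⟨hTm.mono (hut a), ?_⟩
    refine (integrable_const (M ^ 2)).mono' (hum a).norm.integral_prod_right'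
      (hTm.mono fun t ht => ?_)
    simp only [Real.norm_eq_abs, show ∀ p, |u a p| = u a p from fun p => abs_of_nonneg (sq_nonneg _)]
    exact (abs_of_nonneg (integral_nonneg fun x => sq_nonneg _)).trans_le (hle a t ht)
  have hpt : ∀ a x, ((∫ t in (0:ℝ)..T, f a x 0 t) -
      ∑ p, wgt T N w p * f a x 0 (node T N c p)) ^ 2 ≤ E ^ 2 * T * ∫ t, u a (t, x) ∂ρ := fun a x => by
    obtain ⟨G, hG, hGF⟩ := (hf a x).exists_ext hα hT0 hTβ
    set φ : ℝ → ℝ := fun t => (1 - t) ^ (r + 1) * iteratedDeriv (r + 1) G t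
    have hφ : Continuous φ := ((continuous_const.sub continuous_id).pow _).mul
      (hG.continuous_iteratedDeriv _ (WithTop.coe_le_coe.2 le_top))
    have h1 : ∫ t in (0:ℝ)..T, (1 - t) ^ (r + 1) * |f a x (r + 1) t| =
        ∫ t in (0:ℝ)..T, |φ t| := intervalIntegral.integral_congr fun t ht => by
      rw [Set.uIcc_of_le hT0] at ht
      simp only [φ, hGF t ht, abs_mul, abs_pow, abs_of_nonneg (sub_nonneg.2 (ht.2.trans hT.le))]
    have h2 : ∫ t in (0:ℝ)..T, φ t ^ 2 = ∫ t, u a (t, x) ∂ρ := by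
      rw [← intervalIntegral.integral_of_le hT0]
      refine intervalIntegral.integral_congr fun t ht => ?_
      rw [Set.uIcc_of_le hT0] at ht
      simp only [u, φ, hGF t ht]
    have e := error hR (hf a x) hα hT0 hTβ hT hN
    rw [h1] at e
    rw [← sq_abs, mul_assoc, ← h2]
    refine (pow_le_pow_left₀ (abs_nonneg _) e 2).trans ?_
    rw [mul_pow]
    exact mul_le_mul_of_nonneg_left (sq_integral_abs_le_mul hφ T) (sq_nonneg _)
  calc ∑ a, ∫ x, ((∫ t in (0:ℝ)..T, f a x 0 t) -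
        ∑ p, wgt T N w p * f a x 0 (node T N c p)) ^ 2 ∂μ
      ≤ ∑ a, ∫ x, E ^ 2 * T * ∫ t, u a (t, x) ∂ρ ∂μ := sum_le_sum fun a _ =>
        integral_mono_of_nonneg (ae_of_all _ fun _ => sq_nonneg _)
          ((hU a).integral_prod_right.const_mul _) (ae_of_all _ (hpt a))
    _ = E ^ 2 * T * ∫ t, ∑ a, ∫ x, u a (t, x) ∂μ ∂ρ := by
        rw [integral_finsetSum _ fun a _ => (hU a).integral_prod_left, mul_sum]
        exact sum_congr rfl fun a _ => by
          rw [integral_const_mul, integral_integral_swap (f := fun t x => u a (t, x)) (hU a)]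
    _ ≤ E ^ 2 * T * (T * M ^ 2) := by
        refine mul_le_mul_of_nonneg_left ((integral_mono_ae
          (integrable_finsetSum _ fun a _ => (hU a).integral_prod_left) (integrable_const _)
          (hTm.mono fun t ht => hM t ht)).trans_eq ?_) (by positivity)
        simp [ρ, measureReal_def, hT0]
    _ = (E * T * M) ^ 2 := by ring

end Vale.Agent.P347.Shift.CompQuad
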