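import Vale.Agent.P347.Quarter.Gauss

/-!
# P347: the Gaussian divergence and its derivatives

`delta U = ∑ i (x_i U_i - ∂_i U_i)` on Euclidean space with the standard Gaussian law.  Functions
are of temperate growth.  `DS j` is the sum of the squared `L²` norms of all partial derivatives of
order `j` of a finite family, `Dn j` its root.
-/

open MeasureTheory ProbabilityTheory Real Finset
open scoped RealInnerProductSpace ContDiff

namespace Vale.Agent.P347.Shift

open Quarter

variable {ι : Type} [Fintype ι] [DecidableEq ι] {κ : Type} [Fintype κ]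

/-- The coordinate vector. -/
noncomputable def ei (i : ι) : Eu ι := EuclideanSpace.single i (1 : ℝ)

/-- The partial derivative. -/
noncomputable def pd (i : ι) (f : Eu ι → ℝ) : Eu ι → ℝ := fun x => fderiv ℝ f x (ei i)

/-- The Gaussian divergence. -/
noncomputable def delta (U : ι → Eu ι → ℝ) : Eu ι → ℝ :=
  fun x => ∑ i, (x i * U i x - pd i (U i) x)

omit [DecidableEq ι] in
lemma tg_fderiv {f : Eu ι → ℝ} (hf : f.HasTemperateGrowth) :
    (fderiv ℝ f).HasTemperateGrowth := by
  refine ⟨hf.1.fderiv_right (by simp), fun n => ?_⟩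
  obtain ⟨k, C, h⟩ := hf.2 (n + 1)
  exact ⟨k, C, fun x => by rw [norm_iteratedFDeriv_fderiv]; exact h x⟩

@[fun_prop]
lemma tg_pd {f : Eu ι → ℝ} (i : ι) (hf : f.HasTemperateGrowth) :
    (pd i f).HasTemperateGrowth :=
  (ContinuousLinearMap.apply ℝ ℝ (ei i)).hasTemperateGrowth.comp (tg_fderiv hf)

omit [DecidableEq ι] in
@[fun_prop]
lemma tg_coord (i : ι) : (fun x : Eu ι => x i).HasTemperateGrowth :=
  (EuclideanSpace.proj (𝕜 := ℝ) i).hasTemperateGrowth

@[fun_prop]
lemma tg_delta {U : ι → Eu ι → ℝ} (hU : ∀ i, (U i).HasTemperateGrowth) :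
    (delta U).HasTemperateGrowth :=
  .sum fun i _ => ((tg_coord i).fun_mul (hU i)).fun_sub (tg_pd i (hU i))

omit [DecidableEq ι] in
lemma tg_differentiable {f : Eu ι → ℝ} (hf : f.HasTemperateGrowth) : Differentiable ℝ f :=
  hf.1.differentiable (by simp)

omit [DecidableEq ι] in
lemma tg_bound {f : Eu ι → ℝ} (hf : f.HasTemperateGrowth) :
    ∃ C K : ℝ, ∀ x, |f x| ≤ C * exp (K * ‖x‖) ∧ ‖fderiv ℝ f x‖ ≤ C * exp (K * ‖x‖) := by
  obtain ⟨k, C, hC, h⟩ := hf.norm_iteratedFDeriv_le_uniform 1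
  refine ⟨C, k, fun x => ?_⟩
  have e : (1 + ‖x‖) ^ k ≤ exp (k * ‖x‖) := by
    rw [exp_nat_mul]
    exact pow_le_pow_left₀ (by positivity) (by linarith [add_one_le_exp ‖x‖]) k
  have h0 := h 0 (by omega) x
  have h1 := h 1 le_rfl x
  rw [norm_iteratedFDeriv_zero, norm_eq_abs] at h0
  rw [norm_iteratedFDeriv_one] at h1
  exact ⟨h0.trans (mul_le_mul_of_nonneg_left e hC), h1.trans (mul_le_mul_of_nonneg_left e hC)⟩

omit [DecidableEq ι] in
lemma tg_integrable {f : Eu ι → ℝ} (hf : f.HasTemperateGrowth) : Integrable f (gam ι) := by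
  obtain ⟨C, K, h⟩ := tg_bound hf
  exact integrable_gam_of_le hf.1.continuous fun x => (h x).1

lemma pd_add {f g : Eu ι → ℝ} (hf : f.HasTemperateGrowth) (hg : g.HasTemperateGrowth) (i : ι) :
    pd i (fun x => f x + g x) = fun x => pd i f x + pd i g x := by
  funext x
  simp [pd, fderiv_fun_add (tg_differentiable hf x) (tg_differentiable hg x)]

lemma pd_mul {f g : Eu ι → ℝ} (hf : f.HasTemperateGrowth) (hg : g.HasTemperateGrowth) (i : ι) :
    pd i (fun x => f x * g x) = fun x => pd i f x * g x + f x * pd i g x := by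
  funext x
  simp [pd, fderiv_fun_mul (tg_differentiable hf x) (tg_differentiable hg x)]
  ring

lemma pd_sub {f g : Eu ι → ℝ} (hf : f.HasTemperateGrowth) (hg : g.HasTemperateGrowth) (i : ι) :
    pd i (fun x => f x - g x) = fun x => pd i f x - pd i g x := by
  funext x
  simp [pd, fderiv_fun_sub (tg_differentiable hf x) (tg_differentiable hg x)]

lemma pd_coord (i k : ι) (x : Eu ι) : pd k (fun x : Eu ι => x i) x = if i = k then 1 else 0 := by
  have : fderiv ℝ (fun x : Eu ι => x i) x = EuclideanSpace.proj (𝕜 := ℝ) i :=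
    (EuclideanSpace.proj (𝕜 := ℝ) i).fderiv
  simp [pd, this, ei]

lemma pd_comm {f : Eu ι → ℝ} (hf : f.HasTemperateGrowth) (i k : ι) :
    pd k (pd i f) = pd i (pd k f) := by
  funext x
  have hd : DifferentiableAt ℝ (fderiv ℝ f) x :=
    (hf.1.fderiv_right (m := ∞) (by simp)).differentiable (by simp) x
  have hs : IsSymmSndFDerivAt ℝ f x :=
    hf.1.contDiffAt.isSymmSndFDerivAt (by rw [minSmoothness_of_isRCLikeNormedField]; exact WithTop.coe_le_coe.2 le_top)
  have e : ∀ a b, fderiv ℝ (fun y => fderiv ℝ f y a) x b = fderiv ℝ (fderiv ℝ f) x b a := fun a b => by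
    simp [fderiv_clm_apply hd (differentiableAt_const a)]
  show fderiv ℝ (fun y => fderiv ℝ f y (ei i)) x (ei k) = fderiv ℝ (fun y => fderiv ℝ f y (ei k)) x (ei i)
  rw [e, e]
  exact hs (ei k) (ei i)

/-- A derivative of the divergence. -/
theorem pd_delta {U : ι → Eu ι → ℝ} (hU : ∀ i, (U i).HasTemperateGrowth) (k : ι) :
    pd k (delta U) = fun x => delta (fun i => pd k (U i)) x + U k x := by
  funext x
  have hd : ∀ i ∈ (univ : Finset ι),
      DifferentiableAt ℝ (fun x => x i * U i x - pd i (U i) x) x := fun i _ =>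
    tg_differentiable (((tg_coord i).fun_mul (hU i)).fun_sub (tg_pd i (hU i))) x
  have e : ∀ i, pd k (fun x => x i * U i x - pd i (U i) x) x =
      (x i * pd k (U i) x - pd i (pd k (U i)) x) + (if i = k then U i x else 0) := fun i => by
    rw [pd_sub ((tg_coord i).fun_mul (hU i)) (tg_pd i (hU i)), pd_mul (tg_coord i) (hU i),
      pd_comm (hU i) i k]
    beta_reduce
    rw [pd_coord]
    split_ifs <;> ring
  calc pd k (delta U) x = ∑ i, pd k (fun x => x i * U i x - pd i (U i) x) x := by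
        unfold pd delta
        rw [fderiv_fun_sum (fun i hi => hd i hi)]
        simp [pd]
    _ = _ := by simp [e, delta, sum_add_distrib]

/-- Integration by parts for one coordinate. -/
lemma integral_pd {f : Eu ι → ℝ} (hf : f.HasTemperateGrowth) (i : ι) :
    ∫ x, pd i f x ∂gam ι = ∫ x, f x * x i ∂gam ι := by
  obtain ⟨C, K, h⟩ := tg_bound hf
  refine (gauss_ibp (hf.1.of_le (by simp)) (fun x => (h x).1) (fun x => (h x).2) (ei i)).trans ?_
  simp [ei, EuclideanSpace.inner_single_right]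

/-- The divergence is adjoint to the gradient. -/
theorem integral_delta_mul {U : ι → Eu ι → ℝ} (hU : ∀ i, (U i).HasTemperateGrowth)
    {g : Eu ι → ℝ} (hg : g.HasTemperateGrowth) :
    ∫ x, delta U x * g x ∂gam ι = ∑ i, ∫ x, U i x * pd i g x ∂gam ι := by
  have e : (fun x => delta U x * g x) = fun x => ∑ i, (x i * U i x - pd i (U i) x) * g x :=
    funext fun x => Finset.sum_mul ..
  rw [e, integral_finsetSum _ fun i _ =>
    tg_integrable ((((tg_coord i).fun_mul (hU i)).fun_sub (tg_pd i (hU i))).fun_mul hg)]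
  refine sum_congr rfl fun i _ => ?_
  have h := integral_pd ((hU i).fun_mul hg) i
  rw [pd_mul (hU i) hg, integral_add (tg_integrable ((tg_pd i (hU i)).fun_mul hg))
    (tg_integrable ((hU i).fun_mul (tg_pd i hg)))] at h
  have e2 : (fun x => (x i * U i x - pd i (U i) x) * g x)
      = fun x => U i x * g x * x i - pd i (U i) x * g x := funext fun x => by ring
  rw [e2, integral_sub (tg_integrable (((hU i).fun_mul hg).fun_mul (tg_coord i)))
    (tg_integrable ((tg_pd i (hU i)).fun_mul hg))]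
  linarith

/-- The divergence has mean zero. -/
theorem integral_delta {U : ι → Eu ι → ℝ} (hU : ∀ i, (U i).HasTemperateGrowth) :
    ∫ x, delta U x ∂gam ι = 0 := by
  simpa [pd] using integral_delta_mul hU (Function.HasTemperateGrowth.const (1 : ℝ))

/-- The squared `L²` norm of the derivatives of order `j`. -/
noncomputable def dsq : ℕ → (Eu ι → ℝ) → ℝ
  | 0, f => ∫ x, f x ^ 2 ∂gam ι
  | j + 1, f => ∑ i, dsq j (pd i f)

/-- The same for a finite family. -/
noncomputable def DS (j : ℕ) (V : κ → Eu ι → ℝ) : ℝ := ∑ a, dsq j (V a)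

/-- The root of `DS`. -/
noncomputable def Dn (j : ℕ) (V : κ → Eu ι → ℝ) : ℝ := √(DS j V)

lemma dsq_nonneg : ∀ (j : ℕ) (f : Eu ι → ℝ), 0 ≤ dsq j f
  | 0, _ => integral_nonneg fun _ => sq_nonneg _
  | j + 1, _ => sum_nonneg fun _ _ => dsq_nonneg j _

lemma DS_nonneg (j : ℕ) (V : κ → Eu ι → ℝ) : 0 ≤ DS j V := sum_nonneg fun _ _ => dsq_nonneg j _

lemma Dn_nonneg (j : ℕ) (V : κ → Eu ι → ℝ) : 0 ≤ Dn j V := sqrt_nonneg _

lemma Dn_sq (j : ℕ) (V : κ → Eu ι → ℝ) : Dn j V ^ 2 = DS j V := sq_sqrt (DS_nonneg j V)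

/-- The derivatives of a family, as a family. -/
lemma DS_succ (j : ℕ) (V : κ → Eu ι → ℝ) :
    DS (j + 1) V = DS j fun p : ι × κ => pd p.1 (V p.2) := by
  simp only [DS, dsq, Fintype.sum_prod_type]
  exact sum_comm

lemma dsq_add_le : ∀ (j : ℕ) {f g : Eu ι → ℝ} (_ : f.HasTemperateGrowth)
    (_ : g.HasTemperateGrowth) {t : ℝ} (_ : 0 < t),
    dsq j (fun x => f x + g x) ≤ (1 + t) * dsq j f + (1 + t⁻¹) * dsq j g
  | 0, f, g, hf, hg, t, ht => by
    simp only [dsq]
    rw [← integral_const_mul, ← integral_const_mul, ← integral_add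
      ((tg_integrable (hf.fun_pow 2)).const_mul _) ((tg_integrable (hg.fun_pow 2)).const_mul _)]
    refine integral_mono (tg_integrable ((hf.fun_add hg).fun_pow 2))
      (((tg_integrable (hf.fun_pow 2)).const_mul _).add
        ((tg_integrable (hg.fun_pow 2)).const_mul _)) fun x => ?_
    have h : 0 ≤ (t * f x - g x) ^ 2 * t⁻¹ := by positivity
    have e : (t * f x - g x) ^ 2 * t⁻¹ = t * f x ^ 2 - 2 * (f x * g x) + t⁻¹ * g x ^ 2 := by
      field_simp
      ring
    beta_reduce
    nlinarith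
  | j + 1, f, g, hf, hg, t, ht => by
    simp only [dsq]
    rw [mul_sum, mul_sum, ← sum_add_distrib]
    refine sum_le_sum fun i _ => ?_
    rw [pd_add hf hg]
    exact dsq_add_le j (tg_pd i hf) (tg_pd i hg) ht

/-- Minkowski's inequality. -/
theorem Dn_add_le (j : ℕ) {U V : κ → Eu ι → ℝ} (hU : ∀ a, (U a).HasTemperateGrowth)
    (hV : ∀ a, (V a).HasTemperateGrowth) :
    Dn j (fun a x => U a x + V a x) ≤ Dn j U + Dn j V := by
  refine le_of_forall_pos_le_add fun ε hε => ?_
  set a := Dn j U with ha'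
  set b := Dn j V with hb'
  have ha : 0 ≤ a := Dn_nonneg j U
  have hb : 0 ≤ b := Dn_nonneg j V
  set t := (b + ε) / (a + ε) with ht'
  have ht : 0 < t := by positivity
  have h : DS j (fun i x => U i x + V i x) ≤ (1 + t) * a ^ 2 + (1 + t⁻¹) * b ^ 2 := by
    rw [ha', hb', Dn_sq, Dn_sq, DS, DS, DS, mul_sum, mul_sum, ← sum_add_distrib]
    exact sum_le_sum fun i _ => dsq_add_le j (hU i) (hV i) ht
  rw [Dn, sqrt_le_iff]
  refine ⟨by positivity, h.trans ?_⟩
  have h1 : t * a ^ 2 ≤ (b + ε) * a := by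
    rw [ht', div_mul_eq_mul_div, div_le_iff₀ (by positivity)]
    nlinarith [mul_nonneg (mul_nonneg (add_nonneg hb hε.le) ha) hε.le]
  have h2 : t⁻¹ * b ^ 2 ≤ (a + ε) * b := by
    rw [ht', inv_div, div_mul_eq_mul_div, div_le_iff₀ (by positivity)]
    nlinarith [mul_nonneg (mul_nonneg (add_nonneg ha hε.le) hb) hε.le]
  nlinarith [mul_nonneg ha hε.le, mul_nonneg hb hε.le]

/-- The square of a divergence. -/
theorem dsq_zero_delta_le {U : ι → Eu ι → ℝ} (hU : ∀ i, (U i).HasTemperateGrowth) :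
    dsq 0 (delta U) ≤ DS 0 U + DS 1 U := by
  have hd := tg_delta hU
  have hint : ∀ i k, Integrable (fun x => pd i (U k) x * pd k (U i) x) (gam ι) := fun i k =>
    tg_integrable ((tg_pd i (hU k)).fun_mul (tg_pd k (hU i)))
  have e : dsq 0 (delta U) =
      DS 0 U + ∑ i, ∑ k, ∫ x, pd i (U k) x * pd k (U i) x ∂gam ι := by
    have e0 : dsq 0 (delta U) = ∫ x, delta U x * delta U x ∂gam ι := by simp [dsq, sq]
    rw [e0, integral_delta_mul hU hd, DS, ← sum_add_distrib]
    refine sum_congr rfl fun i _ => ?_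
    have hW : ∀ k, (pd i (U k)).HasTemperateGrowth := fun k => tg_pd i (hU k)
    rw [← integral_delta_mul hW (hU i), dsq, ← integral_add (tg_integrable ((hU i).fun_pow 2))
      (tg_integrable ((tg_delta hW).fun_mul (hU i)))]
    refine integral_congr_ae (ae_of_all _ fun x => ?_)
    simp only [pd_delta hU i]
    ring
  rw [e]
  refine add_le_add le_rfl ?_
  calc ∑ i, ∑ k, ∫ x, pd i (U k) x * pd k (U i) x ∂gam ι
      ≤ ∑ i, ∑ k, (dsq 0 (pd i (U k)) + dsq 0 (pd k (U i))) / 2 := by
        refine sum_le_sum fun i _ => sum_le_sum fun k _ => ?_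
        have h1 := tg_integrable ((tg_pd i (hU k)).fun_pow 2)
        have h2 := tg_integrable ((tg_pd k (hU i)).fun_pow 2)
        simp only [dsq]
        rw [← integral_add h1 h2, ← integral_div]
        refine integral_mono (hint i k) ((h1.add h2).div_const 2) fun x => ?_
        beta_reduce
        nlinarith [sq_nonneg (pd i (U k) x - pd k (U i) x)]
    _ = DS 1 U := by
        simp only [DS, dsq, add_div, sum_add_distrib]
        rw [sum_comm (f := fun i k => (∫ x, pd i (U k) x ^ 2 ∂gam ι) / 2),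
          ← sum_add_distrib]
        refine sum_congr rfl fun i _ => ?_
        rw [← sum_add_distrib]
        exact sum_congr rfl fun k _ => by ring

/-- Derivatives of a family of divergences, with the sharp first term: the indices of the family
`U a` are flattened. -/
theorem Dn_delta_le_sqrt (j : ℕ) {κ : Type} [Fintype κ] {U : κ → ι → Eu ι → ℝ}
    (hU : ∀ a i, (U a i).HasTemperateGrowth) :
    Dn j (fun a => delta (U a)) ≤ √(DS j (fun p : κ × ι => U p.1 p.2) +
      DS (j + 1) (fun p : κ × ι => U p.1 p.2)) +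
      j * Dn (j - 1) (fun p : κ × ι => U p.1 p.2) := by
  induction j generalizing κ with
  | zero =>
    have h : DS 0 (fun a => delta (U a)) ≤
        DS 0 (fun p : κ × ι => U p.1 p.2) + DS 1 fun p : κ × ι => U p.1 p.2 := by
      simp only [DS, Fintype.sum_prod_type, ← sum_add_distrib]
      refine sum_le_sum fun a _ => (dsq_zero_delta_le (hU a)).trans_eq ?_
      simp only [DS, sum_add_distrib]
    simpa [Dn] using sqrt_le_sqrt h
  | succ j ih =>
    set W : ι × κ → ι → Eu ι → ℝ := fun p k => pd p.1 (U p.2 k) with hW'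
    have hW : ∀ p k, (W p k).HasTemperateGrowth := fun p k => tg_pd _ (hU p.2 k)
    have e1 : Dn (j + 1) (fun a => delta (U a))
        = Dn j fun p : ι × κ => fun x => delta (W p) x + U p.2 p.1 x := by
      rw [Dn, DS_succ, Dn]
      simp only [pd_delta (hU _), hW']
    have e2 : ∀ m, DS m (fun q : (ι × κ) × ι => W q.1 q.2) =
        DS (m + 1) fun p : κ × ι => U p.1 p.2 := fun m => by
      simp only [DS, dsq, hW', Fintype.sum_prod_type]
      rw [sum_comm]
      exact sum_congr rfl fun a _ => sum_comm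
    have e3 : Dn j (fun p : ι × κ => U p.2 p.1) = Dn j fun p : κ × ι => U p.1 p.2 := by
      simp only [Dn, DS, Fintype.sum_prod_type]
      rw [sum_comm]
    rw [e1]
    refine (Dn_add_le j (fun p => tg_delta (hW p)) fun p : ι × κ => hU p.2 p.1).trans ?_
    refine (add_le_add (ih hW) e3.le).trans (le_of_eq ?_)
    rw [e2 j, e2 (j + 1), Dn, e2 (j - 1)]
    rcases j with _ | m
    · simp [Dn]
    · simp only [Nat.add_sub_cancel, Dn]
      push_cast
      ring

lemma sqrt_add_le {a b : ℝ} (ha : 0 ≤ a) (hb : 0 ≤ b) : √(a + b) ≤ √a + √b :=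
  sqrt_le_iff.2 ⟨by positivity, by
    nlinarith [sq_sqrt ha, sq_sqrt hb, mul_nonneg (sqrt_nonneg a) (sqrt_nonneg b)]⟩

/-- Derivatives of a family of divergences. -/
theorem Dn_delta_le (j : ℕ) {κ : Type} [Fintype κ] {U : κ → ι → Eu ι → ℝ}
    (hU : ∀ a i, (U a i).HasTemperateGrowth) :
    Dn j (fun a => delta (U a)) ≤ Dn j (fun p : κ × ι => U p.1 p.2) +
      Dn (j + 1) (fun p : κ × ι => U p.1 p.2) + j * Dn (j - 1) (fun p : κ × ι => U p.1 p.2) :=
  (Dn_delta_le_sqrt j hU).trans
    (add_le_add (sqrt_add_le (DS_nonneg _ _) (DS_nonneg _ _)) le_rfl)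

/-- The case of one field. -/
theorem sqrt_dsq_delta_le (j : ℕ) {U : ι → Eu ι → ℝ} (hU : ∀ i, (U i).HasTemperateGrowth) :
    √(dsq j (delta U)) ≤ Dn j U + Dn (j + 1) U + j * Dn (j - 1) U := by
  have h := Dn_delta_le j (κ := Unit) (U := fun _ => U) fun _ => hU
  simpa [Dn, DS, Fintype.sum_prod_type] using h

end Vale.Agent.P347.Shift
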