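import Vale.Agent.P347.Shift.GDiv

/-!
# P347: the Gaussian divergence of a `C¹` field and the full room

Mollification and cut-off remove the smoothness and support hypotheses of `Shift/Diverg`.
-/

open MeasureTheory ProbabilityTheory Real Filter Topology ContinuousLinearMap
open scoped RealInnerProductSpace ENNReal Convolution

namespace Vale.Agent.P347.Shift

open Quarter

variable {ι : Type} [Fintype ι]

lemma abs_gdiv_le {U : Eu ι → Eu ι} {C D : ℝ} (hC : ∀ x, ‖U x‖ ≤ C)
    (hD : ∀ x, ‖fderiv ℝ U x‖ ≤ D) (x : Eu ι) :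
    |gdiv U x| ≤ C * ‖x‖ + Fintype.card ι * D := by
  refine (abs_sub _ _).trans (add_le_add ?_ ((Finset.abs_sum_le_sum_abs _ _).trans ?_))
  · exact (abs_real_inner_le_norm _ _).trans
      (by rw [mul_comm C]; exact mul_le_mul_of_nonneg_left (hC x) (norm_nonneg x))
  · refine (Finset.sum_le_sum (g := fun _ => D) fun i _ => ?_).trans_eq (by simp)
    refine (abs_real_inner_le_norm _ _).trans ?_
    rw [OrthonormalBasis.norm_eq_one, mul_one]
    refine (le_opNorm _ _).trans ?_
    rw [OrthonormalBasis.norm_eq_one, mul_one]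
    exact hD x

/-- The second moment for a `C¹` field of compact support. -/
lemma gdiv_sq_compact {U : Eu ι → Eu ι} (hU : ContDiff ℝ 1 U) (hc : HasCompactSupport U) :
    ∫ x, gdiv U x ^ 2 ∂gam ι ≤ ∫ x, ‖U x‖ ^ 2 + dfrob U x ∂gam ι := by
  have hUd := hU.continuous_fderiv one_ne_zero
  obtain ⟨C, hC⟩ := hc.exists_bound_of_continuous hU.continuous
  obtain ⟨D, hD⟩ := (hc.fderiv ℝ).exists_bound_of_continuous hUd
  have hC0 : 0 ≤ C := (norm_nonneg _).trans (hC 0)
  have hD0 : 0 ≤ D := (norm_nonneg _).trans (hD 0)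
  let φ : ℕ → ContDiffBump (0 : Eu ι) := fun n =>
    ⟨((n:ℝ) + 1)⁻¹ / 2, ((n:ℝ) + 1)⁻¹, by positivity, half_lt_self (by positivity)⟩
  have hφ : Tendsto (fun n => (φ n).rOut) atTop (𝓝 0) := by
    simpa [φ, one_div] using tendsto_one_div_add_atTop_nhds_zero_nat (𝕜 := ℝ)
  set Un : ℕ → Eu ι → Eu ι := fun n => (φ n).normed volume ⋆[lsmul ℝ ℝ, volume] U with hUn
  have h2 : ∀ n, ContDiff ℝ 2 (Un n) := fun n =>
    (φ n).hasCompactSupport_normed.contDiff_convolution_left (lsmul ℝ ℝ) (n := 2)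
      (φ n).contDiff_normed hU.continuous.locallyIntegrable
  have hs : ∀ n, HasCompactSupport (Un n) := fun n =>
    (φ n).hasCompactSupport_normed.convolution _ hc
  have hfd : ∀ n x, fderiv ℝ (Un n) x =
      ((φ n).normed volume ⋆[lsmul ℝ ℝ, volume] fderiv ℝ U) x := fun n x => by
    rw [hUn, (hc.hasFDerivAt_convolution_right (lsmul ℝ ℝ)
      (φ n).integrable_normed.locallyIntegrable hU x).fderiv]
    simp only [convolution]
    refine integral_congr_ae (ae_of_all _ fun t => ?_)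
    ext v
    simp [precompR_apply]
  have hconv : ∀ {F : Type} [NormedAddCommGroup F] [NormedSpace ℝ F] [CompleteSpace F]
      (g : Eu ι → F), Continuous g → ∀ B, (∀ x, ‖g x‖ ≤ B) → ∀ n x,
      ‖((φ n).normed volume ⋆[lsmul ℝ ℝ, volume] g) x‖ ≤ 3 * B := by
    intro F _ _ _ g hg B hB n x
    have h := (φ n).dist_normed_convolution_le (μ := volume) hg.aestronglyMeasurable (x₀ := x)
      (ε := 2 * B) fun y _ => (dist_le_norm_add_norm _ _).trans (by linarith [hB y, hB x])
    rw [dist_eq_norm] at h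
    linarith [norm_le_norm_add_norm_sub' (((φ n).normed volume ⋆[lsmul ℝ ℝ, volume] g) x) (g x),
      hB x]
  have b1 : ∀ n x, ‖Un n x‖ ≤ 3 * C := hconv U hU.continuous C hC
  have b2 : ∀ n x, ‖fderiv ℝ (Un n) x‖ ≤ 3 * D := fun n x => by
    rw [hfd]; exact hconv _ hUd D hD n x
  have t1 : ∀ x, Tendsto (fun n => Un n x) atTop (𝓝 (U x)) := fun x =>
    ContDiffBump.convolution_tendsto_right_of_continuous hφ hU.continuous x
  have t2 : ∀ x, Tendsto (fun n => fderiv ℝ (Un n) x) atTop (𝓝 (fderiv ℝ U x)) := fun x => by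
    simp only [hfd]
    exact ContDiffBump.convolution_tendsto_right_of_continuous hφ hUd x
  have t3 : ∀ x v, Tendsto (fun n => fderiv ℝ (Un n) x v) atTop (𝓝 (fderiv ℝ U x v)) := fun x v =>
    ((ContinuousLinearMap.apply ℝ (Eu ι) v).continuous.tendsto _).comp (t2 x)
  have hn1 : ∀ n, ContDiff ℝ 1 (Un n) := fun n => (h2 n).of_le (by norm_num)
  set k : ℝ := (Fintype.card ι : ℝ)
  refine le_of_tendsto_of_tendsto'
    (tendsto_integral_of_dominated_convergence (F := fun n x => gdiv (Un n) x ^ 2)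
      (fun x => 2 * (3 * C) ^ 2 * ‖x‖ ^ 2 + 2 * (k * (3 * D)) ^ 2)
      (fun n => ((continuous_gdiv (hn1 n)).pow 2).aestronglyMeasurable)
      ((integral_norm_sq.1.const_mul _).add (integrable_const _))
      (fun n => ae_of_all _ fun x => ?_) (ae_of_all _ fun x => ?_))
    (tendsto_integral_of_dominated_convergence (F := fun n x => ‖Un n x‖ ^ 2 + dfrob (Un n) x)
      (fun _ => (3 * C) ^ 2 + k * (3 * D) ^ 2)
      (fun n => (((hn1 n).continuous.norm.pow 2).add
        (continuous_dfrob (hn1 n))).aestronglyMeasurable)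
      (integrable_const _) (fun n => ae_of_all _ fun x => ?_) (ae_of_all _ fun x => ?_))
    fun n => gdiv_sq_two (h2 n) (hs n)
  · rw [norm_pow, norm_eq_abs]
    refine (pow_le_pow_left₀ (abs_nonneg _) (abs_gdiv_le (b1 n) (b2 n) x) 2).trans ?_
    nlinarith [sq_nonneg (3 * C * ‖x‖ - k * (3 * D))]
  · exact ((Tendsto.inner (tendsto_const_nhds (x := x)) (t1 x)).sub
      (tendsto_finsetSum _ fun i _ => Tendsto.inner (t3 x _) tendsto_const_nhds)).pow 2
  · rw [norm_eq_abs, abs_of_nonneg (add_nonneg (sq_nonneg _) (dfrob_nonneg _ _))]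
    refine add_le_add (pow_le_pow_left₀ (norm_nonneg _) (b1 n x) 2)
      ((Finset.sum_le_sum (g := fun _ => (3 * D) ^ 2) fun i _ => ?_).trans_eq (by simp [k]))
    refine pow_le_pow_left₀ (norm_nonneg _) ((le_opNorm _ _).trans ?_) 2
    rw [OrthonormalBasis.norm_eq_one, mul_one]
    exact b2 n x
  · exact ((t1 x).norm.pow 2).add (tendsto_finsetSum _ fun i _ => (t3 x _).norm.pow 2)

/-- A cut-off equal to one on the ball of radius `n + 1`. -/
noncomputable def cutOff (n : ℕ) (x : Eu ι) : ℝ :=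
  (⟨1, 2, one_pos, one_lt_two⟩ : ContDiffBump (0 : Eu ι)) (((n:ℝ) + 1)⁻¹ • x)

lemma contDiff_cutOff (n : ℕ) : ContDiff ℝ 1 (cutOff (ι := ι) n) :=
  (⟨1, 2, one_pos, one_lt_two⟩ : ContDiffBump (0 : Eu ι)).contDiff.comp (contDiff_id.const_smul _)

lemma abs_cutOff_le (n : ℕ) (x : Eu ι) : |cutOff n x| ≤ 1 := by
  rw [cutOff, abs_of_nonneg (ContDiffBump.nonneg _)]
  exact ContDiffBump.le_one _

lemma hasCompactSupport_cutOff (n : ℕ) : HasCompactSupport (cutOff (ι := ι) n) :=
  (⟨1, 2, one_pos, one_lt_two⟩ : ContDiffBump (0 : Eu ι)).hasCompactSupport.comp_smul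
    (inv_ne_zero (by positivity : ((n:ℝ) + 1) ≠ 0))

lemma cutOff_eventually (x : Eu ι) :
    ∀ᶠ p : ℕ × Eu ι in atTop ×ˢ 𝓝 x, cutOff p.1 p.2 = 1 := by
  have hf : ∀ᶠ n : ℕ in atTop, ‖x‖ + 1 ≤ (n:ℝ) + 1 := by
    filter_upwards [tendsto_natCast_atTop_atTop.eventually (eventually_ge_atTop ‖x‖)] with n hn
    linarith
  have hb : ∀ᶠ y in 𝓝 x, ‖y‖ < ‖x‖ + 1 :=
    continuous_norm.continuousAt.eventually (Iio_mem_nhds (lt_add_one _))
  filter_upwards [hf.prod_mk hb] with p hp
  refine ContDiffBump.one_of_mem_closedBall _ (mem_closedBall_zero_iff.2 ?_)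
  rw [norm_smul, norm_inv, norm_of_nonneg (by positivity), inv_mul_le_iff₀ (by positivity),
    mul_one]
  linarith [hp.1, hp.2]

lemma cutOff_bound : ∃ B : ℝ, 0 ≤ B ∧ ∀ (n : ℕ) (x : Eu ι), ‖fderiv ℝ (cutOff n) x‖ ≤ B := by
  set χ : ContDiffBump (0 : Eu ι) := ⟨1, 2, one_pos, one_lt_two⟩
  obtain ⟨B, hB⟩ := (χ.hasCompactSupport.fderiv ℝ).exists_bound_of_continuous
    ((χ.contDiff (n := 1)).continuous_fderiv one_ne_zero)
  refine ⟨B, (norm_nonneg _).trans (hB 0), fun n x => ?_⟩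
  have h : HasFDerivAt (cutOff n)
      ((fderiv ℝ χ (((n:ℝ) + 1)⁻¹ • x)).comp (((n:ℝ) + 1)⁻¹ • ContinuousLinearMap.id ℝ (Eu ι))) x :=
    (((χ.contDiff (n := 1)).differentiable one_ne_zero) _).hasFDerivAt.comp x
      (((n:ℝ) + 1)⁻¹ • ContinuousLinearMap.id ℝ (Eu ι)).hasFDerivAt
  rw [h.fderiv]
  refine (opNorm_comp_le _ _).trans ((mul_le_of_le_one_right (norm_nonneg _) ?_).trans (hB _))
  rw [norm_smul, norm_inv, norm_of_nonneg (by positivity)]
  refine mul_le_one₀ (inv_le_one_of_one_le₀ ?_) (norm_nonneg _) norm_id_le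
  exact le_add_of_nonneg_left (Nat.cast_nonneg n)

variable {U : Eu ι → Eu ι}

lemma gdiv_cut (hU : Differentiable ℝ U) (n : ℕ) (x : Eu ι) :
    gdiv (fun y => cutOff n y • U y) x =
      cutOff n x * gdiv U x - fderiv ℝ (cutOff n) x (U x) := by
  have he : ∑ i, fderiv ℝ (cutOff n) x (bv i) * ⟪U x, bv i⟫ = fderiv ℝ (cutOff n) x (U x) := by
    conv_rhs => rw [← sum_crd U x, map_sum]
    simp [crd, mul_comm]
  rw [gdiv, gdiv, fderiv_fun_smul ((contDiff_cutOff n).differentiable one_ne_zero x) (hU x)]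
  simp only [add_apply, smul_apply, smulRight_apply, inner_add_left, real_inner_smul_left,
    real_inner_smul_right, Finset.sum_add_distrib, ← Finset.mul_sum, he]
  ring

lemma dfrob_cut_le (hU : Differentiable ℝ U) {B : ℝ}
    (hB : ∀ (n : ℕ) (x : Eu ι), ‖fderiv ℝ (cutOff n) x‖ ≤ B) (n : ℕ) (x : Eu ι) :
    dfrob (fun y => cutOff n y • U y) x ≤
      2 * dfrob U x + 2 * Fintype.card ι * B ^ 2 * ‖U x‖ ^ 2 := by
  rw [dfrob, fderiv_fun_smul ((contDiff_cutOff n).differentiable one_ne_zero x) (hU x)]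
  refine (Finset.sum_le_sum (g := fun i => 2 * ‖fderiv ℝ U x (bv i)‖ ^ 2 + 2 * B ^ 2 * ‖U x‖ ^ 2)
    fun i _ => ?_).trans_eq ?_
  · have h := norm_add_le (cutOff n x • fderiv ℝ U x (bv i))
      (fderiv ℝ (cutOff n) x (bv i) • U x)
    have h1 : ‖cutOff n x • fderiv ℝ U x (bv i)‖ ≤ ‖fderiv ℝ U x (bv i)‖ := by
      rw [norm_smul, norm_eq_abs]
      exact mul_le_of_le_one_left (norm_nonneg _) (abs_cutOff_le n x)
    have h2 : ‖fderiv ℝ (cutOff n) x (bv i) • U x‖ ≤ B * ‖U x‖ := by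
      rw [norm_smul]
      refine mul_le_mul_of_nonneg_right ((le_opNorm _ _).trans ?_) (norm_nonneg _)
      rw [OrthonormalBasis.norm_eq_one, mul_one]
      exact hB n x
    simp only [add_apply, smul_apply, smulRight_apply]
    refine (pow_le_pow_left₀ (norm_nonneg _) (h.trans (add_le_add h1 h2)) 2).trans ?_
    nlinarith [sq_nonneg (‖fderiv ℝ U x (bv i)‖ - B * ‖U x‖)]
  · simp only [Finset.sum_add_distrib, ← Finset.mul_sum, dfrob, Finset.sum_const, Finset.card_univ,
      nsmul_eq_mul]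
    ring

lemma cut_eq_nhds (U : Eu ι → Eu ι) (x : Eu ι) :
    ∀ᶠ n in atTop, (fun y => cutOff n y • U y) =ᶠ[𝓝 x] U := by
  filter_upwards [(cutOff_eventually x).curry] with n hn
  filter_upwards [hn] with y hy
  rw [hy, one_smul]

/-- **The second moment of the Gaussian divergence.** -/
theorem gdiv_sq (hU : ContDiff ℝ 1 U) (h1 : Integrable (fun x => ‖U x‖ ^ 2) (gam ι))
    (h2 : Integrable (dfrob U) (gam ι)) :
    Integrable (fun x => gdiv U x ^ 2) (gam ι) ∧
      ∫ x, gdiv U x ^ 2 ∂gam ι ≤ ∫ x, ‖U x‖ ^ 2 + dfrob U x ∂gam ι := by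
  obtain ⟨B, hB0, hB⟩ := cutOff_bound (ι := ι)
  set V := fun (n : ℕ) y => cutOff n y • U y with hV
  set I := ∫ x, ‖U x‖ ^ 2 + dfrob U x ∂gam ι with hI
  have hV1 : ∀ n, ContDiff ℝ 1 (V n) := fun n => (contDiff_cutOff n).smul hU
  have hVs : ∀ n, HasCompactSupport (V n) := fun n => (hasCompactSupport_cutOff n).smul_right
  have hlim : Tendsto (fun n => ∫ x, ‖V n x‖ ^ 2 + dfrob (V n) x ∂gam ι) atTop (𝓝 I) := by
    refine tendsto_integral_of_dominated_convergence
      (fun x => ‖U x‖ ^ 2 + (2 * dfrob U x + 2 * Fintype.card ι * B ^ 2 * ‖U x‖ ^ 2))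
      (fun n => (((hV1 n).continuous.norm.pow 2).add
        (continuous_dfrob (hV1 n))).aestronglyMeasurable)
      (h1.add ((h2.const_mul 2).add (h1.const_mul _))) (fun n => ae_of_all _ fun x => ?_)
      (ae_of_all _ fun x => ?_)
    · rw [norm_eq_abs, abs_of_nonneg (add_nonneg (sq_nonneg _) (dfrob_nonneg _ _))]
      refine add_le_add (pow_le_pow_left₀ (norm_nonneg _) ?_ 2)
        (dfrob_cut_le (hU.differentiable one_ne_zero) hB n x)
      rw [norm_smul, norm_eq_abs]
      exact mul_le_of_le_one_left (norm_nonneg _) (abs_cutOff_le n x)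
    · refine tendsto_const_nhds.congr' ?_
      filter_upwards [cut_eq_nhds U x] with n hn
      simp only [dfrob, hV, hn.fderiv_eq, hn.eq_of_nhds]
  have hl : ∫⁻ x, ENNReal.ofReal (gdiv U x ^ 2) ∂gam ι ≤ ENNReal.ofReal I := by
    calc ∫⁻ x, ENNReal.ofReal (gdiv U x ^ 2) ∂gam ι
        ≤ ∫⁻ x, liminf (fun n => ENNReal.ofReal (gdiv (V n) x ^ 2)) atTop ∂gam ι := by
          refine lintegral_mono fun x => le_of_eq (Tendsto.liminf_eq ?_).symm
          refine tendsto_const_nhds.congr' ?_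
          filter_upwards [cut_eq_nhds U x] with n hn
          simp only [gdiv, hV, hn.fderiv_eq, hn.eq_of_nhds]
      _ ≤ liminf (fun n => ∫⁻ x, ENNReal.ofReal (gdiv (V n) x ^ 2) ∂gam ι) atTop :=
          lintegral_liminf_le fun n =>
            ((continuous_gdiv (hV1 n)).pow 2).measurable.ennreal_ofReal
      _ ≤ liminf (fun n => ENNReal.ofReal (∫ x, ‖V n x‖ ^ 2 + dfrob (V n) x ∂gam ι)) atTop := by
          refine liminf_le_liminf (Eventually.of_forall fun n => ?_)
          have hi : Integrable (fun x => gdiv (V n) x ^ 2) (gam ι) := by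
            obtain ⟨C, hC⟩ := (hVs n).exists_bound_of_continuous (hV1 n).continuous
            obtain ⟨D, hD⟩ := ((hVs n).fderiv ℝ).exists_bound_of_continuous
              ((hV1 n).continuous_fderiv one_ne_zero)
            refine ((integral_norm_sq.1.const_mul (2 * C ^ 2)).add
              (integrable_const (2 * ((Fintype.card ι : ℝ) * D) ^ 2))).mono'
              ((continuous_gdiv (hV1 n)).pow 2).aestronglyMeasurable (ae_of_all _ fun x => ?_)
            rw [norm_pow, norm_eq_abs, Pi.add_apply]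
            refine (pow_le_pow_left₀ (abs_nonneg _) (abs_gdiv_le hC hD x) 2).trans ?_
            nlinarith [sq_nonneg (C * ‖x‖ - Fintype.card ι * D)]
          rw [← ofReal_integral_eq_lintegral_ofReal hi (ae_of_all _ fun x => sq_nonneg _)]
          exact ENNReal.ofReal_le_ofReal (gdiv_sq_compact (hV1 n) (hVs n))
      _ = ENNReal.ofReal I := ((ENNReal.continuous_ofReal.tendsto I).comp hlim).liminf_eq
  have hg : Integrable (fun x => gdiv U x ^ 2) (gam ι) := by
    refine ⟨((continuous_gdiv hU).pow 2).aestronglyMeasurable, ?_⟩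
    rw [hasFiniteIntegral_iff_ofReal (ae_of_all _ fun x => sq_nonneg _)]
    exact hl.trans_lt ENNReal.ofReal_lt_top
  refine ⟨hg, ?_⟩
  rw [← ofReal_integral_eq_lintegral_ofReal hg (ae_of_all _ fun x => sq_nonneg _),
    ENNReal.ofReal_le_ofReal_iff
      (integral_nonneg fun x => add_nonneg (sq_nonneg _) (dfrob_nonneg _ _))] at hl
  exact hl

/-- **The divergence is adjoint to the derivative.** -/
theorem gdiv_ibp (hU : ContDiff ℝ 1 U) (h1 : Integrable (fun x => ‖U x‖ ^ 2) (gam ι))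
    (h2 : Integrable (dfrob U) (gam ι)) {f : Eu ι → ℝ} (hf : ContDiff ℝ 1 f) {M : ℝ}
    (hM : ∀ x, |f x| ≤ M) (hfU : Integrable (fun x => fderiv ℝ f x (U x)) (gam ι)) :
    ∫ x, f x * gdiv U x ∂gam ι = ∫ x, fderiv ℝ f x (U x) ∂gam ι := by
  obtain ⟨B, hB0, hB⟩ := cutOff_bound (ι := ι)
  set V := fun (n : ℕ) y => cutOff n y • U y with hV
  have hV1 : ∀ n, ContDiff ℝ 1 (V n) := fun n => (contDiff_cutOff n).smul hU
  have hd := hU.differentiable one_ne_zero
  have hfc := hf.continuous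
  have hg : MemLp (gdiv U) 2 (gam ι) :=
    (memLp_two_iff_integrable_sq (continuous_gdiv hU).aestronglyMeasurable).2 (gdiv_sq hU h1 h2).1
  have hn : MemLp (fun x => ‖U x‖) 2 (gam ι) :=
    (memLp_two_iff_integrable_sq hU.continuous.norm.aestronglyMeasurable).2 h1
  refine tendsto_nhds_unique
    (tendsto_integral_of_dominated_convergence (F := fun n x => f x * gdiv (V n) x)
      (fun x => M * (|gdiv U x| + B * ‖U x‖))
      (fun n => (hfc.mul (continuous_gdiv (hV1 n))).aestronglyMeasurable)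
      (((hg.integrable one_le_two).abs.add
        ((hn.integrable one_le_two).const_mul B)).const_mul M)
      (fun n => ae_of_all _ fun x => ?_) (ae_of_all _ fun x => ?_))
    ((tendsto_integral_of_dominated_convergence (F := fun n x => fderiv ℝ f x (V n x))
      (fun x => |fderiv ℝ f x (U x)|)
      (fun n => ((hf.continuous_fderiv one_ne_zero).clm_apply
        (hV1 n).continuous).aestronglyMeasurable)
      hfU.abs (fun n => ae_of_all _ fun x => ?_) (ae_of_all _ fun x => ?_)).congr fun n =>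
        (gdiv_ibp_compact (hV1 n) (hasCompactSupport_cutOff n).smul_right hf).symm)
  · rw [norm_mul, norm_eq_abs, norm_eq_abs]
    refine mul_le_mul (hM x) ?_ (abs_nonneg _) ((abs_nonneg _).trans (hM x))
    rw [gdiv_cut hd]
    refine (abs_sub _ _).trans (add_le_add ?_ ?_)
    · rw [abs_mul]; exact mul_le_of_le_one_left (abs_nonneg _) (abs_cutOff_le n x)
    · exact ((fderiv ℝ (cutOff n) x).le_opNorm _).trans
        (mul_le_mul_of_nonneg_right (hB n x) (norm_nonneg _))
  · refine tendsto_const_nhds.congr' ?_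
    filter_upwards [cut_eq_nhds U x] with n hn
    simp only [gdiv, hV, hn.fderiv_eq, hn.eq_of_nhds]
  · rw [map_smul, norm_smul, norm_eq_abs, norm_eq_abs]
    exact mul_le_of_le_one_left (abs_nonneg _) (abs_cutOff_le n x)
  · refine tendsto_const_nhds.congr' ?_
    filter_upwards [cut_eq_nhds U x] with n hn
    simp only [hV, hn.eq_of_nhds]

/-- **The full room.** Along a change `R = D X · U` of the output, a bounded test function moves
by at most the second moments of `U` and `D U`. -/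
theorem room_bound (hU : ContDiff ℝ 1 U) (h1 : Integrable (fun x => ‖U x‖ ^ 2) (gam ι))
    (h2 : Integrable (dfrob U) (gam ι)) {E : Type*} [NormedAddCommGroup E] [NormedSpace ℝ E]
    {X R : Eu ι → E} (hX : ContDiff ℝ 1 X) (hR : ∀ x, fderiv ℝ X x (U x) = R x)
    {φ : E → ℝ} (hφ : ContDiff ℝ 1 φ) {M : ℝ} (hM : ∀ y, |φ y| ≤ M)
    (hi : Integrable (fun x => fderiv ℝ φ (X x) (R x)) (gam ι)) :
    |∫ x, fderiv ℝ φ (X x) (R x) ∂gam ι| ≤
      M * √(∫ x, ‖U x‖ ^ 2 + dfrob U x ∂gam ι) := by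
  have hM0 : 0 ≤ M := (abs_nonneg _).trans (hM (X 0))
  have e : ∀ x, fderiv ℝ (fun y => φ (X y)) x (U x) = fderiv ℝ φ (X x) (R x) := fun x => by
    rw [show (fun y => φ (X y)) = φ ∘ X from rfl, fderiv_comp x (hφ.differentiable one_ne_zero _)
      (hX.differentiable one_ne_zero x), ContinuousLinearMap.comp_apply, hR]
  have h := gdiv_ibp hU h1 h2 (f := fun y => φ (X y)) (hφ.comp hX) (fun x => hM (X x))
    (by simpa only [e] using hi)
  simp only [e] at h
  rw [← h]
  obtain ⟨hg, hle⟩ := gdiv_sq hU h1 h2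
  have hg2 : MemLp (fun x => |gdiv U x|) 2 (gam ι) :=
    ((memLp_two_iff_integrable_sq (continuous_gdiv hU).aestronglyMeasurable).2 hg).abs
  refine (norm_integral_le_of_norm_le (f := fun x => φ (X x) * gdiv U x)
    ((hg2.integrable one_le_two).const_mul M) (ae_of_all _ fun x => ?_)).trans ?_
  · rw [norm_mul, norm_eq_abs, norm_eq_abs]
    exact mul_le_mul_of_nonneg_right (hM _) (abs_nonneg _)
  rw [integral_const_mul]
  refine mul_le_mul_of_nonneg_left ((le_sqrt_of_sq_le ?_).trans (sqrt_le_sqrt hle)) hM0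
  have hv := variance_nonneg (fun x => |gdiv U x|) (gam ι)
  rw [variance_eq_sub hg2] at hv
  simp only [Pi.pow_apply, sq_abs] at hv
  linarith

/-- The full room with seeds. -/
theorem room_bound_seed {α : Type*} [MeasurableSpace α] {μ : Measure α} [IsProbabilityMeasure μ]
    {J : α → ℝ} {ε M : ℝ} (hε : 0 ≤ ε) (hM : 0 ≤ M) {D : α → ℝ} (hJ : Integrable J μ)
    (hJ0 : ∀ a, 0 ≤ J a) (hJε : ∫ a, J a ∂μ ≤ ε ^ 2) (hD : ∀ a, |D a| ≤ M * √(J a)) :
    |∫ a, D a ∂μ| ≤ M * ε := by
  have h2 : MemLp (fun a => √(J a)) 2 μ := by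
    rw [memLp_two_iff_integrable_sq hJ.1.aemeasurable.sqrt.aestronglyMeasurable]
    simpa only [sq_sqrt (hJ0 _)] using hJ
  refine (norm_integral_le_of_norm_le (f := D) ((h2.integrable one_le_two).const_mul M)
    (ae_of_all _ hD)).trans ?_
  rw [integral_const_mul]
  refine mul_le_mul_of_nonneg_left ?_ hM
  have hv := variance_nonneg (fun a => √(J a)) μ
  rw [variance_eq_sub h2] at hv
  simp only [Pi.pow_apply, sq_sqrt (hJ0 _)] at hv
  exact (abs_le_of_sq_le_sq' (by linarith) hε).2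

/-- Smooth test functions decide total variation. -/
theorem tv_of_smooth {μ ν : Measure (Eu ι)} [IsProbabilityMeasure μ] [IsProbabilityMeasure ν]
    {M e : ℝ} (hM : 0 ≤ M)
    (h : ∀ g : Eu ι → ℝ, ContDiff ℝ 1 g → HasCompactSupport g → (∀ x, |g x| ≤ M) →
      |(∫ x, g x ∂μ) - ∫ x, g x ∂ν| ≤ e)
    {φ : Eu ι → ℝ} (hφ : Measurable φ) (hφM : ∀ x, |φ x| ≤ M) :
    |(∫ x, φ x ∂μ) - ∫ x, φ x ∂ν| ≤ e := by
  -- continuous functions first
  have hcont : ∀ f : Eu ι → ℝ, Continuous f → (∀ x, |f x| ≤ M) →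
      |(∫ x, f x ∂μ) - ∫ x, f x ∂ν| ≤ e := by
    intro f hf hfM
    let ψ : ℕ → ContDiffBump (0 : Eu ι) := fun n =>
      ⟨((n:ℝ) + 1)⁻¹ / 2, ((n:ℝ) + 1)⁻¹, by positivity, half_lt_self (by positivity)⟩
    set g : ℕ → Eu ι → ℝ := fun n => (ψ n).normed volume ⋆[lsmul ℝ ℝ, volume]
      fun y => cutOff n y * f y with hgdef
    have hk : ∀ n, Continuous fun y => cutOff n y * f y := fun n =>
      (contDiff_cutOff n).continuous.mul hf
    have hg1 : ∀ n, ContDiff ℝ 1 (g n) := fun n =>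
      (ψ n).hasCompactSupport_normed.contDiff_convolution_left (lsmul ℝ ℝ) (n := 1)
        (ψ n).contDiff_normed (hk n).locallyIntegrable
    have hgs : ∀ n, HasCompactSupport (g n) := fun n =>
      (ψ n).hasCompactSupport_normed.convolution _ (hasCompactSupport_cutOff n).mul_right
    have hcM : ∀ n y, |cutOff n y * f y| ≤ M := fun n y => by
      rw [abs_mul]
      exact (mul_le_of_le_one_left (abs_nonneg _) (abs_cutOff_le n y)).trans (hfM y)
    have hgM : ∀ n x, |g n x| ≤ M := fun n x => by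
      simp only [hgdef, convolution_def, lsmul_apply, smul_eq_mul]
      refine (norm_integral_le_of_norm_le (f := fun t => (ψ n).normed volume t *
        (cutOff n (x - t) * f (x - t))) ((ψ n).integrable_normed.const_mul M)
        (ae_of_all _ fun t => ?_)).trans_eq ?_
      · rw [norm_mul, norm_of_nonneg ((ψ n).nonneg_normed t), mul_comm M, norm_eq_abs]
        exact mul_le_mul_of_nonneg_left (hcM _ _) ((ψ n).nonneg_normed t)
      · rw [integral_const_mul, (ψ n).integral_normed, mul_one]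
    have hlim : ∀ x, Tendsto (fun n => g n x) atTop (𝓝 (f x)) := fun x =>
      ContDiffBump.convolution_tendsto_right
        (by simpa [ψ, one_div] using tendsto_one_div_add_atTop_nhds_zero_nat (𝕜 := ℝ))
        (Eventually.of_forall fun n => (hk n).aestronglyMeasurable)
        (((hf.tendsto x).comp tendsto_snd).congr' (by
          filter_upwards [cutOff_eventually x] with p hp
          simp [Function.uncurry, hp]))
        tendsto_const_nhds
    have hint : ∀ (ρ : Measure (Eu ι)) [IsFiniteMeasure ρ],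
        Tendsto (fun n => ∫ x, g n x ∂ρ) atTop (𝓝 (∫ x, f x ∂ρ)) := fun ρ _ =>
      tendsto_integral_of_dominated_convergence (fun _ => M)
        (fun n => (hg1 n).continuous.aestronglyMeasurable) (integrable_const M)
        (fun n => ae_of_all _ (hgM n)) (ae_of_all _ hlim)
    exact le_of_tendsto' ((hint μ).sub (hint ν)).abs fun n => h _ (hg1 n) (hgs n) (hgM n)
  refine le_of_forall_pos_le_add fun δ hδ => ?_
  have hint : Integrable φ (μ + ν) :=
    .of_bound hφ.aestronglyMeasurable M (ae_of_all _ hφM)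
  obtain ⟨f, -, hf, hfc, hfi⟩ :=
    hint.exists_hasCompactSupport_integral_sub_le (half_pos hδ)
  set f' := fun x => max (-M) (min M (f x)) with hf'
  have hf'c : Continuous f' := continuous_const.max (continuous_const.min hfc)
  have hf'M : ∀ x, |f' x| ≤ M := fun x =>
    abs_le.2 ⟨le_max_left _ _, max_le (by linarith) (min_le_left _ _)⟩
  have hclose : ∀ x, |φ x - f' x| ≤ ‖φ x - f x‖ := fun x => by
    have hx := abs_le.1 (hφM x)
    have h0 : φ x = max (-M) (min M (φ x)) := by rw [min_eq_right hx.2, max_eq_right hx.1]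
    conv_lhs => rw [h0]
    rw [norm_eq_abs]
    refine (abs_max_sub_max_le_max _ _ _ _).trans ?_
    rw [sub_self, abs_zero, max_eq_right (abs_nonneg _)]
    refine (abs_min_sub_min_le_max _ _ _ _).trans ?_
    rw [sub_self, abs_zero, max_eq_right (abs_nonneg _)]
  have hfb : Integrable (fun x => ‖φ x - f x‖) (μ + ν) := (hint.sub hfi).norm
  have hdiff : ∀ (ρ : Measure (Eu ι)) [IsFiniteMeasure ρ], Integrable (fun x => ‖φ x - f x‖) ρ →
      |(∫ x, φ x ∂ρ) - ∫ x, f' x ∂ρ| ≤ ∫ x, ‖φ x - f x‖ ∂ρ := fun ρ _ hρ => by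
    rw [← integral_sub (.of_bound hφ.aestronglyMeasurable M (ae_of_all _ hφM))
      (.of_bound hf'c.aestronglyMeasurable M (ae_of_all _ hf'M))]
    exact norm_integral_le_of_norm_le (f := fun x => φ x - f' x) hρ (ae_of_all _ hclose)
  obtain ⟨hμ, hν⟩ := integrable_add_measure.1 hfb
  rw [integral_add_measure hμ hν] at hf
  linarith [hdiff μ hμ, hdiff ν hν, hcont f' hf'c hf'M,
    abs_sub_le (∫ x, φ x ∂μ) (∫ x, f' x ∂μ) (∫ x, φ x ∂ν),
    abs_sub_le (∫ x, f' x ∂μ) (∫ x, f' x ∂ν) (∫ x, φ x ∂ν),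
    abs_sub_comm (∫ x, φ x ∂ν) (∫ x, f' x ∂ν)]

end Vale.Agent.P347.Shift
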