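import Vale.Agent.P347.Shift.Skew

/-!
# P347: the divergence of a tilted Gaussian law

For a potential `Φ` of temperate growth with `exp (-Φ)` of exponential growth, `nuT Φ` is the law
proportional to `exp (-Φ)` against the standard Gaussian law, and
`deltaT Φ U = ∑ i ((x_i + ∂_i Φ) U_i - ∂_i U_i)` is the adjoint of the gradient.  If the Hessian of
`Φ` is at most `η`, then `‖deltaT U‖² ≤ (1 + η) ‖U‖² + ‖DU‖²` in every dimension, and the higher
derivatives cost only row bounds on the derivatives of the Hessian.  For an antisymmetric matrix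
field the derivation by `deltaT (M · k)` is the divergence of `M ∇ f`, so the flow preserves
`nuT Φ`.
-/

open MeasureTheory ProbabilityTheory Real Finset
open scoped RealInnerProductSpace ContDiff

namespace Vale.Agent.P347.Shift

open Quarter

variable {ι : Type} [Fintype ι] [DecidableEq ι] {κ : Type} [Fintype κ]

/-- The squared `L²(μ)` norm of the derivatives of order `j`. -/
noncomputable def dsqM (μ : Measure (Eu ι)) : ℕ → (Eu ι → ℝ) → ℝ
  | 0, f => ∫ x, f x ^ 2 ∂μ
  | j + 1, f => ∑ i, dsqM μ j (pd i f)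

/-- The same for a finite family. -/
noncomputable def DSM (μ : Measure (Eu ι)) (j : ℕ) (V : κ → Eu ι → ℝ) : ℝ := ∑ a, dsqM μ j (V a)

/-- The root of `DSM`. -/
noncomputable def DnM (μ : Measure (Eu ι)) (j : ℕ) (V : κ → Eu ι → ℝ) : ℝ := √(DSM μ j V)

section Norms

variable {μ : Measure (Eu ι)}

lemma dsqM_nonneg : ∀ (j : ℕ) (f : Eu ι → ℝ), 0 ≤ dsqM μ j f
  | 0, _ => integral_nonneg fun _ => sq_nonneg _
  | j + 1, _ => sum_nonneg fun _ _ => dsqM_nonneg j _

lemma DSM_nonneg (j : ℕ) (V : κ → Eu ι → ℝ) : 0 ≤ DSM μ j V :=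
  sum_nonneg fun _ _ => dsqM_nonneg j _

lemma DnM_nonneg (j : ℕ) (V : κ → Eu ι → ℝ) : 0 ≤ DnM μ j V := sqrt_nonneg _

lemma DnM_sq (j : ℕ) (V : κ → Eu ι → ℝ) : DnM μ j V ^ 2 = DSM μ j V := sq_sqrt (DSM_nonneg j V)

lemma DSM_succ (j : ℕ) (V : κ → Eu ι → ℝ) :
    DSM μ (j + 1) V = DSM μ j fun p : ι × κ => pd p.1 (V p.2) := by
  simp only [DSM, dsqM, Fintype.sum_prod_type]
  exact sum_comm

lemma DSM_equiv {κ' : Type} [Fintype κ'] (e : κ' ≃ κ) (j : ℕ) (V : κ → Eu ι → ℝ) :
    DSM μ j (fun a => V (e a)) = DSM μ j V := e.sum_comp fun a => dsqM μ j (V a)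

lemma DnM_succ (j : ℕ) (V : κ → Eu ι → ℝ) :
    DnM μ (j + 1) V = DnM μ j fun p : ι × κ => pd p.1 (V p.2) := by rw [DnM, DSM_succ, DnM]

lemma DnM_equiv {κ' : Type} [Fintype κ'] (e : κ' ≃ κ) (j : ℕ) (V : κ → Eu ι → ℝ) :
    DnM μ j (fun a => V (e a)) = DnM μ j V := by rw [DnM, DSM_equiv, DnM]

variable (hμ : ∀ {f : Eu ι → ℝ}, f.HasTemperateGrowth → Integrable f μ)

include hμ

lemma dsqM_add_le : ∀ (j : ℕ) {f g : Eu ι → ℝ} (_ : f.HasTemperateGrowth)
    (_ : g.HasTemperateGrowth) {t : ℝ} (_ : 0 < t),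
    dsqM μ j (fun x => f x + g x) ≤ (1 + t) * dsqM μ j f + (1 + t⁻¹) * dsqM μ j g
  | 0, f, g, hf, hg, t, ht => by
    simp only [dsqM]
    rw [← integral_const_mul, ← integral_const_mul, ← integral_add
      ((hμ (hf.fun_pow 2)).const_mul _) ((hμ (hg.fun_pow 2)).const_mul _)]
    refine integral_mono (hμ ((hf.fun_add hg).fun_pow 2))
      (((hμ (hf.fun_pow 2)).const_mul _).add ((hμ (hg.fun_pow 2)).const_mul _)) fun x => ?_
    have h : 0 ≤ (t * f x - g x) ^ 2 * t⁻¹ := by positivity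
    have e : (t * f x - g x) ^ 2 * t⁻¹ = t * f x ^ 2 - 2 * (f x * g x) + t⁻¹ * g x ^ 2 := by
      field_simp
      ring
    beta_reduce
    nlinarith
  | j + 1, f, g, hf, hg, t, ht => by
    simp only [dsqM]
    rw [mul_sum, mul_sum, ← sum_add_distrib]
    refine sum_le_sum fun i _ => ?_
    rw [pd_add hf hg]
    exact dsqM_add_le j (tg_pd i hf) (tg_pd i hg) ht

/-- Minkowski's inequality. -/
theorem DnM_add_le (j : ℕ) {U V : κ → Eu ι → ℝ} (hU : ∀ a, (U a).HasTemperateGrowth)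
    (hV : ∀ a, (V a).HasTemperateGrowth) :
    DnM μ j (fun a x => U a x + V a x) ≤ DnM μ j U + DnM μ j V := by
  refine le_of_forall_pos_le_add fun ε hε => ?_
  set a := DnM μ j U with ha'
  set b := DnM μ j V with hb'
  have ha : 0 ≤ a := DnM_nonneg j U
  have hb : 0 ≤ b := DnM_nonneg j V
  set t := (b + ε) / (a + ε) with ht'
  have ht : 0 < t := by positivity
  have h : DSM μ j (fun i x => U i x + V i x) ≤ (1 + t) * a ^ 2 + (1 + t⁻¹) * b ^ 2 := by
    rw [ha', hb', DnM_sq, DnM_sq, DSM, DSM, DSM, mul_sum, mul_sum, ← sum_add_distrib]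
    exact sum_le_sum fun i _ => dsqM_add_le hμ j (hU i) (hV i) ht
  rw [DnM, sqrt_le_iff]
  refine ⟨by positivity, h.trans ?_⟩
  have h1 : t * a ^ 2 ≤ (b + ε) * a := by
    rw [ht', div_mul_eq_mul_div, div_le_iff₀ (by positivity)]
    nlinarith [mul_nonneg (mul_nonneg (add_nonneg hb hε.le) ha) hε.le]
  have h2 : t⁻¹ * b ^ 2 ≤ (a + ε) * b := by
    rw [ht', inv_div, div_mul_eq_mul_div, div_le_iff₀ (by positivity)]
    nlinarith [mul_nonneg (mul_nonneg (add_nonneg ha hε.le) hb) hε.le]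
  nlinarith [mul_nonneg ha hε.le, mul_nonneg hb hε.le]

/-- Leibniz' rule with row bounds. -/
theorem DnM_mulVec_le (j : ℕ) {τ ρ : Type} [Fintype τ] [Fintype ρ] {T : ρ → κ → Eu ι → ℝ}
    {U : τ → κ → Eu ι → ℝ} {B : ℕ → ℝ} (hT : ∀ a k, (T a k).HasTemperateGrowth)
    (hU : ∀ p k, (U p k).HasTemperateGrowth) (hB : ∀ m, 0 ≤ B m) (h : RowBd T B) :
    DnM μ j (fun q : τ × ρ => fun x => ∑ k, T q.2 k x * U q.1 k x) ≤
      ∑ m ∈ range (j + 1),
        (j.choose m : ℝ) * (B m * DnM μ (j - m) fun r : τ × κ => U r.1 r.2) := by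
  induction j generalizing τ ρ T U B with
  | zero =>
    have hq : ∀ q : τ × ρ, (fun x => ∑ k, T q.2 k x * U q.1 k x).HasTemperateGrowth := fun q =>
      .sum fun k _ => (hT q.2 k).fun_mul (hU q.1 k)
    have key : DSM μ 0 (fun q : τ × ρ => fun x => ∑ k, T q.2 k x * U q.1 k x) ≤
        B 0 ^ 2 * DSM μ 0 fun r : τ × κ => U r.1 r.2 := by
      simp only [DSM, dsqM]
      rw [← integral_finsetSum _ fun q _ => hμ ((hq q).fun_pow 2),
        ← integral_finsetSum _ fun r _ => hμ ((hU r.1 r.2).fun_pow 2), ← integral_const_mul]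
      refine integral_mono (integrable_finsetSum _ fun q _ => hμ ((hq q).fun_pow 2))
        ((integrable_finsetSum _ fun r _ => hμ ((hU r.1 r.2).fun_pow 2)).const_mul _) fun x => ?_
      simp only [Fintype.sum_prod_type, mul_sum]
      refine sum_le_sum fun p _ => ?_
      have := h 0 x fun k => U p k x
      rw [mul_sum] at this
      simpa [psq] using this
    simp only [zero_add, range_one, sum_singleton, Nat.choose_self, Nat.cast_one, one_mul,
      Nat.sub_zero]
    rw [DnM, DnM]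
    refine (sqrt_le_sqrt key).trans (le_of_eq ?_)
    rw [sqrt_mul (sq_nonneg _), sqrt_sq (hB 0)]
  | succ j ih =>
    set T' : ι × ρ → κ → Eu ι → ℝ := fun a k => pd a.1 (T a.2 k) with hT'
    set U' : ι × τ → κ → Eu ι → ℝ := fun p k => pd p.1 (U p.2 k) with hU'
    have hTt : ∀ a k, (T' a k).HasTemperateGrowth := fun a k => tg_pd _ (hT a.2 k)
    have hUt : ∀ p k, (U' p k).HasTemperateGrowth := fun p k => tg_pd _ (hU p.2 k)
    have h' : RowBd T' fun m => B (m + 1) := by
      intro m x v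
      refine le_trans (le_of_eq ?_) (h (m + 1) x v)
      simp only [hT', Fintype.sum_prod_type, psq]
      rw [sum_comm]
      refine sum_congr rfl fun a _ => sum_congr rfl fun i _ => ?_
      rw [pd_sum _ (fun k => (hT a k).fun_mul (.const (v k))) i]
      simp only [pd_mul_const (hT a _)]
    have e : DnM μ (j + 1) (fun q : τ × ρ => fun x => ∑ k, T q.2 k x * U q.1 k x) =
        DnM μ j fun q : ι × (τ × ρ) => fun x =>
          (∑ k, T' (q.1, q.2.2) k x * U q.2.1 k x) +
            ∑ k, T q.2.2 k x * U' (q.1, q.2.1) k x := by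
      rw [DnM_succ]
      congr 1
      funext q x
      rw [pd_sum _ (fun k => (hT q.2.2 k).fun_mul (hU q.2.1 k)) q.1]
      simp only [hT', hU', pd_mul (hT q.2.2 _) (hU q.2.1 _), sum_add_distrib]
    let e1 : ι × (τ × ρ) ≃ τ × (ι × ρ) :=
      ⟨fun q => (q.2.1, (q.1, q.2.2)), fun q => (q.2.1, (q.1, q.2.2)), fun _ => rfl, fun _ => rfl⟩
    let e2 : ι × (τ × ρ) ≃ (ι × τ) × ρ :=
      ⟨fun q => ((q.1, q.2.1), q.2.2), fun q => (q.1.1, (q.1.2, q.2)), fun _ => rfl, fun _ => rfl⟩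
    let e3 : (ι × τ) × κ ≃ ι × (τ × κ) :=
      ⟨fun q => (q.1.1, (q.1.2, q.2)), fun q => ((q.1, q.2.1), q.2.2), fun _ => rfl, fun _ => rfl⟩
    have hU3 : ∀ m, DnM μ m (fun r : (ι × τ) × κ => U' r.1 r.2) =
        DnM μ (m + 1) fun r : τ × κ => U r.1 r.2 := fun m => by
      rw [DnM_succ]
      exact DnM_equiv e3 m fun p : ι × (τ × κ) => pd p.1 (U p.2.1 p.2.2)
    rw [e]
    refine (DnM_add_le hμ j (fun q => .sum fun k _ => (hTt _ k).fun_mul (hU _ k))
      fun q => .sum fun k _ => (hT _ k).fun_mul (hUt _ k)).trans ?_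
    have i1 := ih hTt hU (fun m => hB (m + 1)) h'
    have i2 := ih hT hUt hB h
    rw [← DnM_equiv e1] at i1
    rw [← DnM_equiv e2] at i2
    refine (add_le_add i1 i2).trans (le_of_eq ?_)
    rw [sum_choose_succ_mul (fun m n => B m * DnM μ n fun r : τ × κ => U r.1 r.2) j, add_comm]
    congr 1
    refine sum_congr rfl fun m hm => ?_
    rw [hU3, show j - m + 1 = j + 1 - m by have := mem_range.1 hm; omega]

end Norms

omit [Fintype ι] [DecidableEq ι] [Fintype κ] in
/-- Pascal's rule for a binomial sum below the diagonal. -/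
lemma sum_choose_step (b X : ℕ → ℝ) (j : ℕ) :
    ∑ n ∈ range (j + 1), ((j + 1).choose n : ℝ) * (b (j - n) * X n) =
      ∑ n ∈ range j, (j.choose n : ℝ) * (b (j - 1 - n) * X (n + 1)) +
        ∑ m ∈ range (j + 1), (j.choose m : ℝ) * (b m * X (j - m)) := by
  have e : ∑ m ∈ range (j + 1), (j.choose m : ℝ) * (b m * X (j - m)) =
      ∑ n ∈ range (j + 1), (j.choose n : ℝ) * (b (j - n) * X n) := by
    rw [← sum_range_reflect]
    refine sum_congr rfl fun n hn => ?_
    have h : n ≤ j := by have := mem_range.1 hn; omega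
    rw [Nat.add_sub_cancel, Nat.choose_symm h, Nat.sub_sub_self h]
  rw [e, sum_range_succ', sum_range_succ' (fun n => (j.choose n : ℝ) * (b (j - n) * X n)) j]
  simp only [Nat.choose_succ_succ', Nat.cast_add, Nat.choose_zero_right, add_mul, sum_add_distrib]
  rw [sum_congr rfl fun n _ => show (j.choose n : ℝ) * (b (j - (n + 1)) * X (n + 1)) =
    (j.choose n : ℝ) * (b (j - 1 - n) * X (n + 1)) by rw [show j - (n + 1) = j - 1 - n by omega]]
  ring

/-- A potential of temperate growth whose tilt is integrable. -/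
def TiltPot (Φ : Eu ι → ℝ) : Prop :=
  Φ.HasTemperateGrowth ∧ ∃ C K : ℝ, ∀ x, exp (-Φ x) ≤ C * exp (K * ‖x‖)

/-- The law proportional to `exp (-Φ)` against the standard Gaussian law. -/
noncomputable def nuT (Φ : Eu ι → ℝ) : Measure (Eu ι) := (gam ι).tilted fun x => -Φ x

/-- The divergence of `nuT Φ`. -/
noncomputable def deltaT (Φ : Eu ι → ℝ) (U : ι → Eu ι → ℝ) : Eu ι → ℝ :=
  fun x => ∑ i, ((x i + pd i Φ x) * U i x - pd i (U i) x)

/-- The Hessian. -/
noncomputable def hes (Φ : Eu ι → ℝ) (k i : ι) : Eu ι → ℝ := pd k (pd i Φ)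

section Tilt

variable {Φ : Eu ι → ℝ} (hΦ : TiltPot Φ)

include hΦ

omit [DecidableEq ι] in
lemma integrable_exp_neg : Integrable (fun x => exp (-Φ x)) (gam ι) := by
  obtain ⟨C, K, h⟩ := hΦ.2
  exact integrable_gam_of_le hΦ.1.1.continuous.neg.rexp (C := C) (K := K) fun x => by
    rw [norm_eq_abs, abs_exp]; exact h x

omit [DecidableEq ι] in
lemma isProbability_nuT : IsProbabilityMeasure (nuT Φ) :=
  isProbabilityMeasure_tilted (integrable_exp_neg hΦ)

omit [DecidableEq ι] in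
lemma integrable_nuT {f : Eu ι → ℝ} (hf : f.HasTemperateGrowth) : Integrable f (nuT Φ) := by
  refine (integrable_tilted_iff (integrable_exp_neg hΦ) f).2 ?_
  obtain ⟨C, K, h⟩ := hΦ.2
  obtain ⟨D, L, hD⟩ := tg_bound hf
  refine integrable_gam_of_le (hΦ.1.1.continuous.neg.rexp.smul hf.1.continuous)
    (C := C * D) (K := K + L) fun x => ?_
  rw [norm_smul, norm_eq_abs, norm_eq_abs, abs_exp, add_mul, exp_add]
  calc exp (-Φ x) * |f x| ≤ C * exp (K * ‖x‖) * (D * exp (L * ‖x‖)) :=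
        mul_le_mul (h x) (hD x).1 (abs_nonneg _) ((exp_pos _).le.trans (h x))
    _ = _ := by ring

lemma tg_deltaT {U : ι → Eu ι → ℝ} (hU : ∀ i, (U i).HasTemperateGrowth) :
    (deltaT Φ U).HasTemperateGrowth :=
  .sum fun i _ => (((tg_coord i).fun_add (tg_pd i hΦ.1)).fun_mul (hU i)).fun_sub (tg_pd i (hU i))

lemma tg_hes (k i : ι) : (hes Φ k i).HasTemperateGrowth := tg_pd k (tg_pd i hΦ.1)

/-- A derivative of the divergence. -/
theorem pd_deltaT {U : ι → Eu ι → ℝ} (hU : ∀ i, (U i).HasTemperateGrowth) (k : ι) :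
    pd k (deltaT Φ U) =
      fun x => deltaT Φ (fun i => pd k (U i)) x + (U k x + ∑ i, hes Φ k i x * U i x) := by
  funext x
  have hw : ∀ i, (fun x => x i + pd i Φ x).HasTemperateGrowth := fun i =>
    (tg_coord i).fun_add (tg_pd i hΦ.1)
  have ht : ∀ i, (fun x => (x i + pd i Φ x) * U i x - pd i (U i) x).HasTemperateGrowth := fun i =>
    ((hw i).fun_mul (hU i)).fun_sub (tg_pd i (hU i))
  unfold deltaT
  rw [pd_sum univ ht k]
  have e : ∀ i, pd k (fun x => (x i + pd i Φ x) * U i x - pd i (U i) x) x =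
      ((x i + pd i Φ x) * pd k (U i) x - pd i (pd k (U i)) x) +
        ((if i = k then U i x else 0) + hes Φ k i x * U i x) := fun i => by
    rw [pd_sub ((hw i).fun_mul (hU i)) (tg_pd i (hU i)), pd_mul (hw i) (hU i),
      pd_comm (hU i) i k]
    beta_reduce
    rw [pd_add (tg_coord i) (tg_pd i hΦ.1)]
    beta_reduce
    rw [pd_coord]
    unfold hes
    split_ifs <;> ring
  simp [e, sum_add_distrib]

/-- Integration by parts. -/
lemma integral_pd_nuT {f : Eu ι → ℝ} (hf : f.HasTemperateGrowth) (i : ι) :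
    ∫ x, pd i f x ∂nuT Φ = ∫ x, f x * (x i + pd i Φ x) ∂nuT Φ := by
  obtain ⟨C, K, hC⟩ := hΦ.2
  obtain ⟨D, L, hD⟩ := tg_bound hf
  obtain ⟨D', L', hD'⟩ := tg_bound hΦ.1
  have hC0 : 0 ≤ C := by simpa using (exp_pos _).le.trans (hC 0)
  have hD0 : 0 ≤ D := by simpa using (abs_nonneg _).trans (hD 0).1
  have hD'0 : 0 ≤ D' := by simpa using (abs_nonneg _).trans (hD' 0).1
  have hd : ∀ x, HasFDerivAt (fun x => f x * exp (-Φ x))
      (f x • (exp (-Φ x) • -fderiv ℝ Φ x) + exp (-Φ x) • fderiv ℝ f x) x := fun x =>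
    (tg_differentiable hf x).hasFDerivAt.mul
      ((tg_differentiable hΦ.1 x).hasFDerivAt.neg.exp)
  have h := gauss_ibp (F := fun x => f x * exp (-Φ x))
    ((hf.1.mul hΦ.1.1.neg.exp).of_le (by simp)) (C := C * D * (1 + D'))
    (K := K + L + |L'|) (fun x => ?_) (fun x => ?_) (ei i)
  · have e1 : (fun x => fderiv ℝ (fun x => f x * exp (-Φ x)) x (ei i)) = fun x =>
        exp (-Φ x) * pd i f x - exp (-Φ x) * (f x * pd i Φ x) := funext fun x => by
      rw [(hd x).fderiv]
      simp [pd]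
      ring
    have e2 : (fun x => f x * exp (-Φ x) * ⟪x, ei i⟫) = fun x => exp (-Φ x) * (f x * x i) :=
      funext fun x => by simp [ei, EuclideanSpace.inner_single_right]; ring
    have i1 := (integrable_tilted_iff (integrable_exp_neg hΦ) _).1
      (integrable_nuT hΦ (tg_pd i hf))
    have i2 := (integrable_tilted_iff (integrable_exp_neg hΦ) _).1
      (integrable_nuT hΦ (hf.fun_mul (tg_pd i hΦ.1)))
    have i3 := (integrable_tilted_iff (integrable_exp_neg hΦ) _).1
      (integrable_nuT hΦ (hf.fun_mul (tg_coord i)))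
    simp only [smul_eq_mul] at i1 i2 i3
    rw [e1, e2, integral_sub i1 i2] at h
    have e3 : (fun x => exp (-Φ x) * (f x * (x i + pd i Φ x))) =
        fun x => exp (-Φ x) * (f x * x i) + exp (-Φ x) * (f x * pd i Φ x) :=
      funext fun x => by ring
    simp only [nuT, integral_tilted, smul_eq_mul, div_mul_eq_mul_div, integral_div]
    congr 1
    rw [e3, integral_add i3 i2]
    linarith
  all_goals
    have hx := norm_nonneg x
    have h1 : exp (-Φ x) * |f x| ≤ C * D * exp ((K + L) * ‖x‖) := by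
      rw [add_mul, exp_add]
      exact (mul_le_mul (hC x) (hD x).1 (abs_nonneg _) ((exp_pos _).le.trans (hC x))).trans_eq
        (by ring)
    have h2 : exp ((K + L) * ‖x‖) ≤ exp ((K + L + |L'|) * ‖x‖) :=
      exp_le_exp.2 (mul_le_mul_of_nonneg_right (by linarith [abs_nonneg L']) hx)
    have h3 : exp (L' * ‖x‖) ≤ exp (|L'| * ‖x‖) :=
      exp_le_exp.2 (mul_le_mul_of_nonneg_right (le_abs_self _) hx)
    have h4 : 0 ≤ C * D * exp ((K + L + |L'|) * ‖x‖) := by positivity
  · rw [abs_mul, abs_exp, mul_comm]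
    refine (h1.trans (mul_le_mul_of_nonneg_left h2 (by positivity))).trans ?_
    nlinarith [mul_nonneg h4 hD'0]
  · rw [(hd x).fderiv]
    refine (norm_add_le _ _).trans ?_
    simp only [norm_smul, norm_neg, norm_eq_abs, abs_exp]
    have h5 : |f x| * (exp (-Φ x) * ‖fderiv ℝ Φ x‖) ≤
        C * D * D' * exp ((K + L + |L'|) * ‖x‖) := by
      rw [add_mul (K + L), exp_add]
      calc |f x| * (exp (-Φ x) * ‖fderiv ℝ Φ x‖) = exp (-Φ x) * |f x| * ‖fderiv ℝ Φ x‖ := by ring
        _ ≤ C * D * exp ((K + L) * ‖x‖) * (D' * exp (|L'| * ‖x‖)) :=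
            mul_le_mul h1 ((hD' x).2.trans (mul_le_mul_of_nonneg_left h3 hD'0)) (norm_nonneg _)
              (by positivity)
        _ = _ := by ring
    have h6 : exp (-Φ x) * ‖fderiv ℝ f x‖ ≤ C * D * exp ((K + L + |L'|) * ‖x‖) := by
      refine le_trans ?_ (mul_le_mul_of_nonneg_left h2 (by positivity))
      rw [add_mul, exp_add]
      exact (mul_le_mul (hC x) (hD x).2 (norm_nonneg _) ((exp_pos _).le.trans (hC x))).trans_eq
        (by ring)
    nlinarith

/-- The divergence is adjoint to the gradient. -/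
theorem integral_deltaT_mul {U : ι → Eu ι → ℝ} (hU : ∀ i, (U i).HasTemperateGrowth)
    {g : Eu ι → ℝ} (hg : g.HasTemperateGrowth) :
    ∫ x, deltaT Φ U x * g x ∂nuT Φ = ∑ i, ∫ x, U i x * pd i g x ∂nuT Φ := by
  have hw : ∀ i, (fun x => x i + pd i Φ x).HasTemperateGrowth := fun i =>
    (tg_coord i).fun_add (tg_pd i hΦ.1)
  have e : (fun x => deltaT Φ U x * g x) =
      fun x => ∑ i, ((x i + pd i Φ x) * U i x - pd i (U i) x) * g x :=
    funext fun x => Finset.sum_mul ..
  rw [e, integral_finsetSum _ fun i _ =>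
    integrable_nuT hΦ ((((hw i).fun_mul (hU i)).fun_sub (tg_pd i (hU i))).fun_mul hg)]
  refine sum_congr rfl fun i _ => ?_
  have h := integral_pd_nuT hΦ ((hU i).fun_mul hg) i
  rw [pd_mul (hU i) hg, integral_add (integrable_nuT hΦ ((tg_pd i (hU i)).fun_mul hg))
    (integrable_nuT hΦ ((hU i).fun_mul (tg_pd i hg)))] at h
  have e2 : (fun x => ((x i + pd i Φ x) * U i x - pd i (U i) x) * g x)
      = fun x => U i x * g x * (x i + pd i Φ x) - pd i (U i) x * g x := funext fun x => by ring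
  rw [e2, integral_sub (integrable_nuT hΦ (((hU i).fun_mul hg).fun_mul (hw i)))
    (integrable_nuT hΦ ((tg_pd i (hU i)).fun_mul hg))]
  linarith

/-- The divergence has mean zero. -/
theorem integral_deltaT {U : ι → Eu ι → ℝ} (hU : ∀ i, (U i).HasTemperateGrowth) :
    ∫ x, deltaT Φ U x ∂nuT Φ = 0 := by
  simpa [pd] using integral_deltaT_mul hΦ hU (Function.HasTemperateGrowth.const (1 : ℝ))

/-- The square of a divergence. -/
theorem dsqM_zero_deltaT_le {η : ℝ}
    (hη : ∀ x (v : ι → ℝ), ∑ k, ∑ i, hes Φ k i x * v i * v k ≤ η * ∑ i, v i ^ 2)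
    {U : ι → Eu ι → ℝ} (hU : ∀ i, (U i).HasTemperateGrowth) :
    dsqM (nuT Φ) 0 (deltaT Φ U) ≤
      (1 + η) * DSM (nuT Φ) 0 U + DSM (nuT Φ) 1 U := by
  have hd := tg_deltaT hΦ hU
  have hH : ∀ k, (fun x => ∑ i, hes Φ k i x * U i x).HasTemperateGrowth := fun k =>
    .sum fun i _ => (tg_hes hΦ k i).fun_mul (hU i)
  have hq : ∀ k, Integrable (fun x => (∑ i, hes Φ k i x * U i x) * U k x) (nuT Φ) := fun k =>
    integrable_nuT hΦ ((hH k).fun_mul (hU k))
  have hint : ∀ i k, Integrable (fun x => pd i (U k) x * pd k (U i) x) (nuT Φ) := fun i k =>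
    integrable_nuT hΦ ((tg_pd i (hU k)).fun_mul (tg_pd k (hU i)))
  have e : dsqM (nuT Φ) 0 (deltaT Φ U) = DSM (nuT Φ) 0 U +
      ∑ k, ∫ x, (∑ i, hes Φ k i x * U i x) * U k x ∂nuT Φ +
      ∑ i, ∑ k, ∫ x, pd i (U k) x * pd k (U i) x ∂nuT Φ := by
    have e0 : dsqM (nuT Φ) 0 (deltaT Φ U) = ∫ x, deltaT Φ U x * deltaT Φ U x ∂nuT Φ := by
      simp [dsqM, sq]
    rw [e0, integral_deltaT_mul hΦ hU hd, DSM, ← sum_add_distrib, ← sum_add_distrib]
    refine sum_congr rfl fun i _ => ?_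
    have hW : ∀ k, (pd i (U k)).HasTemperateGrowth := fun k => tg_pd i (hU k)
    have j1 := integrable_nuT hΦ ((hU i).fun_pow 2)
    have j2 := integrable_nuT hΦ ((tg_deltaT hΦ hW).fun_mul (hU i))
    have j12 : Integrable (fun x => U i x ^ 2 + (∑ l, hes Φ i l x * U l x) * U i x) (nuT Φ) :=
      j1.add (hq i)
    rw [← integral_deltaT_mul hΦ hW (hU i), dsqM, ← integral_add j1 (hq i), ← integral_add j12 j2]
    refine integral_congr_ae (ae_of_all _ fun x => ?_)
    simp only [pd_deltaT hΦ hU i]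
    ring
  rw [e, add_mul, one_mul]
  refine add_le_add (add_le_add le_rfl ?_) ?_
  · rw [← integral_finsetSum _ fun k _ => hq k, DSM]
    simp only [dsqM]
    rw [← integral_finsetSum _ fun k _ => integrable_nuT hΦ ((hU k).fun_pow 2),
      ← integral_const_mul]
    refine integral_mono (integrable_finsetSum _ fun k _ => hq k)
      ((integrable_finsetSum _ fun k _ => integrable_nuT hΦ ((hU k).fun_pow 2)).const_mul η)
      fun x => ?_
    refine le_of_eq_of_le ?_ (hη x fun i => U i x)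
    exact sum_congr rfl fun k _ => sum_mul ..
  · calc ∑ i, ∑ k, ∫ x, pd i (U k) x * pd k (U i) x ∂nuT Φ
        ≤ ∑ i, ∑ k, (dsqM (nuT Φ) 0 (pd i (U k)) + dsqM (nuT Φ) 0 (pd k (U i))) / 2 := by
          refine sum_le_sum fun i _ => sum_le_sum fun k _ => ?_
          have h1 := integrable_nuT hΦ ((tg_pd i (hU k)).fun_pow 2)
          have h2 := integrable_nuT hΦ ((tg_pd k (hU i)).fun_pow 2)
          simp only [dsqM]
          rw [← integral_add h1 h2, ← integral_div]
          refine integral_mono (hint i k) ((h1.add h2).div_const 2) fun x => ?_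
          beta_reduce
          nlinarith [sq_nonneg (pd i (U k) x - pd k (U i) x)]
      _ = DSM (nuT Φ) 1 U := by
          simp only [DSM, dsqM, add_div, sum_add_distrib]
          rw [sum_comm (f := fun i k => (∫ x, pd i (U k) x ^ 2 ∂nuT Φ) / 2), ← sum_add_distrib]
          refine sum_congr rfl fun i _ => ?_
          rw [← sum_add_distrib]
          exact sum_congr rfl fun k _ => by ring

/-- Derivatives of a family of divergences: beside the Gaussian terms, the derivatives of order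
`m` of the Hessian enter through a row bound `B m`. -/
theorem DnM_deltaT_le (j : ℕ) {η : ℝ}
    (hη : ∀ x (v : ι → ℝ), ∑ k, ∑ i, hes Φ k i x * v i * v k ≤ η * ∑ i, v i ^ 2)
    {B : ℕ → ℝ} (hB : ∀ m, 0 ≤ B m) (hrow : RowBd (hes Φ) B) {κ : Type} [Fintype κ]
    {U : κ → ι → Eu ι → ℝ} (hU : ∀ a i, (U a i).HasTemperateGrowth) :
    DnM (nuT Φ) j (fun a => deltaT Φ (U a)) ≤
      √((1 + η) * DSM (nuT Φ) j (fun p : κ × ι => U p.1 p.2) +
        DSM (nuT Φ) (j + 1) (fun p : κ × ι => U p.1 p.2)) +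
      j * DnM (nuT Φ) (j - 1) (fun p : κ × ι => U p.1 p.2) +
      ∑ n ∈ range j, (j.choose n : ℝ) *
        (B (j - 1 - n) * DnM (nuT Φ) n fun p : κ × ι => U p.1 p.2) := by
  induction j generalizing κ with
  | zero =>
    have h : DSM (nuT Φ) 0 (fun a => deltaT Φ (U a)) ≤
        (1 + η) * DSM (nuT Φ) 0 (fun p : κ × ι => U p.1 p.2) +
          DSM (nuT Φ) 1 fun p : κ × ι => U p.1 p.2 := by
      simp only [DSM, Fintype.sum_prod_type, mul_sum, ← sum_add_distrib]
      refine sum_le_sum fun a _ => (dsqM_zero_deltaT_le hΦ hη (hU a)).trans_eq ?_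
      simp only [DSM, mul_sum, sum_add_distrib]
    simpa [DnM] using sqrt_le_sqrt h
  | succ j ih =>
    set W : κ × ι → ι → Eu ι → ℝ := fun p i => pd p.2 (U p.1 i) with hW'
    have hW : ∀ p i, (W p i).HasTemperateGrowth := fun p i => tg_pd _ (hU p.1 i)
    set E : κ × ι → Eu ι → ℝ := fun p x =>
      ∑ i, hes Φ p.2 i x * U p.1 i x with hE
    have hEt : ∀ p, (E p).HasTemperateGrowth := fun p =>
      .sum fun i _ => (tg_hes hΦ p.2 i).fun_mul (hU p.1 i)
    have hUt : ∀ p : κ × ι, (U p.1 p.2).HasTemperateGrowth := fun p => hU p.1 p.2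
    have e1 : DnM (nuT Φ) (j + 1) (fun a => deltaT Φ (U a))
        = DnM (nuT Φ) j fun p : κ × ι => fun x => deltaT Φ (W p) x + (U p.1 p.2 x + E p x) := by
      rw [DnM_succ, ← DnM_equiv (Equiv.prodComm κ ι)]
      simp only [Equiv.prodComm_apply, Prod.fst_swap, Prod.snd_swap, pd_deltaT hΦ (hU _), hW', hE]
    have e2 : ∀ m, DSM (nuT Φ) m (fun q : (κ × ι) × ι => W q.1 q.2) =
        DSM (nuT Φ) (m + 1) fun p : κ × ι => U p.1 p.2 := fun m => by
      simp only [DSM, dsqM, hW', Fintype.sum_prod_type]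
      exact sum_congr rfl fun a _ => sum_comm
    have e2' : ∀ m, DnM (nuT Φ) m (fun q : (κ × ι) × ι => W q.1 q.2) =
        DnM (nuT Φ) (m + 1) fun p : κ × ι => U p.1 p.2 := fun m => by rw [DnM, e2, DnM]
    have hE2 := DnM_mulVec_le (μ := nuT Φ) (integrable_nuT hΦ) j (tg_hes hΦ) hU hB hrow
    rw [e1]
    refine (DnM_add_le (integrable_nuT hΦ) j (fun p => tg_deltaT hΦ (hW p))
      fun p => (hUt p).fun_add (hEt p)).trans ?_
    refine (add_le_add (ih hW) ((DnM_add_le (integrable_nuT hΦ) j hUt hEt).trans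
      (add_le_add le_rfl hE2))).trans (le_of_eq ?_)
    simp only [e2, e2', Nat.add_sub_cancel]
    rw [sum_choose_step B (fun n => DnM (nuT Φ) n fun p : κ × ι => U p.1 p.2) j]
    rcases j with _ | m
    · simp
      ring
    · simp only [Nat.add_sub_cancel]
      push_cast
      ring

omit hΦ in
/-- The derivation by `k ↦ deltaT Φ (M · k)`. -/
theorem deltaT_skew {M : ι → ι → Eu ι → ℝ} (hM : ∀ i k, (M i k).HasTemperateGrowth)
    (hanti : ∀ i k x, M k i x = -M i k x) {f : Eu ι → ℝ} (hf : f.HasTemperateGrowth) :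
    deltaT Φ (skew M f) = fun x => ∑ k, deltaT Φ (fun i => M i k) x * pd k f x := by
  funext x
  have h := congrFun (delta_skew hM hanti hf) x
  simp only [gen, field, delta] at h
  have e : ∀ (c : ι → ℝ) (U : ι → Eu ι → ℝ), ∑ i, ((x i + c i) * U i x - pd i (U i) x) =
      ∑ i, (x i * U i x - pd i (U i) x) + ∑ i, c i * U i x := fun c U => by
    rw [← sum_add_distrib]
    exact sum_congr rfl fun i _ => by ring
  have l : deltaT Φ (skew M f) x = ∑ i, (x i * skew M f i x - pd i (skew M f i) x) +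
      ∑ i, pd i Φ x * skew M f i x := e (fun i => pd i Φ x) (skew M f)
  have r : ∀ k, deltaT Φ (fun i => M i k) x = ∑ i, (x i * M i k x - pd i (M i k) x) +
      ∑ i, pd i Φ x * M i k x := fun k => e (fun i => pd i Φ x) fun i => M i k
  rw [l, h]
  simp only [r, add_mul, sum_add_distrib]
  congr 1
  simp only [skew, mul_sum, sum_mul]
  rw [sum_comm]
  exact sum_congr rfl fun k _ => sum_congr rfl fun i _ => by ring

/-- The flow of an antisymmetric matrix field preserves `nuT Φ`. -/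
theorem integral_skew_gen {M : ι → ι → Eu ι → ℝ} (hM : ∀ i k, (M i k).HasTemperateGrowth)
    (hanti : ∀ i k x, M k i x = -M i k x) {f : Eu ι → ℝ} (hf : f.HasTemperateGrowth) :
    ∫ x, ∑ k, deltaT Φ (fun i => M i k) x * pd k f x ∂nuT Φ = 0 := by
  have := integral_deltaT hΦ (tg_skew hM hf)
  rwa [deltaT_skew hM hanti hf] at this

end Tilt

end Vale.Agent.P347.Shift
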