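import Vale.Agent.P347.Shift.EmitBase
import Vale.Agent.P347.Quarter.Gauss

/-!
# P347: emission of a mean from emissions at the nodes of a flow

A sample of the centre is filled up to the scale `s`, a fresh Gaussian vector `g` is drawn, and the
nodes are emitted at that input. If `b g + ∑ wᵢ Hᵢ` is close to `Φ + b T` for a map `T` that sends
two standard vectors to a standard one, the sum is an emission of `Φ`: the error of the centre
costs only the Lipschitz constants of the node means.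
-/

open MeasureTheory ProbabilityTheory Real Finset
open scoped ENNReal

namespace Vale.Agent.P347.Shift

open Quarter

namespace EmAssemble

variable {d : ℕ}

/-- Standard vectors with coefficients of unit length, the first set apart. -/
lemma map_cons_gd {n : ℕ} (c₀ : ℝ) (c : Fin n → ℝ) (h : c₀ ^ 2 + ∑ i, c i ^ 2 = 1) :
    MeasurePreserving (fun t : Sp d × (Fin n → Sp d) => c₀ • t.1 + ∑ i, c i • t.2 i)
      ((gd d).prod (Measure.pi fun _ => gd d)) (gd d) := by
  have hm : Measurable fun t : Sp d × (Fin n → Sp d) => c₀ • t.1 + ∑ i, c i • t.2 i := by fun_prop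
  refine ⟨hm, ?_⟩
  have hv := EmitBase.map_sum_gd (d := d) (ι := Fin (n + 1)) (Fin.cons c₀ c)
    (by simpa [Fin.sum_univ_succ] using h)
  rw [← (measurePreserving_piFinSuccAbove (fun _ : Fin (n + 1) => gd d) 0).map_eq,
    Measure.map_map hm (MeasurableEquiv.measurable _)]
  refine Eq.trans ?_ hv
  congr 1
  funext z
  simp [Fin.sum_univ_succ, MeasurableEquiv.piFinSuccAbove, Fin.insertNthEquiv, Fin.tail]

lemma map_pair_gd (c₀ c₁ : ℝ) (h : c₀ ^ 2 + c₁ ^ 2 = 1) :
    MeasurePreserving (fun t : Sp d × Sp d => c₀ • t.1 + c₁ • t.2)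
      ((gd d).prod (gd d)) (gd d) := by
  have hm : Measurable fun t : Sp d × Sp d => c₀ • t.1 + c₁ • t.2 := by fun_prop
  refine ⟨hm, ?_⟩
  have hv := EmitBase.map_sum_gd (d := d) (ι := Fin 2) ![c₀, c₁]
    (by simpa [Fin.sum_univ_two] using h)
  rw [← (measurePreserving_piFinTwo fun _ : Fin 2 => gd d).map_eq,
    Measure.map_map hm (MeasurableEquiv.measurable _)]
  refine Eq.trans ?_ hv
  congr 1
  funext z
  simp [Fin.sum_univ_two, MeasurableEquiv.piFinTwo]

/-- Standard inputs from a sample of the centre, a fill and a fresh vector. -/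
lemma mp_std {X : Type} [MeasurableSpace X] {μ : Measure X} [IsProbabilityMeasure μ]
    {ξ : X → Sp d} (hm : Measurable ξ) (hl : μ.map ξ = gd d) {c₀ c₁ : ℝ}
    (h : c₀ ^ 2 + c₁ ^ 2 = 1) :
    MeasurePreserving (fun u : X × Sp d × Sp d => (c₀ • ξ u.1 + c₁ • u.2.1, u.2.2))
      (μ.prod ((gd d).prod (gd d))) ((gd d).prod (gd d)) := by
  have h1 := ((map_pair_gd (d := d) c₀ c₁ h).prod (MeasurePreserving.id (gd d))).comp
    (((measurePreserving_prodAssoc (gd d) (gd d) (gd d)).symm _).comp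
      ((MeasurePreserving.mk hm hl).prod (MeasurePreserving.id ((gd d).prod (gd d)))))
  exact h1

/-- The errors of an emission at a random input. -/
lemma err_node {U X : Type} [MeasurableSpace U] [MeasurableSpace X] {μ : Measure U}
    {ν : Measure X} [SFinite ν] {A : U × X → Sp d} (hA : Measurable A) {g ε : U → ℝ}
    (hb : ∀ u, ∫⁻ x, ENNReal.ofReal (‖A (u, x)‖ ^ 2) ∂ν ≤ ENNReal.ofReal (ε u ^ 2))
    (hg : ∀ u, |ε u| ≤ g u) : eLpNorm A 2 (μ.prod ν) ≤ eLpNorm g 2 μ := by
  rw [eLpNorm_eq_lintegral_rpow_enorm_toReal two_ne_zero ENNReal.ofNat_ne_top,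
    eLpNorm_eq_lintegral_rpow_enorm_toReal two_ne_zero ENNReal.ofNat_ne_top, ENNReal.toReal_ofNat]
  refine ENNReal.rpow_le_rpow ?_ (by norm_num)
  simp only [ENNReal.rpow_ofNat]
  rw [lintegral_prod _ (hA.enorm.pow_const 2).aemeasurable]
  refine lintegral_mono fun u => le_trans (le_of_eq (lintegral_congr fun x => ?_))
    ((hb u).trans ?_)
  · rw [← ofReal_norm, ← ENNReal.ofReal_pow (norm_nonneg _)]
  · rw [Real.enorm_eq_ofReal_abs, ← ENNReal.ofReal_pow (abs_nonneg _)]
    exact ENNReal.ofReal_le_ofReal (sq_le_sq.2 (by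
      rw [abs_abs]; exact (hg u).trans (le_abs_self _)))

/-- Growth read at a random input. -/
lemma eLpNorm_growth {U : Type} [MeasurableSpace U] {μ : Measure U} [IsProbabilityMeasure μ]
    {δ x y : U → Sp d} (hδ : AEStronglyMeasurable δ μ) (hx : MeasurePreserving x μ (gd d))
    (hy : MeasurePreserving y μ (gd d)) {E D s e : ℝ} (hE : 0 ≤ E) (hD : 0 ≤ D) (hs : 0 ≤ s)
    (he : 0 ≤ e) (hb : eLpNorm δ 2 μ ≤ ENNReal.ofReal e) :
    eLpNorm (fun u => E + D * (‖δ u‖ + s * ‖x u‖ + ‖y u‖)) 2 μ ≤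
      ENNReal.ofReal (E + D * (e + (s + 1) * √(d : ℝ))) := by
  have hn : ∀ {f : U → Sp d}, MeasurePreserving f μ (gd d) →
      eLpNorm f 2 μ ≤ ENNReal.ofReal √(d : ℝ) := fun {f} hf =>
    (eLpNorm_comp_measurePreserving (g := fun z : Sp d => z) aestronglyMeasurable_id hf).trans_le
      EmitBase.eLpNorm_id_gd_le
  have hxm := hx.measurable.aestronglyMeasurable (μ := μ)
  have hym := hy.measurable.aestronglyMeasurable (μ := μ)
  have e1 : (fun u => E + D * (‖δ u‖ + s * ‖x u‖ + ‖y u‖)) = (fun _ : U => E) +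
      D • (((fun u => ‖δ u‖) + s • fun u => ‖x u‖) + fun u => ‖y u‖) := by
    funext u; simp [mul_add]
  rw [e1, show e + (s + 1) * √(d : ℝ) = e + s * √(d : ℝ) + √(d : ℝ) by ring,
    ENNReal.ofReal_add hE (by positivity), ENNReal.ofReal_mul hD,
    ENNReal.ofReal_add (by positivity) (by positivity),
    ENNReal.ofReal_add he (by positivity), ENNReal.ofReal_mul hs]
  refine (eLpNorm_add_le aestronglyMeasurable_const
    (((hδ.norm.add (hxm.norm.const_smul s)).add hym.norm).const_smul D) one_le_two).trans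
    (add_le_add ?_ ?_)
  · rw [eLpNorm_const _ two_ne_zero (IsProbabilityMeasure.ne_zero μ), measure_univ,
      ENNReal.one_rpow, mul_one, Real.enorm_eq_ofReal hE]
  rw [eLpNorm_const_smul, Real.enorm_eq_ofReal hD]
  refine mul_le_mul' le_rfl ((eLpNorm_add_le (hδ.norm.add (hxm.norm.const_smul s)) hym.norm
    one_le_two).trans (add_le_add ((eLpNorm_add_le hδ.norm (hxm.norm.const_smul s)
      one_le_two).trans (add_le_add ?_ ?_)) ?_))
  · rwa [eLpNorm_norm]
  · rw [eLpNorm_const_smul, Real.enorm_eq_ofReal hs, eLpNorm_norm]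
    exact mul_le_mul' le_rfl (hn hx)
  · rw [eLpNorm_norm]; exact hn hy

/-- The coupling of all nodes is standard. -/
lemma mp_out {n : ℕ} {U : Type} [MeasurableSpace U] {μ : Measure U} [SFinite μ] {S : Fin n → Type}
    [∀ i, MeasurableSpace (S i)] (ν : ∀ i, Measure (S i)) [∀ i, IsProbabilityMeasure (ν i)]
    {t : U → Sp d} (ht : MeasurePreserving t μ (gd d)) {ξ : ∀ i, S i × U → Sp d}
    (hξ : ∀ i, Measurable (ξ i)) (hl : ∀ i u, (ν i).map (fun x => ξ i (x, u)) = gd d)
    {c₀ : ℝ} {c : Fin n → ℝ} (h : c₀ ^ 2 + ∑ i, c i ^ 2 = 1) :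
    MeasurePreserving (fun v : U × (∀ i, S i) => c₀ • t v.1 + ∑ i, c i • ξ i (v.2 i, v.1))
      (μ.prod (Measure.pi ν)) (gd d) := by
  have hk : MeasurePreserving (fun v : U × (∀ i, S i) => (t v.1, fun i => ξ i (v.2 i, v.1)))
      (μ.prod (Measure.pi ν)) ((gd d).prod (Measure.pi fun _ => gd d)) := by
    refine MeasurePreserving.skew_product ht (g := fun (u : U) (x : ∀ i, S i) => fun i => ξ i (x i, u)) ?_
      (ae_of_all _ fun u => ?_)
    · exact measurable_pi_lambda _ fun i => (hξ i).comp (Measurable.prodMk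
        ((measurable_pi_apply i).comp measurable_snd) measurable_fst)
    · exact (measurePreserving_pi ν (fun _ : Fin n => gd d) fun i =>
        ⟨(hξ i).comp measurable_prodMk_right, hl i u⟩).map_eq
  exact (map_cons_gd c₀ c h).comp hk

/-- The three errors of a step. -/
lemma err_sum {n : ℕ} {U : Type} [MeasurableSpace U] {μ : Measure U} [SFinite μ] {S : Fin n → Type}
    [∀ i, MeasurableSpace (S i)] (ν : ∀ i, Measure (S i)) [∀ i, IsProbabilityMeasure (ν i)]
    (w : Fin n → ℝ) {F : U → Sp d} (hF : Measurable F) {E₀ : ℝ} (hE : 0 ≤ E₀)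
    (eF : eLpNorm F 2 μ ≤ ENNReal.ofReal E₀) {A : ∀ i, U × S i → Sp d}
    (hA : ∀ i, Measurable (A i)) {L : Fin n → U → Sp d} (hL : ∀ i, Measurable (L i))
    {a l : Fin n → ℝ} (ha : ∀ i, 0 ≤ a i) (hl : ∀ i, 0 ≤ l i)
    (eA : ∀ i, eLpNorm (A i) 2 (μ.prod (ν i)) ≤ ENNReal.ofReal (a i))
    (eL : ∀ i, eLpNorm (L i) 2 μ ≤ ENNReal.ofReal (l i)) :
    eLpNorm (fun v : U × (∀ i, S i) => F v.1 + ∑ i, w i • (A i (v.1, v.2 i) + L i v.1)) 2
      (μ.prod (Measure.pi ν)) ≤ ENNReal.ofReal (E₀ + ∑ i, |w i| * (l i + a i)) := by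
  have hps : ∀ i, MeasurePreserving (fun v : U × (∀ i, S i) => (v.1, v.2 i))
      (μ.prod (Measure.pi ν)) (μ.prod (ν i)) := fun i =>
    (MeasurePreserving.id μ).prod (measurePreserving_eval ν i)
  set T : Fin n → U × (∀ i, S i) → Sp d := fun i =>
    (fun v => A i (v.1, v.2 i)) + fun v => L i v.1
  have hAm : ∀ i, AEStronglyMeasurable (fun v : U × (∀ i, S i) => A i (v.1, v.2 i))
      (μ.prod (Measure.pi ν)) := fun i => ((hA i).comp (hps i).measurable).aestronglyMeasurable
  have hLm : ∀ i, AEStronglyMeasurable (fun v : U × (∀ i, S i) => L i v.1)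
      (μ.prod (Measure.pi ν)) := fun i => ((hL i).comp measurable_fst).aestronglyMeasurable
  have hT : ∀ i, AEStronglyMeasurable (T i) (μ.prod (Measure.pi ν)) := fun i =>
    (hAm i).add (hLm i)
  have e : (fun v : U × (∀ i, S i) => F v.1 + ∑ i, w i • (A i (v.1, v.2 i) + L i v.1)) =
      (fun v => F v.1) + ∑ i, w i • T i := by
    funext v; simp [T, Finset.sum_apply]
  have hpos : ∀ i, 0 ≤ |w i| * (l i + a i) := fun i =>
    mul_nonneg (abs_nonneg _) (add_nonneg (hl i) (ha i))
  rw [e, ENNReal.ofReal_add hE (sum_nonneg fun i _ => hpos i),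
    ENNReal.ofReal_sum_of_nonneg fun i _ => hpos i]
  refine (eLpNorm_add_le (hF.comp measurable_fst).aestronglyMeasurable
    (aestronglyMeasurable_sum _ fun i _ => (hT i).const_smul (w i)) one_le_two).trans
    (add_le_add ((eLpNorm_comp_measurePreserving hF.aestronglyMeasurable
      measurePreserving_fst).trans_le eF) ((eLpNorm_sum_le (fun i _ => (hT i).const_smul (w i))
        one_le_two).trans (sum_le_sum fun i _ => ?_)))
  rw [eLpNorm_const_smul, ENNReal.ofReal_mul (abs_nonneg _), Real.enorm_eq_ofReal_abs,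
    add_comm (l i), ENNReal.ofReal_add (ha i) (hl i)]
  exact mul_le_mul' le_rfl ((eLpNorm_add_le (hAm i) (hLm i) one_le_two).trans (add_le_add
    ((eLpNorm_comp_measurePreserving (hA i).aestronglyMeasurable (hps i)).trans_le (eA i))
    ((eLpNorm_comp_measurePreserving (hL i).aestronglyMeasurable measurePreserving_fst).trans_le
      (eL i))))

/-- An emission at a random input. -/
lemma run_err {β U : Type} [MeasurableSpace β] [MeasurableSpace U] {μ : Measure U}
    (p : Emitter d β) {G : Sp d → Sp d} (hG : Measurable G) {H : β → Sp d} (hH : Measurable H)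
    {ρ : ℝ} {ξ : p.S × β → Sp d} (hξ : Measurable ξ) {ε : β → ℝ}
    (hb : ∀ b, ∫⁻ x, ENNReal.ofReal (‖p.run G (x, b) - (H b + ρ • ξ (x, b))‖ ^ 2) ∂p.μ ≤
      ENNReal.ofReal (ε b ^ 2))
    {j : U → β} (hj : Measurable j) {g : U → ℝ} (hg : ∀ u, |ε (j u)| ≤ g u) :
    Measurable (fun v : U × p.S => p.run G (v.2, j v.1) - (H (j v.1) + ρ • ξ (v.2, j v.1))) ∧
      eLpNorm (fun v : U × p.S => p.run G (v.2, j v.1) - (H (j v.1) + ρ • ξ (v.2, j v.1))) 2
        (μ.prod p.μ) ≤ eLpNorm g 2 μ := by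
  have hm : Measurable fun v : U × p.S =>
      p.run G (v.2, j v.1) - (H (j v.1) + ρ • ξ (v.2, j v.1)) :=
    ((EmitBase.measurable_run p hG).comp (measurable_snd.prodMk (hj.comp measurable_fst))).sub
      ((hH.comp (hj.comp measurable_fst)).add
        ((hξ.comp (measurable_snd.prodMk (hj.comp measurable_fst))).fun_const_smul _))
  exact ⟨hm, err_node hm (ε := fun u => ε (j u)) (fun u => hb (j u)) hg⟩

/-- The program of one step. -/
lemma calc_step {n : ℕ} {α : Type} [MeasurableSpace α] (q : Emitter d α)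
    (R : Fin n → Emitter d (α × (Sp d × Sp d))) (f b : ℝ) (w : Fin n → ℝ) :
    Calc (q.cost + ∑ i, (R i).cost)
      fun G (t : ((q.S × Sp d × Sp d) × (∀ i, (R i).S)) × α) => b • t.1.1.2.2 + ∑ i, w i •
        (R i).run G (t.1.2 i, (t.2, (q.run G (t.1.1.1, t.2) + f • t.1.1.2.1, t.1.1.2.2))) := by
  have h1 : Calc q.cost fun G (t : ((q.S × Sp d × Sp d) × (∀ i, (R i).S)) × α) =>
      (t, q.run G (t.1.1.1, t.2)) :=
    ((Calc.pure (f := fun t : ((q.S × Sp d × Sp d) × (∀ i, (R i).S)) × α => (t.1.1.1, t.2))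
      (by fun_prop)).comp q.calc_run).mono (by simp) |>.keep
  have h2 : ∀ i, Calc (R i).cost
      fun G (u : (((q.S × Sp d × Sp d) × (∀ i, (R i).S)) × α) × Sp d) =>
        w i • (R i).run G (u.1.1.2 i, (u.1.2, (u.2 + f • u.1.1.1.2.1, u.1.1.1.2.2))) := fun i =>
    ((((Calc.pure (f := fun u : (((q.S × Sp d × Sp d) × (∀ i, (R i).S)) × α) × Sp d =>
      (u.1.1.2 i, (u.1.2, (u.2 + f • u.1.1.1.2.1, u.1.1.1.2.2)))) (by fun_prop)).comp
        (R i).calc_run).comp (Calc.pure (f := fun v : Sp d => w i • v) (by fun_prop))).mono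
          (by simp)).congr fun _ _ => rfl
  exact (((h1.comp (((Calc.pure (f := fun u : (((q.S × Sp d × Sp d) × (∀ i, (R i).S)) × α) × Sp d =>
    b • u.1.1.1.2.2) (by fun_prop)).pair (EmitBase.calc_sum h2)).comp
      (Calc.pure (f := fun v : Sp d × Sp d => v.1 + v.2) (by fun_prop))))).mono (by simp)).congr
        fun _ _ => rfl

end EmAssemble

open EmAssemble

variable {d n : ℕ} {α : Type} [MeasurableSpace α]

/-- **Assembly of one step.** -/
theorem em_assemble (q : Emitter d α) (R : Fin n → Emitter d (α × (Sp d × Sp d)))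
    {r₀ f s b : ℝ} (w ρ : Fin n → ℝ) (hs : 0 < s) (hrf : r₀ ^ 2 + f ^ 2 = s ^ 2) (hb : 0 < b) :
    ∃ p : Emitter d α, p.cost ≤ q.cost + ∑ i, (R i).cost ∧
      ∀ G, Measurable G → ∀ (c Φ : α → Sp d) (H : Fin n → α × (Sp d × Sp d) → Sp d)
        (T : α × (Sp d × Sp d) → Sp d) (Λ : Fin n → ℝ) (e E₀ : α → ℝ)
        (ε : Fin n → α × (Sp d × Sp d) → ℝ) (E D : Fin n → α → ℝ),
        Emits q G c r₀ e → (∀ i, Emits (R i) G (H i) (ρ i) (ε i)) →
        (∀ i, Measurable (H i)) → Measurable T →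
        (∀ a, MeasurePreserving (fun t => T (a, t)) ((gd d).prod (gd d)) (gd d)) →
        (∀ i, 0 ≤ Λ i) → (∀ i a y y' g, ‖H i (a, (y, g)) - H i (a, (y', g))‖ ≤ Λ i * ‖y - y'‖) →
        (∀ a, 0 ≤ E₀ a) →
        (∀ a, eLpNorm (fun t : Sp d × Sp d => b • t.2 + (∑ i, w i • H i (a, (c a + s • t.1, t.2))) -
          (Φ a + b • T (a, t))) 2 ((gd d).prod (gd d)) ≤ ENNReal.ofReal (E₀ a)) →
        (∀ i a, 0 ≤ E i a ∧ 0 ≤ D i a) →
        (∀ i a y g, |ε i (a, (y, g))| ≤ E i a + D i a * (‖y - c a‖ + ‖g‖)) →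
        Emits p G Φ √(b ^ 2 + ∑ i, (w i * ρ i) ^ 2) fun a =>
          E₀ a + ∑ i, |w i| * (Λ i * |e a| + E i a + D i a * (|e a| + (s + 1) * √(d : ℝ))) := by
  refine ⟨{ S := (q.S × Sp d × Sp d) × (∀ i, (R i).S), meas := inferInstance
            μ := (q.μ.prod ((gd d).prod (gd d))).prod (Measure.pi fun i => (R i).μ)
            prob := inferInstance
            run := fun G t => b • t.1.1.2.2 + ∑ i, w i •
              (R i).run G (t.1.2 i, (t.2, (q.run G (t.1.1.1, t.2) + f • t.1.1.2.1, t.1.1.2.2)))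
            cost := q.cost + ∑ i, (R i).cost
            calc_run := calc_step q R f b w }, le_rfl, ?_⟩
  intro G hG c Φ H T Λ e E₀ ε E D hq hR hH hT hTp hΛ hLip hE₀ hflow hED hε
  obtain ⟨ξq, hξqm, hξql, hξqb⟩ := hq
  choose ξ hξm hξl hξb using hR
  set B := √(b ^ 2 + ∑ i, (w i * ρ i) ^ 2) with hB
  have hB0 : 0 < B := sqrt_pos.2 (add_pos_of_pos_of_nonneg (by positivity)
    (sum_nonneg fun i _ => sq_nonneg _))
  -- the standard pair and the actual input
  obtain ⟨st, hst⟩ : ∃ st : α × (q.S × Sp d × Sp d) → Sp d × Sp d, ∀ a u,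
      st (a, u) = ((r₀ / s) • ξq (u.1, a) + (f / s) • u.2.1, u.2.2) :=
    ⟨fun p => ((r₀ / s) • ξq (p.2.1, p.1) + (f / s) • p.2.2.1, p.2.2.2), fun _ _ => rfl⟩
  obtain ⟨inp, hinp⟩ : ∃ inp : α × (q.S × Sp d × Sp d) → α × (Sp d × Sp d), ∀ a u,
      inp (a, u) = (a, (q.run G (u.1, a) + f • u.2.1, u.2.2)) :=
    ⟨fun p => (p.1, (q.run G (p.2.1, p.1) + f • p.2.2.1, p.2.2.2)), fun _ _ => rfl⟩
  have hrun : Measurable (q.run G) := EmitBase.measurable_run q hG
  have hstm : Measurable st := by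
    rw [show st = fun p => ((r₀ / s) • ξq (p.2.1, p.1) + (f / s) • p.2.2.1, p.2.2.2) from
      funext fun p => hst p.1 p.2]
    fun_prop
  have hinpm : Measurable inp := by
    rw [show inp = fun p => (p.1, (q.run G (p.2.1, p.1) + f • p.2.2.1, p.2.2.2)) from
      funext fun p => hinp p.1 p.2]
    fun_prop
  have hstp : ∀ a, MeasurePreserving (fun u => st (a, u)) (q.μ.prod ((gd d).prod (gd d)))
      ((gd d).prod (gd d)) := fun a => by
    simp only [hst]
    exact mp_std (hξqm.comp measurable_prodMk_right) (hξql a) (by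
      rw [div_pow, div_pow, ← add_div, hrf, div_self (pow_ne_zero 2 hs.ne')])
  refine ⟨fun v => (B⁻¹ * b) • T (v.2, st (v.2, v.1.1)) +
      ∑ i, (B⁻¹ * (w i * ρ i)) • ξ i (v.1.2 i, inp (v.2, v.1.1)), ?_, fun a => ?_, fun a => ?_⟩
  · refine ((hT.comp (measurable_snd.prodMk (hstm.comp
      (measurable_snd.prodMk (measurable_fst.comp measurable_fst))))).fun_const_smul _).add
      (Finset.measurable_sum _ fun i _ => ((hξm i).comp (Measurable.prodMk
        ((measurable_pi_apply i).comp (measurable_snd.comp measurable_fst)) (hinpm.comp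
          (measurable_snd.prodMk (measurable_fst.comp measurable_fst))))).fun_const_smul _)
  · refine (mp_out (fun i => (R i).μ) ((hTp a).comp (hstp a))
      (ξ := fun i t => ξ i (t.1, inp (a, t.2))) (fun i => (hξm i).comp (measurable_fst.prodMk
        (hinpm.comp (measurable_const.prodMk measurable_snd)))) (fun i u => hξl i (inp (a, u))) ?_).map_eq
    simp only [mul_pow B⁻¹, ← mul_sum, ← mul_add]
    rw [inv_pow, hB, sq_sqrt (by positivity), inv_mul_cancel₀]
    exact (sqrt_pos.1 (hB ▸ hB0)).ne'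
  rw [EmitBase.sq_err_iff]
  have hstm' : Measurable fun u => st (a, u) := (hstp a).measurable
  have hinpm' : Measurable fun u => inp (a, u) := hinpm.comp measurable_prodMk_left
  set μu := q.μ.prod ((gd d).prod (gd d))
  set de : q.S → Sp d := fun sq => q.run G (sq, a) - (c a + r₀ • ξq (sq, a)) with hde
  have hdem : Measurable de := (hrun.comp measurable_prodMk_right).sub
    (measurable_const.add ((hξqm.comp measurable_prodMk_right).fun_const_smul _))
  have hde2 : eLpNorm de 2 q.μ ≤ ENNReal.ofReal |e a| := (EmitBase.sq_err_iff _ _ _).1 (hξqb a)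
  have hsplit : ∀ u, (inp (a, u)).2.1 = c a + s • (st (a, u)).1 + de u.1 := fun u => by
    simp only [hinp, hst, hde, smul_add, smul_smul, mul_div_cancel₀ _ hs.ne']
    abel
  have hshape : ∀ u, inp (a, u) = (a, ((inp (a, u)).2.1, (st (a, u)).2)) := fun u => by
    simp only [hinp, hst]
  have hHm : ∀ i, Measurable fun t : Sp d × Sp d => H i (a, (c a + s • t.1, t.2)) := fun i =>
    (hH i).comp (by fun_prop)
  have hpre : ∀ i u, |ε i (inp (a, u))| ≤
      E i a + D i a * (‖de u.1‖ + s * ‖(st (a, u)).1‖ + ‖(st (a, u)).2‖) := fun i u => by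
    have h := hε i a (inp (a, u)).2.1 (st (a, u)).2
    rw [← hshape] at h
    refine h.trans (add_le_add le_rfl (mul_le_mul_of_nonneg_left (add_le_add ?_ le_rfl)
      (hED i a).2))
    rw [hsplit, add_assoc, add_sub_cancel_left, add_comm]
    exact (norm_add_le _ _).trans_eq (by rw [norm_smul, norm_of_nonneg hs.le])
  have hN := fun i => run_err (μ := μu) (R i) hG (hH i) (hξm i) (hξb i) hinpm' (hpre i)
  have eN := fun i => (hN i).2.trans (eLpNorm_growth (hdem.comp measurable_fst).aestronglyMeasurable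
    (measurePreserving_fst.comp (hstp a)) (measurePreserving_snd.comp (hstp a)) (hED i a).1
    (hED i a).2 hs.le (abs_nonneg (e a))
    ((eLpNorm_comp_measurePreserving hdem.aestronglyMeasurable measurePreserving_fst).trans_le
      hde2))
  have eL : ∀ i, eLpNorm (fun u =>
      H i (inp (a, u)) - H i (a, (c a + s • (st (a, u)).1, (st (a, u)).2))) 2 μu ≤
        ENNReal.ofReal (Λ i * |e a|) := fun i => by
    refine (eLpNorm_mono_real (g := Λ i • fun u => ‖de u.1‖) fun u => ?_).trans ?_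
    · have h := hLip i a (inp (a, u)).2.1 (c a + s • (st (a, u)).1) (st (a, u)).2
      rw [← hshape, hsplit, add_sub_cancel_left] at h
      exact h
    rw [eLpNorm_const_smul, Real.enorm_eq_ofReal (hΛ i), eLpNorm_norm, ENNReal.ofReal_mul (hΛ i)]
    exact mul_le_mul' le_rfl ((eLpNorm_comp_measurePreserving hdem.aestronglyMeasurable
      measurePreserving_fst).trans_le hde2)
  have hTa : Measurable fun t : Sp d × Sp d => T (a, t) := hT.comp measurable_prodMk_left
  have hF0 : Measurable fun t : Sp d × Sp d =>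
      b • t.2 + (∑ i, w i • H i (a, (c a + s • t.1, t.2))) - (Φ a + b • T (a, t)) :=
    ((measurable_snd.fun_const_smul b).add (Finset.measurable_sum _ fun i _ =>
      (hHm i).fun_const_smul (w i))).sub (measurable_const.add (hTa.fun_const_smul b))
  have eF := (eLpNorm_comp_measurePreserving hF0.aestronglyMeasurable (hstp a)).trans_le (hflow a)
  rw [abs_of_nonneg (add_nonneg (hE₀ a) (sum_nonneg fun i _ => mul_nonneg (abs_nonneg _)
    (add_nonneg (add_nonneg (mul_nonneg (hΛ i) (abs_nonneg _)) (hED i a).1)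
      (mul_nonneg (hED i a).2 (by positivity)))))]
  refine le_trans (le_of_eq (congrArg
      (eLpNorm · 2 (μu.prod (Measure.pi fun i => (R i).μ))) (funext fun v => ?_)))
    ((err_sum (fun i => (R i).μ) w (hF0.comp hstm') (hE₀ a) eF (fun i => (hN i).1)
      (fun i => ((hH i).comp hinpm').sub ((hHm i).comp hstm'))
      (fun i => add_nonneg (hED i a).1 (mul_nonneg (hED i a).2 (by positivity)))
      (fun i => mul_nonneg (hΛ i) (abs_nonneg (e a))) eN eL).trans_eq ?_)
  · have h2 : v.1.2.2 = (st (a, v.1)).2 := by simp [hst]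
    have h3 : (a, (q.run G (v.1.1, a) + f • v.1.2.1, v.1.2.2)) = inp (a, v.1) := (hinp a v.1).symm
    simp only [h3]
    simp only [h2, Function.comp_apply, Pi.sub_apply, smul_add, smul_sum, smul_smul,
      ← mul_assoc, mul_inv_cancel₀ hB0.ne', one_mul, smul_sub, sum_add_distrib, sum_sub_distrib]
    abel
  · simp only [add_assoc]

end Vale.Agent.P347.Shift
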