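import Vale.Agent.P347.Shift.FlowExists

/-!
# P347: a flow depends measurably on its parameter

For a field `V a` of class `C¹`, measurable in `(a, x)`, a global flow is at every time a measurable
function of `(a, x)`: it is the limit of the Euler schemes of cut off fields.
-/

open MeasureTheory Filter Topology
open scoped ContDiff NNReal

namespace Vale.Agent.P347.Shift

variable {α E : Type} [NormedAddCommGroup E] [NormedSpace ℝ E]
  [FiniteDimensional ℝ E]

/-- The cut off in the ball of radius `n + 1`. -/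
noncomputable def cutBall (E : Type) [NormedAddCommGroup E] [NormedSpace ℝ E] (n : ℕ) :
    ContDiffBump (0 : E) where
  rIn := n + 1
  rOut := n + 2
  rIn_pos := by positivity
  rIn_lt_rOut := by linarith

/-- The cut off field. -/
noncomputable def cutV (V : α → E → E) (n : ℕ) (a : α) (x : E) : E := cutBall E n x • V a x

/-- The Euler scheme of the cut off field. -/
noncomputable def eulerV (V : α → E → E) (n : ℕ) (T : ℝ) (N : ℕ) (p : α × E) : E :=
  (fun q => q + (T / (N + 1 : ℕ)) • cutV V n p.1 q)^[N + 1] p.2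

section

variable [MeasurableSpace α] [MeasurableSpace E] [BorelSpace E]
  {V : α → E → E} (hm : Measurable fun p : α × E => V p.1 p.2)

include hm

lemma measurable_cutV (n : ℕ) : Measurable fun p : α × E => cutV V n p.1 p.2 :=
  ((cutBall E n).continuous.measurable.comp measurable_snd).smul hm

lemma measurable_eulerV (n : ℕ) (T : ℝ) (N : ℕ) : Measurable (eulerV V n T N) := by
  set h := T / (N + 1 : ℕ)
  have : ∀ j : ℕ, Measurable fun p : α × E => (fun q => q + h • cutV V n p.1 q)^[j] p.2 := by
    intro j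
    induction j with
    | zero => simpa using measurable_snd
    | succ j ih =>
      simp only [Function.iterate_succ_apply']
      exact ih.add (((measurable_cutV hm n).comp (measurable_fst.prodMk ih)).const_smul h)
  exact this (N + 1)

end

/-- **A flow is measurable in the parameter and the starting point.** -/
theorem measurable_flow [MeasurableSpace α] [MeasurableSpace E] [BorelSpace E]
    {V : α → E → E} (hm : Measurable fun p : α × E => V p.1 p.2)
    (hV : ∀ a, ContDiff ℝ 1 (V a)) {Φ : α → ℝ → E → E} (h0 : ∀ a x, Φ a 0 x = x)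
    (hΦ : ∀ a x t, HasDerivAt (fun t => Φ a t x) (V a (Φ a t x)) t) :
    ∀ T, 0 ≤ T → Measurable fun p : α × E => Φ p.1 T p.2 := by
  intro T hT
  have hreg : ∀ n a, ∃ K B : ℝ≥0, LipschitzWith K (cutV V n a) ∧ ∀ q, ‖cutV V n a q‖ ≤ B := by
    intro n a
    have hc : ContDiff ℝ 1 (cutV V n a) := (cutBall E n).contDiff.smul (hV a)
    have hs : HasCompactSupport (cutV V n a) := (cutBall E n).hasCompactSupport.smul_right
    obtain ⟨K, hK⟩ := hc.lipschitzWith_of_hasCompactSupport hs one_ne_zero
    obtain ⟨B, hB⟩ := hc.continuous.bounded_above_of_compact_support hs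
    exact ⟨K, B.toNNReal, hK, fun q => (hB q).trans (Real.le_coe_toNNReal B)⟩
  choose K B hK hB using hreg
  choose y hy0 hy using fun n (p : α × E) => exists_global (hK n p.1) (hB n p.1) p.2
  have hlim : ∀ n p, Tendsto (fun N => eulerV V n T N p) atTop (𝓝 (y n p T)) := by
    intro n p
    rw [tendsto_iff_norm_sub_tendsto_zero]
    set k : ℝ := (K n p.1 : ℝ)
    set b : ℝ := (B n p.1 : ℝ)
    have hz : Tendsto (fun N : ℕ => k * b * T ^ 2 * Real.exp (k * T) * (1 / ((N : ℝ) + 1)))
        atTop (𝓝 0) := by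
      simpa using (tendsto_one_div_add_atTop_nhds_zero_nat (𝕜 := ℝ)).const_mul
        (k * b * T ^ 2 * Real.exp (k * T))
    refine squeeze_zero (fun _ => norm_nonneg _) (fun N => ?_) hz
    set M : ℕ := N + 1
    have hM : (0 : ℝ) < M := by positivity
    have e := euler_error (hK n p.1) (hB n p.1) (hy n p) (h := T / M) (div_nonneg hT hM.le) M
    rw [hy0 n p, mul_div_cancel₀ T hM.ne'] at e
    refine e.trans ?_
    have h1 : (1 + T / M * k) ^ M ≤ Real.exp (k * T) := by
      have h3 := Real.one_sub_div_pow_le_exp_neg (n := M) (t := -(k * T))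
        (by nlinarith [(K n p.1).coe_nonneg, hM])
      rw [neg_neg, neg_div, sub_neg_eq_add] at h3
      calc (1 + T / M * k) ^ M = (1 + k * T / M) ^ M := by ring
        _ ≤ _ := h3
    calc (M : ℝ) * (k * b * (T / M) ^ 2) * (1 + T / M * k) ^ M
        = k * b * T ^ 2 * (1 / (M : ℝ)) * (1 + T / M * k) ^ M := by field_simp
      _ ≤ k * b * T ^ 2 * (1 / (M : ℝ)) * Real.exp (k * T) :=
          mul_le_mul_of_nonneg_left h1 (by positivity)
      _ = _ := by simp only [M]; push_cast; ring
  have hmy : ∀ n, Measurable fun p : α × E => y n p T := fun n =>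
    measurable_of_tendsto_metrizable (measurable_eulerV hm n T)
      (tendsto_pi_nhds.2 fun p => hlim n p)
  refine measurable_of_tendsto_metrizable hmy (tendsto_pi_nhds.2 fun p => ?_)
  refine tendsto_const_nhds.congr' ?_
  obtain ⟨R, hR⟩ := (isCompact_Icc (a := (0 : ℝ)) (b := T)).exists_bound_of_continuousOn
    (f := fun t => Φ p.1 t p.2) (fun t _ => (hΦ p.1 p.2 t).continuousAt.continuousWithinAt)
  filter_upwards [eventually_ge_atTop ⌈R⌉₊] with n hn
  have hcut : ∀ t ∈ Set.Icc (0 : ℝ) T, cutV V n p.1 (Φ p.1 t p.2) = V p.1 (Φ p.1 t p.2) := by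
    intro t ht
    rw [cutV, (cutBall E n).one_of_mem_closedBall, one_smul]
    rw [mem_closedBall_zero_iff]
    show ‖Φ p.1 t p.2‖ ≤ (n : ℝ) + 1
    have : (⌈R⌉₊ : ℝ) ≤ n := by exact_mod_cast hn
    linarith [hR t ht, Nat.le_ceil R]
  have hd := dist_le_of_trajectories_ODE (v := fun _ => cutV V n p.1) (fun _ => hK n p.1)
    (f := fun t => Φ p.1 t p.2) (g := y n p) (a := 0) (b := T)
    (fun t _ => (hΦ p.1 p.2 t).continuousAt.continuousWithinAt)
    (fun t ht => by rw [hcut t ⟨ht.1, ht.2.le⟩]; exact (hΦ p.1 p.2 t).hasDerivWithinAt)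
    (fun t _ => (hy n p t).continuousAt.continuousWithinAt)
    (fun t _ => (hy n p t).hasDerivWithinAt) (δ := 0) (by simp [h0, hy0]) T ⟨hT, le_rfl⟩
  rw [zero_mul] at hd
  exact dist_le_zero.1 hd

end Vale.Agent.P347.Shift
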