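import Vale.Agent.P347.Shift.TimeQuad

/-!
# P347: the flow of a divergence free field of linear growth preserves the Gaussian law

For compactly supported fields the Euler scheme is invariant to first order, so the flow preserves
the law.  A general `field M` of linear growth is, on each ball, the field of a cut off matrix.
-/

open MeasureTheory Real Finset Filter Topology
open scoped ContDiff NNReal RealInnerProductSpace

namespace Vale.Agent.P347.Shift

open Quarter

section Ode

variable {E : Type} [NormedAddCommGroup E] [NormedSpace ℝ E] [CompleteSpace E] {V : E → E}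
  {K B : ℝ≥0}

/-- A bounded Lipschitz field has global trajectories. -/
theorem exists_global (hL : LipschitzWith K V) (hM : ∀ p, ‖V p‖ ≤ B) (x : E) :
    ∃ y : ℝ → E, y 0 = x ∧ ∀ t, HasDerivAt y (V (y t)) t := by
  have hn : ∀ n : ℕ, ∃ y : ℝ → E, y 0 = x ∧
      ∀ t ∈ Set.Ioo (-(n + 1) : ℝ) (n + 1), HasDerivAt y (V (y t)) t := by
    intro n
    have hp : (0 : ℝ) ≤ n + 1 := by positivity
    have ht : (0 : ℝ) ∈ Set.Icc (-(n + 1) : ℝ) (n + 1) := ⟨by linarith, hp⟩
    have hpl : IsPicardLindelof (fun _ => V) (⟨0, ht⟩ : Set.Icc (-(n + 1) : ℝ) (n + 1))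
        x (B * (n + 1)) 0 B K := by
      apply IsPicardLindelof.of_time_independent (fun p _ => hM p) hL.lipschitzOnWith
      simp
    obtain ⟨y, hy0, hy⟩ := hpl.exists_eq_forall_mem_Icc_hasDerivWithinAt₀
    exact ⟨y, hy0, fun t ht => (hy t (Set.Ioo_subset_Icc_self ht)).hasDerivAt
      (Icc_mem_nhds ht.1 ht.2)⟩
  choose z hz0 hz using hn
  have agree : ∀ (n k : ℕ), n ≤ k → Set.EqOn (z n) (z k) (Set.Ioo (-(n + 1) : ℝ) (n + 1)) := by
    intro n k hk
    have hkk : (n : ℝ) ≤ k := by exact_mod_cast hk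
    have hp : (0 : ℝ) < n + 1 := by positivity
    refine ODE_solution_unique_of_mem_Ioo (v := fun _ => V) (s := fun _ => Set.univ)
      (t₀ := 0) (fun t _ => hL.lipschitzOnWith) ⟨by linarith, hp⟩
      (fun t ht => ⟨hz n t ht, trivial⟩)
      (fun t ht => ⟨hz k t ⟨by linarith [ht.1], by linarith [ht.2]⟩, trivial⟩) (by rw [hz0, hz0])
  let idx : ℝ → ℕ := fun t => ⌈|t|⌉₊
  refine ⟨fun t => z (idx t) t, hz0 _, fun t => ?_⟩
  have hin : ∀ s, s ∈ Set.Ioo (-(idx s + 1) : ℝ) (idx s + 1) := fun s => by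
    have := Nat.le_ceil |s|
    constructor <;> linarith [neg_abs_le s, le_abs_self s]
  have ev : (fun s => z (idx s) s) =ᶠ[𝓝 t] z (idx t) := by
    filter_upwards [Ioo_mem_nhds (hin t).1 (hin t).2] with s hs
    rcases le_total (idx s) (idx t) with h | h
    · exact agree _ _ h (hin s)
    · exact (agree _ _ h hs).symm
  exact (hz (idx t) t (hin t)).congr_of_eventuallyEq ev

omit [CompleteSpace E] in
/-- A trajectory run backwards. -/
lemma hasDerivAt_reverse {y : ℝ → E} (hy : ∀ t, HasDerivAt y (V (y t)) t) (t : ℝ) :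
    HasDerivAt (fun s => y (-s)) (-V (y (-t))) t := by
  simpa [Function.comp_def] using (hy (-t)).scomp t (hasDerivAt_neg t)

omit [CompleteSpace E] in
/-- Dependence on the starting point. -/
lemma traj_dist (hL : LipschitzWith K V) {y z : ℝ → E} (hy : ∀ t, HasDerivAt y (V (y t)) t)
    (hz : ∀ t, HasDerivAt z (V (z t)) t) (t : ℝ) :
    dist (y t) (z t) ≤ dist (y 0) (z 0) * exp (K * |t|) := by
  have hcy : Continuous y := continuous_iff_continuousAt.2 fun s => (hy s).continuousAt
  have hcz : Continuous z := continuous_iff_continuousAt.2 fun s => (hz s).continuousAt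
  rcases le_total 0 t with ht | ht
  · rw [abs_of_nonneg ht]
    simpa using dist_le_of_trajectories_ODE (v := fun _ => V) (fun _ => hL) hcy.continuousOn
      (fun s _ => (hy s).hasDerivWithinAt) hcz.continuousOn (fun s _ => (hz s).hasDerivWithinAt)
      le_rfl t ⟨ht, le_rfl⟩
  · rw [abs_of_nonpos ht]
    simpa using dist_le_of_trajectories_ODE (v := fun _ p => -V p) (fun _ => hL.neg)
      (f := fun s => y (-s)) (g := fun s => z (-s)) (a := 0) (b := -t)
      (hcy.comp continuous_neg).continuousOn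
      (fun s _ => (hasDerivAt_reverse hy s).hasDerivWithinAt)
      (hcz.comp continuous_neg).continuousOn
      (fun s _ => (hasDerivAt_reverse hz s).hasDerivWithinAt)
      le_rfl (-t) ⟨by linarith, le_rfl⟩

omit [CompleteSpace E] in
/-- Growth of a trajectory of a field of linear growth. -/
lemma traj_norm {a b : ℝ} (hg : ∀ p, ‖V p‖ ≤ a + b * ‖p‖) {y : ℝ → E}
    (hy : ∀ t, HasDerivAt y (V (y t)) t) (t : ℝ) :
    ‖y t‖ ≤ gronwallBound ‖y 0‖ b a |t| := by
  have hcy : Continuous y := continuous_iff_continuousAt.2 fun s => (hy s).continuousAt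
  rcases le_total 0 t with ht | ht
  · rw [abs_of_nonneg ht]
    simpa using norm_le_gronwallBound_of_norm_deriv_right_le hcy.continuousOn
      (fun s _ => (hy s).hasDerivWithinAt) le_rfl
      (fun s _ => (hg _).trans_eq (add_comm _ _)) t ⟨ht, le_rfl⟩
  · rw [abs_of_nonpos ht]
    simpa using norm_le_gronwallBound_of_norm_deriv_right_le (f := fun s => y (-s)) (a := 0)
      (b := -t) (hcy.comp continuous_neg).continuousOn
      (fun s _ => (hasDerivAt_reverse hy s).hasDerivWithinAt) (δ := ‖y 0‖) (by simp)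
      (fun s _ => (norm_neg _).trans_le ((hg _).trans_eq (add_comm _ _))) (-t)
      ⟨by linarith, le_rfl⟩

omit [CompleteSpace E] in
/-- The Euler scheme. -/
lemma euler_error (hL : LipschitzWith K V) (hM : ∀ p, ‖V p‖ ≤ B) {y : ℝ → E}
    (hy : ∀ t, HasDerivAt y (V (y t)) t) {h : ℝ} (hh : 0 ≤ h) : ∀ j : ℕ,
    ‖(fun p => p + h • V p)^[j] (y 0) - y (j * h)‖ ≤ j * (K * B * h ^ 2) * (1 + h * K) ^ j
  | 0 => by simp
  | j + 1 => by
    set s := (j : ℝ) * h
    set u := (fun p => p + h • V p)^[j] (y 0)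
    set q := (1 + h * K : ℝ)
    have hq : 1 ≤ q := le_add_of_nonneg_right (by positivity)
    have hB : ∀ r, ‖y r - y s‖ ≤ B * |r - s| := fun r => by
      have := Convex.norm_image_sub_le_of_norm_hasDerivWithin_le (f := y) (f' := fun r => V (y r))
        (fun r _ => (hy r).hasDerivWithinAt) (fun r _ => hM _) convex_univ (Set.mem_univ s)
        (Set.mem_univ r)
      simpa [Real.norm_eq_abs] using this
    have h1 : ‖y (s + h) - y s - h • V (y s)‖ ≤ K * B * h ^ 2 := by
      have := norm_image_sub_le_of_norm_deriv_le_segment' (f := fun r => y r - r • V (y s))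
        (f' := fun r => V (y r) - (1 : ℝ) • V (y s)) (a := s) (b := s + h)
        (fun r _ => ((hy r).sub ((hasDerivAt_id r).smul_const (V (y s)))).hasDerivWithinAt)
        (C := K * (B * h)) (fun r hr => by
          rw [one_smul]
          refine (hL.norm_sub_le _ _).trans (mul_le_mul_of_nonneg_left ((hB r).trans ?_) K.coe_nonneg)
          exact mul_le_mul_of_nonneg_left
            (by rw [abs_of_nonneg (by linarith [hr.1])]; linarith [hr.2]) B.coe_nonneg)
        (s + h) ⟨by linarith, le_rfl⟩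
      refine le_trans (le_of_eq ?_) (this.trans_eq (by ring))
      congr 1
      rw [add_smul]
      abel
    rw [Function.iterate_succ_apply', show ((j + 1 : ℕ) : ℝ) * h = s + h by simp [s, add_mul]]
    have e : (u + h • V u) - y (s + h) =
        (u - y s) + h • (V u - V (y s)) - (y (s + h) - y s - h • V (y s)) := by
      rw [smul_sub]; abel
    show ‖(u + h • V u) - y (s + h)‖ ≤ _
    rw [e]
    refine ((norm_sub_le _ _).trans (add_le_add (norm_add_le _ _) h1)).trans ?_
    rw [norm_smul, Real.norm_of_nonneg hh]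
    have h2 := mul_le_mul_of_nonneg_left (hL.norm_sub_le u (y s)) hh
    have ih : ‖u - y s‖ ≤ j * (K * B * h ^ 2) * q ^ j := euler_error hL hM hy hh j
    have h3 := mul_le_mul_of_nonneg_left ih (zero_le_one.trans hq)
    have h4 : (K : ℝ) * B * h ^ 2 ≤ K * B * h ^ 2 * q ^ (j + 1) :=
      le_mul_of_one_le_right (by positivity) (one_le_pow₀ hq)
    have h5 : q * (j * (K * B * h ^ 2) * q ^ j) = j * (K * B * h ^ 2) * q ^ (j + 1) := by ring
    have h6 : q * ‖u - y s‖ = ‖u - y s‖ + h * (K * ‖u - y s‖) := by ring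
    push_cast
    linarith

end Ode

variable {ι : Type} [Fintype ι] [DecidableEq ι]

/-- Integrals of gradients against the field vanish. -/
def DivFree (μ : Measure (Eu ι)) (V : Eu ι → Eu ι) : Prop :=
  ∀ f : Eu ι → ℝ, f.HasTemperateGrowth → ∫ x, fderiv ℝ f x (V x) ∂μ = 0

/-- Bounded first and second derivatives. -/
structure Nice (ψ : Eu ι → ℝ) (L L' : ℝ) : Prop where
  tg : ψ.HasTemperateGrowth
  grad : ∀ x, ‖fderiv ℝ ψ x‖ ≤ L
  lip : ∀ x y, ‖fderiv ℝ ψ x - fderiv ℝ ψ y‖ ≤ L' * ‖x - y‖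

variable {V : Eu ι → Eu ι} {K K' B : ℝ≥0} {μ : Measure (Eu ι)}

omit [DecidableEq ι] in
lemma euler_fderiv (hV : ContDiff ℝ ∞ V) (h : ℝ) (x : Eu ι) :
    HasFDerivAt (fun p => p + h • V p) (1 + h • fderiv ℝ V x) x :=
  (hasFDerivAt_id x).add ((hV.differentiable (by simp) x).hasFDerivAt.const_smul h)

omit [DecidableEq ι] in
lemma Nice.comp_euler {ψ : Eu ι → ℝ} {L L' : ℝ} (hψ : Nice ψ L L') (hV : ContDiff ℝ ∞ V)
    (hsupp : HasCompactSupport V) (hL : LipschitzWith K V)
    (hL' : LipschitzWith K' (fderiv ℝ V)) {h : ℝ} (hh : 0 ≤ h) :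
    Nice (fun x => ψ (x + h • V x)) (L * (1 + h * K))
      (L' * (1 + h * K) ^ 2 + L * (h * K')) := by
  set T := fun p => p + h • V p
  have hd : ∀ x, fderiv ℝ (fun x => ψ (T x)) x =
      (fderiv ℝ ψ (T x)).comp (1 + h • fderiv ℝ V x) := fun x =>
    ((tg_differentiable hψ.tg (T x)).hasFDerivAt.comp x (euler_fderiv hV h x)).fderiv
  have hn : ∀ x, ‖(1 : Eu ι →L[ℝ] Eu ι) + h • fderiv ℝ V x‖ ≤ 1 + h * K := fun x => by
    refine (norm_add_le _ _).trans (add_le_add ContinuousLinearMap.norm_id_le ?_)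
    rw [norm_smul, Real.norm_of_nonneg hh]
    exact mul_le_mul_of_nonneg_left (norm_fderiv_le_of_lipschitz ℝ hL) hh
  have hL0 : 0 ≤ L := (norm_nonneg _).trans (hψ.grad 0)
  refine ⟨?_, fun x => ?_, fun x y => ?_⟩
  · have hVt : V.HasTemperateGrowth := (hsupp.toSchwartzMap hV).hasTemperateGrowth
    exact hψ.tg.comp (Function.HasTemperateGrowth.id'.fun_add
      ((Function.HasTemperateGrowth.const h).fun_smul hVt))
  · rw [hd]
    exact (ContinuousLinearMap.opNorm_comp_le _ _).trans
      (mul_le_mul (hψ.grad _) (hn x) (norm_nonneg _) hL0)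
  · have e : fderiv ℝ (fun x => ψ (T x)) x - fderiv ℝ (fun x => ψ (T x)) y =
        (fderiv ℝ ψ (T x) - fderiv ℝ ψ (T y)).comp (1 + h • fderiv ℝ V x) +
          (fderiv ℝ ψ (T y)).comp (h • (fderiv ℝ V x - fderiv ℝ V y)) := by
      rw [hd, hd, ContinuousLinearMap.sub_comp, smul_sub, ContinuousLinearMap.comp_sub]
      simp only [ContinuousLinearMap.comp_add]
      abel
    have hT : ‖T x - T y‖ ≤ (1 + h * K) * ‖x - y‖ := by
      rw [show T x - T y = (x - y) + h • (V x - V y) by simp only [T, smul_sub]; abel]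
      refine (norm_add_le _ _).trans ?_
      rw [norm_smul, Real.norm_of_nonneg hh, add_mul, one_mul, mul_assoc]
      exact add_le_add le_rfl (mul_le_mul_of_nonneg_left (hL.norm_sub_le x y) hh)
    have hlip0 : 0 ≤ L' * ‖T x - T y‖ := (norm_nonneg _).trans (hψ.lip _ _)
    rw [e]
    refine (norm_add_le _ _).trans ?_
    have h1 : ‖(fderiv ℝ ψ (T x) - fderiv ℝ ψ (T y)).comp (1 + h • fderiv ℝ V x)‖ ≤
        L' * ‖T x - T y‖ * (1 + h * K) :=
      (ContinuousLinearMap.opNorm_comp_le _ _).trans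
        (mul_le_mul (hψ.lip _ _) (hn x) (norm_nonneg _) hlip0)
    have h2 : ‖(fderiv ℝ ψ (T y)).comp (h • (fderiv ℝ V x - fderiv ℝ V y))‖ ≤
        L * (h * (K' * ‖x - y‖)) := by
      refine (ContinuousLinearMap.opNorm_comp_le _ _).trans
        (mul_le_mul (hψ.grad _) ?_ (norm_nonneg _) hL0)
      rw [norm_smul, Real.norm_of_nonneg hh]
      exact mul_le_mul_of_nonneg_left (hL'.norm_sub_le x y) hh
    refine (add_le_add h1 h2).trans ?_
    rcases eq_or_ne x y with rfl | hne
    · simp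
    · have hpos : 0 < ‖x - y‖ := norm_pos_iff.2 (sub_ne_zero.2 hne)
      have hL'0 : 0 ≤ L' := nonneg_of_mul_nonneg_left ((norm_nonneg _).trans (hψ.lip x y)) hpos
      have h3 := mul_le_mul_of_nonneg_left hT hL'0
      have h4 := mul_le_mul_of_nonneg_right h3 (show (0 : ℝ) ≤ 1 + h * K by positivity)
      linarith

variable [IsProbabilityMeasure μ]

omit [DecidableEq ι] in
/-- One Euler step preserves integrals to first order. -/
lemma euler_step (hμ : ∀ f : Eu ι → ℝ, f.HasTemperateGrowth → Integrable f μ) (hV : ContDiff ℝ ∞ V) (hsupp : HasCompactSupport V) (hdiv : DivFree μ V)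
    (hM : ∀ p, ‖V p‖ ≤ B) {ψ : Eu ι → ℝ} {L L' : ℝ} (hψ : Nice ψ L L') (hL'0 : 0 ≤ L') {h : ℝ}
    (hh : 0 ≤ h) :
    |(∫ x, ψ (x + h • V x) ∂μ) - ∫ x, ψ x ∂μ| ≤ L' * (h * B) ^ 2 := by
  have hVt : V.HasTemperateGrowth := (hsupp.toSchwartzMap hV).hasTemperateGrowth
  have i1 := hμ (fun x => ψ (x + h • V x))
    (hψ.tg.comp (Function.HasTemperateGrowth.id'.fun_add
      ((Function.HasTemperateGrowth.const h).fun_smul hVt)))
  have i2 := hμ _ hψ.tg
  have hdc : Continuous fun x => fderiv ℝ ψ x (V x) :=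
    (hψ.tg.1.continuous_fderiv (by simp)).clm_apply hV.continuous
  have i3 : Integrable (fun x => fderiv ℝ ψ x (V x)) μ := by
    refine Integrable.of_bound hdc.aestronglyMeasurable (L * B) (ae_of_all _ fun x => ?_)
    exact (ContinuousLinearMap.le_opNorm _ _).trans
      (mul_le_mul (hψ.grad x) (hM x) (norm_nonneg _) ((norm_nonneg _).trans (hψ.grad 0)))
  have e : (∫ x, ψ (x + h • V x) ∂μ) - ∫ x, ψ x ∂μ =
      ∫ x, (ψ (x + h • V x) - ψ x - h * fderiv ℝ ψ x (V x)) ∂μ := by
    rw [integral_sub (f := fun x => ψ (x + h • V x) - ψ x) (i1.sub i2) (i3.const_mul h),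
      integral_sub i1 i2, integral_const_mul, hdiv ψ hψ.tg]
    ring
  rw [e, ← Real.norm_eq_abs]
  refine (norm_integral_le_of_norm_le_const (C := L' * (h * B) ^ 2) (ae_of_all _ fun x => ?_)).trans_eq
    (by simp)
  have key := (convex_segment x (x + h • V x)).norm_image_sub_le_of_norm_fderiv_le'
    (f := ψ) (C := L' * (h * B)) (φ := fderiv ℝ ψ x) (fun z _ => tg_differentiable hψ.tg z)
    (fun z hz => by
      refine (hψ.lip z x).trans (mul_le_mul_of_nonneg_left ?_ hL'0)
      refine (norm_sub_le_of_mem_segment hz).trans ?_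
      rw [add_sub_cancel_left, norm_smul, Real.norm_of_nonneg hh]
      exact mul_le_mul_of_nonneg_left (hM x) hh)
    (left_mem_segment ℝ _ _) (right_mem_segment ℝ _ _)
  rw [add_sub_cancel_left, map_smul, smul_eq_mul] at key
  refine key.trans ?_
  rw [norm_smul, Real.norm_of_nonneg hh]
  exact (mul_le_mul_of_nonneg_left (mul_le_mul_of_nonneg_left (hM x) hh)
    (mul_nonneg hL'0 (mul_nonneg hh B.coe_nonneg))).trans_eq (by ring)

omit [DecidableEq ι] in
/-- Compactly supported fields: invariance at nonnegative times. -/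
theorem preserve_compact (hμ : ∀ f : Eu ι → ℝ, f.HasTemperateGrowth → Integrable f μ) (hV : ContDiff ℝ ∞ V) (hsupp : HasCompactSupport V) (hdiv : DivFree μ V)
    {Φ : ℝ → Eu ι → Eu ι} (h0 : ∀ x, Φ 0 x = x)
    (hΦ : ∀ x t, HasDerivAt (fun t => Φ t x) (V (Φ t x)) t) {ψ : Eu ι → ℝ} {L L' C : ℝ}
    (hψ : Nice ψ L L') (hL' : 0 ≤ L') (hC : ∀ x, |ψ x| ≤ C) {t : ℝ} (ht : 0 ≤ t) :
    ∫ x, ψ (Φ t x) ∂μ = ∫ x, ψ x ∂μ := by
  have h1le : (1 : WithTop ℕ∞) ≤ ∞ := by simp
  obtain ⟨K, hL⟩ : ∃ K : ℝ≥0, LipschitzWith K V :=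
    (hV.of_le h1le).lipschitzWith_of_hasCompactSupport hsupp one_ne_zero
  obtain ⟨K', hK'⟩ : ∃ K : ℝ≥0, LipschitzWith K (fderiv ℝ V) :=
    ((hV.fderiv_right (m := 1) (WithTop.coe_le_coe.2 le_top)).lipschitzWith_of_hasCompactSupport
      (hsupp.fderiv ℝ) one_ne_zero)
  obtain ⟨B₀, hB₀⟩ := hV.continuous.bounded_above_of_compact_support hsupp
  set B : ℝ≥0 := B₀.toNNReal
  have hM : ∀ p, ‖V p‖ ≤ B := fun p => (hB₀ p).trans (Real.le_coe_toNNReal B₀)
  have hL0 : 0 ≤ L := (norm_nonneg _).trans (hψ.grad 0)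
  set T : ℕ → Eu ι → Eu ι := fun n p => p + (t / n) • V p
  set D := (L' + t * K' * L) * exp (2 * K * t) * (t * B) ^ 2
  have hb : ∀ n : ℕ, 1 ≤ n →
      |(∫ x, ψ ((T n)^[n] x) ∂μ) - ∫ x, ψ x ∂μ| ≤ D / n := fun n hn => by
    set h := t / n
    have hn0 : (0 : ℝ) < n := by exact_mod_cast hn
    have hh : 0 ≤ h := by positivity
    set q := 1 + h * K
    have hq1 : 1 ≤ q := le_add_of_nonneg_right (by positivity)
    have hN : ∀ j : ℕ, Nice (fun x => ψ ((T n)^[j] x)) (L * q ^ j)
        ((L' + j * h * K' * L) * q ^ (2 * j)) := by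
      intro j
      induction j with
      | zero => simpa using hψ
      | succ j ih =>
        obtain ⟨a1, a2, a3⟩ := ih.comp_euler hV hsupp hL hK' hh
        refine ⟨?_, fun x => ?_, fun x y => ?_⟩
        · simp only [Function.iterate_succ_apply]; exact a1
        · simp only [Function.iterate_succ_apply]
          exact (a2 x).trans_eq (by simp only [q]; ring)
        · simp only [Function.iterate_succ_apply]
          refine (a3 x y).trans (mul_le_mul_of_nonneg_right ?_ (norm_nonneg _))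
          push_cast
          have h5 : L * q ^ j * (h * K') ≤ L * (h * K') * q ^ (2 * (j + 1)) := by
            rw [mul_right_comm L]
            exact mul_le_mul_of_nonneg_left (pow_le_pow_right₀ hq1 (by omega)) (by positivity)
          have e5 : (L' + j * h * K' * L) * q ^ (2 * j) * q ^ 2 =
              (L' + j * h * K' * L) * q ^ (2 * (j + 1)) := by
            rw [mul_assoc, ← pow_add]
            ring_nf
          linarith
    have hstep : ∀ j < n, |(∫ x, ψ ((T n)^[j + 1] x) ∂μ) - ∫ x, ψ ((T n)^[j] x) ∂μ| ≤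
        (L' + t * K' * L) * exp (2 * K * t) * (h * B) ^ 2 := fun j hj => by
      simp only [Function.iterate_succ_apply]
      refine (euler_step hμ hV hsupp hdiv hM (hN j) (by positivity) hh).trans
        (mul_le_mul_of_nonneg_right (mul_le_mul ?_ ?_ (by positivity) (by positivity)) (sq_nonneg _))
      · have hjt : (j : ℝ) * h ≤ t := by
          calc (j : ℝ) * h ≤ n * h := mul_le_mul_of_nonneg_right (by exact_mod_cast hj.le) hh
            _ = t := by simp only [h]; field_simp
        exact add_le_add le_rfl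
          (mul_le_mul_of_nonneg_right (mul_le_mul_of_nonneg_right hjt K'.coe_nonneg) hL0)
      · refine (pow_le_pow_left₀ (by positivity)
          ((add_comm _ _).trans_le (Real.add_one_le_exp _)) _).trans ?_
        rw [← Real.exp_nat_mul]
        refine Real.exp_le_exp.2 ?_
        have hjn : (j : ℝ) ≤ n := by exact_mod_cast hj.le
        have hnh : (n : ℝ) * h = t := by simp only [h]; field_simp
        push_cast
        calc 2 * (j : ℝ) * (h * K) ≤ 2 * n * (h * K) := by gcongr
          _ = 2 * K * t := by rw [← hnh]; ring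
    have htel : (∫ x, ψ ((T n)^[n] x) ∂μ) - ∫ x, ψ x ∂μ = ∑ j ∈ range n,
        ((∫ x, ψ ((T n)^[j + 1] x) ∂μ) - ∫ x, ψ ((T n)^[j] x) ∂μ) :=
      (sum_range_sub (fun j => ∫ x, ψ ((T n)^[j] x) ∂μ) n).symm
    rw [htel]
    refine (abs_sum_le_sum_abs _ _).trans ((sum_le_sum fun j hj =>
      hstep j (mem_range.1 hj)).trans_eq ?_)
    rw [sum_const, card_range, nsmul_eq_mul]
    simp only [D, h]
    field_simp
  have hlim : Tendsto (fun n : ℕ => ∫ x, ψ ((T n)^[n] x) ∂μ) atTop
      (𝓝 (∫ x, ψ (Φ t x) ∂μ)) := by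
    refine tendsto_integral_of_dominated_convergence (fun _ => C) (fun n => ?_)
      (integrable_const C) (fun n => ae_of_all _ fun x => hC _) (ae_of_all _ fun x => ?_)
    · exact (hψ.tg.1.continuous.comp ((continuous_id.add
        (hV.continuous.const_smul (t / n : ℝ))).iterate n)).aestronglyMeasurable
    · refine (hψ.tg.1.continuous.tendsto _).comp ?_
      rw [tendsto_iff_norm_sub_tendsto_zero]
      refine squeeze_zero' (Eventually.of_forall fun _ => norm_nonneg _) ?_
        (tendsto_const_div_atTop_nhds_zero_nat ((K * B * t ^ 2) * exp (K * t)))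
      filter_upwards [eventually_ge_atTop 1] with n hn
      have hn0 : (0 : ℝ) < n := by exact_mod_cast hn
      have hh : 0 ≤ t / n := by positivity
      have hnh : (n : ℝ) * (t / n) = t := by field_simp
      have e := euler_error hL hM (hΦ x) hh n
      simp only [h0, hnh] at e
      refine e.trans ?_
      have h6 : (1 + t / n * K) ^ n ≤ exp (K * t) := by
        refine (pow_le_pow_left₀ (by positivity)
          ((add_comm _ _).trans_le (Real.add_one_le_exp _)) _).trans_eq ?_
        rw [← Real.exp_nat_mul]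
        congr 1
        field_simp
      refine (mul_le_mul_of_nonneg_left h6 (by positivity)).trans_eq ?_
      field_simp
  refine tendsto_nhds_unique hlim (tendsto_iff_norm_sub_tendsto_zero.2 ?_)
  refine squeeze_zero' (Eventually.of_forall fun _ => norm_nonneg _) ?_
    (tendsto_const_div_atTop_nhds_zero_nat D)
  filter_upwards [eventually_ge_atTop 1] with n hn
  exact hb n hn

omit [DecidableEq ι] in
/-- Bounded smooth waves are nice. -/
lemma nice_wave (ξ : Eu ι) (θ : ℝ) :
    ∃ L L' : ℝ, 0 ≤ L' ∧ Nice (fun x => cos (⟪x, ξ⟫ + θ)) L L' := by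
  set φ : Eu ι →L[ℝ] ℝ := innerSL ℝ ξ
  have e : (fun x => cos (⟪x, ξ⟫ + θ)) = fun x => cos (φ x + θ) := by
    funext x; simp [φ, real_inner_comm]
  rw [e]
  have hd : ∀ x, HasFDerivAt (fun x => cos (φ x + θ)) ((-sin (φ x + θ)) • φ) x := fun x =>
    (φ.hasFDerivAt.add_const θ).cos
  refine ⟨‖φ‖, ‖φ‖ * ‖φ‖, by positivity, ?_, fun x => ?_, fun x y => ?_⟩
  · refine ⟨Real.contDiff_cos.comp (φ.contDiff.add contDiff_const), fun n =>
      ⟨0, ‖φ‖ ^ n, fun x => ?_⟩⟩
    rw [pow_zero, mul_one, show (fun x => cos (φ x + θ)) = (fun u : ℝ => cos (u + θ)) ∘ φ from rfl,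
      φ.iteratedFDeriv_comp_right (f := fun u : ℝ => cos (u + θ)) (n := ∞)
        (Real.contDiff_cos.comp (contDiff_id.add contDiff_const)) x
        (WithTop.coe_le_coe.2 (le_top : (n : ℕ∞) ≤ ⊤))]
    refine (ContinuousMultilinearMap.norm_compContinuousLinearMap_le _ _).trans ?_
    rw [prod_const, card_univ, Fintype.card_fin, norm_iteratedFDeriv_eq_norm_iteratedDeriv,
      iteratedDeriv_comp_add_const, Real.norm_eq_abs]
    exact mul_le_of_le_one_left (by positivity) (Real.abs_iteratedDeriv_cos_le_one n _)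
  · rw [(hd x).fderiv, norm_smul, Real.norm_eq_abs, abs_neg]
    exact mul_le_of_le_one_left (norm_nonneg _) (Real.abs_sin_le_one _)
  · rw [(hd x).fderiv, (hd y).fderiv, ← sub_smul, norm_smul, mul_assoc, mul_comm ‖φ‖ (_ * _)]
    refine mul_le_mul_of_nonneg_right ?_ (norm_nonneg _)
    rw [Real.norm_eq_abs, neg_sub_neg]
    refine (Real.lipschitzWith_sin.dist_le_mul (φ y + θ) (φ x + θ)).trans ?_
    rw [NNReal.coe_one, one_mul, Real.dist_eq, add_sub_add_right_eq_sub, ← map_sub,
      norm_sub_rev x y, ← Real.norm_eq_abs]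
    exact φ.le_opNorm _

omit [DecidableEq ι] in
/-- A continuous map preserves the law if it preserves all waves. -/
lemma measurePreserving_of_waves {S : Eu ι → Eu ι} (hS : Continuous S)
    (h : ∀ (ξ : Eu ι) θ, ∫ x, cos (⟪S x, ξ⟫ + θ) ∂μ = ∫ x, cos (⟪x, ξ⟫ + θ) ∂μ) :
    MeasurePreserving S μ μ := by
  refine ⟨hS.measurable, ?_⟩
  have : IsProbabilityMeasure (μ.map S) := Measure.isProbabilityMeasure_map hS.aemeasurable
  refine Measure.ext_of_charFun (funext fun ξ => ?_)
  have e : ∀ u : ℝ, Complex.exp (u * Complex.I) = (cos u : ℂ) + (cos (u - π / 2) : ℂ) * Complex.I :=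
    fun u => by
      rw [Complex.exp_mul_I, Real.cos_sub_pi_div_two, Complex.ofReal_cos, Complex.ofReal_sin]
  have hi : ∀ (F : Eu ι → Eu ι), Continuous F → ∀ θ : ℝ,
      Integrable (fun x => ((cos (⟪F x, ξ⟫ + θ) : ℝ) : ℂ)) μ := fun F hF θ =>
    (Integrable.of_bound (by fun_prop : Continuous fun x => cos (⟪F x, ξ⟫ + θ)).aestronglyMeasurable
      1 (ae_of_all _ fun x => by rw [Real.norm_eq_abs]; exact Real.abs_cos_le_one _)).ofReal
  have hrep : ∀ F : Eu ι → Eu ι, Continuous F →
      ∫ x, Complex.exp (⟪F x, ξ⟫ * Complex.I) ∂μ =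
        ((∫ x, cos (⟪F x, ξ⟫ + 0) ∂μ : ℝ) : ℂ) +
          ((∫ x, cos (⟪F x, ξ⟫ + -(π / 2)) ∂μ : ℝ) : ℂ) * Complex.I := fun F hF => by
    simp only [e]
    rw [← integral_complex_ofReal, ← integral_complex_ofReal, ← integral_mul_const,
      ← integral_add (hi F hF 0) ((hi F hF _).mul_const _)]
    exact integral_congr_ae (ae_of_all _ fun x => by simp only [add_zero, ← sub_eq_add_neg])
  rw [charFun_apply, charFun_apply, integral_map hS.aemeasurable
    (by fun_prop : Continuous fun x => Complex.exp (⟪x, ξ⟫ * Complex.I)).aestronglyMeasurable]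
  rw [hrep S hS, hrep (fun x => x) continuous_id]
  simp only [h]

lemma vfield_eq (M : ι → ι → Eu ι → ℝ) (f : Eu ι → ℝ) (x : Eu ι) :
    gen M f x = fderiv ℝ f x (vfield M x) := by
  simp [vfield, map_sum, gen, pd, smul_eq_mul]

lemma divFree_field {M : ι → ι → Eu ι → ℝ} (hM : ∀ i k, (M i k).HasTemperateGrowth)
    (hanti : ∀ i k x, M k i x = -M i k x) : DivFree (gam ι) (vfield M) := fun f hf => by
  simp only [← vfield_eq]
  exact integral_gen hM hanti hf

omit [DecidableEq ι] in
/-- The flow of a field of linear growth given by a local operator on antisymmetric matrices whose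
values are divergence free for `μ` exists and preserves `μ`. -/
theorem exists_flow_of {μ : Measure (Eu ι)} [IsProbabilityMeasure μ]
    (hμ : ∀ f : Eu ι → ℝ, f.HasTemperateGrowth → Integrable f μ)
    {F : (ι → ι → Eu ι → ℝ) → Eu ι → Eu ι}
    (hloc : ∀ (M N : ι → ι → Eu ι → ℝ) x, (∀ i k, M i k =ᶠ[𝓝 x] N i k) → F M x = F N x)
    (hzero : ∀ x, F (fun _ _ _ => 0) x = 0)
    (hsm : ∀ M, (∀ i k, (M i k).HasTemperateGrowth) → ContDiff ℝ ∞ (F M))
    (hdiv : ∀ M, (∀ i k, (M i k).HasTemperateGrowth) → (∀ i k x, M k i x = -M i k x) →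
      DivFree μ (F M))
    {M : ι → ι → Eu ι → ℝ} (hM : ∀ i k, (M i k).HasTemperateGrowth)
    (hanti : ∀ i k x, M k i x = -M i k x) {a b : ℝ} (ha : 0 ≤ a) (hb : 0 ≤ b)
    (hg : ∀ x, ‖F M x‖ ≤ a + b * ‖x‖) :
    ∃ Φ : ℝ → Eu ι → Eu ι, (∀ x, Φ 0 x = x) ∧
      (∀ x t, HasDerivAt (fun t => Φ t x) (F M (Φ t x)) t) ∧
      (Continuous fun p : ℝ × Eu ι => Φ p.1 p.2) ∧
      ∀ t, MeasurePreserving (Φ t) μ μ := by
  have hV : ContDiff ℝ ∞ (F M) := hsm M hM
  let χ : ℕ → ContDiffBump (0 : Eu ι) := fun n => ⟨n + 1, n + 2, by positivity, by linarith⟩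
  have hχt : ∀ n, (χ n : Eu ι → ℝ).HasTemperateGrowth := fun n =>
    ((χ n).hasCompactSupport.toSchwartzMap (χ n).contDiff).hasTemperateGrowth
  -- the cut off matrix and its field
  let Mn : ℕ → ι → ι → Eu ι → ℝ := fun n i k x => χ n x * M i k x
  have hMn : ∀ n i k, (Mn n i k).HasTemperateGrowth := fun n i k => (hχt n).fun_mul (hM i k)
  have hantin : ∀ n i k x, Mn n k i x = -Mn n i k x := fun n i k x => by
    simp only [Mn, hanti i k x, mul_neg]
  have hWd : ∀ n, ContDiff ℝ ∞ (F (Mn n)) := fun n => hsm _ (hMn n)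
  have hWs : ∀ n, HasCompactSupport (F (Mn n)) := fun n => by
    refine HasCompactSupport.intro (isCompact_closedBall (0 : Eu ι) (n + 2)) fun x hx => ?_
    refine (hloc (Mn n) (fun _ _ _ => 0) x fun i k => ?_).trans (hzero x)
    filter_upwards [Metric.isClosed_closedBall.isOpen_compl.mem_nhds hx] with y hy
    simp only [Set.mem_compl_iff, Metric.mem_closedBall, not_le] at hy
    have hχ0 : χ n y = 0 := (χ n).zero_of_le_dist hy.le
    simp [Mn, hχ0]
  have hWeq : ∀ (n : ℕ) x, ‖x‖ < n + 1 → F (Mn n) x = F M x := fun n x hx => by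
    have h1 : ∀ i k, Mn n i k =ᶠ[𝓝 x] M i k := fun i k => by
      filter_upwards [Metric.isOpen_ball.mem_nhds (mem_ball_zero_iff.2 hx)] with y hy
      simp [Mn, (χ n).one_of_mem_closedBall (Metric.ball_subset_closedBall hy)]
    exact hloc _ _ x h1
  -- the cut off field, of uniform growth
  let U : ℕ → Eu ι → Eu ι := fun n x => χ n x • F M x
  have hUd : ∀ n, ContDiff ℝ ∞ (U n) := fun n => (χ n).contDiff.smul hV
  have hUs : ∀ n, HasCompactSupport (U n) := fun n => (χ n).hasCompactSupport.smul_right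
  have hUg : ∀ n x, ‖U n x‖ ≤ a + b * ‖x‖ := fun n x => by
    simp only [U, norm_smul, Real.norm_of_nonneg (χ n).nonneg]
    exact (mul_le_of_le_one_left (norm_nonneg _) (χ n).le_one).trans (hg x)
  have hUeq : ∀ (n : ℕ) x, ‖x‖ < n + 1 → U n x = F M x := fun n x hx => by
    simp [U, (χ n).one_of_mem_closedBall (mem_closedBall_zero_iff.2 hx.le)]
  have hlip : ∀ {F : Eu ι → Eu ι}, ContDiff ℝ ∞ F → HasCompactSupport F →
      ∃ K B : ℝ≥0, LipschitzWith K F ∧ ∀ p, ‖F p‖ ≤ B := fun hF hFs => by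
    obtain ⟨K, hK⟩ := (hF.of_le (by simp : (1 : WithTop ℕ∞) ≤ ∞)).lipschitzWith_of_hasCompactSupport
      hFs one_ne_zero
    obtain ⟨B, hB⟩ := hF.continuous.bounded_above_of_compact_support hFs
    exact ⟨K, B.toNNReal, hK, fun p => (hB p).trans (Real.le_coe_toNNReal B)⟩
  choose KW BW hKW hBW using fun n => hlip (hWd n) (hWs n)
  choose KU BU hKU hBU using fun n => hlip (hUd n) (hUs n)
  choose yW hyW0 hyW using fun n => exists_global (hKW n) (hBW n)
  choose yU hyU0 hyU using fun n => exists_global (hKU n) (hBU n)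
  -- trajectories stay in a ball independent of the cutoff
  set R : Eu ι → ℝ → ℝ := fun x T => gronwallBound ‖x‖ b a T
  have hRm : ∀ x s T, 0 ≤ s → s ≤ T → R x s ≤ R x T := fun x s T _ hsT => by
    simp only [R, gronwallBound]
    split_ifs with hb0
    · gcongr
    · gcongr
  have hin : ∀ (n : ℕ) x T, R x T < n + 1 → ∀ t, |t| ≤ T → ‖yU n x t‖ < n + 1 := fun n x T hn t ht => by
    have h1 := traj_norm (hUg n) (hyU n x) t
    rw [hyU0] at h1
    exact (h1.trans (hRm x _ _ (abs_nonneg t) ht)).trans_lt hn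
  -- inside, the two cut off trajectories agree
  have hagree : ∀ (n : ℕ) x T, 0 ≤ T → R x T < n + 1 → ∀ t, |t| < T → yW n x t = yU n x t := by
    intro n x T hT hn t ht
    refine ODE_solution_unique_of_mem_Ioo (v := fun _ => F (Mn n)) (s := fun _ => Set.univ)
      (t₀ := 0) (a := -T) (b := T) (fun s _ => (hKW n).lipschitzOnWith)
      ⟨by linarith [abs_nonneg t], by linarith [abs_nonneg t]⟩
      (fun s _ => ⟨hyW n x s, trivial⟩) (fun s hs => ⟨?_, trivial⟩) (by rw [hyW0, hyU0])
      ⟨by linarith [neg_abs_le t], by linarith [le_abs_self t]⟩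
    have hs' := hin n x T hn s (abs_le.2 ⟨hs.1.le, hs.2.le⟩)
    rw [hWeq n _ hs', ← hUeq n _ hs']
    exact hyU n x s
  have hagree' : ∀ (n k : ℕ) x T, 0 ≤ T → R x T < n + 1 → n ≤ k → ∀ t, |t| < T →
      yU k x t = yU n x t := by
    intro n k x T hT hn hk t ht
    refine ODE_solution_unique_of_mem_Ioo (v := fun _ => U k) (s := fun _ => Set.univ)
      (t₀ := 0) (a := -T) (b := T) (fun s _ => (hKU k).lipschitzOnWith)
      ⟨by linarith [abs_nonneg t], by linarith [abs_nonneg t]⟩
      (fun s _ => ⟨hyU k x s, trivial⟩) (fun s hs => ⟨?_, trivial⟩) (by rw [hyU0, hyU0])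
      ⟨by linarith [neg_abs_le t], by linarith [le_abs_self t]⟩
    have hs' := hin n x T hn s (abs_le.2 ⟨hs.1.le, hs.2.le⟩)
    have hk' : (n : ℝ) ≤ k := by exact_mod_cast hk
    rw [hUeq k _ (by linarith), ← hUeq n _ hs']
    exact hyU n x s
  let N : ℝ → Eu ι → ℕ := fun t x => ⌈R x (|t| + 1)⌉₊
  have hN : ∀ t x, R x (|t| + 1) < N t x + 1 := fun t x =>
    (Nat.le_ceil _).trans_lt (lt_add_one _)
  set Φ : ℝ → Eu ι → Eu ι := fun t x => yU (N t x) x t
  have hval : ∀ t x (n : ℕ), R x (|t| + 1) < n + 1 → Φ t x = yU n x t := fun t x n hn => by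
    rcases le_total (N t x) n with h | h
    · exact (hagree' _ n x _ (by positivity) (hN t x) h t (lt_add_one _)).symm
    · exact hagree' n _ x _ (by positivity) hn h t (lt_add_one _)
  have hW : ∀ t x (n : ℕ), R x (|t| + 1) < n + 1 → Φ t x = yW n x t := fun t x n hn => by
    rw [hval t x n hn, hagree n x _ (by positivity) hn t (lt_add_one _)]
  have hjoint : ∀ n, Continuous fun p : ℝ × Eu ι => yW n p.2 p.1 := fun n => by
    refine continuous_iff_continuousAt.2 fun p => ?_
    rw [ContinuousAt, tendsto_iff_norm_sub_tendsto_zero]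
    have hc : Continuous fun q : ℝ × Eu ι => ‖q.2 - p.2‖ * exp (KW n * |q.1|) +
        ‖yW n p.2 q.1 - yW n p.2 p.1‖ := by
      have : Continuous (yW n p.2) :=
        continuous_iff_continuousAt.2 fun s => (hyW n p.2 s).continuousAt
      fun_prop
    refine squeeze_zero (fun q => norm_nonneg _) (fun q => ?_)
      (by simpa using hc.tendsto p)
    refine (norm_sub_le_norm_sub_add_norm_sub _ (yW n p.2 q.1) _).trans (add_le_add ?_ le_rfl)
    simpa [dist_eq_norm, hyW0] using traj_dist (hKW n) (hyW n q.2) (hyW n p.2) q.1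
  refine ⟨Φ, fun x => hyU0 _ x, fun x t => ?_, ?_, fun t => ?_⟩
  · set n := ⌈R x (|t| + 1 + 1)⌉₊
    have hn : R x (|t| + 1 + 1) < n + 1 := (Nat.le_ceil _).trans_lt (lt_add_one _)
    have ev : (fun s => Φ s x) =ᶠ[𝓝 t] fun s => yU n x s := by
      filter_upwards [Metric.ball_mem_nhds t one_pos] with s hs
      refine hval s x n (lt_of_le_of_lt (hRm x _ _ (by positivity) ?_) hn)
      rw [Metric.mem_ball, Real.dist_eq] at hs
      linarith [abs_sub_abs_le_abs_sub s t]
    show HasDerivAt (fun s => Φ s x) (F M (Φ t x)) t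
    rw [show Φ t x = yU n x t from ev.eq_of_nhds,
      ← hUeq n _ (hin n x _ hn t (by linarith))]
    exact (hyU n x t).congr_of_eventuallyEq ev
  · refine continuous_iff_continuousAt.2 fun p => ?_
    set T := |p.1| + 1 + 1
    set n := ⌈gronwallBound (‖p.2‖ + 1) b a T⌉₊
    have ev : (fun q : ℝ × Eu ι => Φ q.1 q.2) =ᶠ[𝓝 p] fun q => yW n q.2 q.1 := by
      filter_upwards [Metric.ball_mem_nhds p one_pos] with q hq
      rw [Metric.mem_ball, Prod.dist_eq, max_lt_iff, Real.dist_eq, dist_eq_norm] at hq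
      refine hW _ _ n (lt_of_le_of_lt ?_ ((Nat.le_ceil _).trans_lt (lt_add_one _)))
      refine (hRm q.2 _ T (by positivity) (by linarith [abs_sub_abs_le_abs_sub q.1 p.1])).trans ?_
      have hq2 : ‖q.2‖ ≤ ‖p.2‖ + 1 := by linarith [norm_sub_norm_le q.2 p.2]
      simp only [R, gronwallBound]
      split_ifs with hb0
      · gcongr
      · gcongr
    exact (hjoint n).continuousAt.congr ev.symm
  · have hc : Continuous (Φ t) := by
      refine continuous_iff_continuousAt.2 fun x => ?_
      set n := ⌈gronwallBound (‖x‖ + 1) b a (|t| + 1)⌉₊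
      have ev : Φ t =ᶠ[𝓝 x] fun y => yW n y t := by
        filter_upwards [Metric.ball_mem_nhds x one_pos] with y hy
        rw [Metric.mem_ball, dist_eq_norm] at hy
        refine hW t y n (lt_of_le_of_lt ?_ ((Nat.le_ceil _).trans_lt (lt_add_one _)))
        have hy2 : ‖y‖ ≤ ‖x‖ + 1 := by linarith [norm_sub_norm_le y x]
        simp only [R, gronwallBound]
        split_ifs with hb0
        · gcongr
        · gcongr
      exact ((hjoint n).comp (continuous_const.prodMk continuous_id)).continuousAt.congr ev.symm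
    refine measurePreserving_of_waves hc fun ξ θ => ?_
    obtain ⟨L, L', hL'0, hψ⟩ := nice_wave ξ θ
    have hlim : Tendsto (fun n : ℕ => ∫ x, cos (⟪yW n x t, ξ⟫ + θ) ∂μ) atTop
        (𝓝 (∫ x, cos (⟪Φ t x, ξ⟫ + θ) ∂μ)) := by
      refine tendsto_integral_of_dominated_convergence (fun _ => 1) (fun n => ?_)
        (integrable_const 1) (fun n => ae_of_all _ fun x => by
          rw [Real.norm_eq_abs]; exact Real.abs_cos_le_one _) (ae_of_all _ fun x => ?_)
      · have := (hjoint n).comp (continuous_const.prodMk continuous_id : Continuous fun x => (t, x))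
        exact (by fun_prop : Continuous fun x => cos (⟪yW n x t, ξ⟫ + θ)).aestronglyMeasurable
      · refine tendsto_const_nhds.congr' ?_
        filter_upwards [eventually_ge_atTop ⌈R x (|t| + 1)⌉₊] with n hn
        rw [hW t x n ((Nat.le_ceil _).trans_lt ((Nat.cast_le.2 hn).trans_lt (lt_add_one _)))]
    refine tendsto_nhds_unique hlim (tendsto_const_nhds.congr fun n => Eq.symm ?_)
    rcases le_total 0 t with ht | ht
    · exact preserve_compact hμ (hWd n) (hWs n) (hdiv _ (hMn n) (hantin n))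
        (Φ := fun t x => yW n x t) (hyW0 n) (hyW n) hψ hL'0
        (fun x => Real.abs_cos_le_one _) ht
    · have hneg : DivFree μ fun x => -F (Mn n) x := fun f hf => by
        simp only [map_neg, integral_neg, hdiv _ (hMn n) (hantin n) f hf, neg_zero]
      have := preserve_compact hμ (V := fun x => -F (Mn n) x) (hWd n).neg (hWs n).neg hneg
        (Φ := fun t x => yW n x (-t)) (fun x => by simp [hyW0]) (fun x s => hasDerivAt_reverse (hyW n x) s)
        hψ hL'0 (fun x => Real.abs_cos_le_one _) (neg_nonneg.2 ht)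
      simpa using this

/-- The flow of a field of linear growth exists and preserves the Gaussian law. -/
theorem exists_flow {M : ι → ι → Eu ι → ℝ} (hM : ∀ i k, (M i k).HasTemperateGrowth)
    (hanti : ∀ i k x, M k i x = -M i k x) {a b : ℝ} (ha : 0 ≤ a) (hb : 0 ≤ b)
    (hg : ∀ x, ‖vfield M x‖ ≤ a + b * ‖x‖) :
    ∃ Φ : ℝ → Eu ι → Eu ι, (∀ x, Φ 0 x = x) ∧ IsFlow M Φ ∧
      (Continuous fun p : ℝ × Eu ι => Φ p.1 p.2) ∧
      ∀ t, MeasurePreserving (Φ t) (gam ι) (gam ι) :=
  exists_flow_of (F := vfield) (fun _ hf => tg_integrable hf)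
    (fun N N' x h => sum_congr rfl fun k _ => by
      simp only [field, delta, pd, (h _ k).fderiv_eq, (h _ k).eq_of_nhds])
    (fun x => by simp [vfield, field, delta, pd])
    (fun N hN => ContDiff.sum fun k _ => (tg_field hN k).1.smul contDiff_const)
    (fun N hN hN' => divFree_field hN hN') hM hanti ha hb hg

end Vale.Agent.P347.Shift
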