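import Mathlib

/-!
# P347: Picard iteration on finitely many quadrature nodes

`y i` are the exact values at the nodes, `S` a Lipschitz surrogate field (it may depend on the node
and on the seeds) and `A` an integration matrix with absolute row sums at most `a`.  If `y` solves
the node equations up to `e` in `L^p` and every Picard round is carried out up to `e'`, then after
`k` rounds with `a L ≤ q ≤ 1/2` the nodes are within `q ^ k r + 2 (e + e')`.  Only the law of the
exact values enters the defect: if it is stationary, the surrogate error is read under that law.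
-/

open MeasureTheory Finset
open scoped ENNReal NNReal

namespace Vale.Agent.P347.Shift.Picard

variable {Ω : Type*} [MeasurableSpace Ω] {μ : Measure Ω} {E : Type*} [NormedAddCommGroup E]
  [NormedSpace ℝ E] {ν : Type*} [Fintype ν] {p : ℝ≥0∞} {a L : ℝ≥0}

/-- A weighted sum of `L^p` functions with a common bound. -/
theorem eLpNorm_wsum_le (hp : 1 ≤ p) (w : ν → ℝ) (hw : ∑ j, ‖w j‖₊ ≤ a) {f : ν → Ω → E}
    (hf : ∀ j, AEStronglyMeasurable (f j) μ) {R : ℝ≥0∞} (hR : ∀ j, eLpNorm (f j) p μ ≤ R) :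
    eLpNorm (fun ω => ∑ j, w j • f j ω) p μ ≤ a * R := by
  have e : (fun ω => ∑ j, w j • f j ω) = ∑ j, w j • f j := by
    funext ω; simp [Finset.sum_apply]
  rw [e]
  refine (eLpNorm_sum_le (fun j _ => (hf j).const_smul (w j)) hp).trans ?_
  refine (sum_le_sum (g := fun j => (‖w j‖₊ : ℝ≥0∞) * R) fun j _ =>
    eLpNorm_const_smul_le.trans ?_).trans ?_
  · gcongr
    exacts [le_of_eq (enorm_eq_nnnorm _), hR j]
  · rw [← sum_mul]
    gcongr
    exact_mod_cast hw

omit [NormedSpace ℝ E] in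
/-- Lipschitz maps of nearby `L^p` functions. -/
theorem eLpNorm_lip_le {S : Ω → E → E} (hS : ∀ ω, LipschitzWith L (S ω)) {f g : Ω → E} :
    eLpNorm (fun ω => S ω (f ω) - S ω (g ω)) p μ ≤ L * eLpNorm (fun ω => f ω - g ω) p μ := by
  refine eLpNorm_le_nnreal_smul_eLpNorm_of_ae_le_mul (ae_of_all _ fun ω => ?_) p
  rw [← nndist_eq_nnnorm, ← nndist_eq_nnnorm]
  exact (hS ω).dist_le_mul _ _

/-- **Inexact Picard iteration on the nodes.** -/
theorem picard_le (hp : 1 ≤ p) {A : ν → ν → ℝ} (hA : ∀ i, ∑ j, ‖A i j‖₊ ≤ a)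
    {S : ν → Ω → E → E} (hS : ∀ j ω, LipschitzWith L (S j ω))
    {x : Ω → E} {y : ν → Ω → E} {z : ℕ → ν → Ω → E}
    (hy : ∀ i, AEStronglyMeasurable (y i) μ) (hz : ∀ k i, AEStronglyMeasurable (z k i) μ)
    (hx : AEStronglyMeasurable x μ)
    (hSy : ∀ j, AEStronglyMeasurable (fun ω => S j ω (y j ω)) μ)
    (hSz : ∀ k j, AEStronglyMeasurable (fun ω => S j ω (z k j ω)) μ)
    {e e' r : ℝ≥0∞} (he : ∀ i, eLpNorm (fun ω => y i ω - (x ω + ∑ j, A i j • S j ω (y j ω))) p μ ≤ e)
    (he' : ∀ k i,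
      eLpNorm (fun ω => z (k + 1) i ω - (x ω + ∑ j, A i j • S j ω (z k j ω))) p μ ≤ e')
    (hr : ∀ i, eLpNorm (fun ω => z 0 i ω - y i ω) p μ ≤ r) {q : ℝ≥0} (hq : a * L ≤ q)
    (hq2 : q ≤ 1 / 2) :
    ∀ k i, eLpNorm (fun ω => z k i ω - y i ω) p μ ≤ (q : ℝ≥0∞) ^ k * r + 2 * (e + e') := by
  intro k
  induction k with
  | zero => exact fun i => (hr i).trans (by simp)
  | succ k ih =>
    intro i
    set u : Ω → E := fun ω => z (k + 1) i ω - (x ω + ∑ j, A i j • S j ω (z k j ω))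
    set v : Ω → E := fun ω => ∑ j, A i j • (S j ω (z k j ω) - S j ω (y j ω))
    set w : Ω → E := fun ω => y i ω - (x ω + ∑ j, A i j • S j ω (y j ω))
    have hu : AEStronglyMeasurable u μ := (hz _ i).sub (hx.add
      (Finset.aestronglyMeasurable_fun_sum _ fun j _ => (hSz k j).const_smul (A i j)))
    have hv : AEStronglyMeasurable v μ :=
      Finset.aestronglyMeasurable_fun_sum _ fun j _ => ((hSz k j).sub (hSy j)).const_smul (A i j)
    have hw : AEStronglyMeasurable w μ := (hy i).sub (hx.add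
      (Finset.aestronglyMeasurable_fun_sum _ fun j _ => (hSy j).const_smul (A i j)))
    have e1 : (fun ω => z (k + 1) i ω - y i ω) = u + v - w := by
      funext ω
      simp only [u, v, w, Pi.add_apply, Pi.sub_apply, smul_sub, sum_sub_distrib]
      abel
    have hbd : eLpNorm v p μ ≤ (q : ℝ≥0∞) * ((q : ℝ≥0∞) ^ k * r + 2 * (e + e')) := by
      refine (eLpNorm_wsum_le hp (A i) (hA i) (fun j => (hSz k j).sub (hSy j))
        (R := L * ((q : ℝ≥0∞) ^ k * r + 2 * (e + e'))) fun j => ?_).trans ?_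
      · exact (eLpNorm_lip_le (hS j)).trans (by gcongr; exact ih j)
      · rw [← mul_assoc]
        gcongr
        exact_mod_cast hq
    rw [e1]
    calc eLpNorm (u + v - w) p μ ≤ eLpNorm u p μ + eLpNorm v p μ + eLpNorm w p μ :=
          (eLpNorm_sub_le (hu.add hv) hw hp).trans
            (add_le_add (eLpNorm_add_le hu hv hp) le_rfl)
      _ ≤ e' + (q : ℝ≥0∞) * ((q : ℝ≥0∞) ^ k * r + 2 * (e + e')) + e :=
          add_le_add (add_le_add (he' k i) hbd) (he i)
      _ = (q : ℝ≥0∞) ^ (k + 1) * r + ((q : ℝ≥0∞) * 2 * (e + e') + (e + e')) := by ring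
      _ ≤ (q : ℝ≥0∞) ^ (k + 1) * r + (1 * (e + e') + (e + e')) := by
          gcongr
          calc (q : ℝ≥0∞) * 2 ≤ ((1 / 2 : ℝ≥0) : ℝ≥0∞) * 2 := by gcongr
            _ = 1 := by
              rw [← ENNReal.coe_ofNat, ← ENNReal.coe_mul, div_mul_cancel₀ _ two_ne_zero,
                ENNReal.coe_one]
      _ = _ := by ring

/-- The defect of a surrogate at stationary nodes. -/
theorem defect_le (hp : 1 ≤ p) {A : ν → ν → ℝ} (hA : ∀ i, ∑ j, ‖A i j‖₊ ≤ a)
    [MeasurableSpace E] {κ : ν → Measure E} {V : ν → E → E} {S : ν → E → E}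
    {x : Ω → E} {y : ν → Ω → E} (hy : ∀ j, MeasurePreserving (y j) μ (κ j))
    (hV : ∀ j, AEStronglyMeasurable (V j) (κ j)) (hS : ∀ j, AEStronglyMeasurable (S j) (κ j))
    (hx : AEStronglyMeasurable x μ) (hy' : ∀ i, AEStronglyMeasurable (y i) μ)
    {e s : ℝ≥0∞} (hs : ∀ j, eLpNorm (fun z => V j z - S j z) p (κ j) ≤ s) (i : ν)
    (he : eLpNorm (fun ω => y i ω - (x ω + ∑ j, A i j • V j (y j ω))) p μ ≤ e) :
    eLpNorm (fun ω => y i ω - (x ω + ∑ j, A i j • S j (y j ω))) p μ ≤ e + a * s := by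
  have e1 : (fun ω => y i ω - (x ω + ∑ j, A i j • S j (y j ω))) =
      (fun ω => y i ω - (x ω + ∑ j, A i j • V j (y j ω))) +
        fun ω => ∑ j, A i j • (V j (y j ω) - S j (y j ω)) := by
    funext ω
    simp only [Pi.add_apply, smul_sub, sum_sub_distrib]
    abel
  have hc : ∀ j, AEStronglyMeasurable (fun ω => V j (y j ω) - S j (y j ω)) μ := fun j =>
    ((hV j).sub (hS j)).comp_measurePreserving (hy j)
  have hVy : ∀ j, AEStronglyMeasurable (fun ω => A i j • V j (y j ω)) μ := fun j =>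
    ((hV j).comp_measurePreserving (hy j)).const_smul (A i j)
  rw [e1]
  refine (eLpNorm_add_le ((hy' i).sub (hx.add (Finset.aestronglyMeasurable_fun_sum _ fun j _ => hVy j)))
    (Finset.aestronglyMeasurable_fun_sum _ fun j _ => (hc j).const_smul (A i j)) hp).trans
    (add_le_add he ?_)
  refine eLpNorm_wsum_le hp (A i) (hA i) hc fun j => ?_
  exact (eLpNorm_comp_measurePreserving ((hV j).sub (hS j)) (hy j)).trans_le (hs j)

/-- The output of a quadrature of a Lipschitz integrand at nearby nodes. -/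
theorem output_le (hp : 1 ≤ p) {w : ν → ℝ} (hw : ∑ j, ‖w j‖₊ ≤ a)
    {F : ν → Ω → E → E} (hF : ∀ j ω, LipschitzWith L (F j ω)) {y z : ν → Ω → E} {X : Ω → E}
    (hX : AEStronglyMeasurable X μ)
    (hFy : ∀ j, AEStronglyMeasurable (fun ω => F j ω (y j ω)) μ)
    (hFz : ∀ j, AEStronglyMeasurable (fun ω => F j ω (z j ω)) μ) {e R : ℝ≥0∞}
    (he : eLpNorm (fun ω => X ω - ∑ j, w j • F j ω (y j ω)) p μ ≤ e)
    (hR : ∀ j, eLpNorm (fun ω => y j ω - z j ω) p μ ≤ R) :
    eLpNorm (fun ω => X ω - ∑ j, w j • F j ω (z j ω)) p μ ≤ e + a * (L * R) := by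
  have e1 : (fun ω => X ω - ∑ j, w j • F j ω (z j ω)) =
      (fun ω => X ω - ∑ j, w j • F j ω (y j ω)) +
        fun ω => ∑ j, w j • (F j ω (y j ω) - F j ω (z j ω)) := by
    funext ω
    simp only [Pi.add_apply, smul_sub, sum_sub_distrib]
    abel
  rw [e1]
  refine (eLpNorm_add_le (hX.sub (Finset.aestronglyMeasurable_fun_sum _ fun j _ =>
      (hFy j).const_smul (w j)))
    (Finset.aestronglyMeasurable_fun_sum _ fun j _ => ((hFy j).sub (hFz j)).const_smul (w j))
    hp).trans (add_le_add he (eLpNorm_wsum_le hp w hw (fun j => (hFy j).sub (hFz j)) fun j => ?_))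
  exact (eLpNorm_lip_le (hF j)).trans (by gcongr; exact hR j)

end Vale.Agent.P347.Shift.Picard
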