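import Vale.Agent.P347.Shift.TimeQuad
import Vale.Agent.P347.Shift.FlowExists
import Vale.Agent.P347.Shift.Picard
import Vale.Agent.P347.Quarter.Gauss
import Vale.Agent.P347.Quarter.Blocks

/-!
# P347: the invariant flow step

`M` is antisymmetric with row bounds `θ ^ m B m ≤ B₀`. The flow of `vfield M` exists and preserves
the Gaussian law, and inexact Picard rounds of a Lipschitz surrogate on collocation nodes follow it
to time one up to the surrogate error, read under the Gaussian law, and a quadrature error with one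
factor `B₀ / θ²` per order. For the block field of `Q` with `delta (Q r) = F r - a r` the second
block of the endpoint plus `a` is an ideal map of law exactly `N(a, I)`.
-/

open MeasureTheory Real Finset
open scoped ContDiff ENNReal NNReal Nat

namespace Vale.Agent.P347.Shift.FlowStep

open Quarter

/-! ### Collocation -/

/-- Weights exact below degree `r + 1` for the integral over `[0, T]`. -/
structure Exact (r : ℕ) {ν : Type} [Fintype ν] (A c : ν → ℝ) (T : ℝ) : Prop where
  upper : 0 ≤ T ∧ T ≤ 1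
  mem : ∀ j, 0 ≤ c j ∧ c j ≤ 1
  exact' : ∀ m ≤ r, ∑ j, A j * c j ^ m = T ^ (m + 1) / (m + 1)

/-- The collocation weights on the equispaced nodes. -/
noncomputable def colw (r : ℕ) (T : ℝ) (i : Fin (r + 1)) : ℝ :=
  ∫ s in (0:ℝ)..T, (Lagrange.basis univ (Quad.node (r + 1)) i).eval s

/-- The collocation weights are exact. -/
theorem exact_colw (r : ℕ) {T : ℝ} (h0 : 0 ≤ T) (h1 : T ≤ 1) :
    Exact r (colw r T) (Quad.node (r + 1)) T where
  upper := ⟨h0, h1⟩
  mem := (rule_nc r).mem
  exact' m hm := by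
    have hP : (Polynomial.X ^ m : Polynomial ℝ) =
        Lagrange.interpolate univ (Quad.node (r + 1)) fun i => Quad.node (r + 1) i ^ m := by
      apply Lagrange.eq_interpolate_of_eval_eq _ (Quad.node_injOn _)
      · simp only [card_univ, Fintype.card_fin, Polynomial.degree_X_pow]
        exact_mod_cast Nat.lt_succ_of_le hm
      · intro i _; simp
    have hs : ∀ s : ℝ, s ^ m = ∑ i, Quad.node (r + 1) i ^ m *
        (Lagrange.basis univ (Quad.node (r + 1)) i).eval s := fun s => by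
      have := congrArg (Polynomial.eval s) hP
      simpa [Lagrange.interpolate_apply, Polynomial.eval_finsetSum] using this
    rw [show T ^ (m + 1) / (m + 1) = ∫ s in (0:ℝ)..T, s ^ m by simp,
      intervalIntegral.integral_congr (fun s _ => hs s), intervalIntegral.integral_finsetSum
        fun i _ => ((Lagrange.basis univ _ i).continuous.const_mul _).intervalIntegrable _ _]
    refine sum_congr rfl fun i _ => ?_
    rw [intervalIntegral.integral_const_mul, colw, mul_comm]

/-- The error of exact weights on a smooth function. -/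
theorem Exact.error {r : ℕ} {ν : Type} [Fintype ν] {A c : ν → ℝ} {T : ℝ} (hR : Exact r A c T)
    {g : ℝ → ℝ} (hg : ContDiff ℝ ∞ g) :
    |(∫ t in (0:ℝ)..T, g t) - ∑ j, A j * g (c j)| ≤
      (1 + ∑ j, |A j|) * ∫ s in (0:ℝ)..1, |iteratedDeriv (r + 1) g s| := by
  obtain ⟨hT0, hT1⟩ := hR.upper
  set P : ℝ → ℝ := fun t => ∑ m ∈ range (r + 1), t ^ m / m ! * iteratedDeriv m g 0 with hP
  set R := ∫ s in (0:ℝ)..1, |iteratedDeriv (r + 1) g s|
  have hR0 : 0 ≤ R := intervalIntegral.integral_nonneg zero_le_one fun _ _ => abs_nonneg _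
  have hPc : Continuous P :=
    continuous_finsetSum _ fun m _ => ((continuous_pow m).div_const _).mul continuous_const
  have hex : ∫ t in (0:ℝ)..T, P t = ∑ j, A j * P (c j) := by
    simp only [hP]
    rw [intervalIntegral.integral_finsetSum fun m _ =>
      Continuous.intervalIntegrable (by fun_prop) _ _]
    simp only [mul_sum]
    rw [sum_comm]
    refine sum_congr rfl fun m hm => ?_
    rw [intervalIntegral.integral_mul_const, intervalIntegral.integral_div, integral_pow]
    have := hR.exact' m (Nat.lt_succ_iff.1 (mem_range.1 hm))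
    simp only [← mul_assoc, ← mul_div_assoc]
    rw [← sum_mul, ← sum_div, this]
    simp
  have h1 : |∫ t in (0:ℝ)..T, (g t - P t)| ≤ R := by
    refine (intervalIntegral.abs_integral_le_integral_abs hT0).trans ?_
    refine (intervalIntegral.integral_mono_on hT0
      ((hg.continuous.sub hPc).abs.intervalIntegrable _ _) (intervalIntegrable_const (c := R))
      fun s hs => taylor_abs_le r hg hs.1 (hs.2.trans hT1)).trans ?_
    rw [intervalIntegral.integral_const, sub_zero, smul_eq_mul]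
    exact mul_le_of_le_one_left hR0 hT1
  have h2 : |∑ j, A j * (g (c j) - P (c j))| ≤ (∑ j, |A j|) * R := by
    rw [sum_mul]
    refine (abs_sum_le_sum_abs _ _).trans (sum_le_sum fun i _ => ?_)
    rw [abs_mul]
    exact mul_le_mul_of_nonneg_left (taylor_abs_le r hg (hR.mem i).1 (hR.mem i).2) (abs_nonneg _)
  have e : (∫ t in (0:ℝ)..T, g t) - ∑ j, A j * g (c j) =
      (∫ t in (0:ℝ)..T, (g t - P t)) - ∑ j, A j * (g (c j) - P (c j)) := by
    rw [intervalIntegral.integral_sub (hg.continuous.intervalIntegrable _ _)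
      (hPc.intervalIntegrable _ _), hex]
    simp only [mul_sub, sum_sub_distrib]
    ring
  rw [e, add_mul, one_mul]
  exact (abs_sub _ _).trans (add_le_add h1 h2)

/-! ### The field -/

variable {ι : Type} [Fintype ι]

lemma sqrt_sum_le {α : Type} [Fintype α] {f : α → ℝ} {C : ℝ} (hC : 0 ≤ C)
    (h : ∑ i, f i ^ 2 ≤ C ^ 2) (i : α) : |f i| ≤ C :=
  abs_le_of_sq_le_sq ((single_le_sum (f := fun i => f i ^ 2) (fun _ _ => sq_nonneg _)
    (mem_univ i)).trans h) hC

/-- From a mean square bound to the seminorm. -/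
lemma eLpNorm_le_sqrt {Ω E : Type*} [MeasurableSpace Ω] [NormedAddCommGroup E] {μ : Measure Ω}
    {f : Ω → E} {C : ℝ} (hi : Integrable (fun x => ‖f x‖ ^ 2) μ)
    (h : ∫ x, ‖f x‖ ^ 2 ∂μ ≤ C) : eLpNorm f 2 μ ≤ ENNReal.ofReal √C := by
  have hC : 0 ≤ C := (integral_nonneg fun _ => sq_nonneg _).trans h
  rw [eLpNorm_eq_lintegral_rpow_enorm_toReal two_ne_zero ENNReal.ofNat_ne_top,
    sqrt_eq_rpow, ← ENNReal.ofReal_rpow_of_nonneg hC (by norm_num), ENNReal.toReal_ofNat]
  refine ENNReal.rpow_le_rpow ?_ (by norm_num)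
  refine le_of_eq_of_le (lintegral_congr fun x => ?_)
    ((ofReal_integral_eq_lintegral_ofReal hi (ae_of_all _ fun _ => sq_nonneg _)).symm.trans_le
      (ENNReal.ofReal_le_ofReal h))
  rw [ENNReal.rpow_ofNat, ← ofReal_norm, ← ENNReal.ofReal_pow (norm_nonneg _)]

lemma eLpNorm_id_le :
    eLpNorm (fun x : Eu ι => x) 2 (gam ι) ≤ ENNReal.ofReal √(Fintype.card ι) :=
  eLpNorm_le_sqrt integral_norm_sq.1 integral_norm_sq.2.le

variable [DecidableEq ι] {M : ι → ι → Eu ι → ℝ} {B : ℕ → ℝ} {B₀ θ : ℝ}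

lemma continuous_vfield (hM : ∀ i k, (M i k).HasTemperateGrowth) : Continuous (vfield M) :=
  continuous_finsetSum _ fun k _ => (tg_field hM k).1.continuous.smul continuous_const

lemma vfield_apply (x : Eu ι) (k : ι) : vfield M x k = field M k x := by
  simp [vfield, ei, Pi.single_apply]

/-- Linear growth from the row bounds. -/
lemma norm_vfield_le (hB : ∀ m, 0 ≤ B m)
    (h : RowBd M B) (x : Eu ι) :
    ‖vfield M x‖ ≤ (Fintype.card ι) ^ 2 * B 1 + (Fintype.card ι) * B 0 * ‖x‖ := by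
  have hk : ∀ k, |field M k x| ≤ (Fintype.card ι) * B 1 + B 0 * ‖x‖ := by
    intro k
    have hv : ∑ j, (if j = k then (1:ℝ) else 0) ^ 2 = 1 := by simp
    have h0 := h 0 x fun j => if j = k then 1 else 0
    rw [hv] at h0
    simp only [psq, mul_ite, mul_one, mul_zero, sum_ite_eq', mem_univ, if_true] at h0
    have h1 := h 1 x fun j => if j = k then 1 else 0
    rw [hv, mul_one] at h1
    simp only [psq, mul_ite, mul_one, mul_zero, sum_ite_eq', mem_univ, if_true] at h1
    have hd : ∀ i, |pd i (M i k) x| ≤ B 1 := fun i => abs_le_of_sq_le_sq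
      ((single_le_sum (f := fun l => pd l (M i k) x ^ 2) (fun _ _ => sq_nonneg _)
        (mem_univ i)).trans ((single_le_sum (f := fun a => ∑ l, pd l (M a k) x ^ 2)
          (fun _ _ => sum_nonneg fun _ _ => sq_nonneg _) (mem_univ i)).trans h1)) (hB 1)
    have hs : |∑ i, x i * M i k x| ≤ B 0 * ‖x‖ := by
      refine abs_le_of_sq_le_sq ((sum_mul_sq_le_sq_mul_sq _ _ _).trans ?_)
        (mul_nonneg (hB 0) (norm_nonneg _))
      rw [mul_pow, EuclideanSpace.norm_sq_eq, mul_comm (B 0 ^ 2)]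
      simp only [norm_eq_abs, sq_abs]
      exact mul_le_mul_of_nonneg_left h0 (sum_nonneg fun _ _ => sq_nonneg _)
    have e : field M k x = ∑ i, x i * M i k x - ∑ i, pd i (M i k) x := by
      simp [field, delta, sum_sub_distrib]
    rw [e, add_comm]
    refine (abs_sub _ _).trans (add_le_add hs ?_)
    exact (abs_sum_le_sum_abs _ _).trans ((sum_le_sum fun i _ => hd i).trans_eq (by simp))
  refine (norm_sum_le _ _).trans ((sum_le_sum fun k _ => ?_).trans_eq
    (b := ∑ _k : ι, ((Fintype.card ι) * B 1 + B 0 * ‖x‖)) (by simp; ring))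
  rw [norm_smul, norm_eq_abs, show ‖ei k‖ = 1 by simp [ei], mul_one]
  exact hk k

/-- The coordinates. -/
def coord (k : ι) (x : Eu ι) : ℝ := x k

omit [DecidableEq ι] in
lemma tg_coord' (k : ι) : (coord k).HasTemperateGrowth := tg_coord k

lemma pd_coord' (i k : ι) : pd i (coord k) = fun _ => if k = i then 1 else 0 :=
  funext fun x => pd_coord k i x

lemma dsq_const : ∀ (j : ℕ) (c : ℝ), dsq (ι := ι) (j + 1) (fun _ => c) = 0
  | 0, c => by simp [dsq, pd]
  | j + 1, c => by
    rw [show dsq (ι := ι) (j + 1 + 1) (fun _ => c) =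
      ∑ i, dsq (j + 1) (pd i fun _ : Eu ι => c) from rfl]
    refine sum_eq_zero fun i _ => ?_
    rw [show pd i (fun _ : Eu ι => c) = fun _ => 0 by funext; simp [pd]]
    exact dsq_const j 0

lemma DS_coord (j : ℕ) : DS j (coord (ι := ι)) = if j ≤ 1 then (Fintype.card ι : ℝ) else 0 := by
  rcases j with _ | _ | j
  · simp only [DS, dsq, coord, zero_le, if_true]
    rw [← integral_finsetSum _ fun k _ => tg_integrable ((tg_coord k).fun_pow 2),
      ← integral_norm_sq.2]
    refine integral_congr_ae (ae_of_all _ fun x => ?_)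
    simp [EuclideanSpace.norm_sq_eq]
  · simp [DS, dsq, pd_coord', ite_pow]
  · rw [DS, if_neg (show ¬(j + 1 + 1 ≤ 1) by omega)]
    refine sum_eq_zero fun k _ => ?_
    rw [show dsq (j + 1 + 1) (coord k) = ∑ i, dsq (j + 1) (pd i (coord k)) from rfl]
    refine sum_eq_zero fun i _ => ?_
    rw [pd_coord']
    exact dsq_const j _

lemma Nn_coord_le (hθ : 0 ≤ θ) (hθ1 : θ ≤ 1) (r : ℕ) :
    Nn θ r (coord (ι := ι)) ≤ 2 * √(Fintype.card ι) := by
  have h : ∀ j, θ ^ j * Dn j (coord (ι := ι)) ≤ if j ≤ 1 then √(Fintype.card ι : ℝ) else 0 :=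
    fun j => by
      rw [Dn, DS_coord]
      split_ifs with hj
      · exact mul_le_of_le_one_left (sqrt_nonneg _) (pow_le_one₀ hθ hθ1)
      · simp
  refine (sum_le_sum fun j _ => h j).trans ?_
  rw [← sum_filter]
  refine (sum_le_sum_of_subset_of_nonneg (t := {0, 1}) ?_ fun _ _ _ => sqrt_nonneg _).trans_eq ?_
  · intro j hj
    simp only [mem_filter, mem_range] at hj
    simp only [mem_insert, mem_singleton]
    omega
  · rw [sum_pair zero_ne_one]; ring

/-- The quadrature error of the flow. -/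
noncomputable def quadC (r : ℕ) (B₀ θ : ℝ) (n : ℕ) : ℝ :=
  iterC (r + 2) 0 * (B₀ / θ ^ 2) ^ (r + 2) * (2 * √(n : ℝ))

/-- The hypotheses on the field. -/
structure Field (M : ι → ι → Eu ι → ℝ) (B : ℕ → ℝ) (B₀ θ : ℝ) (r : ℕ) : Prop where
  tg : ∀ i k, (M i k).HasTemperateGrowth
  anti : ∀ i k x, M k i x = -M i k x
  pos : 0 < θ
  le_one : θ ≤ 1
  nonneg : ∀ m, 0 ≤ B m
  row : RowBd M B
  weight : ∀ m ≤ 2 * (r + 2), θ ^ m * B m ≤ B₀

/-- Quadrature of the field along its flow. -/
theorem Field.quad {r : ℕ} (hF : Field M B B₀ θ r) {Φ : ℝ → Eu ι → Eu ι} (hΦ : IsFlow M Φ)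
    (hc : Continuous fun p : ℝ × Eu ι => Φ p.1 p.2)
    (hp : ∀ t, MeasurePreserving (Φ t) (gam ι) (gam ι)) (h0 : ∀ x, Φ 0 x = x) {ν : Type}
    [Fintype ν] {A c : ν → ℝ} {T : ℝ} (hR : Exact r A c T) :
    eLpNorm (fun x => Φ T x - (x + ∑ j, A j • vfield M (Φ (c j) x))) 2 (gam ι) ≤
      ENNReal.ofReal ((1 + ∑ j, |A j|) * quadC r B₀ θ (Fintype.card ι)) := by
  set W := 1 + ∑ j, |A j| with hW
  have hW0 : 0 ≤ W := by rw [hW]; positivity
  set h : ι → Eu ι → ℝ := fun k => (gen M)^[r + 1] (field M k)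
  have ht : ∀ k, (h k).HasTemperateGrowth := fun k => tg_iterate hF.tg _ (tg_field hF.tg k)
  have e1 : ∀ k, h k = (gen M)^[r + 2] (coord k) := fun k => by
    rw [Function.iterate_succ_apply (gen M) (r + 1)]
    refine congrArg (gen M)^[r + 1] ?_
    funext x
    simp [gen, pd_coord']
  have hDS : DS 0 h ≤ quadC r B₀ θ (Fintype.card ι) ^ 2 := by
    have hN := Nn_iterate_le hF.tg hF.anti hF.pos hF.le_one hF.nonneg hF.row
      (f := coord) tg_coord' (r + 2) 0 fun m hm => hF.weight m (by omega)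
    have h1 : Dn 0 h ≤ Nn θ 0 h := le_of_eq (by simp [Nn])
    rw [← Dn_sq]
    refine pow_le_pow_left₀ (Dn_nonneg _ _) (h1.trans ?_) 2
    rw [funext e1]
    refine hN.trans (mul_le_mul_of_nonneg_left (Nn_coord_le hF.pos.le hF.le_one _) ?_)
    have hB0 : 0 ≤ B₀ := (mul_nonneg (by simp) (hF.nonneg 0)).trans (hF.weight 0 (by omega))
    exact mul_nonneg (iterC_nonneg _ _) (pow_nonneg (div_nonneg hB0 (sq_nonneg θ)) _)
  have hd : ∀ k x t, HasDerivAt (fun t => Φ t x k) (field M k (Φ t x)) t := fun k x t => by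
    have := hasDerivAt_comp_flow hΦ (tg_coord' k) x t
    simpa [coord, gen, pd_coord'] using this
  set u : ι → ℝ × Eu ι → ℝ := fun k p => h k (Φ p.1 p.2) ^ 2
  set μ := (volume : Measure ℝ).restrict (Set.Ioc 0 1)
  have hu : ∀ k, Continuous (u k) := fun k => ((ht k).1.continuous.comp hc).pow 2
  have he : ∀ k t, ∫ x, u k (t, x) ∂gam ι = dsq 0 (h k) := fun k t => by
    have := integral_map (hp t).measurable.aemeasurable (f := fun y => h k y ^ 2) (μ := gam ι)
      ((ht k).fun_pow 2).1.continuous.aestronglyMeasurable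
    rw [(hp t).map_eq] at this
    exact this.symm
  have hI : ∀ k, Integrable (u k) (μ.prod (gam ι)) := fun k => by
    refine (integrable_prod_iff (hu k).aestronglyMeasurable).2 ⟨ae_of_all _ fun t =>
      (hp t).integrable_comp_of_integrable (g := fun y => h k y ^ 2)
        (tg_integrable ((ht k).fun_pow 2)), ?_⟩
    simp only [Real.norm_eq_abs, show ∀ p, |u k p| = u k p from fun p =>
      abs_of_nonneg (sq_nonneg _), he]
    exact integrable_const _
  set D : Eu ι → Eu ι := fun x => Φ T x - (x + ∑ j, A j • vfield M (Φ (c j) x))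
  have hb : ∀ x, ‖D x‖ ^ 2 ≤ W ^ 2 * ∑ k, ∫ t, u k (t, x) ∂μ := fun x => by
    rw [EuclideanSpace.norm_sq_eq, mul_sum]
    refine sum_le_sum fun k _ => ?_
    have hk := tg_field hF.tg k
    have ftc : ∫ t in (0:ℝ)..T, field M k (Φ t x) = Φ T x k - x k := by
      rw [intervalIntegral.integral_eq_sub_of_hasDerivAt (fun t _ => hd k x t)
        ((hk.1.continuous.comp (hc.comp (continuous_id.prodMk
          continuous_const))).intervalIntegrable _ _)]
      simp [h0]
    have eD : D x k = (∫ t in (0:ℝ)..T, field M k (Φ t x)) -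
        ∑ j, A j * field M k (Φ (c j) x) := by
      rw [ftc]
      simp [D, vfield_apply, sub_sub]
    have e := hR.error (contDiff_comp_flow hF.tg hΦ hk x)
    rw [iteratedDeriv_comp_flow hF.tg hΦ (r + 1) hk x, ← eD] at e
    rw [norm_eq_abs]
    refine (pow_le_pow_left₀ (abs_nonneg _) e 2).trans ?_
    rw [mul_pow]
    refine mul_le_mul_of_nonneg_left ?_ (sq_nonneg W)
    refine (sq_integral_abs_le (h := fun t => h k (Φ t x))
      ((ht k).1.continuous.comp (hc.comp (continuous_id.prodMk continuous_const)))).trans_eq ?_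
    exact intervalIntegral.integral_of_le zero_le_one
  have hDc : Continuous D := by
    have := continuous_vfield hF.tg
    have hcT : ∀ t, Continuous fun x => Φ t x := fun t =>
      hc.comp (continuous_const.prodMk continuous_id)
    exact (hcT T).sub (continuous_id.add (continuous_finsetSum _ fun j _ =>
      (this.comp (hcT _)).const_smul (A j)))
  have hS : Integrable (fun x => W ^ 2 * ∑ k, ∫ t, u k (t, x) ∂μ) (gam ι) :=
    (integrable_finsetSum _ fun k _ => (hI k).integral_prod_right).const_mul _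
  have hi : Integrable (fun x => ‖D x‖ ^ 2) (gam ι) :=
    hS.mono' (hDc.norm.pow 2).aestronglyMeasurable
      (ae_of_all _ fun x => by rw [norm_of_nonneg (sq_nonneg _)]; exact hb x)
  refine (eLpNorm_le_sqrt hi (C := W ^ 2 * DS 0 h) ?_).trans (ENNReal.ofReal_le_ofReal ?_)
  · refine (integral_mono hi hS hb).trans_eq ?_
    rw [integral_const_mul, integral_finsetSum _ fun k _ => (hI k).integral_prod_right, DS]
    congr 1
    refine sum_congr rfl fun k _ => ?_
    rw [← integral_integral_swap (f := fun t x => u k (t, x)) (hI k)]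
    simp [he, μ, measureReal_def]
  · rw [sqrt_mul (sq_nonneg _), sqrt_sq hW0]
    refine mul_le_mul_of_nonneg_left ?_ hW0
    refine (sqrt_le_sqrt hDS).trans_eq (sqrt_sq ?_)
    have hB0 : 0 ≤ B₀ := (mul_nonneg (by simp) (hF.nonneg 0)).trans (hF.weight 0 (by omega))
    exact mul_nonneg (mul_nonneg (iterC_nonneg _ _)
      (pow_nonneg (div_nonneg hB0 (sq_nonneg θ)) _)) (by positivity)

/-- **The step along a given flow.** The surrogate is read under the Gaussian law only. -/
theorem flow_step_of {r : ℕ} (hF : Field M B B₀ θ r) {ν : Type} [Fintype ν] {c w : ν → ℝ}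
    {A : ν → ν → ℝ} {α : ℝ≥0} (hA : ∀ i, Exact r (A i) c (c i)) (hw : Exact r w c 1)
    (hAα : ∀ i, ∑ j, ‖A i j‖₊ ≤ α) (hwα : ∑ j, ‖w j‖₊ ≤ α) {S : Eu ι → Eu ι} {L : ℝ≥0}
    (hS : LipschitzWith L S) {s : ℝ≥0∞} (hs : eLpNorm (fun y => vfield M y - S y) 2 (gam ι) ≤ s)
    {q : ℝ≥0} (hq : α * L ≤ q) (hq2 : q ≤ 1 / 2) {Φ : ℝ → Eu ι → Eu ι} (hΦ : IsFlow M Φ)
    (hc : Continuous fun p : ℝ × Eu ι => Φ p.1 p.2)
    (hp : ∀ t, MeasurePreserving (Φ t) (gam ι) (gam ι)) (h0 : ∀ x, Φ 0 x = x) {Ω : Type}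
    [MeasurableSpace Ω] {μ : Measure Ω} {x : Ω → Eu ι} {z : ℕ → ν → Ω → Eu ι}
    (hx : MeasurePreserving x μ (gam ι)) (hz : ∀ k i, AEStronglyMeasurable (z k i) μ)
    (hz0 : ∀ i, z 0 i =ᵐ[μ] x) {e' : ℝ≥0∞}
    (he' : ∀ k i, eLpNorm (fun o => z (k + 1) i o - (x o + ∑ j, A i j • S (z k j o))) 2 μ ≤ e')
    (k : ℕ) :
    eLpNorm (fun o => Φ 1 (x o) - (x o + ∑ j, w j • S (z k j o))) 2 μ ≤
      ENNReal.ofReal ((1 + α) * quadC r B₀ θ (Fintype.card ι)) + α * s +
        α * (L * ((q : ℝ≥0∞) ^ k * (2 * ENNReal.ofReal √(Fintype.card ι)) +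
          2 * (ENNReal.ofReal ((1 + α) * quadC r B₀ θ (Fintype.card ι)) + α * s + e'))) := by
  set Qc := ENNReal.ofReal ((1 + (α : ℝ)) * quadC r B₀ θ (Fintype.card ι))
  have hB0 : 0 ≤ B₀ := (mul_nonneg (by simp) (hF.nonneg 0)).trans (hF.weight 0 (by omega))
  have hq0 : 0 ≤ quadC r B₀ θ (Fintype.card ι) := mul_nonneg (mul_nonneg (iterC_nonneg _ _)
      (pow_nonneg (div_nonneg hB0 (sq_nonneg θ)) _)) (by positivity)
  have hquad : ∀ (A' : ν → ℝ) (T : ℝ), Exact r A' c T → ∑ j, ‖A' j‖₊ ≤ α →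
      eLpNorm (fun o => Φ T (x o) - (x o + ∑ j, A' j • vfield M (Φ (c j) (x o)))) 2 μ ≤ Qc := by
    intro A' T hA' hsum
    have hm : Continuous fun y => Φ T y - (y + ∑ j, A' j • vfield M (Φ (c j) y)) := by
      have := continuous_vfield hF.tg
      exact (hc.comp (continuous_const.prodMk continuous_id)).sub (continuous_id.add
        (continuous_finsetSum _ fun j _ =>
          (this.comp (hc.comp (continuous_const.prodMk continuous_id))).const_smul (A' j)))
    refine (eLpNorm_comp_measurePreserving hm.aestronglyMeasurable hx).trans_le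
      ((hF.quad hΦ hc hp h0 hA').trans (ENNReal.ofReal_le_ofReal
        (mul_le_mul_of_nonneg_right ?_ hq0)))
    have : ((∑ j, ‖A' j‖₊ : ℝ≥0) : ℝ) ≤ α := by exact_mod_cast hsum
    simpa using this
  have hy : ∀ i, MeasurePreserving (fun o => Φ (c i) (x o)) μ (gam ι) := fun i => (hp _).comp hx
  have hV := continuous_vfield hF.tg
  have hym : ∀ i, AEStronglyMeasurable (fun o => Φ (c i) (x o)) μ := fun i =>
    (hy i).measurable.aestronglyMeasurable
  have hxm : AEStronglyMeasurable x μ := hx.measurable.aestronglyMeasurable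
  have hSy : ∀ j, AEStronglyMeasurable (fun o => S (Φ (c j) (x o))) μ := fun j =>
    hS.continuous.comp_aestronglyMeasurable (hym j)
  have hSz : ∀ k j, AEStronglyMeasurable (fun o => S (z k j o)) μ := fun k j =>
    hS.continuous.comp_aestronglyMeasurable (hz k j)
  have hdef : ∀ (A' : ν → ℝ) (T : ℝ), Exact r A' c T → ∑ j, ‖A' j‖₊ ≤ α →
      eLpNorm (fun o => Φ T (x o) - (x o + ∑ j, A' j • S (Φ (c j) (x o)))) 2 μ ≤
        Qc + α * s := by
    intro A' T hA' hsum
    have e1 : (fun o => Φ T (x o) - (x o + ∑ j, A' j • S (Φ (c j) (x o)))) =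
        (fun o => Φ T (x o) - (x o + ∑ j, A' j • vfield M (Φ (c j) (x o)))) +
          fun o => ∑ j, A' j • (vfield M (Φ (c j) (x o)) - S (Φ (c j) (x o))) := by
      funext o
      simp only [Pi.add_apply, smul_sub, sum_sub_distrib]
      abel
    have hs' : ∀ j, AEStronglyMeasurable
        (fun o => vfield M (Φ (c j) (x o)) - S (Φ (c j) (x o))) μ := fun j =>
      (hV.comp_aestronglyMeasurable (hym j)).sub (hSy j)
    rw [e1]
    refine (eLpNorm_add_le ?_ (aestronglyMeasurable_fun_sum _ fun j _ => (hs' j).const_smul (A' j))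
      one_le_two).trans (add_le_add (hquad A' T hA' hsum)
        (Picard.eLpNorm_wsum_le one_le_two A' hsum hs' fun j => ?_))
    · exact ((hp T).comp hx).measurable.aestronglyMeasurable.sub (hxm.add
        (aestronglyMeasurable_fun_sum _ fun j _ =>
          (hV.comp_aestronglyMeasurable (hym j)).const_smul (A' j)))
    exact (eLpNorm_comp_measurePreserving (g := fun y => vfield M y - S y)
      (hV.sub hS.continuous).aestronglyMeasurable (hy j)).trans_le hs
  have hr : ∀ i, eLpNorm (fun o => z 0 i o - Φ (c i) (x o)) 2 μ ≤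
      2 * ENNReal.ofReal √(Fintype.card ι) := fun i => by
    refine (eLpNorm_sub_le (hz 0 i) (hym i) one_le_two).trans ?_
    rw [eLpNorm_congr_ae (hz0 i), two_mul]
    have hid : ∀ {f : Ω → Eu ι}, MeasurePreserving f μ (gam ι) →
        eLpNorm f 2 μ ≤ ENNReal.ofReal √(Fintype.card ι) := fun {f} hf =>
      (eLpNorm_comp_measurePreserving (g := fun y : Eu ι => y)
        continuous_id.aestronglyMeasurable hf).trans_le eLpNorm_id_le
    exact add_le_add (hid hx) (hid (hy i))
  have hk := Picard.picard_le (p := 2) one_le_two hAα (S := fun _ _ => S) (fun _ _ => hS)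
    hym hz hxm hSy hSz (fun i => hdef (A i) (c i) (hA i) (hAα i)) he' hr hq hq2 k
  exact Picard.output_le (p := 2) one_le_two hwα (F := fun _ _ => S)
    (X := fun o => Φ 1 (x o) - x o) (fun _ _ => hS)
    (((hp 1).comp hx).measurable.aestronglyMeasurable.sub hxm) hSy (hSz k)
    ((le_of_eq (congrArg (eLpNorm · 2 μ) (by funext o; abel))).trans (hdef w 1 hw hwα))
    (fun j => (eLpNorm_sub_comm (fun o => Φ (c j) (x o)) (z k j) 2 μ).trans_le (hk j)) |>.trans' (le_of_eq (congrArg
      (eLpNorm · 2 μ) (by funext o; abel)))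

/-- **The invariant flow step.** The surrogate is read under the Gaussian law only. -/
theorem flow_step {r : ℕ} (hF : Field M B B₀ θ r) {ν : Type} [Fintype ν] {c w : ν → ℝ}
    {A : ν → ν → ℝ} {α : ℝ≥0} (hA : ∀ i, Exact r (A i) c (c i)) (hw : Exact r w c 1)
    (hAα : ∀ i, ∑ j, ‖A i j‖₊ ≤ α) (hwα : ∑ j, ‖w j‖₊ ≤ α) {S : Eu ι → Eu ι} {L : ℝ≥0}
    (hS : LipschitzWith L S) {s : ℝ≥0∞} (hs : eLpNorm (fun y => vfield M y - S y) 2 (gam ι) ≤ s)
    {q : ℝ≥0} (hq : α * L ≤ q) (hq2 : q ≤ 1 / 2) :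
    ∃ Ψ : Eu ι → Eu ι, MeasurePreserving Ψ (gam ι) (gam ι) ∧
      ∀ {Ω : Type} [MeasurableSpace Ω] {μ : Measure Ω} {x : Ω → Eu ι} {z : ℕ → ν → Ω → Eu ι},
        MeasurePreserving x μ (gam ι) → (∀ k i, AEStronglyMeasurable (z k i) μ) →
        (∀ i, z 0 i =ᵐ[μ] x) → ∀ {e' : ℝ≥0∞},
        (∀ k i, eLpNorm (fun o => z (k + 1) i o - (x o + ∑ j, A i j • S (z k j o))) 2 μ ≤ e') →
        ∀ k, eLpNorm (fun o => Ψ (x o) - (x o + ∑ j, w j • S (z k j o))) 2 μ ≤
          ENNReal.ofReal ((1 + α) * quadC r B₀ θ (Fintype.card ι)) + α * s +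
            α * (L * ((q : ℝ≥0∞) ^ k * (2 * ENNReal.ofReal √(Fintype.card ι)) +
              2 * (ENNReal.ofReal ((1 + α) * quadC r B₀ θ (Fintype.card ι)) + α * s + e'))) := by
  obtain ⟨Φ, h0, hΦ, hc, hp⟩ := exists_flow hF.tg hF.anti (a := (Fintype.card ι) ^ 2 * B 1)
    (b := (Fintype.card ι) * B 0) (mul_nonneg (by positivity) (hF.nonneg 1))
    (mul_nonneg (by positivity) (hF.nonneg 0)) (norm_vfield_le hF.nonneg hF.row)
  exact ⟨Φ 1, hp 1, fun {Ω} _ {μ} {x} {z} hx hz hz0 {e'} he' k =>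
    flow_step_of hF hA hw hAα hwα hS hs hq hq2 hΦ hc hp h0 hx hz hz0 he' k⟩

/-! ### The block field -/

section Block

variable {α β : Type} [Fintype α] [DecidableEq α] [Fintype β] [DecidableEq β]
  {Q : β → α → Eu α → ℝ}

/-- A matrix field on the first block as one on both blocks. -/
noncomputable def lift (Q : β → α → Eu α → ℝ) (b : β) (k : α) (x : Eu (α ⊕ β)) : ℝ :=
  Q b k (fstB x)

lemma fstB_ei_inl (k : α) : fstB (ei (Sum.inl k) : Eu (α ⊕ β)) = ei k := by
  ext j; simp [fstB_apply, ei]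

lemma fstB_ei_inr (b : β) : fstB (ei (Sum.inr b) : Eu (α ⊕ β)) = 0 := by
  ext j; simp [fstB_apply, ei]

lemma pd_comp_fstB {f : Eu α → ℝ} (hf : f.HasTemperateGrowth) (i : α ⊕ β) (x : Eu (α ⊕ β)) :
    pd i (fun y => f (fstB y)) x =
      match i with
      | .inl k => pd k f (fstB x)
      | .inr _ => 0 := by
  have h : HasFDerivAt (fun y : Eu (α ⊕ β) => f (fstB y)) ((fderiv ℝ f (fstB x)).comp fstB) x :=
    ((tg_differentiable hf _).hasFDerivAt).comp x fstB.hasFDerivAt
  rcases i with k | b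
  · simp [pd, h.fderiv, fstB_ei_inl]
  · simp [pd, h.fderiv, fstB_ei_inr]

omit [DecidableEq α] [DecidableEq β] in
lemma tg_comp_fstB {f : Eu α → ℝ} (hf : f.HasTemperateGrowth) :
    (fun y : Eu (α ⊕ β) => f (fstB y)).HasTemperateGrowth :=
  hf.comp (fstB : Eu (α ⊕ β) →L[ℝ] Eu α).hasTemperateGrowth

lemma psq_comp_fstB : ∀ (m : ℕ) {f : Eu α → ℝ}, f.HasTemperateGrowth → ∀ x : Eu (α ⊕ β),
    psq m (fun y => f (fstB y)) x = psq m f (fstB x)
  | 0, _, _, _ => rfl
  | m + 1, f, hf, x => by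
    simp only [psq, Fintype.sum_sum_type]
    have h1 : ∀ k : α, psq m (pd (.inl k) fun y : Eu (α ⊕ β) => f (fstB y)) x =
        psq m (pd k f) (fstB x) := fun k => by
      rw [show (pd (.inl k) fun y : Eu (α ⊕ β) => f (fstB y)) = fun y => pd k f (fstB y) from
        funext fun y => pd_comp_fstB hf _ y, psq_comp_fstB m (tg_pd k hf) x]
    have h2 : ∀ b : β, psq m (pd (.inr b) fun y : Eu (α ⊕ β) => f (fstB y)) x = 0 := fun b => by
      rw [show (pd (.inr b) fun y : Eu (α ⊕ β) => f (fstB y)) = fun y => (fun _ => (0:ℝ)) (fstB y)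
        from funext fun y => pd_comp_fstB hf _ y, psq_comp_fstB m (.const 0) x]
      have hz : ∀ (n : ℕ) (y : Eu α), psq n (fun _ : Eu α => (0:ℝ)) y = 0 := by
        intro n
        induction n with
        | zero => simp [psq]
        | succ n ih =>
          intro y
          refine sum_eq_zero fun i _ => ?_
          rw [show pd i (fun _ : Eu α => (0:ℝ)) = fun _ => 0 by funext; simp [pd]]
          exact ih y
      exact hz m _
    simp [h1, h2]

omit [DecidableEq β] in
/-- The block field of a matrix field on the first block. -/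
theorem field_of_blk (hQ : ∀ b k, (Q b k).HasTemperateGrowth) {r : ℕ} (hθ : 0 < θ) (hθ1 : θ ≤ 1)
    {B : ℕ → ℝ} (hB : ∀ m, 0 ≤ B m) (h1 : RowBd Q B) (h2 : RowBd (fun k b => Q b k) B)
    (hw : ∀ m ≤ 2 * (r + 2), θ ^ m * B m ≤ B₀) [DecidableEq β] :
    Field (blk (lift Q)) B B₀ θ r where
  tg := tg_blk fun b k => tg_comp_fstB (hQ b k)
  anti := blk_anti
  pos := hθ
  le_one := hθ1
  nonneg := hB
  row := by
    refine rowBd_blk ?_ ?_
    · intro m x v
      refine le_of_eq_of_le (sum_congr rfl fun b _ => ?_) (h1 m (fstB x) v)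
      exact psq_comp_fstB m (f := fun y => ∑ k, Q b k y * v k)
        (.sum fun k _ => (hQ b k).fun_mul (.const _)) x
    · intro m x v
      refine le_of_eq_of_le (sum_congr rfl fun k _ => ?_) (h2 m (fstB x) v)
      exact psq_comp_fstB m (f := fun y => ∑ b, Q b k y * v b)
        (.sum fun b _ => (hQ b k).fun_mul (.const _)) x
  weight := hw

/-- On the second block the field is the divergence of the rows of `Q`, on the first it is
`-Qᵀ g`. -/
theorem vfield_blk (hQ : ∀ b k, (Q b k).HasTemperateGrowth) (x : Eu (α ⊕ β)) :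
    (∀ b, sndB (vfield (blk (lift Q)) x) b = delta (Q b) (fstB x)) ∧
      ∀ k, fstB (vfield (blk (lift Q)) x) k = -∑ b, sndB x b * Q b k (fstB x) := by
  refine ⟨fun b => ?_, fun k => ?_⟩
  · rw [sndB_apply, vfield_apply, field_blk_inr]
    simp only [delta, fstB_apply, lift]
    refine sum_congr rfl fun k _ => ?_
    exact congrArg (x (Sum.inl k) * Q b k (fstB x) - ·) (pd_comp_fstB (hQ b k) (Sum.inl k) x)
  · rw [fstB_apply, vfield_apply, field_blk_inl (Q := lift Q)
      (fun b' k' y => pd_comp_fstB (hQ b' k') _ y)]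
    simp [sndB_apply, lift]

omit [DecidableEq α] [DecidableEq β] in
/-- **The step for a mean.** If `delta (Q b) = F b - a b`, the second block of the endpoint plus
`a` has law `N(a, I)`, and a flow step bounds its distance to `a + g + ∑ w (S z)` on that block. -/
theorem ideal_mean (a : Eu β) {Ψ : Eu (α ⊕ β) → Eu (α ⊕ β)}
    (hΨ : MeasurePreserving Ψ (gam (α ⊕ β)) (gam (α ⊕ β))) :
    (gam (α ⊕ β)).map (fun x => a + sndB (Ψ x)) = (gam β).map (fun g => a + g) ∧
      ∀ {Ω : Type} [MeasurableSpace Ω] {μ : Measure Ω} {x v : Ω → Eu (α ⊕ β)},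
        eLpNorm (fun o => (a + sndB (Ψ (x o))) - (a + sndB (x o) + sndB (v o))) 2 μ ≤
          eLpNorm (fun o => Ψ (x o) - (x o + v o)) 2 μ := by
  refine ⟨?_, fun {Ω} _ {μ} {x} {v} => eLpNorm_mono fun o => ?_⟩
  · rw [← (gam_sndB.comp hΨ).map_eq, Measure.map_map (by fun_prop) (gam_sndB.comp hΨ).measurable]
    rfl
  · rw [show a + sndB (Ψ (x o)) - (a + sndB (x o) + sndB (v o)) =
      sndB (Ψ (x o) - (x o + v o)) by rw [map_sub, map_add]; abel]
    exact norm_sndB_le _

end Block

end Vale.Agent.P347.Shift.FlowStep
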