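import Vale.Agent.P347.Shift.Bridge
import Vale.Agent.P347.Shift.FlowStep
import Mathlib.Analysis.Calculus.ParametricIntervalIntegral

/-!
# P347: a smoothed mean as a divergence with row bounds

For `φ` with derivative at most `L` let `F b y = E φ_b (a₀ y + σ w)`. Its mean is
`a b = E φ_b (√(a₀² + σ²) w)`, and `F b - a b = delta (Q b)` exactly, for the time average
`Q b i y = a₀ ∫₀¹ E ∂_i φ_b (a₀ v y + √(a₀² (1 - v²) + σ²) w) dv`. Bessel bounds the rows of the
derivatives of order `m` of `Q` and of its transpose by `L √m! σ⁻ᵐ`, so the block field of `Q` is a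
field for the invariant flow step.
-/

open MeasureTheory Real Finset Filter Topology
open scoped ContDiff RealInnerProductSpace

namespace Vale.Agent.P347.Shift.Rep

open Quarter

variable {ι : Type} [Fintype ι] [DecidableEq ι] {κ : Type} [Fintype κ]

/-- The time average of a family of smoothings. -/
noncomputable def tav (ρ a b : ℝ → ℝ) (h P : Eu ι → ℝ) (y : Eu ι) : ℝ :=
  ∫ v in (0:ℝ)..1, ρ v * smo (a v) (b v) h P y

lemma sum_pd_proj (l : Eu ι →L[ℝ] ℝ) :
    l = ∑ k, l (ei k) • EuclideanSpace.proj (𝕜 := ℝ) k := by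
  refine ContinuousLinearMap.coe_injective ((EuclideanSpace.basisFun ι ℝ).toBasis.ext fun k => ?_)
  simp [EuclideanSpace.basisFun_apply, ei, PiLp.single_apply]

section Average

variable {h : Eu ι → ℝ} {C : ℝ} {ρ a b : ℝ → ℝ}

omit [DecidableEq ι] in
lemma continuous_smo_time (hc : Continuous h) (hC : ∀ y, |h y| ≤ C) (ha : Continuous a)
    (hb : Continuous b) {P : Eu ι → ℝ} (hP : P.HasTemperateGrowth) (y : Eu ι) :
    Continuous fun v => smo (a v) (b v) h P y := by
  refine continuous_of_dominated (bound := fun w => C * |P w|) (fun v => ?_) (fun v => ?_)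
    ((tg_integrable hP).abs.const_mul C) (ae_of_all _ fun w => ?_)
  · exact ((hc.comp (by fun_prop)).mul hP.1.continuous).aestronglyMeasurable
  · refine ae_of_all _ fun w => ?_
    rw [norm_mul, norm_eq_abs, norm_eq_abs]
    exact mul_le_mul_of_nonneg_right (hC _) (abs_nonneg _)
  · exact (hc.comp (by fun_prop)).mul continuous_const

/-- The derivative of a time average. -/
theorem hasFDerivAt_tav (hc : Continuous h) (hC : ∀ y, |h y| ≤ C) (ha : Continuous a)
    (hb : Continuous b) (hb0 : ∀ v, b v ≠ 0) (hρ : Continuous ρ) {P : Eu ι → ℝ}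
    (hP : P.HasTemperateGrowth) (x : Eu ι) :
    HasFDerivAt (tav ρ a b h P) (∑ k, tav (fun v => ρ v * (a v / b v)) a b h (kap k P) x •
      EuclideanSpace.proj (𝕜 := ℝ) k) x := by
  set ρ' := fun v => ρ v * (a v / b v)
  have hρ' : Continuous ρ' := hρ.mul (ha.div hb hb0)
  set F' : Eu ι → ℝ → Eu ι →L[ℝ] ℝ := fun y v =>
    ∑ k, (ρ' v * smo (a v) (b v) h (kap k P) y) • EuclideanSpace.proj (𝕜 := ℝ) k
  have hk : ∀ k y, Continuous fun v => ρ' v * smo (a v) (b v) h (kap k P) y := fun k y =>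
    hρ'.mul (continuous_smo_time hc hC ha hb (tg_kap k hP) y)
  obtain ⟨R, hR⟩ := isCompact_Icc.exists_bound_of_continuousOn (hρ'.continuousOn (s := Set.Icc 0 1))
  have hd : ∀ v y, HasFDerivAt (fun y => ρ v * smo (a v) (b v) h P y) (F' y v) y := fun v y => by
    have e := (hasFDerivAt_smo (a := a v) hc hC (hb0 v) hP y).differentiableAt.hasFDerivAt
    refine (e.const_mul (ρ v)).congr_fderiv ?_
    rw [sum_pd_proj (fderiv ℝ (smo (a v) (b v) h P) y), smul_sum]
    refine sum_congr rfl fun k _ => ?_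
    show ρ v • pd k (smo (a v) (b v) h P) y • _ = _
    rw [pd_smo hc hC (hb0 v) hP k y, smul_smul, ← mul_assoc]
  have h0 := intervalIntegral.hasFDerivAt_integral_of_dominated_of_fderiv_le (μ := volume)
    (a := (0:ℝ)) (b := 1) (x₀ := x) (s := Set.univ)
    (F := fun y v => ρ v * smo (a v) (b v) h P y) (F' := F')
    (bound := fun _ => ∑ k, R * (C * ∫ w, |kap k P w| ∂gam ι) *
      ‖(EuclideanSpace.proj (𝕜 := ℝ) k : Eu ι →L[ℝ] ℝ)‖) univ_mem
    (Eventually.of_forall fun y =>
      (hρ.mul (continuous_smo_time hc hC ha hb hP y)).aestronglyMeasurable)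
    ((hρ.mul (continuous_smo_time hc hC ha hb hP x)).intervalIntegrable _ _)
    (continuous_finsetSum _ fun k _ => (hk k x).smul continuous_const).aestronglyMeasurable
    (ae_of_all _ fun v hv y _ => ?_) intervalIntegrable_const (ae_of_all _ fun v _ y _ => hd v y)
  · refine h0.congr_fderiv ?_
    simp only [F']
    rw [intervalIntegral.integral_finsetSum (f := fun k v => (ρ' v * smo (a v) (b v) h (kap k P) x) •
      EuclideanSpace.proj (𝕜 := ℝ) k) fun k _ =>
      ((hk k x).smul continuous_const).intervalIntegrable _ _]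
    simp only [intervalIntegral.integral_smul_const, tav]
  · rw [Set.uIoc_of_le zero_le_one] at hv
    refine (norm_sum_le _ _).trans (sum_le_sum fun k _ => ?_)
    rw [norm_smul, norm_mul]
    refine mul_le_mul_of_nonneg_right (mul_le_mul (hR v (Set.Ioc_subset_Icc_self hv))
      (abs_smo_le hc hC (tg_kap k hP) y) (norm_nonneg _)
      ((norm_nonneg _).trans (hR v (Set.Ioc_subset_Icc_self hv)))) (norm_nonneg _)

lemma pd_tav (hc : Continuous h) (hC : ∀ y, |h y| ≤ C) (ha : Continuous a) (hb : Continuous b)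
    (hb0 : ∀ v, b v ≠ 0) (hρ : Continuous ρ) {P : Eu ι → ℝ} (hP : P.HasTemperateGrowth) (k : ι)
    (x : Eu ι) :
    pd k (tav ρ a b h P) x = tav (fun v => ρ v * (a v / b v)) a b h (kap k P) x := by
  rw [pd, (hasFDerivAt_tav hc hC ha hb hb0 hρ hP x).fderiv]
  simp [ei, PiLp.single_apply]

lemma contDiff_tav_aux (hc : Continuous h) (hC : ∀ y, |h y| ≤ C) (ha : Continuous a)
    (hb : Continuous b) (hb0 : ∀ v, b v ≠ 0) :
    ∀ (n : ℕ) {ρ : ℝ → ℝ}, Continuous ρ → ∀ {P : Eu ι → ℝ}, P.HasTemperateGrowth →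
      ContDiff ℝ n (tav ρ a b h P) ∧ ∃ B, ∀ x, ‖iteratedFDeriv ℝ n (tav ρ a b h P) x‖ ≤ B
  | 0, ρ, hρ, P, hP => by
    have hd : Differentiable ℝ (tav ρ a b h P) := fun x =>
      (hasFDerivAt_tav hc hC ha hb hb0 hρ hP x).differentiableAt
    obtain ⟨R, hR⟩ := isCompact_Icc.exists_bound_of_continuousOn (hρ.continuousOn (s := Set.Icc 0 1))
    refine ⟨contDiff_zero.2 hd.continuous, R * (C * ∫ w, |P w| ∂gam ι), fun x => ?_⟩
    rw [norm_iteratedFDeriv_zero]
    refine (intervalIntegral.norm_integral_le_of_norm_le_const fun v hv => ?_).trans_eq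
      (by simp only [sub_zero, abs_one, mul_one]; rfl)
    rw [Set.uIoc_of_le zero_le_one] at hv
    rw [norm_mul]
    exact mul_le_mul (hR v (Set.Ioc_subset_Icc_self hv)) (abs_smo_le hc hC hP x) (norm_nonneg _)
      ((norm_nonneg _).trans (hR v (Set.Ioc_subset_Icc_self hv)))
  | n + 1, ρ, hρ, P, hP => by
    have hρ' : Continuous fun v => ρ v * (a v / b v) := hρ.mul (ha.div hb hb0)
    have ih := fun k => contDiff_tav_aux hc hC ha hb hb0 n hρ' (tg_kap k hP)
    choose B hB using fun k => (ih k).2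
    set l : ι → ℝ →L[ℝ] Eu ι →L[ℝ] ℝ := fun k =>
      ContinuousLinearMap.toSpanSingleton ℝ (EuclideanSpace.proj (𝕜 := ℝ) k)
    have e : fderiv ℝ (tav ρ a b h P) =
        fun x => ∑ k, l k (tav (fun v => ρ v * (a v / b v)) a b h (kap k P) x) := funext fun x => by
      simp [(hasFDerivAt_tav hc hC ha hb hb0 hρ hP x).fderiv, l]
    have hl : ∀ k, ContDiff ℝ n
        (fun x => l k (tav (fun v => ρ v * (a v / b v)) a b h (kap k P) x)) := fun k =>
      (l k).contDiff.comp (ih k).1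
    refine ⟨?_, ∑ k, ‖l k‖ * B k, fun x => ?_⟩
    · rw [Nat.cast_add, Nat.cast_one, contDiff_succ_iff_fderiv, e]
      exact ⟨fun x => (hasFDerivAt_tav hc hC ha hb hb0 hρ hP x).differentiableAt, by simp,
        ContDiff.sum fun k _ => hl k⟩
    · rw [← norm_iteratedFDeriv_fderiv, e, iteratedFDeriv_sum (fun k _ => hl k), Finset.sum_apply]
      refine (norm_sum_le _ _).trans (sum_le_sum fun k _ => ?_)
      exact ((l k).norm_iteratedFDeriv_comp_left (ih k).1.contDiffAt le_rfl).trans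
        (mul_le_mul_of_nonneg_left (hB k x) (norm_nonneg _))

/-- A time average of smoothings is of temperate growth. -/
theorem tg_tav (hc : Continuous h) (hC : ∀ y, |h y| ≤ C) (ha : Continuous a) (hb : Continuous b)
    (hb0 : ∀ v, b v ≠ 0) (hρ : Continuous ρ) {P : Eu ι → ℝ} (hP : P.HasTemperateGrowth) :
    (tav ρ a b h P).HasTemperateGrowth := by
  refine ⟨contDiff_infty.2 fun n => (contDiff_tav_aux hc hC ha hb hb0 n hρ hP).1, fun n => ?_⟩
  obtain ⟨B, hB⟩ := (contDiff_tav_aux hc hC ha hb hb0 n hρ hP).2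
  exact ⟨0, B, fun x => by simpa using hB x⟩

/-- The derivatives of a time average are the averages of the derivatives. -/
theorem pdi_tav (hc : Continuous h) (hC : ∀ y, |h y| ≤ C) (ha : Continuous a) (hb : Continuous b)
    (hb0 : ∀ v, b v ≠ 0) (hρ : Continuous ρ) : ∀ (i : ℕ) (α : Fin i → ι),
    ∃ P : Eu ι → ℝ, P.HasTemperateGrowth ∧
      (∀ v, pdi i α (smo (a v) (b v) h fun _ => 1) =
        fun x => (a v / b v) ^ i * smo (a v) (b v) h P x) ∧
      pdi i α (tav ρ a b h fun _ => 1) = tav (fun v => ρ v * (a v / b v) ^ i) a b h P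
  | 0, α => ⟨fun _ => 1, .const _, fun v => by simp [pdi], by simp [pdi]⟩
  | i + 1, α => by
    obtain ⟨P, hP, h1, h2⟩ := pdi_tav hc hC ha hb hb0 hρ i fun l => α l.succ
    refine ⟨kap (α 0) P, tg_kap _ hP, fun v => funext fun x => ?_, funext fun x => ?_⟩
    · simp only [pdi, h1 v]
      have e := pd_smo (a := a v) hc hC (hb0 v) hP (α 0) x
      simp only [pd] at e ⊢
      rw [fderiv_const_mul (hasFDerivAt_smo hc hC (hb0 v) hP x).differentiableAt, smul_apply,
        smul_eq_mul, e]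
      ring
    · simp only [pdi, h2, pd_tav hc hC ha hb hb0
        (ρ := fun v => ρ v * (a v / b v) ^ i) (hρ.mul ((ha.div hb hb0).pow i)) hP]
      simp only [mul_assoc, ← pow_succ]

omit [DecidableEq ι] in
/-- A time average is linear in the smoothed function. -/
theorem tav_sum {T : κ → Eu ι → ℝ} (hc : ∀ k, Continuous (T k)) (hC : ∀ k y, |T k y| ≤ C)
    (ha : Continuous a) (hb : Continuous b) (hρ : Continuous ρ) (v : κ → ℝ) (y : Eu ι) :
    ∑ k, tav ρ a b (T k) (fun _ => 1) y * v k =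
      tav ρ a b (fun z => ∑ k, T k z * v k) (fun _ => 1) y := by
  simp only [tav, ← intervalIntegral.integral_mul_const]
  rw [← intervalIntegral.integral_finsetSum
    (f := fun k s => ρ s * smo (a s) (b s) (T k) (fun _ => 1) y * v k) fun k _ =>
      ((hρ.mul (continuous_smo_time (hc k) (hC k) ha hb
        (Function.HasTemperateGrowth.const (1 : ℝ)) y)).mul_const _).intervalIntegrable _ _]
  refine intervalIntegral.integral_congr fun s _ => ?_
  simp only [mul_assoc, ← mul_sum, ← integral_mul_const, smo, mul_one]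
  rw [← integral_finsetSum _ fun k _ => ?_]
  exact ((integrable_const C).mono' ((hc k).comp (by fun_prop)).aestronglyMeasurable
    (ae_of_all _ fun w => hC k _)).mul_const _

/-- Bessel for a time average. -/
theorem psq_tav_le {h : κ → Eu ι → ℝ} (hc : ∀ r, Continuous (h r)) {B R q : ℝ}
    (hB : ∀ y, ∑ r, h r y ^ 2 ≤ B) (ha : Continuous a) (hb : Continuous b) (hb0 : ∀ v, b v ≠ 0)
    (hρ : Continuous ρ) (hR : ∀ v ∈ Set.Icc (0:ℝ) 1, |ρ v| ≤ R)
    (hq : ∀ v ∈ Set.Icc (0:ℝ) 1, |a v / b v| ≤ q) (m : ℕ) (x : Eu ι) :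
    ∑ r, psq m (tav ρ a b (h r) fun _ => 1) x ≤ R ^ 2 * ((q ^ m) ^ 2 * m.factorial * B) := by
  have hB0 : 0 ≤ B := (sum_nonneg fun r _ => sq_nonneg (h r x)).trans (hB x)
  have hC : ∀ r y, |h r y| ≤ √B := fun r y => abs_le_sqrt
    ((single_le_sum (f := fun r => h r y ^ 2) (fun _ _ => sq_nonneg _) (mem_univ r)).trans (hB y))
  have h1 : (fun _ : Eu ι => (1 : ℝ)).HasTemperateGrowth := .const 1
  set X : κ → (Fin m → ι) → ℝ → ℝ := fun r α v => pdi m α (smo (a v) (b v) (h r) fun _ => 1) x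
  have hX : ∀ r α, Continuous (X r α) ∧
      pdi m α (tav ρ a b (h r) fun _ => 1) x = ∫ v in (0:ℝ)..1, ρ v * X r α v := fun r α => by
    obtain ⟨P, hP, e1, e2⟩ := pdi_tav (hc r) (hC r) ha hb hb0 hρ m α
    simp only [X, e1, e2, tav, mul_assoc]
    exact ⟨((ha.div hb hb0).pow m).mul (continuous_smo_time (hc r) (hC r) ha hb hP x), trivial⟩
  have hi : ∀ r α, IntervalIntegrable (fun v => (ρ v * X r α v) ^ 2) volume 0 1 := fun r α =>
    ((hρ.mul (hX r α).1).pow 2).intervalIntegrable _ _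
  simp only [psq_eq_sum m (tg_tav (hc _) (hC _) ha hb hb0 hρ h1), fun r α => (hX r α).2]
  have hs : ∀ r α, (∫ v in (0:ℝ)..1, ρ v * X r α v) ^ 2 ≤
      ∫ v in (0:ℝ)..1, (ρ v * X r α v) ^ 2 := fun r α => by
    refine le_trans ?_ (sq_integral_abs_le (hρ.mul (hX r α).1))
    rw [← sq_abs]
    exact pow_le_pow_left₀ (abs_nonneg _)
      (intervalIntegral.abs_integral_le_integral_abs zero_le_one) 2
  refine (sum_le_sum fun r _ => sum_le_sum fun α _ => hs r α).trans ?_
  simp only [← intervalIntegral.integral_finsetSum fun α _ => hi _ α]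
  rw [← intervalIntegral.integral_finsetSum fun r _ =>
    (IntervalIntegrable.sum univ fun α _ => hi r α).congr (fun v _ => by simp)]
  refine (intervalIntegral.integral_mono_on zero_le_one
    (Continuous.intervalIntegrable (continuous_finsetSum _ fun r _ => continuous_finsetSum _
      fun α _ => (hρ.mul (hX r α).1).pow 2) _ _)
    (intervalIntegrable_const (c := R ^ 2 * ((q ^ m) ^ 2 * m.factorial * B))) fun v hv => ?_).trans_eq
      (by simp)
  simp only [Pi.mul_apply, Pi.pow_apply, mul_pow, ← mul_sum]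
  refine mul_le_mul (by rw [← sq_abs (ρ v)]; exact pow_le_pow_left₀ (abs_nonneg _) (hR v hv) 2) ?_
    (sum_nonneg fun r _ => sum_nonneg fun α _ => sq_nonneg _) (sq_nonneg R)
  refine ((DS_smo_le (a := a v) (hb0 v) hc hB m).2.1 x).trans ?_
  refine mul_le_mul_of_nonneg_right (mul_le_mul_of_nonneg_right ?_ (Nat.cast_nonneg _)) hB0
  rw [← sq_abs ((a v / b v) ^ m), abs_pow]
  exact pow_le_pow_left₀ (by positivity) (pow_le_pow_left₀ (abs_nonneg _) (hq v hv) m) 2

end Average

/-! ### The representation -/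

variable {α β : Type} [Fintype α] [DecidableEq α] [Fintype β]

/-- A partial derivative of a component. -/
noncomputable def pdc (φ : Eu α → Eu β) (b : β) (i : α) (y : Eu α) : ℝ := fderiv ℝ φ y (ei i) b

/-- The smoothing scale left at time `v`. -/
noncomputable def scale (a₀ σ v : ℝ) : ℝ := √(a₀ ^ 2 * max (1 - v ^ 2) 0 + σ ^ 2)

/-- The matrix field. -/
noncomputable def mat (φ : Eu α → Eu β) (a₀ σ : ℝ) (b : β) (i : α) : Eu α → ℝ :=
  tav (fun _ => a₀) (fun v => a₀ * v) (scale a₀ σ) (pdc φ b i) fun _ => 1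

/-- The smoothed component. -/
noncomputable def comp (φ : Eu α → Eu β) (a₀ σ : ℝ) (b : β) (y : Eu α) : ℝ :=
  ∫ w, φ (a₀ • y + σ • w) b ∂gam α

/-- The mean. -/
noncomputable def mean (φ : Eu α → Eu β) (a₀ σ : ℝ) (b : β) : ℝ :=
  ∫ w, φ (√(a₀ ^ 2 + σ ^ 2) • w) b ∂gam α

variable {φ : Eu α → Eu β} {L a₀ σ : ℝ}

lemma continuous_scale : Continuous (scale a₀ σ) := by unfold scale; fun_prop

lemma le_scale (hσ : 0 < σ) (v : ℝ) : σ ≤ scale a₀ σ v :=
  (sqrt_sq hσ.le).symm.trans_le (sqrt_le_sqrt (le_add_of_nonneg_left (by positivity)))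

lemma scale_ne (hσ : 0 < σ) (v : ℝ) : scale a₀ σ v ≠ 0 := (hσ.trans_le (le_scale hσ v)).ne'

omit [DecidableEq α] in
lemma abs_apply_le (x : Eu β) (b : β) : |x b| ≤ ‖x‖ := by
  simpa [norm_eq_abs] using PiLp.norm_apply_le x b

lemma continuous_pdc (hφ : ContDiff ℝ 1 φ) (b : β) (i : α) : Continuous (pdc φ b i) :=
  (EuclideanSpace.proj (𝕜 := ℝ) b).continuous.comp
    ((hφ.continuous_fderiv one_ne_zero).clm_apply continuous_const)

lemma norm_ei (i : α) : ‖(ei i : Eu α)‖ = 1 := by simp [ei]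

lemma abs_pdc_le (hL : ∀ x, ‖fderiv ℝ φ x‖ ≤ L) (b : β) (i : α) (y : Eu α) :
    |pdc φ b i y| ≤ L := by
  refine (abs_apply_le _ b).trans ((ContinuousLinearMap.le_opNorm _ _).trans ?_)
  rw [norm_ei, mul_one]
  exact hL y

lemma fderiv_apply (z u : Eu α) (b : β) :
    fderiv ℝ φ z u b = ∑ i, u i * pdc φ b i z := by
  have e : u = ∑ i, u i • ei i := by
    simpa [EuclideanSpace.basisFun_apply, ei] using
      ((EuclideanSpace.basisFun α ℝ).sum_repr u).symm
  conv_lhs => rw [e]
  simp [map_sum, pdc]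

lemma tg_mat (hφ : ContDiff ℝ 1 φ) (hL : ∀ x, ‖fderiv ℝ φ x‖ ≤ L) (hσ : 0 < σ) (b : β) (i : α) :
    (mat φ a₀ σ b i).HasTemperateGrowth :=
  tg_tav (continuous_pdc hφ b i) (abs_pdc_le hL b i) (by fun_prop) continuous_scale (scale_ne hσ)
    continuous_const (Function.HasTemperateGrowth.const 1)

/-- The smoothed component minus its mean is a divergence. -/
theorem delta_mat (hφ : ContDiff ℝ 1 φ) (hL : ∀ x, ‖fderiv ℝ φ x‖ ≤ L) (hσ : 0 < σ) (b : β)
    (y : Eu α) : delta (mat φ a₀ σ b) y = comp φ a₀ σ b y - mean φ a₀ σ b := by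
  have hL0 : 0 ≤ L := (norm_nonneg _).trans (hL 0)
  have hlin : ∀ z, |φ z b| ≤ ‖φ 0‖ + L * ‖z‖ := fun z => by
    refine (abs_apply_le _ b).trans ?_
    have h := convex_univ.norm_image_sub_le_of_norm_fderiv_le
      (fun y _ => hφ.differentiable one_ne_zero y) (fun y _ => hL y)
      (Set.mem_univ (0 : Eu α)) (Set.mem_univ z)
    rw [sub_zero] at h
    linarith [norm_sub_norm_le (φ z) (φ 0)]
  set S := √(a₀ ^ 2 + σ ^ 2)
  have hS : ∀ v, scale a₀ σ v ≤ S := fun v => sqrt_le_sqrt <| by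
    have : max (1 - v ^ 2) 0 ≤ 1 := max_le (by nlinarith [sq_nonneg v]) zero_le_one
    nlinarith [sq_nonneg a₀]
  set G : ℝ → ℝ := fun v => ∫ w, φ ((a₀ * v) • y + scale a₀ σ v • w) b ∂gam α
  have hn : Integrable (fun w : Eu α => ‖w‖) (gam α) :=
    (integrable_exp_norm_gam 1).mono' (by fun_prop : Continuous fun w : Eu α => ‖w‖).aestronglyMeasurable
      (ae_of_all _ fun w => by simpa using (le_add_of_nonneg_right zero_le_one).trans (add_one_le_exp ‖w‖))
  have hm : ∀ v, Continuous fun w => φ ((a₀ * v) • y + scale a₀ σ v • w) b := fun v =>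
    (EuclideanSpace.proj (𝕜 := ℝ) b).continuous.comp (hφ.continuous.comp (by fun_prop))
  have hbd : ∀ v ∈ Set.Icc (0:ℝ) 1, ∀ w, ‖φ ((a₀ * v) • y + scale a₀ σ v • w) b‖ ≤
      ‖φ 0‖ + L * (|a₀| * ‖y‖) + L * S * ‖w‖ := fun v hv w => by
    rw [norm_eq_abs, mul_assoc L S, add_assoc, ← mul_add]
    refine (hlin _).trans (add_le_add le_rfl (mul_le_mul_of_nonneg_left ?_ hL0))
    refine (norm_add_le _ _).trans (add_le_add ?_ ?_)
    · rw [norm_smul, norm_mul, norm_eq_abs, norm_eq_abs, abs_of_nonneg hv.1]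
      exact mul_le_mul_of_nonneg_right (mul_le_of_le_one_right (abs_nonneg _) hv.2) (norm_nonneg _)
    · rw [norm_smul, norm_eq_abs, abs_of_pos (hσ.trans_le (le_scale hσ v))]
      exact mul_le_mul_of_nonneg_right (hS v) (norm_nonneg _)
  have hbi := (integrable_const (‖φ 0‖ + L * (|a₀| * ‖y‖))).add (hn.const_mul (L * S))
  have hGc : ContinuousOn G (Set.Icc 0 1) :=
    continuousOn_of_dominated (fun v _ => (hm v).aestronglyMeasurable)
      (fun v hv => ae_of_all _ (hbd v hv)) hbi (ae_of_all _ fun w =>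
        ((EuclideanSpace.proj (𝕜 := ℝ) b).continuous.comp (hφ.continuous.comp
          (((continuous_const.mul continuous_id).smul continuous_const).add
            (continuous_scale.smul continuous_const)))).continuousOn)
  set D : ℝ → ℝ := fun v => ∑ i, (y i * (a₀ * smo (a₀ * v) (scale a₀ σ v) (pdc φ b i) (fun _ => 1) y) -
      a₀ * (a₀ * v / scale a₀ σ v) *
        smo (a₀ * v) (scale a₀ σ v) (pdc φ b i) (kap i fun _ => 1) y) with hD
  have hder : ∀ v ∈ Set.Ioo (0:ℝ) 1, HasDerivAt G (D v) v := fun v hv => by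
    set F' : ℝ → Eu α → ℝ := fun v w => fderiv ℝ φ ((a₀ * v) • y + scale a₀ σ v • w)
      (a₀ • y + (-(a₀ ^ 2 * v) / scale a₀ σ v) • w) b
    have hd : ∀ v ∈ Set.Ioo (0:ℝ) 1, ∀ w : Eu α,
        HasDerivAt (fun v => φ ((a₀ * v) • y + scale a₀ σ v • w) b) (F' v w) v := fun v hv w => by
      have ev : scale a₀ σ =ᶠ[𝓝 v] fun v => √(a₀ ^ 2 * (1 - v ^ 2) + σ ^ 2) := by
        filter_upwards [Ioo_mem_nhds hv.1 hv.2] with u hu
        rw [scale, max_eq_left (by nlinarith [hu.1, hu.2])]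
      have e0 := ev.eq_of_nhds
      have hne : a₀ ^ 2 * (1 - v ^ 2) + σ ^ 2 ≠ 0 := fun e => scale_ne (a₀ := a₀) hσ v (by
        rw [e0, e, sqrt_zero])
      have hs : HasDerivAt (scale a₀ σ) (-(a₀ ^ 2 * v) / scale a₀ σ v) v := by
        refine (((((hasDerivAt_pow 2 v).const_sub 1).const_mul (a₀ ^ 2)).add_const (σ ^ 2)).sqrt
          hne).congr_of_eventuallyEq ev |>.congr_deriv ?_
        rw [e0]
        push_cast
        field_simp
      have hin : HasDerivAt (fun v => (a₀ * v) • y + scale a₀ σ v • w)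
          (a₀ • y + (-(a₀ ^ 2 * v) / scale a₀ σ v) • w) v := by
        refine ((((hasDerivAt_id v).const_mul a₀).smul_const y).fun_add
          (hs.smul_const w)).congr_deriv ?_
        simp
      exact (EuclideanSpace.proj (𝕜 := ℝ) b).hasFDerivAt.comp_hasDerivAt v
        ((hφ.differentiable one_ne_zero _).hasFDerivAt.comp_hasDerivAt v hin)
    have hF'c : Continuous (F' v) :=
      (EuclideanSpace.proj (𝕜 := ℝ) b).continuous.comp
        (((hφ.continuous_fderiv one_ne_zero).comp (by fun_prop)).clm_apply (by fun_prop))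
    have hF'b : ∀ v ∈ Set.Ioo (0:ℝ) 1, ∀ w, ‖F' v w‖ ≤
        L * (|a₀| * ‖y‖) + L * (a₀ ^ 2 / σ) * ‖w‖ := fun v hv w => by
      rw [norm_eq_abs, mul_assoc L (_ / σ), ← mul_add]
      refine (abs_apply_le _ b).trans ((ContinuousLinearMap.le_opNorm _ _).trans
        (mul_le_mul (hL _) ((norm_add_le _ _).trans (add_le_add ?_ ?_)) (norm_nonneg _) hL0))
      · rw [norm_smul, norm_eq_abs]
      · rw [norm_smul, norm_eq_abs, abs_div, abs_neg, abs_of_nonneg (mul_nonneg (sq_nonneg _) hv.1.le),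
          abs_of_pos (hσ.trans_le (le_scale hσ v))]
        exact mul_le_mul_of_nonneg_right (div_le_div₀ (sq_nonneg _)
          (mul_le_of_le_one_right (sq_nonneg _) hv.2.le) hσ (le_scale hσ v)) (norm_nonneg _)
    have h := hasDerivAt_integral_of_dominated_loc_of_deriv_le (μ := gam α) (Ioo_mem_nhds hv.1 hv.2)
      (F := fun v w => φ ((a₀ * v) • y + scale a₀ σ v • w) b) (F' := F')
      (Eventually.of_forall fun v => (hm v).aestronglyMeasurable)
      (hbi.mono' (hm v).aestronglyMeasurable (ae_of_all _ (hbd v ⟨hv.1.le, hv.2.le⟩)))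
      hF'c.aestronglyMeasurable (ae_of_all _ fun w u hu => hF'b u hu w)
      ((integrable_const _).add (hn.const_mul _)) (ae_of_all _ fun w u hu => hd u hu w)
    refine h.2.congr_deriv ?_
    have hi : ∀ i (P : Eu α → ℝ), P.HasTemperateGrowth → Integrable (fun w =>
        pdc φ b i ((a₀ * v) • y + scale a₀ σ v • w) * P w) (gam α) := fun i P hP =>
      integrable_smo_kernel (continuous_pdc hφ b i) (abs_pdc_le hL b i) hP y
    have h1 : ∀ i : α, (fun _ : Eu α => (1 : ℝ)).HasTemperateGrowth := fun _ => .const 1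
    have hk : ∀ i : α, kap i (fun _ : Eu α => (1 : ℝ)) = fun w => w i := fun i => by
      funext w; simp [kap, pd]
    simp only [hD, smo, hk, ← integral_const_mul]
    have j1 : ∀ i, Integrable (fun w => y i *
        (a₀ * (pdc φ b i ((a₀ * v) • y + scale a₀ σ v • w) * 1))) (gam α) := fun i =>
      ((hi i _ (h1 i)).const_mul _).const_mul _
    have j2 : ∀ i, Integrable (fun w => a₀ * (a₀ * v / scale a₀ σ v) *
        (pdc φ b i ((a₀ * v) • y + scale a₀ σ v • w) * w i)) (gam α) := fun i =>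
      (hi i _ (tg_coord i)).const_mul _
    rw [sum_congr rfl fun i _ => (integral_sub (j1 i) (j2 i)).symm,
      ← integral_finsetSum (f := fun i w => y i * (a₀ * (pdc φ b i ((a₀ * v) • y +
        scale a₀ σ v • w) * 1)) - a₀ * (a₀ * v / scale a₀ σ v) *
          (pdc φ b i ((a₀ * v) • y + scale a₀ σ v • w) * w i)) _ fun i _ => (j1 i).sub (j2 i)]
    refine integral_congr_ae (ae_of_all _ fun w => ?_)
    simp only [F', fderiv_apply, PiLp.add_apply, PiLp.smul_apply, smul_eq_mul]
    refine sum_congr rfl fun i _ => ?_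
    ring
  have hDc : Continuous D := continuous_finsetSum _ fun i _ =>
    ((continuous_const.mul (continuous_smo_time (continuous_pdc hφ b i) (abs_pdc_le hL b i)
      (by fun_prop) continuous_scale (Function.HasTemperateGrowth.const 1) y)).const_mul (y i) |>.sub
    ((continuous_const.mul ((continuous_const.mul continuous_id).div continuous_scale
      (scale_ne hσ))).mul (continuous_smo_time (continuous_pdc hφ b i) (abs_pdc_le hL b i)
        (by fun_prop) continuous_scale (tg_kap i (Function.HasTemperateGrowth.const 1)) y)))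
  have ftc := intervalIntegral.integral_eq_sub_of_hasDerivAt_of_le zero_le_one hGc hder
    (hDc.intervalIntegrable _ _)
  have hend : G 1 = comp φ a₀ σ b y ∧ G 0 = mean φ a₀ σ b := by
    simp [G, comp, mean, scale, sqrt_sq hσ.le]
  rw [← hend.1, ← hend.2, ← ftc, hD, delta]
  rw [intervalIntegral.integral_finsetSum fun i _ => ?_]
  · refine sum_congr rfl fun i _ => ?_
    have hc := continuous_pdc hφ b i
    have hC := abs_pdc_le hL b i
    have c1 := continuous_smo_time hc hC (a := fun v => a₀ * v) (by fun_prop)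
      (continuous_scale (a₀ := a₀) (σ := σ)) (Function.HasTemperateGrowth.const (1:ℝ)) y
    have c2 := continuous_smo_time hc hC (a := fun v => a₀ * v) (by fun_prop)
      (continuous_scale (a₀ := a₀) (σ := σ)) (tg_kap i (Function.HasTemperateGrowth.const (1:ℝ))) y
    have c3 : Continuous fun v => a₀ * (a₀ * v / scale a₀ σ v) :=
      continuous_const.mul ((continuous_const.mul continuous_id).div continuous_scale (scale_ne hσ))
    have i1 : IntervalIntegrable (fun v => y i *
        (a₀ * smo (a₀ * v) (scale a₀ σ v) (pdc φ b i) (fun _ => 1) y)) volume 0 1 :=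
      ((continuous_const.mul c1).const_mul _).intervalIntegrable _ _
    have i2 : IntervalIntegrable (fun v => a₀ * (a₀ * v / scale a₀ σ v) *
        smo (a₀ * v) (scale a₀ σ v) (pdc φ b i) (kap i fun _ => 1) y) volume 0 1 :=
      (c3.mul c2).intervalIntegrable _ _
    rw [mat, pd_tav hc hC (by fun_prop) continuous_scale (scale_ne hσ) continuous_const
      (Function.HasTemperateGrowth.const (1:ℝ)), intervalIntegral.integral_sub i1 i2]
    simp only [tav, ← intervalIntegral.integral_const_mul]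
  · exact Continuous.intervalIntegrable (by
      have hc := continuous_pdc hφ b i
      have hC := abs_pdc_le hL b i
      have c1 := continuous_smo_time hc hC (a := fun v => a₀ * v) (by fun_prop)
        (continuous_scale (a₀ := a₀) (σ := σ)) (Function.HasTemperateGrowth.const (1:ℝ)) y
      have c2 := continuous_smo_time hc hC (a := fun v => a₀ * v) (by fun_prop)
        (continuous_scale (a₀ := a₀) (σ := σ)) (tg_kap i (Function.HasTemperateGrowth.const (1:ℝ))) y
      exact ((continuous_const.mul c1).const_mul _).sub ((continuous_const.mul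
        ((continuous_const.mul continuous_id).div continuous_scale (scale_ne hσ))).mul c2)) _ _

/-- Row bounds for the matrix field and for its transpose. -/
theorem rowBd_mat (hφ : ContDiff ℝ 1 φ) (hL : ∀ x, ‖fderiv ℝ φ x‖ ≤ L) (hσ : 0 < σ)
    (ha : |a₀| ≤ 1) :
    RowBd (mat φ a₀ σ) (fun m => L * √(m.factorial : ℝ) / σ ^ m) ∧
      RowBd (fun i b => mat φ a₀ σ b i) (fun m => L * √(m.factorial : ℝ) / σ ^ m) := by
  have hL0 : 0 ≤ L := (norm_nonneg _).trans (hL 0)
  have hq : ∀ v ∈ Set.Icc (0:ℝ) 1, |a₀ * v / scale a₀ σ v| ≤ σ⁻¹ := fun v hv => by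
    rw [abs_div, abs_mul, abs_of_nonneg hv.1, abs_of_pos (hσ.trans_le (le_scale hσ v)),
      ← one_div]
    exact div_le_div₀ zero_le_one ((mul_le_of_le_one_right (abs_nonneg _) hv.2).trans ha) hσ
      (le_scale hσ v)
  have hmain : ∀ {ρ κ : Type} [Fintype ρ] [Fintype κ] (T : ρ → κ → Eu α → ℝ) (m : ℕ) (x : Eu α)
      (v : κ → ℝ), (∀ r k, Continuous (T r k)) → (∀ r k y, |T r k y| ≤ L) →
      (∀ y, ∑ r, (∑ k, T r k y * v k) ^ 2 ≤ L ^ 2 * ∑ k, v k ^ 2) →
      ∑ r, psq m (fun y => ∑ k,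
        tav (fun _ => a₀) (fun v => a₀ * v) (scale a₀ σ) (T r k) (fun _ => 1) y * v k) x ≤
          (L * √(m.factorial : ℝ) / σ ^ m) ^ 2 * ∑ k, v k ^ 2 := fun {ρ κ} _ _ T m x v hc hC hT => by
    simp only [tav_sum (hc _) (hC _) (by fun_prop : Continuous fun v => a₀ * v) continuous_scale
      continuous_const v]
    refine (psq_tav_le (fun r => continuous_finsetSum _ fun k _ => (hc r k).mul_const _) hT
      (by fun_prop) continuous_scale (scale_ne hσ) continuous_const (fun _ _ => ha) hq m x).trans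
      (le_of_eq ?_)
    rw [div_pow, mul_pow, sq_sqrt (Nat.cast_nonneg _), inv_pow, inv_pow]
    field_simp
  refine ⟨fun m x v => hmain (pdc φ) m x v (continuous_pdc hφ) (abs_pdc_le hL) fun y => ?_,
    fun m x v => hmain (fun i b => pdc φ b i) m x v (fun i b => continuous_pdc hφ b i)
      (fun i b => abs_pdc_le hL b i) fun y => ?_⟩
  · set u : Eu α := WithLp.toLp 2 v
    have e : ∀ b, ∑ i, pdc φ b i y * v i = fderiv ℝ φ y u b := fun b => by
      simp [fderiv_apply, u, mul_comm]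
    have h := pow_le_pow_left₀ (norm_nonneg _) (((fderiv ℝ φ y).le_opNorm u).trans
      (mul_le_mul_of_nonneg_right (hL y) (norm_nonneg _))) 2
    simpa [e, mul_pow, EuclideanSpace.norm_sq_eq, u] using h
  · set u : Eu β := WithLp.toLp 2 v
    set l : Eu α →L[ℝ] ℝ := (innerSL ℝ u).comp (fderiv ℝ φ y)
    have e : ∀ i, ∑ b, pdc φ b i y * v b = l (EuclideanSpace.basisFun α ℝ i) := fun i => by
      simp [l, pdc, u, PiLp.inner_apply, EuclideanSpace.basisFun_apply, ei]
    have hl : ‖l‖ ≤ ‖u‖ * L := (ContinuousLinearMap.opNorm_comp_le _ _).trans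
      (by rw [innerSL_apply_norm]; exact mul_le_mul_of_nonneg_left (hL y) (norm_nonneg _))
    simp only [e, ← norm_sq_functional]
    refine (pow_le_pow_left₀ (norm_nonneg _) hl 2).trans (le_of_eq ?_)
    simp [mul_pow, EuclideanSpace.norm_sq_eq, u, mul_comm]

/-- The block field of a smoothed mean is a field for the invariant flow step. -/
theorem field_mat [DecidableEq β] (hφ : ContDiff ℝ 1 φ) (hL : ∀ x, ‖fderiv ℝ φ x‖ ≤ L)
    (hσ : 0 < σ) (hσ1 : σ ≤ 1) (ha : |a₀| ≤ 1) (r : ℕ) :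
    FlowStep.Field (blk (FlowStep.lift (mat φ a₀ σ))) (fun m => L * √(m.factorial : ℝ) / σ ^ m)
      (L * √((Nat.factorial (2 * (r + 2))) : ℝ)) σ r := by
  have hL0 : 0 ≤ L := (norm_nonneg _).trans (hL 0)
  obtain ⟨h1, h2⟩ := rowBd_mat hφ hL hσ ha
  refine FlowStep.field_of_blk (tg_mat hφ hL hσ) hσ hσ1 (fun m => by positivity) h1 h2
    fun m hm => ?_
  rw [mul_div_cancel₀ _ (pow_ne_zero _ hσ.ne')]
  exact mul_le_mul_of_nonneg_left (sqrt_le_sqrt (Nat.cast_le.2 (Nat.factorial_le hm))) hL0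

/-- The components of that field. -/
theorem vfield_mat [DecidableEq β] (hφ : ContDiff ℝ 1 φ) (hL : ∀ x, ‖fderiv ℝ φ x‖ ≤ L)
    (hσ : 0 < σ) (x : Eu (α ⊕ β)) :
    (∀ b, sndB (vfield (blk (FlowStep.lift (mat φ a₀ σ))) x) b =
        comp φ a₀ σ b (fstB x) - mean φ a₀ σ b) ∧
      ∀ k, fstB (vfield (blk (FlowStep.lift (mat φ a₀ σ))) x) k =
        -∑ b, sndB x b * mat φ a₀ σ b k (fstB x) := by
  obtain ⟨h1, h2⟩ := FlowStep.vfield_blk (tg_mat (a₀ := a₀) hφ hL hσ) x
  exact ⟨fun b => (h1 b).trans (delta_mat hφ hL hσ b _), h2⟩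

end Vale.Agent.P347.Shift.Rep
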