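import Vale.Agent.P347.Shift.FlowStep
import Vale.Agent.P347.Shift.Rep
import Vale.Agent.P347.Shift.FlowMeas

/-!
# P347: the invariant flow of a smoothed mean, in the centred coordinates

For a centre `c`, a scale `σ` and a room `b` the field on `(w, g)` is `-grad` on the first block and
`b⁻¹ (fb (c + σ √(1 - τ) w) - mean)` on the second. Picard rounds of a surrogate of it are the
deterministic node maps of one emission step.
-/

open MeasureTheory ProbabilityTheory Real Finset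
open scoped ENNReal NNReal RealInnerProductSpace

namespace Vale.Agent.P347.Shift.EmFlow

open Quarter

variable {d : ℕ}

/-- Two vectors as one with two blocks. -/
noncomputable def jn (w g : Sp d) : Eu (Fin d ⊕ Fin d) :=
  WithLp.toLp 2 (Sum.elim (fun i => w i) fun i => g i)

/-- The field at the finer smoothing. -/
noncomputable def fb (σ τ : ℝ) (φ : Sp d → Sp d) (y : Sp d) : Sp d := smth 1 (σ * √τ) φ y

/-- The exact first block: the time average of the transposed derivative applied to `g`. -/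
noncomputable def grad (σ τ b : ℝ) (φ : Sp d → Sp d) (c w g : Sp d) : Sp d :=
  (σ / b) • Quarter.flow √(1 - τ)
    (fun z => ContinuousLinearMap.adjoint (fderiv ℝ φ (c + σ • z)) g) w

/-- The surrogate field: `P` stands for `grad`. -/
noncomputable def sur (σ τ b : ℝ) (φ : Sp d → Sp d) (c : Sp d) (P : Sp d → Sp d → Sp d)
    (x : Eu (Fin d ⊕ Fin d)) : Eu (Fin d ⊕ Fin d) :=
  jn (-P (fstB x) (sndB x))
    (b⁻¹ • (fb σ τ φ (c + (σ * √(1 - τ)) • fstB x) - smth 1 σ φ c))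

/-- Picard rounds on the equispaced nodes. -/
noncomputable def pic (r : ℕ) (S : Eu (Fin d ⊕ Fin d) → Eu (Fin d ⊕ Fin d)) :
    ℕ → Eu (Fin d ⊕ Fin d) → Fin (r + 1) → Eu (Fin d ⊕ Fin d)
  | 0, x, _ => x
  | k + 1, x, i => x + ∑ j, FlowStep.colw r (Quad.node (r + 1) i) j • S (pic r S k x j)

/-- The point at node `i` after `k` rounds, as a function of the point `y` and the vector `g`. -/
noncomputable def iter (r k : ℕ) (σ τ b : ℝ) (φ : Sp d → Sp d) (c : Sp d)
    (P : Sp d → Sp d → Sp d) (i : Fin (r + 1)) (t : Sp d × Sp d) : Sp d :=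
  c + (σ * √(1 - τ)) •
    fstB (pic r (sur σ τ b φ c P) k (jn ((σ * √(1 - τ))⁻¹ • (t.1 - c)) t.2) i)

/-! ### Blocks -/

lemma fstB_jn (w g : Sp d) : fstB (jn w g) = w := by ext i; simp [fstB_apply, jn]

lemma sndB_jn (w g : Sp d) : sndB (jn w g) = g := by ext i; simp [sndB_apply, jn]

lemma jn_split (x : Eu (Fin d ⊕ Fin d)) : jn (fstB x) (sndB x) = x := by
  ext i
  rcases i with i | i <;> simp [fstB_apply, sndB_apply, jn]

lemma continuous_jn : Continuous fun t : Sp d × Sp d => jn t.1 t.2 :=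
  (PiLp.continuous_toLp 2 _).comp (continuous_pi (Sum.rec (fun i => by simp only [Sum.elim_inl]; fun_prop)
    fun i => by simp only [Sum.elim_inr]; fun_prop))

lemma norm_jn_sub_le (w g w' g' : Sp d) : ‖jn w g - jn w' g'‖ ≤ ‖w - w'‖ + ‖g - g'‖ := by
  have h := norm_sq_split (jn w g - jn w' g')
  rw [map_sub, map_sub, fstB_jn, fstB_jn, sndB_jn, sndB_jn] at h
  nlinarith [norm_nonneg (w - w'), norm_nonneg (g - g'), norm_nonneg (jn w g - jn w' g'),
    mul_nonneg (norm_nonneg (w - w')) (norm_nonneg (g - g'))]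

lemma mp_jn : MeasurePreserving (fun t : Sp d × Sp d => jn t.1 t.2) ((gd d).prod (gd d))
    (gam (Fin d ⊕ Fin d)) := by
  refine ⟨continuous_jn.measurable, ?_⟩
  rw [← gam_split.map_eq, Measure.map_map continuous_jn.measurable gam_split.measurable]
  exact (Measure.map_congr (ae_of_all _ fun x => jn_split x)).trans Measure.map_id

/-! ### Averages commute with linear maps -/

variable {F F' : Type} [NormedAddCommGroup F] [NormedSpace ℝ F] [CompleteSpace F]
  [SecondCountableTopology F] [MeasurableSpace F] [BorelSpace F] [NormedAddCommGroup F']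
  [NormedSpace ℝ F'] [CompleteSpace F']

omit [CompleteSpace F] in
lemma continuous_pv_time {h : Sp d → F} (hc : Continuous h) {M : ℝ} (hM : ∀ z, ‖h z‖ ≤ M)
    (w : Sp d) : Continuous fun v => pv v h w := by
  unfold pv smth
  exact continuous_of_dominated (bound := fun _ => M)
    (fun v => (hc.comp (by fun_prop)).measurable.aestronglyMeasurable)
    (fun v => ae_of_all _ fun z => hM _) (integrable_const _)
    (ae_of_all _ fun z => hc.comp (by fun_prop))

lemma flow_clm (ℓ : F →L[ℝ] F') {h : Sp d → F} (hc : Continuous h) {M : ℝ}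
    (hM : ∀ z, ‖h z‖ ≤ M) (κ : ℝ) (w : Sp d) :
    ℓ (∫ v in (0:ℝ)..κ, pv v h w) = ∫ v in (0:ℝ)..κ, pv v (fun z => ℓ (h z)) w := by
  rw [← ℓ.intervalIntegral_comp_comm ((continuous_pv_time hc hM w).intervalIntegrable _ _)]
  refine intervalIntegral.integral_congr fun v _ => ?_
  unfold pv smth
  exact (ℓ.integral_comp_comm (.of_bound (hc.comp (by fun_prop)).measurable.aestronglyMeasurable M
    (ae_of_all _ fun z => hM _))).symm

/-! ### The field -/

variable {φ : Sp d → Sp d} {c : Sp d} {σ τ b Lam : ℝ}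

/-- The mean map in normalised coordinates. -/
noncomputable def nrm (σ b : ℝ) (φ : Sp d → Sp d) (c : Sp d) (z : Sp d) : Sp d :=
  b⁻¹ • φ (c + σ • z)

lemma hasFDerivAt_nrm (hφ : ContDiff ℝ 1 φ) (z : Sp d) :
    HasFDerivAt (nrm σ b φ c) ((σ / b) • fderiv ℝ φ (c + σ • z)) z := by
  have h := ((hφ.differentiable one_ne_zero (c + σ • z)).hasFDerivAt.comp z
    (((hasFDerivAt_id z).const_smul σ).const_add c)).const_smul b⁻¹
  refine h.congr_fderiv ?_
  ext v : 1
  simp [smul_smul, div_eq_inv_mul]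

lemma nrm_spec (hφ : ContDiff ℝ 1 φ) (hL : ∀ x, ‖fderiv ℝ φ x‖ ≤ Lam) (hσ : 0 ≤ σ) (hb : 0 < b) :
    ContDiff ℝ 1 (nrm σ b φ c) ∧ ∀ z, ‖fderiv ℝ (nrm σ b φ c) z‖ ≤ Lam * σ / b := by
  refine ⟨(hφ.comp (contDiff_const.add (contDiff_id.const_smul σ))).const_smul b⁻¹, fun z => ?_⟩
  rw [(hasFDerivAt_nrm hφ z).fderiv, norm_smul, norm_of_nonneg (by positivity)]
  exact (mul_le_mul_of_nonneg_left (hL _) (by positivity)).trans_eq (by ring)

lemma integrable_shift (hφ : ContDiff ℝ 1 φ) (hL : ∀ x, ‖fderiv ℝ φ x‖ ≤ Lam) (y : Sp d)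
    (u : ℝ) : Integrable (fun z => φ (y + u • z)) (gd d) := by
  refine (integrable_of_lip (hφ.comp (contDiff_const.add (contDiff_id.const_smul u)))
    (L := Lam * |u|) fun z => ?_).1
  have h := (hφ.differentiable one_ne_zero (y + u • z)).hasFDerivAt.comp z
    (((hasFDerivAt_id z).const_smul u).const_add y)
  refine le_of_eq_of_le (congrArg _ h.fderiv) ((ContinuousLinearMap.opNorm_comp_le _ _).trans ?_)
  refine mul_le_mul (hL _) ?_ (norm_nonneg _) ((norm_nonneg _).trans (hL 0))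
  rw [norm_smul, norm_eq_abs]
  exact mul_le_of_le_one_right (abs_nonneg _) ContinuousLinearMap.norm_id_le

lemma norm_fb_sub_le (hφ : ContDiff ℝ 1 φ) (hL : ∀ x, ‖fderiv ℝ φ x‖ ≤ Lam) (y y' : Sp d) :
    ‖fb σ τ φ y - fb σ τ φ y'‖ ≤ Lam * ‖y - y'‖ := by
  simp only [fb, smth, one_smul]
  rw [← integral_sub (integrable_shift hφ hL y _) (integrable_shift hφ hL y' _)]
  refine (norm_integral_le_of_norm_le_const (C := Lam * ‖y - y'‖) (ae_of_all _ fun z => ?_)).trans_eq
    (by simp)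
  refine (convex_univ.norm_image_sub_le_of_norm_fderiv_le
    (fun x _ => hφ.differentiable one_ne_zero x) (fun x _ => hL x) (Set.mem_univ _)
    (Set.mem_univ _)).trans_eq ?_
  rw [add_sub_add_right_eq_sub]

lemma scale_eq (hτ1 : τ ≤ 1) {v : ℝ} (hv : v ∈ Set.Icc (0:ℝ) 1) :
    Rep.scale √(1 - τ) √τ v = √(1 - (√(1 - τ) * v) ^ 2) ∨ τ < 0 := by
  rcases lt_or_ge τ 0 with h | h
  · exact Or.inr h
  refine Or.inl (congrArg Real.sqrt ?_)
  rw [mul_pow, sq_sqrt (by linarith), sq_sqrt h, max_eq_left]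
  · ring
  · nlinarith [hv.1, hv.2]

/-- The matrix field is the time average of the derivative. -/
lemma mat_eq (hφ : ContDiff ℝ 1 φ) (hL : ∀ x, ‖fderiv ℝ φ x‖ ≤ Lam) (hτ : 0 ≤ τ) (hτ1 : τ ≤ 1)
    (i j : Fin d) (w : Sp d) :
    Rep.mat φ √(1 - τ) √τ i j w =
      Quarter.flow √(1 - τ) (fun z => fderiv ℝ φ z (ei j)) w i := by
  have h := flow_clm (EuclideanSpace.proj (𝕜 := ℝ) i)
    (h := fun z => fderiv ℝ φ z (ei j))
    ((hφ.continuous_fderiv one_ne_zero).clm_apply continuous_const) (M := Lam)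
    (fun z => ((ContinuousLinearMap.le_opNorm _ _).trans
      (by rw [Rep.norm_ei, mul_one]; exact hL z))) √(1 - τ) w
  show _ = EuclideanSpace.proj (𝕜 := ℝ) i
    (∫ v in (0:ℝ)..√(1 - τ), pv v (fun z => fderiv ℝ φ z (ei j)) w)
  refine Eq.trans ?_ h.symm
  simp only [Rep.mat, Rep.tav]
  rw [show ∫ v in (0:ℝ)..√(1 - τ), pv v (fun z => EuclideanSpace.proj (𝕜 := ℝ) i
      (fderiv ℝ φ z (ei j))) w = √(1 - τ) * ∫ v in (0:ℝ)..1, pv (√(1 - τ) * v)
      (fun z => EuclideanSpace.proj (𝕜 := ℝ) i (fderiv ℝ φ z (ei j))) w by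
    have := intervalIntegral.smul_integral_comp_mul_left (a := 0) (b := 1)
      (fun v => pv v (fun z => EuclideanSpace.proj (𝕜 := ℝ) i (fderiv ℝ φ z (ei j))) w) √(1 - τ)
    simpa [smul_eq_mul] using this.symm, ← intervalIntegral.integral_const_mul]
  refine intervalIntegral.integral_congr fun v hv => ?_
  rw [Set.uIcc_of_le zero_le_one] at hv
  rcases scale_eq hτ1 hv with e | e
  · simp only [pv, smth, smo, e, Rep.pdc, mul_one]
    rfl
  · linarith

/-- The exact field in blocks. -/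
theorem vfield_eq (hφ : ContDiff ℝ 1 φ) (hL : ∀ x, ‖fderiv ℝ φ x‖ ≤ Lam) (hσ : 0 ≤ σ)
    (hτ : 0 < τ) (hτ1 : τ ≤ 1) (hb : 0 < b) (x : Eu (Fin d ⊕ Fin d)) :
    vfield (blk (FlowStep.lift (Rep.mat (nrm σ b φ c) √(1 - τ) √τ))) x =
      jn (-grad σ τ b φ c (fstB x) (sndB x))
        (b⁻¹ • (fb σ τ φ (c + (σ * √(1 - τ)) • fstB x) - smth 1 σ φ c)) := by
  obtain ⟨h1, h2⟩ := nrm_spec (c := c) hφ hL hσ hb
  obtain ⟨v1, v2⟩ := Rep.vfield_mat (a₀ := √(1 - τ)) h1 h2 (sqrt_pos.2 hτ) x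
  have e : ∀ (u : Sp d) (f : Sp d → Sp d) (i : Fin d), Integrable f (gd d) →
      (∫ z, f z i ∂gd d) = (∫ z, f z ∂gd d) i := fun u f i hf =>
    (EuclideanSpace.proj (𝕜 := ℝ) i).integral_comp_comm hf
  rw [← jn_split (vfield (blk (FlowStep.lift (Rep.mat (nrm σ b φ c) √(1 - τ) √τ))) x)]
  congr 1
  · ext k
    rw [v2]
    simp only [PiLp.neg_apply, neg_inj, grad, Quarter.flow, PiLp.smul_apply, smul_eq_mul]
    simp only [mat_eq h1 h2 hτ.le hτ1, Quarter.flow]
    set w := fstB x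
    set g := sndB x
    have hd : Continuous fun z => fderiv ℝ (nrm σ b φ c) z (ei k) :=
      (h1.continuous_fderiv one_ne_zero).clm_apply continuous_const
    have hda : Continuous fun z => ContinuousLinearMap.adjoint (fderiv ℝ φ (c + σ • z)) g :=
      ((ContinuousLinearMap.adjoint (𝕜 := ℝ)).continuous.comp
        ((hφ.continuous_fderiv one_ne_zero).comp (by fun_prop))).clm_apply continuous_const
    have l1 := flow_clm (innerSL ℝ g) hd (M := Lam * σ / b) (fun z =>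
      (ContinuousLinearMap.le_opNorm _ _).trans (by rw [Rep.norm_ei, mul_one]; exact h2 z))
      √(1 - τ) w
    have l2 := flow_clm ((σ / b) • EuclideanSpace.proj (𝕜 := ℝ) k) hda (M := Lam * ‖g‖) (fun z =>
      (ContinuousLinearMap.le_opNorm _ _).trans (mul_le_mul_of_nonneg_right
        ((LinearIsometryEquiv.norm_map _ _).trans_le (hL _)) (norm_nonneg g))) √(1 - τ) w
    simp only [smul_apply, PiLp.proj_apply, smul_eq_mul, innerSL_apply_apply] at l1 l2
    rw [l2]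
    refine Eq.trans ?_ ((l1.trans ?_))
    · rw [PiLp.inner_apply]
      exact sum_congr rfl fun i _ => by simp [mul_comm]
    · refine congrArg (fun f => ∫ v in (0:ℝ)..√(1 - τ), pv v f w) (funext fun z => ?_)
      rw [(hasFDerivAt_nrm hφ z).fderiv, smul_apply, real_inner_smul_right,
        ← ContinuousLinearMap.adjoint_inner_left, real_inner_comm]
      simp [ei, PiLp.inner_apply]
  · ext k
    rw [v1]
    simp only [PiLp.smul_apply, PiLp.sub_apply, smul_eq_mul, mul_sub, Rep.comp, Rep.mean, nrm,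
      integral_const_mul, fb, smth, one_smul]
    rw [sq_sqrt (by linarith : (0:ℝ) ≤ 1 - τ), sq_sqrt hτ.le, sub_add_cancel, sqrt_one]
    simp only [one_smul, smul_add, smul_smul, ← add_assoc]
    rw [← e c _ k (integrable_shift hφ hL c σ), ← e c _ k (integrable_shift hφ hL _ (σ * √τ))]

/-! ### The surrogate and its rounds -/

variable {P : Sp d → Sp d → Sp d} {Λ : ℝ} {r : ℕ}

lemma norm_sur_sub_le (hφ : ContDiff ℝ 1 φ) (hL : ∀ x, ‖fderiv ℝ φ x‖ ≤ Lam) (hσ : 0 ≤ σ)
    (hb : 0 < b) (hτ : 0 ≤ τ) (hΛ : 0 ≤ Λ)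
    (hP : ∀ w g w' g', ‖P w g - P w' g'‖ ≤ Λ * (‖w - w'‖ + ‖g - g'‖))
    (x y : Eu (Fin d ⊕ Fin d)) :
    ‖sur σ τ b φ c P x - sur σ τ b φ c P y‖ ≤ (2 * Λ + Lam * σ / b) * ‖x - y‖ := by
  have hL0 : 0 ≤ Lam := (norm_nonneg _).trans (hL 0)
  have hs : σ * √(1 - τ) ≤ σ := mul_le_of_le_one_right hσ (sqrt_le_one.2 (by linarith))
  refine (norm_jn_sub_le _ _ _ _).trans ?_
  rw [add_mul]
  refine add_le_add ?_ ?_
  · rw [neg_sub_neg, norm_sub_rev]
    refine (hP _ _ _ _).trans ?_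
    rw [← map_sub, ← map_sub, two_mul, add_mul, mul_add]
    exact add_le_add (mul_le_mul_of_nonneg_left (norm_fstB_le _) hΛ)
      (mul_le_mul_of_nonneg_left (norm_sndB_le _) hΛ)
  · rw [← smul_sub, sub_sub_sub_cancel_right, norm_smul, norm_of_nonneg (inv_nonneg.2 hb.le)]
    refine (mul_le_mul_of_nonneg_left ((norm_fb_sub_le hφ hL _ _).trans ?_)
      (inv_nonneg.2 hb.le)).trans_eq (by rw [div_eq_inv_mul, mul_assoc])
    rw [add_sub_add_left_eq_sub, ← smul_sub, ← map_sub, norm_smul,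
      norm_of_nonneg (mul_nonneg hσ (sqrt_nonneg _)), ← mul_assoc]
    exact mul_le_mul (mul_le_mul_of_nonneg_left hs hL0) (norm_fstB_le _) (norm_nonneg _)
      (mul_nonneg hL0 hσ)

lemma norm_pic_sub_le {S : Eu (Fin d ⊕ Fin d) → Eu (Fin d ⊕ Fin d)} {L A : ℝ} (hL : 0 ≤ L)
    (hS : ∀ x y, ‖S x - S y‖ ≤ L * ‖x - y‖)
    (hA : ∀ i, ∑ j, |FlowStep.colw r (Quad.node (r + 1) i) j| ≤ A) (hAL : A * L ≤ 1 / 2) :
    ∀ k x y i, ‖pic r S k x i - pic r S k y i‖ ≤ 2 * ‖x - y‖
  | 0, x, y, _ => by simp only [pic]; linarith [norm_nonneg (x - y)]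
  | k + 1, x, y, i => by
    simp only [pic, add_sub_add_comm, ← sum_sub_distrib, ← smul_sub]
    refine (norm_add_le _ _).trans ((add_le_add le_rfl ((norm_sum_le _ _).trans
      (sum_le_sum (g := fun j => |FlowStep.colw r (Quad.node (r + 1) i) j| * (L * (2 * ‖x - y‖)))
        fun j _ => ?_))).trans ?_)
    · rw [norm_smul, norm_eq_abs]
      exact mul_le_mul_of_nonneg_left ((hS _ _).trans
        (mul_le_mul_of_nonneg_left (norm_pic_sub_le hL hS hA hAL k x y j) hL)) (abs_nonneg _)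
    · rw [← sum_mul]
      have h1 := mul_le_mul_of_nonneg_right (hA i) (mul_nonneg hL (by positivity : 0 ≤ 2 * ‖x - y‖))
      have h2 := mul_le_mul_of_nonneg_right hAL (by positivity : 0 ≤ 2 * ‖x - y‖)
      linarith

lemma norm_iter_sub_le (hσ : 0 < σ) (hτ : τ < 1) {L A : ℝ} (hL : 0 ≤ L)
    (hS : ∀ x y, ‖sur σ τ b φ c P x - sur σ τ b φ c P y‖ ≤ L * ‖x - y‖)
    (hA : ∀ i, ∑ j, |FlowStep.colw r (Quad.node (r + 1) i) j| ≤ A) (hAL : A * L ≤ 1 / 2)
    (k : ℕ) (i : Fin (r + 1)) (y y' g : Sp d) :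
    ‖iter r k σ τ b φ c P i (y, g) - iter r k σ τ b φ c P i (y', g)‖ ≤ 2 * ‖y - y'‖ := by
  have hs : 0 < σ * √(1 - τ) := mul_pos hσ (sqrt_pos.2 (by linarith))
  simp only [iter, add_sub_add_left_eq_sub, ← smul_sub, ← map_sub, norm_smul,
    norm_of_nonneg hs.le]
  refine (mul_le_mul_of_nonneg_left ((norm_fstB_le _).trans
    ((norm_pic_sub_le hL hS hA hAL k _ _ i).trans (mul_le_mul_of_nonneg_left
      (norm_jn_sub_le _ _ _ _) zero_le_two))) hs.le).trans_eq ?_
  rw [sub_self, norm_zero, add_zero, ← smul_sub, norm_smul, sub_sub_sub_cancel_right,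
    norm_of_nonneg (inv_nonneg.2 hs.le), mul_left_comm _ (2:ℝ), mul_inv_cancel_left₀ hs.ne']

end Vale.Agent.P347.Shift.EmFlow
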