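import Vale.Agent.P347.Shift.EmFlow

/-!
# P347: the maps of one emission step are measurable in the input
-/

open MeasureTheory ProbabilityTheory Real Finset Filter Topology
open scoped ENNReal NNReal RealInnerProductSpace

namespace Vale.Agent.P347.Shift.EmFlow

open Quarter

variable {d r : ℕ} {α : Type} [MeasurableSpace α] {φ : α → Sp d → Sp d} {c : α → Sp d}
  {σ τ b : ℝ}

lemma measurable_dderiv (hm : Measurable fun t : α × Sp d => φ t.1 t.2)
    (hd : ∀ a, Differentiable ℝ (φ a)) (v : Sp d) :
    Measurable fun t : α × Sp d => fderiv ℝ (φ t.1) t.2 v := by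
  refine measurable_of_tendsto_metrizable (f := fun (n : ℕ) (t : α × Sp d) =>
    (n : ℝ) • (φ t.1 (t.2 + (n : ℝ)⁻¹ • v) - φ t.1 t.2)) (fun n => ?_) (tendsto_pi_nhds.2 fun t => ?_)
  · exact ((hm.comp (by fun_prop : Measurable fun t : α × Sp d => (t.1, t.2 + (n : ℝ)⁻¹ • v))).sub
      hm).fun_const_smul _
  · refine (hd t.1 t.2).hasFDerivAt.lim v (l := atTop) (c := fun n : ℕ => (n : ℝ))
      (tendsto_norm_atTop_atTop.comp tendsto_natCast_atTop_atTop) |>.congr fun n => ?_
    rfl

lemma measurable_adjoint (hm : Measurable fun t : α × Sp d => φ t.1 t.2)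
    (hd : ∀ a, Differentiable ℝ (φ a)) :
    Measurable fun t : (α × Sp d) × Sp d =>
      ContinuousLinearMap.adjoint (fderiv ℝ (φ t.1.1) t.1.2) t.2 := by
  have e : ∀ t : (α × Sp d) × Sp d,
      ContinuousLinearMap.adjoint (fderiv ℝ (φ t.1.1) t.1.2) t.2 =
        ∑ i, ⟪t.2, fderiv ℝ (φ t.1.1) t.1.2 (ei i)⟫ • ei i := fun t => by
    ext j
    simp only [← ContinuousLinearMap.adjoint_inner_left]
    simp [ei, PiLp.inner_apply, Pi.single_apply]
  simp only [e]
  exact Finset.measurable_sum _ fun i _ =>
    (measurable_snd.inner ((measurable_dderiv hm hd (ei i)).comp measurable_fst)).smul_const _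

/-- A mean over a Gaussian vector of a jointly measurable map. -/
lemma measurable_mean {β : Type} [MeasurableSpace β] {f : β × Sp d → Sp d} (hf : Measurable f) :
    Measurable fun t => ∫ z, f (t, z) ∂gd d :=
  (hf.stronglyMeasurable.integral_prod_right').measurable

lemma measurable_fb (hm : Measurable fun t : α × Sp d => φ t.1 t.2) (u : ℝ) :
    Measurable fun t : α × Sp d => smth 1 u (φ t.1) t.2 :=
  measurable_mean (f := fun p : (α × Sp d) × Sp d => φ p.1.1 ((1:ℝ) • p.1.2 + u • p.2))
    (hm.comp (by fun_prop : Measurable fun p : (α × Sp d) × Sp d =>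
      (p.1.1, (1:ℝ) • p.1.2 + u • p.2)))

lemma measurable_avg {β : Type} [MeasurableSpace β] {h : β × Sp d → Sp d} (hh : Measurable h)
    {w : β → Sp d} (hw : Measurable w) {κ : ℝ} (hκ : 0 ≤ κ) :
    Measurable fun t => Quarter.flow κ (fun z => h (t, z)) (w t) := by
  have h1 : Measurable fun p : β × ℝ => pv p.2 (fun z => h (p.1, z)) (w p.1) := by
    unfold pv smth
    refine measurable_mean (f := fun q : (β × ℝ) × Sp d =>
      h (q.1.1, q.1.2 • w q.1.1 + √(1 - q.1.2 ^ 2) • q.2)) (hh.comp ?_)
    exact (measurable_fst.comp measurable_fst).prodMk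
      (((measurable_snd.comp measurable_fst).smul (hw.comp (measurable_fst.comp measurable_fst))).add
        ((measurable_const.sub ((measurable_snd.comp measurable_fst).pow_const 2)).sqrt.smul
          measurable_snd))
  simp only [Quarter.flow, intervalIntegral.integral_of_le hκ]
  exact (h1.stronglyMeasurable.integral_prod_right'
    (ν := (volume : Measure ℝ).restrict (Set.Ioc 0 κ))).measurable

lemma measurable_grad (hm : Measurable fun t : α × Sp d => φ t.1 t.2)
    (hd : ∀ a, Differentiable ℝ (φ a)) (hc : Measurable c) :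
    Measurable fun t : α × Sp d × Sp d => grad σ τ b (φ t.1) (c t.1) t.2.1 t.2.2 := by
  have hj : Measurable fun q : (α × Sp d × Sp d) × Sp d =>
      ((q.1.1, c q.1.1 + σ • q.2), q.1.2.2) :=
    ((measurable_fst.comp measurable_fst).prodMk ((hc.comp (measurable_fst.comp measurable_fst)).add
      (measurable_snd.fun_const_smul σ))).prodMk
        (measurable_snd.comp (measurable_snd.comp measurable_fst))
  obtain ⟨A, hA⟩ : ∃ A : (α × Sp d) × Sp d → Sp d, ∀ t,
      A t = ContinuousLinearMap.adjoint (fderiv ℝ (φ t.1.1) t.1.2) t.2 := ⟨_, fun t => rfl⟩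
  have hAm : Measurable A := by rw [funext hA]; exact measurable_adjoint hm hd
  obtain ⟨h, hh⟩ : ∃ h : (α × Sp d × Sp d) × Sp d → Sp d, ∀ q,
      h q = A ((q.1.1, c q.1.1 + σ • q.2), q.1.2.2) := ⟨_, fun q => rfl⟩
  have hhm : Measurable h := by rw [funext hh]; exact hAm.comp hj
  have := (measurable_avg hhm (w := fun t : α × Sp d × Sp d => t.2.1)
    (measurable_fst.comp measurable_snd) (sqrt_nonneg (1 - τ))).fun_const_smul (σ / b)
  simp only [hh, hA] at this
  exact this

lemma measurable_jn {β : Type} [MeasurableSpace β] {f g : β → Sp d} (hf : Measurable f)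
    (hg : Measurable g) : Measurable fun t => jn (f t) (g t) :=
  continuous_jn.measurable.comp (hf.prodMk hg)

/-- The exact field, jointly. -/
lemma measurable_exact (hm : Measurable fun t : α × Sp d => φ t.1 t.2)
    (hd : ∀ a, Differentiable ℝ (φ a)) (hc : Measurable c) :
    Measurable fun t : α × Eu (Fin d ⊕ Fin d) => jn (-grad σ τ b (φ t.1) (c t.1) (fstB t.2) (sndB t.2))
      (b⁻¹ • (fb σ τ (φ t.1) (c t.1 + (σ * √(1 - τ)) • fstB t.2) - smth 1 σ (φ t.1) (c t.1))) := by
  refine measurable_jn ?_ ?_
  · exact ((measurable_grad hm hd hc).comp (by fun_prop : Measurable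
      fun t : α × Eu (Fin d ⊕ Fin d) => (t.1, fstB t.2, sndB t.2))).neg
  · exact (((measurable_fb hm (σ * √τ)).comp (by fun_prop : Measurable
      fun t : α × Eu (Fin d ⊕ Fin d) => (t.1, c t.1 + (σ * √(1 - τ)) • fstB t.2))).sub
        ((measurable_fb hm σ).comp (measurable_fst.prodMk (hc.comp measurable_fst)))).fun_const_smul _

variable {P : α → Sp d → Sp d → Sp d}

/-- The node map, jointly. -/
lemma measurable_iter (hm : Measurable fun t : α × Sp d => φ t.1 t.2) (hc : Measurable c)
    (hP : Measurable fun t : α × (Sp d × Sp d) => P t.1 t.2.1 t.2.2) (k : ℕ) (i : Fin (r + 1)) :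
    Measurable fun t : α × (Sp d × Sp d) =>
      iter r k σ τ b (φ t.1) (c t.1) (P t.1) i t.2 := by
  have hS : Measurable fun t : α × Eu (Fin d ⊕ Fin d) =>
      sur σ τ b (φ t.1) (c t.1) (P t.1) t.2 := by
    refine measurable_jn ?_ ?_
    · exact (hP.comp (by fun_prop : Measurable
        fun t : α × Eu (Fin d ⊕ Fin d) => (t.1, (fstB t.2, sndB t.2)))).neg
    · exact (((measurable_fb hm (σ * √τ)).comp (by fun_prop : Measurable
        fun t : α × Eu (Fin d ⊕ Fin d) => (t.1, c t.1 + (σ * √(1 - τ)) • fstB t.2))).sub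
          ((measurable_fb hm σ).comp
            (measurable_fst.prodMk (hc.comp measurable_fst)))).fun_const_smul _
  have hk : ∀ k i, Measurable fun t : α × Eu (Fin d ⊕ Fin d) =>
      pic r (sur σ τ b (φ t.1) (c t.1) (P t.1)) k t.2 i := by
    intro k
    induction k with
    | zero => exact fun i => measurable_snd
    | succ k ih =>
      exact fun i => measurable_snd.add (Finset.measurable_sum _ fun j _ =>
        (hS.comp (measurable_fst.prodMk (ih j))).fun_const_smul _)
  exact (hc.comp measurable_fst).add ((fstB.measurable.comp ((hk k i).comp (measurable_fst.prodMk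
    (measurable_jn (((measurable_fst.comp measurable_snd).sub
      (hc.comp measurable_fst)).fun_const_smul _)
      (measurable_snd.comp measurable_snd))))).fun_const_smul _)

end Vale.Agent.P347.Shift.EmFlow
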