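import Vale.Agent.P347.Shift.EmMeas
import Vale.Agent.P347.Shift.EmAssemble

/-!
# P347: one step of the emission of a smoothed mean

A centre known through an emitter at half the smoothing, and emissions of the finer smoothing at
the exact Picard nodes, give an emission of the mean. The error is the flow quadrature, the
surrogate error read under the Gaussian law, the last contraction, and the errors of what is fed in.
-/

open MeasureTheory ProbabilityTheory Real Finset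
open scoped ENNReal NNReal

namespace Vale.Agent.P347.Shift

open Quarter EmFlow

namespace EmStep

variable {d : ℕ}

/-- The total weight of collocation. -/
noncomputable def cwgt (r : ℕ) : ℝ :=
  (∑ i, ∑ j, |FlowStep.colw r (Quad.node (r + 1) i) j|) + ∑ j, |FlowStep.colw r 1 j|

lemma sum_colw_one (r : ℕ) : ∑ j, FlowStep.colw r 1 j = 1 := by
  simpa using (FlowStep.exact_colw r zero_le_one le_rfl).exact' 0 (Nat.zero_le r)

lemma row_le (r : ℕ) (i : Fin (r + 1)) :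
    ∑ j, |FlowStep.colw r (Quad.node (r + 1) i) j| ≤ cwgt r :=
  (single_le_sum (f := fun i => ∑ j, |FlowStep.colw r (Quad.node (r + 1) i) j|)
    (fun _ _ => sum_nonneg fun _ _ => abs_nonneg _) (mem_univ i)).trans
    (le_add_of_nonneg_right (sum_nonneg fun _ _ => abs_nonneg _))

lemma out_le (r : ℕ) : ∑ j, |FlowStep.colw r 1 j| ≤ cwgt r :=
  le_add_of_nonneg_left (sum_nonneg fun _ _ => sum_nonneg fun _ _ => abs_nonneg _)

lemma wgt_nonneg (r : ℕ) : 0 ≤ cwgt r :=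
  le_trans (sum_nonneg fun _ _ => abs_nonneg _) (out_le r)

/-- The constant of the flow error. -/
noncomputable def cst (r : ℕ) : ℝ :=
  2 * (1 + cwgt r) * iterC (r + 2) 0 * √((Nat.factorial (2 * (r + 2))) : ℝ) ^ (r + 2) * 4

/-- The constant of one step. -/
noncomputable def emC (r : ℕ) : ℝ := 1 + cst r + 4 * cwgt r + 4

lemma cst_nonneg (r : ℕ) : 0 ≤ cst r := by
  have := wgt_nonneg r
  have := iterC_nonneg (r + 2) 0
  unfold cst; positivity

lemma emC_spec (r : ℕ) : 1 ≤ emC r ∧ cst r ≤ emC r ∧ 4 * cwgt r ≤ emC r ∧ 4 ≤ emC r := by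
  have := cst_nonneg r
  have := wgt_nonneg r
  unfold emC
  refine ⟨?_, ?_, ?_, ?_⟩ <;> linarith

/-- The error of the flow as a number. -/
lemma bound_le (r k : ℕ) {x L u s : ℝ} (hx : 0 ≤ x) (hL : L ≤ 2 * x) (hL0 : 0 ≤ L) (hu : 0 ≤ u)
    (hs : 0 ≤ s) (hC : emC r * x ≤ 1) (n : ℕ) :
    (1 + cwgt r) * (iterC (r + 2) 0 * (u * √((Nat.factorial (2 * (r + 2))) : ℝ)) ^ (r + 2) *
        (2 * √((2 * n : ℕ) : ℝ))) + cwgt r * s +
      cwgt r * (L * ((cwgt r * L) ^ k * (2 * √((2 * n : ℕ) : ℝ)) +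
        2 * ((1 + cwgt r) * (iterC (r + 2) 0 * (u * √((Nat.factorial (2 * (r + 2))) : ℝ)) ^ (r + 2) *
          (2 * √((2 * n : ℕ) : ℝ))) + cwgt r * s))) ≤
      emC r * ((u ^ (r + 2) + (emC r * x) ^ k) * √(n : ℝ) + s) := by
  obtain ⟨h1, h2, h4, h5⟩ := emC_spec r
  have hw := wgt_nonneg r
  have hi := iterC_nonneg (r + 2) 0
  set Q := (1 + cwgt r) * (iterC (r + 2) 0 *
    (u * √((Nat.factorial (2 * (r + 2))) : ℝ)) ^ (r + 2) * (2 * √((2 * n : ℕ) : ℝ))) with hQ
  have hQ0 : 0 ≤ Q := by rw [hQ]; positivity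
  have hq : cwgt r * L ≤ emC r * x :=
    (mul_le_mul_of_nonneg_left hL hw).trans (by nlinarith)
  have hq2 : cwgt r * L ≤ 1 / 2 := (mul_le_mul_of_nonneg_left hL hw).trans (by nlinarith)
  have hr : √((2 * n : ℕ) : ℝ) ≤ 2 * √(n : ℝ) := by
    rw [sqrt_le_iff, mul_pow, sq_sqrt (Nat.cast_nonneg n)]
    exact ⟨by positivity, by push_cast; linarith [(Nat.cast_nonneg n : (0:ℝ) ≤ n)]⟩
  have hk : (cwgt r * L) ^ k ≤ (emC r * x) ^ k := pow_le_pow_left₀ (by positivity) hq k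
  have e1 : Q ≤ cst r / 2 * (u ^ (r + 2) * √(n : ℝ)) := by
    rw [hQ, cst, mul_pow]
    have := mul_le_mul_of_nonneg_left hr (by positivity : 0 ≤ (1 + cwgt r) * (iterC (r + 2) 0 *
      (u ^ (r + 2) * √((Nat.factorial (2 * (r + 2))) : ℝ) ^ (r + 2)) * 2))
    linarith
  have e2 : cwgt r * (L * ((cwgt r * L) ^ k * (2 * √((2 * n : ℕ) : ℝ)))) ≤
      2 * ((emC r * x) ^ k * √(n : ℝ)) := by
    have := mul_le_mul hq2 (mul_le_mul hk (mul_le_mul_of_nonneg_left hr zero_le_two)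
      (by positivity) (by positivity)) (by positivity) (by norm_num)
    linarith
  have e3 : cwgt r * (L * (2 * (Q + cwgt r * s))) ≤ Q + cwgt r * s := by
    nlinarith [mul_le_mul_of_nonneg_right hq2 (by positivity : 0 ≤ 2 * (Q + cwgt r * s))]
  have e4 : cst r * (u ^ (r + 2) * √(n : ℝ)) ≤ emC r * (u ^ (r + 2) * √(n : ℝ)) :=
    mul_le_mul_of_nonneg_right h2 (by positivity)
  have e5 : 2 * ((emC r * x) ^ k * √(n : ℝ)) ≤ emC r * ((emC r * x) ^ k * √(n : ℝ)) :=
    mul_le_mul_of_nonneg_right (by linarith) (by positivity)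
  have e6 : 2 * cwgt r * s ≤ emC r * s := mul_le_mul_of_nonneg_right (by linarith) hs
  nlinarith

/-- The ideal map of one step. -/
theorem exists_ideal (r k : ℕ) {α : Type} [MeasurableSpace α] {φ : α → Sp d → Sp d}
    {c : α → Sp d} {P : α → Sp d → Sp d → Sp d} {σ τ b Lam Λ : ℝ} (hσ : 0 < σ) (hτ : 0 < τ)
    (hτ2 : τ ≤ 1 / 2) (hb : 0 < b) (hLam : 0 ≤ Lam) (hΛ : 0 ≤ Λ)
    (hC : emC r * (Lam * σ / b + Λ) ≤ 1) (hm : Measurable fun t : α × Sp d => φ t.1 t.2)
    (hc : Measurable c)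
    (hφ : ∀ a, ContDiff ℝ 1 (φ a)) (hL : ∀ a x, ‖fderiv ℝ (φ a) x‖ ≤ Lam)
    (hP : ∀ a w g w' g', ‖P a w g - P a w' g'‖ ≤ Λ * (‖w - w'‖ + ‖g - g'‖))
    {s : α → ℝ} (hs : ∀ a, 0 ≤ s a)
    (hPs : ∀ a, eLpNorm (fun t : Sp d × Sp d => P a t.1 t.2 - grad σ τ b (φ a) (c a) t.1 t.2) 2
      ((gd d).prod (gd d)) ≤ ENNReal.ofReal (s a)) :
    ∃ T : α × (Sp d × Sp d) → Sp d, Measurable T ∧
      (∀ a, MeasurePreserving (fun t => T (a, t)) ((gd d).prod (gd d)) (gd d)) ∧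
      ∀ a, eLpNorm (fun t : Sp d × Sp d => b • t.2 + (∑ i, FlowStep.colw r 1 i •
          fb σ τ (φ a) (iter r k σ τ b (φ a) (c a) (P a) i
            (c a + (σ * √(1 - τ)) • t.1, t.2))) -
          (smth 1 σ (φ a) (c a) + b • T (a, t))) 2 ((gd d).prod (gd d)) ≤
        ENNReal.ofReal (emC r * b * (((Lam * σ / (b * τ)) ^ (r + 2) +
          (emC r * (Lam * σ / b + Λ)) ^ k) * √(d : ℝ) + s a)) := by
  have hτ1 : τ ≤ 1 := by linarith
  have hs1 : 0 < σ * √(1 - τ) := mul_pos hσ (sqrt_pos.2 (by linarith))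
  set M : α → Fin d ⊕ Fin d → Fin d ⊕ Fin d → Eu (Fin d ⊕ Fin d) → ℝ := fun a =>
    blk (FlowStep.lift (Rep.mat (nrm σ b (φ a) (c a)) √(1 - τ) √τ)) with hM
  have hF : ∀ a, FlowStep.Field (M a) (fun m => Lam * σ / b * √(m.factorial : ℝ) / √τ ^ m)
      (Lam * σ / b * √((Nat.factorial (2 * (r + 2))) : ℝ)) √τ r := fun a =>
    Rep.field_mat (nrm_spec (hφ a) (hL a) hσ.le hb).1 (nrm_spec (hφ a) (hL a) hσ.le hb).2
      (sqrt_pos.2 hτ) (sqrt_le_one.2 hτ1)
      (by rw [abs_of_nonneg (sqrt_nonneg _)]; exact sqrt_le_one.2 (by linarith)) r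
  have hV : ∀ a x, vfield (M a) x = jn (-grad σ τ b (φ a) (c a) (fstB x) (sndB x))
      (b⁻¹ • (fb σ τ (φ a) (c a + (σ * √(1 - τ)) • fstB x) - smth 1 σ (φ a) (c a))) := fun a =>
    EmFlow.vfield_eq (hφ a) (hL a) hσ.le hτ hτ1 hb
  choose Φ h0 hΦ hcΦ hpΦ using fun a => exists_flow (hF a).tg (hF a).anti
    (mul_nonneg (by positivity) ((hF a).nonneg 1)) (mul_nonneg (by positivity) ((hF a).nonneg 0))
    (FlowStep.norm_vfield_le (hF a).nonneg (hF a).row)
  have hVm : Measurable fun p : α × Eu (Fin d ⊕ Fin d) => vfield (M p.1) p.2 := by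
    simp only [hV]
    exact measurable_exact hm (fun a => (hφ a).differentiable one_ne_zero) hc
  have hVs : ∀ a, ContDiff ℝ 1 (vfield (M a)) := fun a =>
    ContDiff.sum fun i _ => ((tg_field (hF a).tg i).1.smul contDiff_const).of_le
      (by exact_mod_cast le_top)
  have hΦm := measurable_flow hVm hVs h0 (fun a x t => hΦ a x t) 1 zero_le_one
  refine ⟨fun p => sndB (Φ p.1 1 (jn p.2.1 p.2.2)),
    (sndB (α := Fin d) (β := Fin d)).measurable.comp (hΦm.comp (measurable_fst.prodMk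
      (continuous_jn.measurable.comp measurable_snd))),
    fun a => (gam_sndB.comp (hpΦ a 1)).comp mp_jn, fun a => ?_⟩
  set S := sur σ τ b (φ a) (c a) (P a) with hS
  set L := 2 * Λ + Lam * σ / b
  have hL0 : 0 ≤ L := by positivity
  have hLx : L ≤ 2 * (Lam * σ / b + Λ) := by
    have : 0 ≤ Lam * σ / b := by positivity
    linarith
  have hSl : ∀ x y, ‖S x - S y‖ ≤ L * ‖x - y‖ :=
    norm_sur_sub_le (hφ a) (hL a) hσ.le hb hτ.le hΛ (hP a)
  set LN : ℝ≥0 := ⟨L, hL0⟩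
  set A : ℝ≥0 := ⟨cwgt r, wgt_nonneg r⟩
  have hSL : LipschitzWith LN S := LipschitzWith.of_dist_le_mul fun x y => by
    rw [dist_eq_norm, dist_eq_norm]; exact hSl x y
  have hAr : ∀ (w : Fin (r + 1) → ℝ), ∑ j, |w j| ≤ cwgt r → ∑ j, ‖w j‖₊ ≤ A := fun w hw => by
    rw [← NNReal.coe_le_coe, NNReal.coe_sum]
    simp only [coe_nnnorm, norm_eq_abs]; exact hw
  have hq2 : cwgt r * L ≤ 1 / 2 := (mul_le_mul_of_nonneg_left hLx (wgt_nonneg r)).trans (by
    obtain ⟨-, -, h4, -⟩ := emC_spec r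
    nlinarith [(by positivity : 0 ≤ Lam * σ / b + Λ)])
  have hpic : ∀ k i, Continuous fun x => pic r S k x i := fun k i =>
    (LipschitzWith.of_dist_le_mul (K := 2) fun x y => by
      rw [dist_eq_norm, dist_eq_norm]
      exact norm_pic_sub_le hL0 hSl (row_le r) hq2 k x y i).continuous
  have hsur : eLpNorm (fun y => vfield (M a) y - S y) 2 (gam (Fin d ⊕ Fin d)) ≤
      ENNReal.ofReal (s a) := by
    have hcV : Continuous fun y => vfield (M a) y - S y :=
      (FlowStep.continuous_vfield (hF a).tg).sub hSL.continuous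
    rw [← eLpNorm_comp_measurePreserving hcV.aestronglyMeasurable mp_jn]
    refine (eLpNorm_mono fun t => ?_).trans (hPs a)
    simp only [Function.comp_apply, hV, hS, sur, fstB_jn, sndB_jn]
    refine (norm_jn_sub_le _ _ _ _).trans_eq ?_
    rw [sub_self, norm_zero, add_zero, neg_sub_neg]
  have hstep := FlowStep.flow_step_of (hF a)
    (fun i => FlowStep.exact_colw r ((rule_nc r).mem i).1 ((rule_nc r).mem i).2)
    (FlowStep.exact_colw r zero_le_one le_rfl) (α := A) (fun i => hAr _ (row_le r i))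
    (hAr _ (out_le r)) hSL hsur (q := A * LN) le_rfl
    (by rw [← NNReal.coe_le_coe]; push_cast; exact hq2)
    (hΦ a) (hcΦ a) (hpΦ a) (h0 a) (Ω := Eu (Fin d ⊕ Fin d)) (x := fun x => x)
    (z := fun k i x => pic r S k x i) (MeasurePreserving.id _)
    (fun k i => (hpic k i).aestronglyMeasurable) (fun i => ae_of_all _ fun x => rfl) (e' := 0)
    (fun k i => by simp [pic]) k
  -- the outputs
  set Dv := fun x : Eu (Fin d ⊕ Fin d) =>
    Φ a 1 x - (x + ∑ j, FlowStep.colw r 1 j • S (pic r S k x j))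
  have hDc : Continuous Dv :=
    ((hcΦ a).comp (continuous_const.prodMk continuous_id)).sub (continuous_id.add
      (continuous_finsetSum _ fun j _ => (hSL.continuous.comp (hpic k j)).fun_const_smul _))
  have hid : ∀ t : Sp d × Sp d, b • t.2 + (∑ i, FlowStep.colw r 1 i •
      fb σ τ (φ a) (iter r k σ τ b (φ a) (c a) (P a) i (c a + (σ * √(1 - τ)) • t.1, t.2))) -
      (smth 1 σ (φ a) (c a) + b • sndB (Φ a 1 (jn t.1 t.2))) =
      -(b • sndB (Dv (jn t.1 t.2))) := fun t => by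
    simp only [Dv, map_sub, map_add, map_sum, map_smul, sndB_jn, hS, sur, iter,
      add_sub_cancel_left, inv_smul_smul₀ hs1.ne']
    simp only [smul_sub, smul_add, smul_sum, smul_smul, sum_sub_distrib, ← sum_smul]
    simp only [mul_comm (FlowStep.colw r 1 _) b⁻¹, ← mul_assoc, ← mul_sum, sum_colw_one,
      mul_inv_cancel₀ hb.ne', mul_one, one_mul, one_smul]
    abel
  refine (eLpNorm_mono (g := fun t : Sp d × Sp d => b • Dv (jn t.1 t.2)) fun t => ?_).trans ?_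
  · rw [hid, norm_neg, norm_smul, norm_smul]
    exact mul_le_mul_of_nonneg_left (norm_sndB_le _) (norm_nonneg _)
  rw [show (fun t : Sp d × Sp d => b • Dv (jn t.1 t.2)) = b • (Dv ∘ fun t => jn t.1 t.2) from rfl,
    eLpNorm_const_smul, eLpNorm_comp_measurePreserving hDc.aestronglyMeasurable mp_jn,
    Real.enorm_eq_ofReal hb.le, mul_comm (emC r) b, mul_assoc, ENNReal.ofReal_mul hb.le]
  refine mul_le_mul' le_rfl (hstep.trans ?_)
  have hn : (Fintype.card (Fin d ⊕ Fin d)) = 2 * d := by simp; ring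
  have hu : Lam * σ / b * √((Nat.factorial (2 * (r + 2))) : ℝ) / √τ ^ 2 =
      Lam * σ / (b * τ) * √((Nat.factorial (2 * (r + 2))) : ℝ) := by
    rw [sq_sqrt hτ.le]; field_simp
  have hQ : 0 ≤ (1 + cwgt r) * (iterC (r + 2) 0 * (Lam * σ / (b * τ) *
      √((Nat.factorial (2 * (r + 2))) : ℝ)) ^ (r + 2) * (2 * √((2 * d : ℕ) : ℝ))) := by
    have := wgt_nonneg r
    have := iterC_nonneg (r + 2) 0
    positivity
  refine le_of_eq_of_le ?_ (ENNReal.ofReal_le_ofReal (bound_le r k (L := L) (s := s a)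
    (u := Lam * σ / (b * τ)) (by positivity) hLx hL0 (by positivity) (hs a) hC d))
  have hw := wgt_nonneg r
  have hsa := hs a
  have eA : (A : ℝ≥0∞) = ENNReal.ofReal (cwgt r) := (ENNReal.ofReal_eq_coe_nnreal _).symm
  have eL : (LN : ℝ≥0∞) = ENNReal.ofReal L := (ENNReal.ofReal_eq_coe_nnreal _).symm
  have h2 : (2 : ℝ≥0∞) = ENNReal.ofReal 2 := by simp
  have hQs : 0 ≤ cwgt r * L := mul_nonneg hw hL0
  rw [FlowStep.quadC, hn, hu, add_zero, show (A : ℝ) = cwgt r from rfl, ENNReal.coe_mul, eA, eL, h2,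
    ← ENNReal.ofReal_mul hw, ← ENNReal.ofReal_mul hw, ← ENNReal.ofReal_pow hQs,
    ← ENNReal.ofReal_mul zero_le_two, ← ENNReal.ofReal_mul (pow_nonneg hQs k),
    ← ENNReal.ofReal_add hQ (mul_nonneg hw hsa), ← ENNReal.ofReal_mul zero_le_two,
    ← ENNReal.ofReal_add (by positivity) (by positivity), ← ENNReal.ofReal_mul hL0,
    ← ENNReal.ofReal_mul hw, ← ENNReal.ofReal_add (by positivity) (by positivity)]

end EmStep

open EmStep

/-- **One step.** -/
theorem em_step (r k : ℕ) : ∃ C : ℝ, 1 ≤ C ∧ ∀ {d : ℕ} {α : Type} [MeasurableSpace α]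
    (q : Emitter d α) (R : Fin (r + 1) → Emitter d (α × (Sp d × Sp d)))
    (σ τ b Lam Λ : ℝ) (ρ : Fin (r + 1) → ℝ),
    0 < σ → 0 < τ → τ ≤ 1 / 2 → 0 < b → 0 ≤ Lam → 0 ≤ Λ → C * (Lam * σ / b + Λ) ≤ 1 →
    ∃ p : Emitter d α, p.cost ≤ q.cost + ∑ i, (R i).cost ∧
      ∀ G, Measurable G → ∀ (φ : α → Sp d → Sp d) (c : α → Sp d) (P : α → Sp d → Sp d → Sp d)
        (e s : α → ℝ) (ε : Fin (r + 1) → α × (Sp d × Sp d) → ℝ) (E D : Fin (r + 1) → α → ℝ),
        Measurable (fun t : α × Sp d => φ t.1 t.2) → Measurable c →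
        Measurable (fun t : α × (Sp d × Sp d) => P t.1 t.2.1 t.2.2) →
        (∀ a, ContDiff ℝ 1 (φ a)) → (∀ a x, ‖fderiv ℝ (φ a) x‖ ≤ Lam) →
        (∀ a w g w' g', ‖P a w g - P a w' g'‖ ≤ Λ * (‖w - w'‖ + ‖g - g'‖)) →
        (∀ a, 0 ≤ s a) →
        (∀ a, eLpNorm (fun t : Sp d × Sp d => P a t.1 t.2 - grad σ τ b (φ a) (c a) t.1 t.2) 2
          ((gd d).prod (gd d)) ≤ ENNReal.ofReal (s a)) →
        Emits q G c (σ / 2) e →
        (∀ i, Emits (R i) G
          (fun t => fb σ τ (φ t.1) (iter r k σ τ b (φ t.1) (c t.1) (P t.1) i t.2)) (ρ i) (ε i)) →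
        (∀ i a, 0 ≤ E i a ∧ 0 ≤ D i a) →
        (∀ i a y g, |ε i (a, (y, g))| ≤ E i a + D i a * (‖y - c a‖ + ‖g‖)) →
        Emits p G (fun a => smth 1 σ (φ a) (c a))
          √(b ^ 2 + ∑ i, (FlowStep.colw r 1 i * ρ i) ^ 2) fun a =>
            C * b * (((Lam * σ / (b * τ)) ^ (r + 2) +
                (C * (Lam * σ / b + Λ)) ^ k) * √(d : ℝ) + s a) +
              C * Lam * |e a| + ∑ i, |FlowStep.colw r 1 i| *
                (E i a + D i a * (|e a| + (σ + 1) * √(d : ℝ))) := by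
  refine ⟨emC r, (emC_spec r).1, fun {d} {α} _ q R σ τ b Lam Λ ρ hσ hτ hτ2 hb hLam hΛ hC => ?_⟩
  have hs1 : 0 < σ * √(1 - τ) := mul_pos hσ (sqrt_pos.2 (by linarith))
  obtain ⟨p, hp, hpe⟩ := em_assemble q R (r₀ := σ / 2) (f := σ * √(3 / 4 - τ)) (s := σ * √(1 - τ))
    (b := b) (FlowStep.colw r 1) ρ hs1 (by
      rw [mul_pow, mul_pow, sq_sqrt (by linarith), sq_sqrt (by linarith)]; ring) hb
  refine ⟨p, hp, fun G hG φ c P e s ε E D hm hc hPm hφ hL hP hs hPs hq hR hED hε => ?_⟩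
  obtain ⟨T, hT, hTp, hTe⟩ := exists_ideal r k hσ hτ hτ2 hb hLam hΛ hC hm hc hφ hL hP hs hPs
  have hLx : 2 * Λ + Lam * σ / b ≤ 2 * (Lam * σ / b + Λ) := by
    have : 0 ≤ Lam * σ / b := by positivity
    linarith
  have hq2 : cwgt r * (2 * Λ + Lam * σ / b) ≤ 1 / 2 :=
    (mul_le_mul_of_nonneg_left hLx (wgt_nonneg r)).trans (by
      obtain ⟨-, -, h4, -⟩ := emC_spec r
      nlinarith [(by positivity : 0 ≤ Lam * σ / b + Λ)])
  have hC0 : 0 ≤ emC r := zero_le_one.trans (emC_spec r).1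
  set E₀ : α → ℝ := fun a => emC r * b * (((Lam * σ / (b * τ)) ^ (r + 2) +
    (emC r * (Lam * σ / b + Λ)) ^ k) * √(d : ℝ) + s a)
  have hE₀ : ∀ a, 0 ≤ E₀ a := fun a => by
    have := hs a
    positivity
  have h := hpe G hG c (fun a => smth 1 σ (φ a) (c a))
    (fun i t => fb σ τ (φ t.1) (iter r k σ τ b (φ t.1) (c t.1) (P t.1) i t.2)) T (fun _ => 2 * Lam) e E₀ ε E D hq hR
    (fun i => (measurable_fb hm (σ * √τ)).comp
      (measurable_fst.prodMk (measurable_iter hm hc hPm k i))) hT hTp (fun _ => by positivity)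
    (fun i a y y' g => (norm_fb_sub_le (hφ a) (hL a) _ _).trans ?_) hE₀ hTe hED hε
  · refine EmitBase.emits_mono h fun a => ?_
    have hsum : ∀ i, 0 ≤ |FlowStep.colw r 1 i| *
        (E i a + D i a * (|e a| + (σ + 1) * √(d : ℝ))) := fun i =>
      mul_nonneg (abs_nonneg _) (add_nonneg (hED i a).1 (mul_nonneg (hED i a).2 (by positivity)))
    rw [abs_of_nonneg (add_nonneg (hE₀ a) (sum_nonneg fun i _ => mul_nonneg (abs_nonneg _)
      (add_nonneg (add_nonneg (by positivity) (hED i a).1)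
        (mul_nonneg (hED i a).2 (by positivity)))))]
    refine le_trans ?_ (le_abs_self _)
    rw [add_assoc]
    refine add_le_add le_rfl ((sum_le_sum (g := fun i => |FlowStep.colw r 1 i| * (2 * Lam * |e a|) +
      |FlowStep.colw r 1 i| * (E i a + D i a * (|e a| + (σ + 1) * √(d : ℝ)))) fun i _ => ?_).trans ?_)
    · rw [← mul_add, add_assoc]
      refine mul_le_mul_of_nonneg_left (add_le_add le_rfl (add_le_add le_rfl
        (mul_le_mul_of_nonneg_left (add_le_add le_rfl (mul_le_mul_of_nonneg_right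
          (add_le_add ?_ le_rfl) (sqrt_nonneg _))) (hED i a).2))) (abs_nonneg _)
      exact mul_le_of_le_one_right hσ.le (sqrt_le_one.2 (by linarith))
    · rw [sum_add_distrib, ← sum_mul]
      refine add_le_add ?_ le_rfl
      have := mul_le_mul_of_nonneg_right (out_le r) (by positivity : 0 ≤ 2 * Lam * |e a|)
      have h2 : 2 * cwgt r ≤ emC r := by
        obtain ⟨-, -, h4, -⟩ := emC_spec r
        linarith [wgt_nonneg r]
      nlinarith [mul_le_mul_of_nonneg_right h2 (by positivity : 0 ≤ Lam * |e a|)]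
  · refine (mul_le_mul_of_nonneg_left (norm_iter_sub_le hσ (by linarith) (by positivity)
      (norm_sur_sub_le (hφ a) (hL a) hσ.le hb hτ.le hΛ (hP a)) (row_le r) hq2 k i y y' g)
      hLam).trans_eq (by ring)

end Vale.Agent.P347.Shift
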