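import Vale.Agent.P347.Shift.Spec

/-!
# P347: basic facts about emitters and boxes

The queried gradient is a box of every order, emissions add with their rooms in quadrature, may be
padded with noise, moved affinely, averaged over reruns, and fed into one another.
-/

open MeasureTheory ProbabilityTheory Real Finset
open scoped RealInnerProductSpace ENNReal

namespace Vale.Agent.P347.Shift

open Vale.Agent.P347.Quarter

namespace EmitBase

variable {d : ℕ}

lemma lintegral_sq_eq {X : Type} [MeasurableSpace X] (μ : Measure X) (f : X → Sp d) :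
    ∫⁻ s, ENNReal.ofReal (‖f s‖ ^ 2) ∂μ = eLpNorm f 2 μ ^ (2 : ℕ) := by
  rw [← ENNReal.rpow_natCast, eLpNorm_eq_lintegral_rpow_enorm_toReal two_ne_zero ENNReal.ofNat_ne_top,
    ← ENNReal.rpow_mul]
  simp only [ENNReal.toReal_ofNat]
  norm_num

lemma sq_err_iff {X : Type} [MeasurableSpace X] (μ : Measure X) (f : X → Sp d) (e : ℝ) :
    ∫⁻ s, ENNReal.ofReal (‖f s‖ ^ 2) ∂μ ≤ ENNReal.ofReal (e ^ 2) ↔
      eLpNorm f 2 μ ≤ ENNReal.ofReal |e| := by
  rw [lintegral_sq_eq, ← sq_abs e, ENNReal.ofReal_pow (abs_nonneg e)]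
  exact (ENNReal.pow_right_strictMono two_ne_zero).le_iff_le

/-- A combination of standard Gaussian vectors with coefficients of unit length. -/
lemma map_sum_gd {ι : Type} [Fintype ι] (c : ι → ℝ) (hc : ∑ i, c i ^ 2 = 1) :
    (Measure.pi fun _ : ι => gd d).map (fun z => ∑ i, c i • z i) = gd d := by
  have hm : Measurable fun z : ι → Sp d => ∑ i, c i • z i :=
    Finset.measurable_sum _ fun i _ => (measurable_pi_apply i).fun_const_smul (c i)
  have := Measure.isProbabilityMeasure_map (μ := Measure.pi fun _ : ι => gd d) hm.aemeasurable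
  refine Measure.ext_of_charFun (funext fun t => ?_)
  rw [charFun_apply, integral_map hm.aemeasurable (by fun_prop)]
  simp only [sum_inner, Complex.ofReal_sum, sum_mul, Complex.exp_sum]
  rw [integral_fintype_prod_eq_prod (μ := fun _ : ι => gd d)
    (fun i y => Complex.exp ((⟪c i • y, t⟫ : ℝ) * Complex.I))]
  have e : ∀ i, ∫ y, Complex.exp ((⟪c i • y, t⟫ : ℝ) * Complex.I) ∂gd d =
      Complex.exp (-((c i ^ 2 * ‖t‖ ^ 2 : ℝ) : ℂ) / 2) := fun i => by
    rw [← integral_map (f := fun y : Sp d => Complex.exp ((⟪y, t⟫ : ℝ) * Complex.I)) (φ := (c i • ·))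
      (by fun_prop) (by fun_prop), ← charFun_apply, charFun_map_smul, gd, gam, charFun_stdGaussian,
      norm_smul, norm_eq_abs, ← Complex.ofReal_pow, mul_pow, sq_abs]
  simp only [e, ← Complex.exp_sum, ← sum_div, sum_neg_distrib, ← Complex.ofReal_sum, ← sum_mul, hc,
    one_mul]
  simp [gd, gam, charFun_stdGaussian]

variable {α : Type} [MeasurableSpace α]

lemma calc_sum {β : Type} [MeasurableSpace β] : ∀ {n : ℕ} {k : Fin n → ℕ}
    {F : Fin n → (Sp d → Sp d) → β → Sp d},
    (∀ i, Calc (k i) (F i)) → Calc (∑ i, k i) fun G a => ∑ i, F i G a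
  | 0, k, F, _ => ((Calc.pure (f := fun _ => (0 : Sp d)) measurable_const).mono
      (Nat.zero_le _)).congr fun G a => by simp
  | n + 1, k, F, h => by
    refine ((((h 0).pair (calc_sum fun i => h i.succ)).comp
      (Calc.pure (f := fun t : Sp d × Sp d => t.1 + t.2) (by fun_prop))).mono ?_).congr fun G a => ?_
    · simp [Fin.sum_univ_succ]
    · simp [Fin.sum_univ_succ]

/-- Against a measurable gradient an emitter is measurable. -/
lemma measurable_run (p : Emitter d α) {G : Sp d → Sp d} (hG : Measurable G) :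
    Measurable (p.run G) := by
  obtain ⟨q, -, hq⟩ := p.calc_run
  obtain ⟨s₀⟩ := nonempty_of_isProbabilityMeasure q.seedLaw
  rw [← funext (hq (fun _ => 0) G s₀)]
  exact (q.measurable_run (measurable_const.prodMk hG)).comp measurable_prodMk_left

/-- An emission is monotone in its error. -/
lemma emits_mono {p : Emitter d α} {G : Sp d → Sp d} {Φ : α → Sp d} {ρ : ℝ} {e e' : α → ℝ}
    (h : Emits p G Φ ρ e) (he : ∀ a, |e a| ≤ |e' a|) : Emits p G Φ ρ e' := by
  obtain ⟨ξ, hm, hl, hb⟩ := h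
  exact ⟨ξ, hm, hl, fun a => (hb a).trans (ENNReal.ofReal_le_ofReal (sq_le_sq.2 (he a)))⟩

end EmitBase

open EmitBase

variable {d : ℕ}

/-- The queried gradient is a box of every order, with one question. -/
theorem isBox_id (K m : ℕ) {η : ℝ} (hη : 0 ≤ η) (S B : ℝ) :
    IsBox d K η η S m B 0 1 fun G => G := by
  refine ⟨fun G hG => ?_, fun ρ _ _ => ?_⟩
  · obtain ⟨h0, W, H, hW⟩ := hG
    have hf : ∀ x, fderiv ℝ G x = H x := fun x => (hW.hasHess x).fderiv
    exact ⟨hW.contDiff_grad, fun x u v => by rw [hf]; exact hW.symHess x u v,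
      fun x => by rw [hf]; exact hW.norm_hess hη x, h0⟩
  · refine ⟨{ S := Sp d, meas := inferInstance, μ := gd d, prob := inferInstance
              run := fun G t => G t.2 + ρ • t.1, cost := 1
              calc_run := Calc.ask (u := fun t : Sp d × Sp d => t.2) measurable_snd
                (g := fun t v => v + ρ • t.1) (by fun_prop) }, le_rfl, fun G _ => ?_⟩
    exact ⟨fun t => t.1, measurable_fst, fun _ => Measure.map_id, fun a => by simp⟩

/-- The gradient of an admissible potential is measurable. -/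
lemma Adm.measurable {η : ℝ} {G : Sp d → Sp d} (h : Adm η G) : Measurable G := by
  obtain ⟨-, W, H, hW⟩ := h
  exact hW.continuous_grad.measurable

/-- Emissions add: coefficients `w`, rooms in quadrature. -/
theorem emits_sum {d n : ℕ} {α : Type} [MeasurableSpace α] (p : Fin n → Emitter d α)
    (w : Fin n → ℝ) :
    ∃ q : Emitter d α, q.cost ≤ ∑ i, (p i).cost ∧
      ∀ G, Measurable G → ∀ (Φ : Fin n → α → Sp d) (ρ : Fin n → ℝ) (err : Fin n → α → ℝ),
        (∀ i, Emits (p i) G (Φ i) (ρ i) (err i)) →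
        Emits q G (fun a => ∑ i, w i • Φ i a) √(∑ i, (w i * ρ i) ^ 2)
          fun a => ∑ i, |w i * err i a| := by
  refine ⟨{ S := (∀ i, (p i).S) × Sp d, meas := inferInstance
            μ := (Measure.pi fun i => (p i).μ).prod (gd d), prob := inferInstance
            run := fun G t => ∑ i, w i • (p i).run G (t.1.1 i, t.2)
            cost := ∑ i, (p i).cost
            calc_run := ?_ }, le_rfl, fun G hG Φ ρ err h => ?_⟩
  · refine calc_sum (k := fun i => (p i).cost) (F := fun i G (t : ((∀ i, (p i).S) × Sp d) × α) =>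
      w i • (p i).run G (t.1.1 i, t.2)) fun i => ?_
    exact ((((Calc.pure (f := fun t : ((∀ i, (p i).S) × Sp d) × α => (t.1.1 i, t.2))
      (((measurable_pi_apply i).comp (measurable_fst.comp measurable_fst)).prodMk measurable_snd)).comp
        (p i).calc_run).comp (Calc.pure (f := fun v : Sp d => w i • v) (by fun_prop))).mono
          (by simp)).congr fun _ _ => rfl
  choose ξ hξm hξl hξb using h
  set R := √(∑ i, (w i * ρ i) ^ 2) with hR
  set μ := Measure.pi fun i => (p i).μ
  set ζ : ((∀ i, (p i).S) × Sp d) × α → Sp d := fun t =>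
    if R = 0 then t.1.2 else ∑ i, (R⁻¹ * (w i * ρ i)) • ξ i (t.1.1 i, t.2) with hζ
  have hζm : Measurable ζ := by
    by_cases h0 : R = 0
    · simp only [hζ, h0, if_true]; fun_prop
    · simp only [hζ, h0, if_false]
      exact Finset.measurable_sum _ fun i _ => ((hξm i).comp
        (((measurable_pi_apply i).comp (measurable_fst.comp measurable_fst)).prodMk
          measurable_snd)).fun_const_smul _
  refine ⟨ζ, hζm, fun a => ?_, fun a => ?_⟩
  · by_cases h0 : R = 0
    · simp only [hζ, h0, if_true]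
      exact measurePreserving_snd.map_eq
    · have hc : ∑ i, (R⁻¹ * (w i * ρ i)) ^ 2 = 1 := by
        simp only [mul_pow, ← mul_sum]
        rw [inv_pow, hR, sq_sqrt (sum_nonneg fun i _ => by positivity),
          sum_congr rfl fun i _ => (mul_pow (w i) (ρ i) 2).symm, inv_mul_cancel₀]
        intro h'
        exact h0 (by rw [hR, h', sqrt_zero])
      have hmp : MeasurePreserving (fun s : (∀ i, (p i).S) × Sp d => fun i => ξ i (s.1 i, a))
          (μ.prod (gd d)) (Measure.pi fun _ : Fin n => gd d) :=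
        (measurePreserving_pi (fun i => (p i).μ) (fun _ : Fin n => gd d) fun i =>
          ⟨(hξm i).comp measurable_prodMk_right, hξl i a⟩).comp measurePreserving_fst
      refine Eq.trans ?_ (map_sum_gd _ hc)
      rw [← hmp.map_eq, Measure.map_map
        (Finset.measurable_sum _ fun i _ => (measurable_pi_apply i).fun_const_smul _) hmp.measurable]
      simp only [hζ, h0, if_false, Function.comp_def]
      rfl
  · rw [sq_err_iff, abs_of_nonneg (sum_nonneg fun i _ => abs_nonneg _)]
    set f : Fin n → (∀ i, (p i).S) × Sp d → Sp d := fun i s =>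
      w i • ((p i).run G (s.1 i, a) - (Φ i a + ρ i • ξ i (s.1 i, a))) with hf
    have hfm : ∀ i, Measurable (f i) := fun i => by
      have hrun : Measurable fun s => (p i).run G (s, a) :=
        (measurable_run (p i) hG).comp measurable_prodMk_right
      exact ((hrun.comp ((measurable_pi_apply i).comp measurable_fst)).sub (measurable_const.add
        (((hξm i).comp (((measurable_pi_apply i).comp measurable_fst).prodMk
          measurable_const)).fun_const_smul _))).fun_const_smul _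
    have e : (fun s => ∑ i, w i • (p i).run G (s.1 i, a) -
        ((∑ i, w i • Φ i a) + R • ζ (s, a))) = ∑ i, f i := by
      funext s
      have hz : R • ζ (s, a) = ∑ i, (w i * ρ i) • ξ i (s.1 i, a) := by
        by_cases h0 : R = 0
        · have hw : ∀ i, w i * ρ i = 0 := fun i => by
            have := (sum_eq_zero_iff_of_nonneg fun i _ => sq_nonneg (w i * ρ i)).1
              ((sqrt_eq_zero (sum_nonneg fun i _ => sq_nonneg _)).1 (hR ▸ h0)) i (mem_univ i)
            simpa using this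
          simp [hw, h0]
        · simp only [hζ, h0, if_false, smul_sum, smul_smul, mul_inv_cancel_left₀ h0]
      rw [hz, Finset.sum_apply]
      simp only [hf, smul_sub, smul_add, smul_smul, sum_sub_distrib, sum_add_distrib]
    rw [e]
    refine (eLpNorm_sum_le (fun i _ => (hfm i).aestronglyMeasurable) one_le_two).trans ?_
    rw [ENNReal.ofReal_sum_of_nonneg fun i _ => abs_nonneg _]
    refine sum_le_sum fun i _ => ?_
    have h1 : eLpNorm (fun s : (∀ i, (p i).S) × Sp d =>
        (p i).run G (s.1 i, a) - (Φ i a + ρ i • ξ i (s.1 i, a))) 2 (μ.prod (gd d)) ≤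
          ENNReal.ofReal |err i a| := by
      rw [← sq_err_iff]
      refine le_of_eq_of_le ?_ (hξb i a)
      refine ((measurePreserving_eval (fun i => (p i).μ) i).comp
        measurePreserving_fst).lintegral_comp (f := fun s => ENNReal.ofReal
          (‖(p i).run G (s, a) - (Φ i a + ρ i • ξ i (s, a))‖ ^ 2)) ?_
      exact ((((measurable_run (p i) hG).comp measurable_prodMk_right).sub (measurable_const.add
        (((hξm i).comp measurable_prodMk_right).fun_const_smul _))).norm.pow_const 2).ennreal_ofReal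
    rw [show f i = w i • fun s : (∀ i, (p i).S) × Sp d =>
        (p i).run G (s.1 i, a) - (Φ i a + ρ i • ξ i (s.1 i, a)) from rfl,
      eLpNorm_const_smul, abs_mul, ENNReal.ofReal_mul (abs_nonneg _), ← Real.enorm_eq_ofReal_abs]
    exact mul_le_mul' le_rfl h1

variable {α β : Type} [MeasurableSpace α] [MeasurableSpace β]

/-- An exact emission of a known point, without queries. -/
theorem emits_pure {f : α → Sp d} (hf : Measurable f) (ρ : ℝ) :
    ∃ p : Emitter d α, p.cost = 0 ∧ ∀ G, Emits p G f ρ 0 := by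
  refine ⟨{ S := Sp d, meas := inferInstance, μ := gd d, prob := inferInstance
            run := fun _ t => f t.2 + ρ • t.1, cost := 0
            calc_run := Calc.pure (f := fun t : Sp d × α => f t.2 + ρ • t.1) (by fun_prop) },
    rfl, fun G => ⟨fun t => t.1, measurable_fst, fun _ => Measure.map_id, fun a => by simp⟩⟩

/-- One query at a known point. -/
theorem emits_ask {u : α → Sp d} (hu : Measurable u) (ρ : ℝ) :
    ∃ p : Emitter d α, p.cost = 1 ∧ ∀ G, Emits p G (fun a => G (u a)) ρ 0 := by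
  refine ⟨{ S := Sp d, meas := inferInstance, μ := gd d, prob := inferInstance
            run := fun G t => G (u t.2) + ρ • t.1, cost := 1
            calc_run := Calc.ask (u := fun t : Sp d × α => u t.2) (hu.comp measurable_snd)
              (g := fun t v => v + ρ • t.1) (by fun_prop) },
    rfl, fun G => ⟨fun t => t.1, measurable_fst, fun _ => Measure.map_id, fun a => by simp⟩⟩

/-- An emitter read at a function of the input. -/
theorem emits_input (p : Emitter d α) {u : β → α} (hu : Measurable u) :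
    ∃ q : Emitter d β, q.cost ≤ p.cost ∧ ∀ G Φ (ρ : ℝ) (err : α → ℝ),
      Emits p G Φ ρ err → Emits q G (fun b => Φ (u b)) ρ fun b => err (u b) := by
  refine ⟨{ S := p.S, meas := p.meas, μ := p.μ, prob := p.prob
            run := fun G t => p.run G (t.1, u t.2), cost := 0 + p.cost
            calc_run := ((Calc.pure (f := fun t : p.S × β => (t.1, u t.2)) (by fun_prop)).comp
              p.calc_run).congr fun _ _ => rfl }, by simp, fun G Φ ρ err h => ?_⟩
  obtain ⟨ξ, hm, hl, hb⟩ := h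
  exact ⟨fun t => ξ (t.1, u t.2), hm.comp (by fun_prop), fun b => hl (u b), fun b => hb (u b)⟩

/-- An emission translated by a known point and scaled. -/
theorem emits_affine (p : Emitter d α) (s : ℝ) {f : α → Sp d} (hf : Measurable f) :
    ∃ q : Emitter d α, q.cost ≤ p.cost ∧ ∀ G Φ (ρ : ℝ) (err : α → ℝ), Emits p G Φ ρ err →
      Emits q G (fun a => f a + s • Φ a) (s * ρ) fun a => s * err a := by
  refine ⟨{ S := p.S, meas := p.meas, μ := p.μ, prob := p.prob
            run := fun G t => f t.2 + s • p.run G t, cost := p.cost + 0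
            calc_run := (p.calc_run.keep.comp (Calc.pure
              (f := fun t : (p.S × α) × Sp d => f t.1.2 + s • t.2) (by fun_prop))).congr
                fun _ _ => rfl }, by simp, fun G Φ ρ err h => ?_⟩
  obtain ⟨ξ, hm, hl, hb⟩ := h
  refine ⟨ξ, hm, hl, fun a => ?_⟩
  have e : ∀ x, ‖f a + s • p.run G (x, a) - (f a + s • Φ a + (s * ρ) • ξ (x, a))‖ ^ 2 =
      s ^ 2 * ‖p.run G (x, a) - (Φ a + ρ • ξ (x, a))‖ ^ 2 := fun x => by
    rw [show f a + s • p.run G (x, a) - (f a + s • Φ a + (s * ρ) • ξ (x, a)) =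
      s • (p.run G (x, a) - (Φ a + ρ • ξ (x, a))) by module, norm_smul, mul_pow, norm_eq_abs,
      sq_abs]
  simp only [e, ENNReal.ofReal_mul (sq_nonneg s)]
  rw [lintegral_const_mul' _ _ ENNReal.ofReal_ne_top, mul_pow, ENNReal.ofReal_mul (sq_nonneg s)]
  exact mul_le_mul' le_rfl (hb a)

/-- An emission padded with noise to a larger room. -/
theorem emits_noise (p : Emitter d α) (t : ℝ) :
    ∃ q : Emitter d α, q.cost ≤ p.cost ∧ ∀ G, Measurable G → ∀ Φ (ρ : ℝ) (err : α → ℝ),
      Emits p G Φ ρ err → Emits q G Φ √(ρ ^ 2 + t ^ 2) err := by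
  obtain ⟨o, ho, hoe⟩ := emits_pure (d := d) (f := fun _ : α => (0 : Sp d)) measurable_const t
  obtain ⟨q, hq, hqe⟩ := emits_sum ![p, o] ![1, 1]
  refine ⟨q, hq.trans (by simp [Fin.sum_univ_two, ho]), fun G hG Φ ρ err h => ?_⟩
  have h2 := hqe G hG ![Φ, fun _ => 0] ![ρ, t] ![err, 0] (Fin.forall_fin_two.2 ⟨h, hoe G⟩)
  simp only [Fin.sum_univ_two, Matrix.cons_val_zero, Matrix.cons_val_one, one_smul, one_mul,
    add_zero, Pi.zero_apply, abs_zero] at h2
  exact EmitBase.emits_mono h2 fun a => le_of_eq (abs_abs _)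

/-- A sample of a known centre is filled up to a larger room. -/
theorem emits_fill (p : Emitter d α) {ρ r : ℝ} (hr : ρ ^ 2 ≤ r ^ 2) (hr0 : 0 ≤ r) :
    ∃ q : Emitter d α, q.cost ≤ p.cost ∧ ∀ G, Measurable G → ∀ Φ (err : α → ℝ),
      Emits p G Φ ρ err → Emits q G Φ r err := by
  obtain ⟨q, hq, hqe⟩ := emits_noise p √(r ^ 2 - ρ ^ 2)
  refine ⟨q, hq, fun G hG Φ err h => ?_⟩
  have h2 := hqe G hG Φ ρ err h
  rwa [sq_sqrt (by linarith), add_sub_cancel, sqrt_sq hr0] at h2

/-- Padding of the noise to a larger room. -/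
theorem emits_pad (p : Emitter d α) {ρ ρ' : ℝ} (hρ : 0 ≤ ρ) (h : ρ ≤ ρ') :
    ∃ q : Emitter d α, q.cost ≤ p.cost ∧ ∀ G, Measurable G → ∀ (Φ : α → Sp d) (err : α → ℝ),
      Emits p G Φ ρ err → Emits q G Φ ρ' err :=
  emits_fill p (pow_le_pow_left₀ hρ h 2) (hρ.trans h)

/-! ### Composition -/

namespace EmitBase

lemma eLpNorm_id_gd_le : eLpNorm (fun z : Sp d => z) 2 (gd d) ≤ ENNReal.ofReal √(d : ℝ) := by
  obtain ⟨hi, he⟩ := integral_norm_sq (ι := Fin d)
  rw [Fintype.card_fin] at he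
  have h := (sq_err_iff (gd d) (fun z : Sp d => z) √(d : ℝ)).1 (by
    rw [← ofReal_integral_eq_lintegral_ofReal hi (ae_of_all _ fun z => sq_nonneg _), he,
      sq_sqrt (Nat.cast_nonneg d)])
  rwa [abs_of_nonneg (sqrt_nonneg _)] at h

/-- The error of an outer map read at a random input. -/
lemma input_err {S T : Type} [MeasurableSpace S] [MeasurableSpace T] {μ : Measure S}
    [IsProbabilityMeasure μ] {ν : Measure T} [SFinite ν] {F : S × T → Sp d} (hF : Measurable F)
    {X Z δ : S → Sp d} (hZ : Measurable Z) (hZl : μ.map Z = gd d) (hδ : Measurable δ)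
    {c : Sp d} {ρ : ℝ} (hX : ∀ s, X s = c + ρ • Z s + δ s) {e g ep : ℝ} (he : 0 ≤ e) (hg : 0 ≤ g)
    (hep : 0 ≤ ep) (hδb : eLpNorm δ 2 μ ≤ ENNReal.ofReal ep)
    (hb : ∀ s, ∫⁻ t, ENNReal.ofReal (‖F (s, t)‖ ^ 2) ∂ν ≤
      ENNReal.ofReal ((e + g * ‖X s‖) ^ 2)) :
    eLpNorm F 2 (μ.prod ν) ≤ ENNReal.ofReal (e + g * (‖c‖ + |ρ| * √d + ep)) := by
  have hR : 0 ≤ e + g * (‖c‖ + |ρ| * √d + ep) := add_nonneg he (by positivity)
  rw [← abs_of_nonneg hR, ← sq_err_iff,
    lintegral_prod _ (hF.norm.pow_const 2).ennreal_ofReal.aemeasurable]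
  refine (lintegral_mono hb).trans ?_
  have hv : ∀ v : S → ℝ, (∀ s, 0 ≤ v s) →
      ∫⁻ s, ENNReal.ofReal (v s ^ 2) ∂μ = eLpNorm v 2 μ ^ (2 : ℕ) := fun v hv => by
    rw [← ENNReal.rpow_natCast, eLpNorm_eq_lintegral_rpow_enorm_toReal two_ne_zero
      ENNReal.ofNat_ne_top, ← ENNReal.rpow_mul]
    simp [← ENNReal.ofReal_pow, Real.enorm_eq_ofReal_abs]
  rw [hv _ fun s => add_nonneg he (by positivity), ← abs_of_nonneg hR, ← sq_abs,
    abs_abs, ENNReal.ofReal_pow (abs_nonneg _), abs_of_nonneg hR]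
  gcongr
  refine (eLpNorm_mono_real
    (g := fun s => ((e + g * ‖c‖) + g * |ρ| * ‖Z s‖) + g * ‖δ s‖) fun s => ?_).trans ?_
  · rw [norm_eq_abs, abs_of_nonneg (add_nonneg he (by positivity))]
    have h := norm_add_le (c + ρ • Z s) (δ s)
    have h' := norm_add_le c (ρ • Z s)
    rw [norm_smul, norm_eq_abs] at h'
    rw [← hX] at h
    have := mul_le_mul_of_nonneg_left (h.trans (add_le_add h' le_rfl)) hg
    linarith
  refine (eLpNorm_add_le (measurable_const.add (hZ.norm.const_mul _)).aestronglyMeasurable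
    (hδ.norm.const_mul _).aestronglyMeasurable one_le_two).trans ?_
  refine (add_le_add (eLpNorm_add_le aestronglyMeasurable_const
    (hZ.norm.const_mul _).aestronglyMeasurable one_le_two) le_rfl).trans ?_
  rw [show e + g * (‖c‖ + |ρ| * √d + ep) = (e + g * ‖c‖) + g * |ρ| * √d + g * ep by ring,
    ENNReal.ofReal_add (add_nonneg (add_nonneg he (by positivity)) (by positivity))
      (by positivity), ENNReal.ofReal_add (add_nonneg he (by positivity)) (by positivity)]
  refine add_le_add (add_le_add ?_ ?_) ?_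
  · rw [eLpNorm_const _ two_ne_zero (IsProbabilityMeasure.ne_zero _), measure_univ,
      ENNReal.one_rpow, mul_one, Real.enorm_eq_ofReal (add_nonneg he (by positivity))]
  · rw [show (fun s => g * |ρ| * ‖Z s‖) = (g * |ρ|) • fun s => ‖Z s‖ from rfl,
      eLpNorm_const_smul, eLpNorm_norm, Real.enorm_eq_ofReal (by positivity),
      ENNReal.ofReal_mul (p := g * |ρ|) (by positivity)]
    refine mul_le_mul' le_rfl (le_of_eq_of_le ?_ eLpNorm_id_gd_le)
    exact eLpNorm_comp_measurePreserving (g := fun z : Sp d => z)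
      aestronglyMeasurable_id ⟨hZ, hZl⟩
  · rw [show (fun s => g * ‖δ s‖) = g • fun s => ‖δ s‖ from rfl, eLpNorm_const_smul,
      eLpNorm_norm, Real.enorm_eq_ofReal hg, ENNReal.ofReal_mul hg]
    exact mul_le_mul' le_rfl hδb

end EmitBase

/-- **Bind.** The output of `p`, near `Φ a + ρ ξ`, is the input of `q`, whose mean `Ψ (a, ·)` is
`Λ`-Lipschitz and whose error grows at most linearly in the distance of that input to `o a`. The result is near
`Ψ (a, Φ a + ρ ξ) + r η` with `(ξ, η)` independent standard Gaussian vectors. -/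
theorem emits_bind_at (p : Emitter d α) (q : Emitter d (α × Sp d)) :
    ∃ m : Emitter d α, m.cost ≤ p.cost + q.cost ∧
      ∀ G, Measurable G → ∀ (Φ : α → Sp d) (ρ : ℝ) (ep : α → ℝ) (Ψ : α × Sp d → Sp d) (r : ℝ)
        (eq : α × Sp d → ℝ) (e : α → ℝ) (o : α → Sp d) (g Λ : ℝ),
        Emits p G Φ ρ ep → (∀ a, Measurable fun x => Ψ (a, x)) →
        (∀ a x x', ‖Ψ (a, x) - Ψ (a, x')‖ ≤ Λ * ‖x - x'‖) →
        Emits q G Ψ r eq → 0 ≤ g → (∀ a, 0 ≤ e a) → (∀ a x, |eq (a, x)| ≤ e a + g * ‖x - o a‖) →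
        0 ≤ Λ →
        ∃ ξ η : m.S × α → Sp d, Measurable ξ ∧ Measurable η ∧
          (∀ a, m.μ.map (fun s => (ξ (s, a), η (s, a))) = (gd d).prod (gd d)) ∧
          ∀ a, ∫⁻ s, ENNReal.ofReal
              (‖m.run G (s, a) - (Ψ (a, Φ a + ρ • ξ (s, a)) + r • η (s, a))‖ ^ 2) ∂m.μ ≤
            ENNReal.ofReal ((e a + g * (‖Φ a - o a‖ + |ρ| * √d + |ep a|) + Λ * |ep a|) ^ 2) := by
  refine ⟨{ S := p.S × q.S, meas := inferInstance, μ := p.μ.prod q.μ, prob := inferInstance
            run := fun G t => q.run G (t.1.2, t.2, p.run G (t.1.1, t.2))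
            cost := p.cost + q.cost
            calc_run := ?_ }, le_rfl, ?_⟩
  · refine (((((Calc.pure (f := fun t : (p.S × q.S) × α => (t.1.1, t.2)) (by fun_prop)).comp
      p.calc_run).keep.comp (Calc.pure (f := fun t : ((p.S × q.S) × α) × Sp d =>
        (t.1.1.2, t.1.2, t.2)) (by fun_prop))).comp q.calc_run).mono (by omega)).congr
          fun _ _ => rfl
  intro G hG Φ ρ ep Ψ r eq e o g Λ hp hΨm hΨ hq hg he hgr hΛ
  obtain ⟨ξ, hξm, hξl, hξb⟩ := hp
  obtain ⟨η, hηm, hηl, hηb⟩ := hq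
  have hpm := measurable_run p hG
  have hqm := measurable_run q hG
  set ξ' : (p.S × q.S) × α → Sp d := fun t => ξ (t.1.1, t.2) with hξ'
  set η' : (p.S × q.S) × α → Sp d := fun t => η (t.1.2, t.2, p.run G (t.1.1, t.2)) with hη'
  have hη'm : Measurable η' := hηm.comp ((measurable_snd.comp measurable_fst).prodMk
    (measurable_snd.prodMk (hpm.comp ((measurable_fst.comp measurable_fst).prodMk measurable_snd))))
  refine ⟨ξ', η', hξm.comp (by fun_prop), hη'm, fun a => ?_, fun a => ?_⟩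
  · refine (MeasurePreserving.skew_product (μb := gd d) (μd := gd d) (f := fun s => ξ (s, a))
      (g := fun s t => η (t, a, p.run G (s, a))) ⟨hξm.comp measurable_prodMk_right, hξl a⟩ ?_
      (ae_of_all _ fun s => hηl (a, p.run G (s, a)))).map_eq
    exact hηm.comp (measurable_snd.prodMk (measurable_const.prodMk
      ((hpm.comp measurable_prodMk_right).comp measurable_fst)))
  set μ := p.μ.prod q.μ
  set X : p.S → Sp d := fun s => p.run G (s, a) with hX
  have hXm : Measurable X := hpm.comp measurable_prodMk_right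
  set δ : p.S → Sp d := fun s => X s - (Φ a + ρ • ξ (s, a)) with hδ
  have hξam : Measurable fun s => ξ (s, a) := hξm.comp measurable_prodMk_right
  have hδm : Measurable δ := hXm.sub (measurable_const.add (hξam.fun_const_smul ρ))
  have hδb : eLpNorm δ 2 p.μ ≤ ENNReal.ofReal |ep a| := (sq_err_iff _ _ _).1 (hξb a)
  -- the outer error at the random input
  set f₁ : p.S × q.S → Sp d := fun s =>
    q.run G (s.2, a, X s.1) - (Ψ (a, X s.1) + r • η (s.2, a, X s.1)) with hf₁
  have hpair : Measurable fun s : p.S × q.S => (s.2, a, X s.1) :=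
    measurable_snd.prodMk (measurable_const.prodMk (hXm.comp measurable_fst))
  have hf₁m : Measurable f₁ := (hqm.comp hpair).sub
    (((hΨm a).comp (hXm.comp measurable_fst)).add
      ((hηm.comp hpair).fun_const_smul r))
  set f₂ : p.S × q.S → Sp d := fun s => Ψ (a, X s.1) - Ψ (a, Φ a + ρ • ξ (s.1, a)) with hf₂
  have hf₂m : Measurable f₂ := ((hΨm a).comp (hXm.comp measurable_fst)).sub
    ((hΨm a).comp (measurable_const.add
      ((hξam.comp measurable_fst).fun_const_smul ρ)))
  have h2 : eLpNorm f₂ 2 μ ≤ ENNReal.ofReal (Λ * |ep a|) := by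
    refine le_trans (eLpNorm_le_mul_eLpNorm_of_ae_le_mul (g := fun s => δ s.1)
      (ae_of_all _ fun s => by simp only [hf₂, hδ]; exact hΨ a (X s.1) (Φ a + ρ • ξ (s.1, a))) 2) ?_
    rw [ENNReal.ofReal_mul hΛ]
    refine mul_le_mul' le_rfl ?_
    exact (eLpNorm_comp_measurePreserving hδm.aestronglyMeasurable measurePreserving_fst).trans_le
      hδb
  set B := e a + g * (‖Φ a - o a‖ + |ρ| * √d + |ep a|) with hB
  have hB0 : 0 ≤ B := add_nonneg (he a) (by positivity)
  have h1 : eLpNorm f₁ 2 μ ≤ ENNReal.ofReal B :=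
    input_err (X := fun s => X s - o a) hf₁m hξam (hξl a) hδm (c := Φ a - o a)
      (fun s => by simp only [hδ]; abel)
      (he a) hg (abs_nonneg _) hδb fun s => (hηb (a, X s)).trans (ENNReal.ofReal_le_ofReal (by
        rw [← sq_abs (eq _)]
        exact pow_le_pow_left₀ (abs_nonneg _) (hgr a _) 2))
  rw [sq_err_iff, abs_of_nonneg (add_nonneg hB0 (by positivity)),
    ENNReal.ofReal_add hB0 (by positivity)]
  refine le_trans (le_of_eq_of_le ?_ (eLpNorm_add_le hf₁m.aestronglyMeasurable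
    hf₂m.aestronglyMeasurable one_le_two)) (add_le_add h1 h2)
  congr 1
  funext s
  simp only [hξ', hη', hf₁, hf₂, hX, Pi.add_apply]
  abel

/-- Bind with the error growing in the norm of the input. -/
theorem emits_bind (p : Emitter d α) (q : Emitter d (α × Sp d)) :
    ∃ m : Emitter d α, m.cost ≤ p.cost + q.cost ∧
      ∀ G, Measurable G → ∀ (Φ : α → Sp d) (ρ : ℝ) (ep : α → ℝ) (Ψ : α × Sp d → Sp d) (r : ℝ)
        (eq : α × Sp d → ℝ) (e : α → ℝ) (g Λ : ℝ),
        Emits p G Φ ρ ep → Measurable Ψ →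
        (∀ a x x', ‖Ψ (a, x) - Ψ (a, x')‖ ≤ Λ * ‖x - x'‖) →
        Emits q G Ψ r eq → 0 ≤ g → (∀ a, 0 ≤ e a) → (∀ a x, |eq (a, x)| ≤ e a + g * ‖x‖) →
        0 ≤ Λ →
        ∃ ξ η : m.S × α → Sp d, Measurable ξ ∧ Measurable η ∧
          (∀ a, m.μ.map (fun s => (ξ (s, a), η (s, a))) = (gd d).prod (gd d)) ∧
          ∀ a, ∫⁻ s, ENNReal.ofReal
              (‖m.run G (s, a) - (Ψ (a, Φ a + ρ • ξ (s, a)) + r • η (s, a))‖ ^ 2) ∂m.μ ≤
            ENNReal.ofReal ((e a + g * (‖Φ a‖ + |ρ| * √d + |ep a|) + Λ * |ep a|) ^ 2) := by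
  obtain ⟨m, hm, h⟩ := emits_bind_at p q
  refine ⟨m, hm, fun G hG Φ ρ ep Ψ r eq e g Λ hp hΨm hΨ hq hg he hgr hΛ => ?_⟩
  simpa using h G hG Φ ρ ep Ψ r eq e 0 g Λ hp
    (fun a => hΨm.comp measurable_prodMk_left) hΨ hq hg he (by simpa using hgr) hΛ

/-- Bind at a noiseless input: again an emission. -/
theorem emits_bind_zero (p : Emitter d α) (q : Emitter d (α × Sp d)) :
    ∃ m : Emitter d α, m.cost ≤ p.cost + q.cost ∧
      ∀ G, Measurable G → ∀ (Φ : α → Sp d) (ep : α → ℝ) (Ψ : α × Sp d → Sp d) (r : ℝ)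
        (eq : α × Sp d → ℝ) (e : α → ℝ) (g Λ : ℝ),
        Emits p G Φ 0 ep → Measurable Ψ →
        (∀ a x x', ‖Ψ (a, x) - Ψ (a, x')‖ ≤ Λ * ‖x - x'‖) →
        Emits q G Ψ r eq → 0 ≤ g → (∀ a, 0 ≤ e a) → (∀ a x, |eq (a, x)| ≤ e a + g * ‖x‖) →
        0 ≤ Λ → Emits m G (fun a => Ψ (a, Φ a)) r fun a => e a + g * ‖Φ a‖ + (g + Λ) * |ep a| := by
  obtain ⟨m, hm, h⟩ := emits_bind p q
  refine ⟨m, hm, fun G hG Φ ep Ψ r eq e g Λ hp hΨm hΨ hq hg he hgr hΛ => ?_⟩
  obtain ⟨ξ, η, -, hηm, hl, hb⟩ := h G hG Φ 0 ep Ψ r eq e g Λ hp hΨm hΨ hq hg he hgr hΛ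
  refine ⟨η, hηm, fun a => ?_, fun a => ?_⟩
  · have := congrArg (Measure.map Prod.snd) (hl a)
    rw [measurePreserving_snd.map_eq] at this
    by_cases hae : AEMeasurable (fun s => (ξ (s, a), η (s, a))) m.μ
    · rwa [AEMeasurable.map_map_of_aemeasurable measurable_snd.aemeasurable hae] at this
    · rw [Measure.map_of_not_aemeasurable hae, Measure.map_zero] at this
      exact absurd this.symm (IsProbabilityMeasure.ne_zero _)
  · have := hb a
    simp only [zero_smul, add_zero, abs_zero, zero_mul] at this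
    refine this.trans_eq ?_
    congr 1
    ring

/-- The average of `k` reruns: the room drops by `√k`. -/
theorem emits_avg (p : Emitter d α) {k : ℕ} (hk : 0 < k) :
    ∃ q : Emitter d α, q.cost ≤ k * p.cost ∧ ∀ G, Measurable G → ∀ Φ (ρ : ℝ) (err : α → ℝ),
      Emits p G Φ ρ err → Emits q G Φ (|ρ| / √k) err := by
  obtain ⟨q, hq, hqe⟩ := emits_sum (fun _ : Fin k => p) fun _ => 1 / (k : ℝ)
  refine ⟨q, hq.trans (by simp), fun G hG Φ ρ err h => ?_⟩
  have h2 := hqe G hG (fun _ => Φ) (fun _ => ρ) (fun _ => err) fun _ => h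
  have hk0 : (0 : ℝ) < k := by exact_mod_cast hk
  simp only [sum_const, card_univ, Fintype.card_fin, ← Nat.cast_smul_eq_nsmul ℝ, smul_smul,
    smul_eq_mul, mul_one_div_cancel hk0.ne', one_smul] at h2
  rw [show |ρ| / √(k : ℝ) = √((k : ℝ) * (1 / (k : ℝ) * ρ) ^ 2) by
    rw [show (k : ℝ) * (1 / (k : ℝ) * ρ) ^ 2 = ρ ^ 2 / k by field_simp, sqrt_div (sq_nonneg _),
      sqrt_sq_eq_abs]]
  refine EmitBase.emits_mono h2 fun a => le_of_eq ?_
  rw [abs_mul, abs_abs, abs_mul, abs_of_pos hk0, abs_of_pos (one_div_pos.2 hk0), ← mul_assoc,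
    mul_one_div_cancel hk0.ne', one_mul]

/-- The constants of a box may be raised and its relaxation lowered. -/
theorem IsBox.mono {K m : ℕ} {η L S B B' C C' : ℝ} {N N' : ℕ}
    {𝒱 : (Sp d → Sp d) → Sp d → Sp d} (h : IsBox d K η L S m B C N 𝒱) (hη : 0 ≤ η)
    (hL : 0 ≤ L) (hS : 0 ≤ S) (hC : 0 ≤ C) (hB : B' ≤ B) (hC' : C ≤ C') (hN : N ≤ N') :
    IsBox d K η L S m B' C' N' 𝒱 := by
  refine ⟨h.1, fun ρ hρ hle => ?_⟩
  obtain ⟨p, hp, hpe⟩ := h.2 ρ hρ (hle.trans (mul_le_mul_of_nonneg_right hB hρ.le))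
  refine ⟨p, hp.trans hN, fun G hG => emits_mono (hpe G hG) fun y => ?_⟩
  have h2 : 0 ≤ √(d : ℝ) + ‖y‖ := by positivity
  have h3 : 0 ≤ η ^ ((m : ℝ) * pE K) := rpow_nonneg hη _
  have hC0 : 0 ≤ C' := hC.trans hC'
  rw [abs_of_nonneg (by positivity), abs_of_nonneg (by positivity)]
  gcongr

end Vale.Agent.P347.Shift
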