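import Vale.Agent.P347.Shift.Diverg

/-!
# P347: tensor fields along a probability flow

Fields of all ranks are indexed by lists of coordinates.  For a velocity `g` on time and space we
define the spatial derivative `D` (new first slot), its adjoint `δ` in the moving law (first slot),
multiplication `M` by the derivative of `g` (first slot), the swap `S` of the first two slots and
the material derivative `A`, and prove that `D`, `δ`, `M`, `S` are closed under commutation with
`A` as soon as `g` solves the equation of the score.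
-/

open Real Finset Filter Topology
open scoped RealInnerProductSpace ContDiff

namespace Vale.Agent.P347.Shift

open Quarter

namespace Fields

variable {d : ℕ}

/-- Time and space. -/
abbrev Pt (d : ℕ) : Type := ℝ × Sp d

/-- Fields of all ranks. -/
abbrev Ten (d : ℕ) : Type := List (Fin d) → Pt d → ℝ

/-- Positive times. -/
def Dom : Set (Pt d) := {p | 0 < p.1}

lemma isOpen_Dom : IsOpen (Dom : Set (Pt d)) := isOpen_lt continuous_const continuous_fst

/-- A function cut off at nonpositive times. -/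
noncomputable def cut (f : Pt d → ℝ) : Pt d → ℝ := Dom.indicator f

/-- A spatial partial derivative. -/
noncomputable def px (j : Fin d) (f : Pt d → ℝ) (p : Pt d) : ℝ := fderiv ℝ f p (0, ei j)

/-- The material derivative of a function. -/
noncomputable def mat (g : Pt d → Sp d) (f : Pt d → ℝ) (p : Pt d) : ℝ := fderiv ℝ f p (1, g p)

/-- A component of the velocity. -/
def gc (g : Pt d → Sp d) (k : Fin d) : Pt d → ℝ := fun p => g p k

/-- An iterated spatial partial derivative. -/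
noncomputable def pxs (l : List (Fin d)) (f : Pt d → ℝ) : Pt d → ℝ := l.foldr px f

/-- The spatial derivative. -/
noncomputable def opD (f : Ten d) : Ten d
  | [] => 0
  | j :: r => cut (px j (f r))

/-- The material derivative. -/
noncomputable def opA (g : Pt d → Sp d) (f : Ten d) : Ten d := fun a => cut (mat g (f a))

/-- The adjoint of the spatial derivative in the moving law. -/
noncomputable def opδ (g : Pt d → Sp d) (f : Ten d) : Ten d := fun r =>
  cut fun p => ∑ j, ((p.2 j + g p j) * f (j :: r) p - px j (f (j :: r)) p)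

/-- Multiplication by a derivative of the velocity of order `i + 1`. -/
noncomputable def opT (g : Pt d → Sp d) (i : ℕ) (f : Ten d) : Ten d := fun a =>
  if i + 1 ≤ a.length then
    cut fun p => ∑ k, pxs (a.take (i + 1)) (gc g k) p * f (k :: a.drop (i + 1)) p
  else 0

/-- Multiplication by the derivative of the velocity. -/
noncomputable def opM (g : Pt d → Sp d) (f : Ten d) : Ten d := opT g 0 f

/-- The swap of the first two slots. -/
def opS (f : Ten d) : Ten d
  | i :: j :: r => f (j :: i :: r)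
  | _ => 0

/-- The part of positive rank. -/
def opP (f : Ten d) : Ten d
  | [] => 0
  | j :: r => f (j :: r)

/-- The velocity as a field of rank one. -/
noncomputable def gT (g : Pt d → Sp d) : Ten d
  | [k] => cut (gc g k)
  | _ => 0

/-- Smooth fields of bounded rank supported at positive times. -/
structure Sm (f : Ten d) : Prop where
  fin : ∃ n, ∀ a, n ≤ a.length → f a = 0
  smooth : ∀ a, ContDiffOn ℝ ∞ (f a) Dom
  off : ∀ a p, p ∉ Dom → f a p = 0

/-- Smooth solutions of the equation of the score. -/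
structure Field (g : Pt d → Sp d) : Prop where
  smooth : ContDiffOn ℝ ∞ g Dom
  sym : ∀ j k, ∀ p ∈ Dom, px j (gc g k) p = px k (gc g j) p
  mat_eq : ∀ k, ∀ p ∈ Dom, mat g (gc g k) p =
    -(∑ j, ((p.2 j + g p j) * px j (gc g k) p - px j (px j (gc g k)) p)) - g p k

variable {g : Pt d → Sp d} {f h : Ten d}

lemma cut_of_mem {F : Pt d → ℝ} {p : Pt d} (hp : p ∈ Dom) : cut F p = F p :=
  Set.indicator_of_mem hp F

lemma cut_of_notMem {F : Pt d → ℝ} {p : Pt d} (hp : p ∉ Dom) : cut F p = 0 :=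
  Set.indicator_of_notMem hp F

lemma cut_eventuallyEq {F : Pt d → ℝ} {p : Pt d} (hp : p ∈ Dom) : cut F =ᶠ[𝓝 p] F :=
  Filter.eventually_of_mem (isOpen_Dom.mem_nhds hp) fun _ hq => cut_of_mem hq

lemma px_cut {F : Pt d → ℝ} {p : Pt d} (hp : p ∈ Dom) (j : Fin d) : px j (cut F) p = px j F p := by
  rw [px, px, (cut_eventuallyEq hp).fderiv_eq]

lemma mat_cut {F : Pt d → ℝ} {p : Pt d} (hp : p ∈ Dom) : mat g (cut F) p = mat g F p := by
  rw [mat, mat, (cut_eventuallyEq hp).fderiv_eq]

lemma contDiffOn_cut {F : Pt d → ℝ} (hF : ContDiffOn ℝ ∞ F Dom) : ContDiffOn ℝ ∞ (cut F) Dom :=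
  hF.congr fun _ hp => cut_of_mem hp

lemma contDiffOn_px {F : Pt d → ℝ} (hF : ContDiffOn ℝ ∞ F Dom) (j : Fin d) :
    ContDiffOn ℝ ∞ (px j F) Dom :=
  (hF.fderiv_of_isOpen (m := ∞) isOpen_Dom (by simp)).clm_apply contDiffOn_const

lemma contDiffOn_pxs {F : Pt d → ℝ} (hF : ContDiffOn ℝ ∞ F Dom) :
    ∀ l : List (Fin d), ContDiffOn ℝ ∞ (pxs l F) Dom
  | [] => hF
  | j :: l => contDiffOn_px (contDiffOn_pxs hF l) j

lemma Field.contDiffOn_gc (hg : Field g) (k : Fin d) : ContDiffOn ℝ ∞ (gc g k) Dom :=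
  contDiffOn_euclidean.1 hg.smooth k

lemma contDiffOn_coord (j : Fin d) : ContDiffOn ℝ ∞ (fun p : Pt d => p.2 j) Dom :=
  contDiffOn_euclidean.1 contDiff_snd.contDiffOn j

lemma diffAt {F : Pt d → ℝ} (hF : ContDiffOn ℝ ∞ F Dom) {p : Pt d} (hp : p ∈ Dom) :
    DifferentiableAt ℝ F p :=
  (hF.contDiffAt (isOpen_Dom.mem_nhds hp)).differentiableAt (by simp)

lemma contDiffOn_mat (hg : Field g) {F : Pt d → ℝ} (hF : ContDiffOn ℝ ∞ F Dom) :
    ContDiffOn ℝ ∞ (mat g F) Dom :=
  (hF.fderiv_of_isOpen (m := ∞) isOpen_Dom (by simp)).clm_apply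
    (contDiffOn_const.prodMk hg.smooth)

/-! ### Closure -/

lemma Sm.ext (hf : Sm f) (hh : Sm h) (H : ∀ a, ∀ p ∈ Dom, f a p = h a p) : f = h :=
  funext fun a => funext fun p => by
    by_cases hp : p ∈ Dom
    · exact H a p hp
    · rw [hf.off a p hp, hh.off a p hp]

lemma Sm.zero : Sm (0 : Ten d) := ⟨⟨0, fun _ _ => rfl⟩, fun _ => contDiffOn_const, fun _ _ _ => rfl⟩

lemma Sm.add (hf : Sm f) (hh : Sm h) : Sm (f + h) := by
  obtain ⟨n, hn⟩ := hf.fin
  obtain ⟨m, hm⟩ := hh.fin
  exact ⟨⟨max n m, fun a ha => by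
    simp [hn a ((le_max_left n m).trans ha), hm a ((le_max_right n m).trans ha)]⟩,
    fun a => (hf.smooth a).add (hh.smooth a), fun a p hp => by simp [hf.off a p hp, hh.off a p hp]⟩

lemma Sm.smul (hf : Sm f) (c : ℝ) : Sm (c • f) := by
  obtain ⟨n, hn⟩ := hf.fin
  exact ⟨⟨n, fun a ha => by simp [hn a ha]⟩, fun a => (hf.smooth a).const_smul c,
    fun a p hp => by simp [hf.off a p hp]⟩

lemma Sm.neg (hf : Sm f) : Sm (-f) := by
  simpa using hf.smul (-1)

lemma Sm.sub (hf : Sm f) (hh : Sm h) : Sm (f - h) := by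
  simpa [sub_eq_add_neg] using hf.add hh.neg

lemma px_zero (j : Fin d) : px j (0 : Pt d → ℝ) = 0 := funext fun p => by simp [px]

lemma cut_zero : cut (0 : Pt d → ℝ) = 0 := Set.indicator_zero' _

lemma Sm.D (hf : Sm f) : Sm (opD f) := by
  obtain ⟨n, hn⟩ := hf.fin
  refine ⟨⟨n + 1, fun a ha => ?_⟩, fun a => ?_, fun a p hp => ?_⟩
  · rcases a with _ | ⟨j, r⟩
    · simp at ha
    · rw [opD, hn r (by simpa using ha), px_zero, cut_zero]
  · rcases a with _ | ⟨j, r⟩
    · exact contDiffOn_const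
    · exact contDiffOn_cut (contDiffOn_px (hf.smooth r) j)
  · rcases a with _ | ⟨j, r⟩
    · rfl
    · exact cut_of_notMem hp

lemma Sm.A (hg : Field g) (hf : Sm f) : Sm (opA g f) := by
  obtain ⟨n, hn⟩ := hf.fin
  refine ⟨⟨n, fun a ha => ?_⟩, fun a => contDiffOn_cut (contDiffOn_mat hg (hf.smooth a)),
    fun a p hp => cut_of_notMem hp⟩
  rw [opA, hn a ha, show mat g (0 : Pt d → ℝ) = 0 from funext fun p => by simp [mat], cut_zero]

lemma Sm.δ (hg : Field g) (hf : Sm f) : Sm (opδ g f) := by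
  obtain ⟨n, hn⟩ := hf.fin
  refine ⟨⟨n, fun a ha => ?_⟩, fun a => contDiffOn_cut (ContDiffOn.sum fun j _ => ?_),
    fun a p hp => cut_of_notMem hp⟩
  · have e : ∀ j : Fin d, f (j :: a) = 0 := fun j => hn _ (by simpa using Nat.le_succ_of_le ha)
    simp only [opδ, e, px_zero, Pi.zero_apply, mul_zero, sub_zero, sum_const_zero]
    exact cut_zero
  · exact (((contDiffOn_coord j).add (hg.contDiffOn_gc j)).mul (hf.smooth _)).sub
      (contDiffOn_px (hf.smooth _) j)

lemma Sm.T (hg : Field g) (hf : Sm f) (i : ℕ) : Sm (opT g i f) := by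
  obtain ⟨n, hn⟩ := hf.fin
  refine ⟨⟨n + i, fun a ha => ?_⟩, fun a => ?_, fun a p hp => ?_⟩
  · by_cases hl : i + 1 ≤ a.length
    · have e : ∀ k : Fin d, f (k :: a.drop (i + 1)) = 0 := fun k => hn _ (by simp; omega)
      simp only [opT, if_pos hl, e, Pi.zero_apply, mul_zero, sum_const_zero]
      exact cut_zero
    · simp [opT, hl]
  · by_cases hl : i + 1 ≤ a.length
    · simp only [opT, if_pos hl]
      exact contDiffOn_cut (ContDiffOn.sum fun k _ =>
        (contDiffOn_pxs (hg.contDiffOn_gc k) _).mul (hf.smooth _))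
    · simp only [opT, if_neg hl]; exact contDiffOn_const
  · by_cases hl : i + 1 ≤ a.length
    · simp only [opT, if_pos hl]; exact cut_of_notMem hp
    · simp [opT, hl]

lemma Sm.M (hg : Field g) (hf : Sm f) : Sm (opM g f) := hf.T hg 0

lemma Sm.S (hf : Sm f) : Sm (opS f) := by
  obtain ⟨n, hn⟩ := hf.fin
  refine ⟨⟨n, fun a ha => ?_⟩, fun a => ?_, fun a p hp => ?_⟩ <;>
    rcases a with _ | ⟨i, _ | ⟨j, r⟩⟩
  all_goals first
    | exact rfl
    | exact contDiffOn_const
    | exact hn _ (by simpa using ha)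
    | exact hf.smooth _
    | exact hf.off _ p hp

lemma Sm.P (hf : Sm f) : Sm (opP f) := by
  obtain ⟨n, hn⟩ := hf.fin
  refine ⟨⟨n, fun a ha => ?_⟩, fun a => ?_, fun a p hp => ?_⟩ <;> rcases a with _ | ⟨j, r⟩
  all_goals first
    | exact rfl
    | exact contDiffOn_const
    | exact hn _ ha
    | exact hf.smooth _
    | exact hf.off _ p hp

lemma Field.sm_gT (hg : Field g) : Sm (gT g) := by
  refine ⟨⟨2, fun a ha => ?_⟩, fun a => ?_, fun a p hp => ?_⟩ <;>
    rcases a with _ | ⟨i, _ | ⟨j, r⟩⟩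
  all_goals first
    | exact rfl
    | exact contDiffOn_const
    | (simp at ha)
    | exact contDiffOn_cut (hg.contDiffOn_gc _)
    | exact cut_of_notMem hp

/-! ### Linearity -/

lemma opD_add (hf : Sm f) (hh : Sm h) : opD (f + h) = opD f + opD h :=
  (hf.add hh).D.ext (hf.D.add hh.D) fun a p hp => by
    rcases a with _ | ⟨j, r⟩
    · simp [opD]
    · simp only [opD, Pi.add_apply, cut_of_mem hp]
      rw [px, fderiv_add (diffAt (hf.smooth r) hp) (diffAt (hh.smooth r) hp)]
      rfl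

lemma opD_smul (hf : Sm f) (c : ℝ) : opD (c • f) = c • opD f :=
  (hf.smul c).D.ext (hf.D.smul c) fun a p hp => by
    rcases a with _ | ⟨j, r⟩
    · simp [opD]
    · simp only [opD, Pi.smul_apply, cut_of_mem hp]
      rw [px, fderiv_const_smul (diffAt (hf.smooth r) hp)]
      rfl

lemma opA_add (hg : Field g) (hf : Sm f) (hh : Sm h) : opA g (f + h) = opA g f + opA g h :=
  ((hf.add hh).A hg).ext ((hf.A hg).add (hh.A hg)) fun a p hp => by
    simp only [opA, Pi.add_apply, cut_of_mem hp]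
    rw [mat, fderiv_add (diffAt (hf.smooth a) hp) (diffAt (hh.smooth a) hp)]
    rfl

lemma opA_smul (hg : Field g) (hf : Sm f) (c : ℝ) : opA g (c • f) = c • opA g f :=
  ((hf.smul c).A hg).ext ((hf.A hg).smul c) fun a p hp => by
    simp only [opA, Pi.smul_apply, cut_of_mem hp]
    rw [mat, fderiv_const_smul (diffAt (hf.smooth a) hp)]
    rfl

lemma opδ_add (hg : Field g) (hf : Sm f) (hh : Sm h) : opδ g (f + h) = opδ g f + opδ g h :=
  ((hf.add hh).δ hg).ext ((hf.δ hg).add (hh.δ hg)) fun a p hp => by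
    simp only [opδ, Pi.add_apply, cut_of_mem hp, ← sum_add_distrib]
    refine sum_congr rfl fun j _ => ?_
    rw [show px j (f (j :: a) + h (j :: a)) p = px j (f (j :: a)) p + px j (h (j :: a)) p by
      rw [px, fderiv_add (diffAt (hf.smooth _) hp) (diffAt (hh.smooth _) hp)]; rfl]
    ring

lemma opδ_smul (hg : Field g) (hf : Sm f) (c : ℝ) : opδ g (c • f) = c • opδ g f :=
  ((hf.smul c).δ hg).ext ((hf.δ hg).smul c) fun a p hp => by
    simp only [opδ, Pi.smul_apply, cut_of_mem hp, smul_eq_mul, mul_sum]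
    refine sum_congr rfl fun j _ => ?_
    rw [show px j (c • f (j :: a)) p = c * px j (f (j :: a)) p by
      rw [px, fderiv_const_smul (diffAt (hf.smooth _) hp)]; rfl]
    ring

lemma opT_add (hg : Field g) (hf : Sm f) (hh : Sm h) (i : ℕ) :
    opT g i (f + h) = opT g i f + opT g i h :=
  ((hf.add hh).T hg i).ext ((hf.T hg i).add (hh.T hg i)) fun a p hp => by
    by_cases hl : i + 1 ≤ a.length <;>
      simp [opT, hl, cut_of_mem hp, mul_add, sum_add_distrib]

lemma opT_smul (hg : Field g) (hf : Sm f) (c : ℝ) (i : ℕ) :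
    opT g i (c • f) = c • opT g i f :=
  ((hf.smul c).T hg i).ext ((hf.T hg i).smul c) fun a p hp => by
    by_cases hl : i + 1 ≤ a.length <;>
      simp [opT, hl, cut_of_mem hp, mul_sum, mul_left_comm]

lemma opS_add : opS (f + h) = opS f + opS h := by
  funext a; rcases a with _ | ⟨i, _ | ⟨j, r⟩⟩ <;> simp [opS]

lemma opS_smul (c : ℝ) : opS (c • f) = c • opS f := by
  funext a; rcases a with _ | ⟨i, _ | ⟨j, r⟩⟩ <;> simp [opS]

/-! ### Calculus -/

lemma clm_expand (L : Sp d →L[ℝ] ℝ) (y : Sp d) : L y = ∑ k, y k * L (ei k) := by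
  conv_lhs => rw [← (EuclideanSpace.basisFun (Fin d) ℝ).sum_repr y]
  simp [ei]

lemma fderiv_gc {p : Pt d} (hg : DifferentiableAt ℝ g p) (k : Fin d) (v : Pt d) :
    fderiv ℝ (gc g k) p v = fderiv ℝ g p v k :=
  congrArg (fun L : Pt d →L[ℝ] ℝ => L v)
    ((EuclideanSpace.proj (𝕜 := ℝ) k).hasFDerivAt.comp p hg.hasFDerivAt).fderiv

lemma px_comm {F : Pt d → ℝ} (hF : ContDiffOn ℝ ∞ F Dom) {p : Pt d} (hp : p ∈ Dom) (i j : Fin d) :
    px i (px j F) p = px j (px i F) p := by
  have hs := (hF.contDiffAt (isOpen_Dom.mem_nhds hp)).isSymmSndFDerivAt (n := ∞) (by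
    simp [minSmoothness_of_isRCLikeNormedField, ENat.LEInfty.out])
  have hd : DifferentiableAt ℝ (fderiv ℝ F) p :=
    ((hF.fderiv_of_isOpen (m := ∞) isOpen_Dom (by simp)).contDiffAt
      (isOpen_Dom.mem_nhds hp)).differentiableAt (by simp)
  have e : ∀ i j : Fin d, px i (px j F) p = fderiv ℝ (fderiv ℝ F) p (0, ei i) (0, ei j) :=
    fun i j => by
    have h := (hd.hasFDerivAt.clm_apply (hasFDerivAt_const ((0, ei j) : Pt d) p)).fderiv
    exact (congrArg (fun L : Pt d →L[ℝ] ℝ => L (0, ei i)) h).trans (by simp)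
  rw [e, e, hs]

/-- The material derivative of a spatial derivative. -/
lemma mat_px (hg : Field g) {F : Pt d → ℝ} (hF : ContDiffOn ℝ ∞ F Dom) {p : Pt d} (hp : p ∈ Dom)
    (j : Fin d) : mat g (px j F) p =
      px j (mat g F) p - ∑ k, px j (gc g k) p * px k F p := by
  have hd : DifferentiableAt ℝ (fderiv ℝ F) p :=
    ((hF.fderiv_of_isOpen (m := ∞) isOpen_Dom (by simp)).contDiffAt
      (isOpen_Dom.mem_nhds hp)).differentiableAt (by simp)
  have hgd : DifferentiableAt ℝ g p :=
    (hg.smooth.contDiffAt (isOpen_Dom.mem_nhds hp)).differentiableAt (by simp)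
  have hs := (hF.contDiffAt (isOpen_Dom.mem_nhds hp)).isSymmSndFDerivAt (n := ∞) (by
    simp [minSmoothness_of_isRCLikeNormedField, ENat.LEInfty.out])
  have h1 := (hd.hasFDerivAt.clm_apply (hasFDerivAt_const ((0, ei j) : Pt d) p)).fderiv
  have h2 := (hd.hasFDerivAt.clm_apply
    ((hasFDerivAt_const (1 : ℝ) p).prodMk hgd.hasFDerivAt)).fderiv
  have e1 : mat g (px j F) p = fderiv ℝ (fderiv ℝ F) p (1, g p) (0, ei j) :=
    (congrArg (fun L : Pt d →L[ℝ] ℝ => L (1, g p)) h1).trans (by simp)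
  have e2 : px j (mat g F) p = fderiv ℝ F p (0, fderiv ℝ g p (0, ei j)) +
      fderiv ℝ (fderiv ℝ F) p (0, ei j) (1, g p) :=
    (congrArg (fun L : Pt d →L[ℝ] ℝ => L (0, ei j)) h2).trans (by simp)
  have e3 := clm_expand ((fderiv ℝ F p).comp (ContinuousLinearMap.inr ℝ ℝ (Sp d)))
    (fderiv ℝ g p (0, ei j))
  simp only [ContinuousLinearMap.coe_comp, Function.comp_apply,
    ContinuousLinearMap.inr_apply] at e3
  rw [e1, e2, e3, hs (1, g p) (0, ei j)]
  simp only [px, fderiv_gc hgd]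
  ring

lemma px_mul {F G : Pt d → ℝ} {p : Pt d} (hF : DifferentiableAt ℝ F p)
    (hG : DifferentiableAt ℝ G p) (j : Fin d) :
    px j (fun q => F q * G q) p = px j F p * G p + F p * px j G p := by
  rw [px, fderiv_fun_mul hF hG]
  simp [px]
  ring

lemma px_sum {α : Type*} {s : Finset α} {F : α → Pt d → ℝ} {p : Pt d}
    (hF : ∀ a ∈ s, DifferentiableAt ℝ (F a) p) (j : Fin d) :
    px j (fun q => ∑ a ∈ s, F a q) p = ∑ a ∈ s, px j (F a) p := by
  rw [px, fderiv_fun_sum hF]
  simp [px]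

lemma mat_sum {α : Type*} {s : Finset α} {F : α → Pt d → ℝ} {p : Pt d}
    (hF : ∀ a ∈ s, DifferentiableAt ℝ (F a) p) :
    mat g (fun q => ∑ a ∈ s, F a q) p = ∑ a ∈ s, mat g (F a) p := by
  rw [mat, fderiv_fun_sum hF]
  simp [mat]

lemma px_adj {Y : Pt d → ℝ} (hg : Field g) (hY : ContDiffOn ℝ ∞ Y Dom) {p : Pt d} (hp : p ∈ Dom)
    (b j : Fin d) :
    px b (fun q => (q.2 j + g q j) * Y q - px j Y q) p =
      ((if b = j then 1 else 0) + px b (gc g j) p) * Y p + (p.2 j + g p j) * px b Y p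
        - px b (px j Y) p := by
  have hc : HasFDerivAt (fun q : Pt d => q.2 j)
      ((EuclideanSpace.proj (𝕜 := ℝ) j).comp (ContinuousLinearMap.snd ℝ ℝ (Sp d))) p :=
    ((EuclideanSpace.proj (𝕜 := ℝ) j).comp (ContinuousLinearMap.snd ℝ ℝ (Sp d))).hasFDerivAt
  have h := ((hc.fun_add (diffAt (hg.contDiffOn_gc j) hp).hasFDerivAt).fun_mul
    (diffAt hY hp).hasFDerivAt).fun_sub (diffAt (contDiffOn_px hY j) hp).hasFDerivAt
  refine (congrArg (fun L : Pt d →L[ℝ] ℝ => L (0, ei b)) h.fderiv).trans ?_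
  simp [px, gc, ei, PiLp.single_apply, eq_comm (a := j)]
  split_ifs <;> ring

lemma mat_adj {Y : Pt d → ℝ} (hg : Field g) (hY : ContDiffOn ℝ ∞ Y Dom) {p : Pt d} (hp : p ∈ Dom)
    (j : Fin d) :
    mat g (fun q => (q.2 j + g q j) * Y q - px j Y q) p =
      (g p j + mat g (gc g j) p) * Y p + (p.2 j + g p j) * mat g Y p - mat g (px j Y) p := by
  have hc : HasFDerivAt (fun q : Pt d => q.2 j)
      ((EuclideanSpace.proj (𝕜 := ℝ) j).comp (ContinuousLinearMap.snd ℝ ℝ (Sp d))) p :=
    ((EuclideanSpace.proj (𝕜 := ℝ) j).comp (ContinuousLinearMap.snd ℝ ℝ (Sp d))).hasFDerivAt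
  have h := ((hc.fun_add (diffAt (hg.contDiffOn_gc j) hp).hasFDerivAt).fun_mul
    (diffAt hY hp).hasFDerivAt).fun_sub (diffAt (contDiffOn_px hY j) hp).hasFDerivAt
  refine (congrArg (fun L : Pt d →L[ℝ] ℝ => L (1, g p)) h.fderiv).trans ?_
  simp [mat, gc]
  ring

lemma diff_adj (hg : Field g) {Y : Pt d → ℝ} (hY : ContDiffOn ℝ ∞ Y Dom) {p : Pt d}
    (hp : p ∈ Dom) (j : Fin d) :
    DifferentiableAt ℝ (fun q : Pt d => (q.2 j + g q j) * Y q - px j Y q) p :=
  diffAt ((((contDiffOn_coord j).add (hg.contDiffOn_gc j)).mul hY).sub (contDiffOn_px hY j)) hp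

lemma opM_cons (j : Fin d) (r : List (Fin d)) :
    opM g f (j :: r) = cut fun p => ∑ k, px j (gc g k) p * f (k :: r) p := by
  simp [opM, opT, pxs]

lemma opM_nil : opM g f [] = 0 := by simp [opM, opT]

/-! ### Commutators -/

theorem A_D (hg : Field g) (hf : Sm f) : opA g (opD f) = opD (opA g f) - opM g (opD f) :=
  (hf.D.A hg).ext ((hf.A hg).D.sub (hf.D.M hg)) fun a p hp => by
    rcases a with _ | ⟨j, r⟩
    · simp [opA, opD, opM_nil, mat, cut_of_mem hp]
    · simp only [Pi.sub_apply, opM_cons, opA, opD, cut_of_mem hp, mat_cut hp, px_cut hp]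
      exact mat_px hg (hf.smooth r) hp j

theorem A_δ (hg : Field g) (hf : Sm f) :
    opA g (opδ g f) = opδ g (opA g f) - opδ g (opM g f) :=
  ((hf.δ hg).A hg).ext (((hf.A hg).δ hg).sub ((hf.M hg).δ hg)) fun r p hp => by
    have hpx : ∀ j, px j (fun q => ∑ k, px j (gc g k) q * f (k :: r) q) p =
        ∑ k, (px j (px j (gc g k)) p * f (k :: r) p + px j (gc g k) p * px j (f (k :: r)) p) :=
      fun j => (px_sum (fun k _ => (diffAt (contDiffOn_px (hg.contDiffOn_gc k) j) hp).fun_mul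
        (diffAt (hf.smooth _) hp)) j).trans (sum_congr rfl fun k _ =>
          px_mul (diffAt (contDiffOn_px (hg.contDiffOn_gc k) j) hp) (diffAt (hf.smooth _) hp) j)
    simp only [Pi.sub_apply, opA, opδ, opM_cons, cut_of_mem hp, mat_cut hp, px_cut hp, hpx]
    rw [mat_sum fun j _ => diff_adj hg (hf.smooth (j :: r)) hp j]
    simp only [mat_adj hg (hf.smooth _) hp, hg.mat_eq _ p hp, mat_px hg (hf.smooth _) hp]
    -- the two contractions of the second derivative cancel by symmetry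
    have s1 : ∑ j, ∑ k, px j (gc g k) p * px k (f (j :: r)) p =
        ∑ j, ∑ k, px j (gc g k) p * px j (f (k :: r)) p := by
      rw [sum_comm]
      exact sum_congr rfl fun j _ => sum_congr rfl fun k _ => by rw [hg.sym j k p hp]
    have s2 : ∑ j, (∑ k, ((p.2 k + g p k) * px k (gc g j) p - px k (px k (gc g j)) p)) *
        f (j :: r) p = ∑ j, ∑ k, ((p.2 j + g p j) * px j (gc g k) p * f (k :: r) p
          - px j (px j (gc g k)) p * f (k :: r) p) := by
      simp only [sum_mul, sub_mul]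
      exact sum_comm
    have e : ∀ j, (g p j + (-(∑ k, ((p.2 k + g p k) * px k (gc g j) p - px k (px k (gc g j)) p))
          - g p j)) * f (j :: r) p + (p.2 j + g p j) * mat g (f (j :: r)) p
          - (px j (mat g (f (j :: r))) p - ∑ k, px j (gc g k) p * px k (f (j :: r)) p) =
        ((p.2 j + g p j) * mat g (f (j :: r)) p - px j (mat g (f (j :: r))) p)
          - (∑ k, ((p.2 k + g p k) * px k (gc g j) p - px k (px k (gc g j)) p)) * f (j :: r) p
          + ∑ k, px j (gc g k) p * px k (f (j :: r)) p := fun j => by ring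
    rw [sum_congr rfl fun j _ => e j, sum_add_distrib, sum_sub_distrib, s1, s2]
    simp only [sum_add_distrib, sum_sub_distrib, mul_sum, ← mul_assoc]
    ring

/-- The derivative of the velocity as a commutator. -/
theorem M_eq (hg : Field g) (hf : Sm f) :
    opM g f = opD (opδ g f) - opδ g (opS (opD f)) - opP f :=
  (hf.M hg).ext (((hf.δ hg).D.sub (hf.D.S.δ hg)).sub hf.P) fun a p hp => by
    rcases a with _ | ⟨b, r⟩
    · have e : ∀ j : Fin d, opS (opD f) [j] = 0 := fun _ => rfl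
      simp [opM_nil, opD, opδ, opP, e, cut_of_mem hp, px_zero]
    · have e : ∀ j : Fin d, opS (opD f) (j :: b :: r) = cut (px b (f (j :: r))) := fun _ => rfl
      simp only [Pi.sub_apply, opM_cons, opP, opD, opδ, e, cut_of_mem hp, px_cut hp]
      rw [px_sum (fun j _ => diff_adj hg (hf.smooth (j :: r)) hp j)]
      simp only [px_adj hg (hf.smooth _) hp, px_comm (hf.smooth _) hp b]
      simp only [sum_sub_distrib, sum_add_distrib, add_mul, ite_mul, one_mul, zero_mul,
        Finset.sum_ite_eq, mem_univ, if_true]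
      ring

theorem A_S : opA g (opS f) = opS (opA g f) := by
  funext a
  rcases a with _ | ⟨i, _ | ⟨j, r⟩⟩ <;>
    simp [opA, opS, cut, funext fun p => show mat g (0 : Pt d → ℝ) p = 0 by simp [mat]] <;> rfl

theorem A_P : opA g (opP f) = opP (opA g f) := by
  funext a
  rcases a with _ | ⟨j, r⟩ <;>
    simp [opA, opP, cut, funext fun p => show mat g (0 : Pt d → ℝ) p = 0 by simp [mat]]; rfl

lemma opA_sub (hg : Field g) (hf : Sm f) (hh : Sm h) : opA g (f - h) = opA g f - opA g h := by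
  refine eq_sub_of_add_eq ?_
  rw [← opA_add hg (hf.sub hh) hh, sub_add_cancel]

lemma opD_sub (hf : Sm f) (hh : Sm h) : opD (f - h) = opD f - opD h := by
  refine eq_sub_of_add_eq ?_
  rw [← opD_add (hf.sub hh) hh, sub_add_cancel]

lemma opδ_sub (hg : Field g) (hf : Sm f) (hh : Sm h) : opδ g (f - h) = opδ g f - opδ g h := by
  refine eq_sub_of_add_eq ?_
  rw [← opδ_add hg (hf.sub hh) hh, sub_add_cancel]

lemma opS_sub : opS (f - h) = opS f - opS h := by
  refine eq_sub_of_add_eq ?_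
  rw [← opS_add, sub_add_cancel]

theorem A_M (hg : Field g) (hf : Sm f) :
    opA g (opM g f) = opM g (opA g f) - opM g (opD (opδ g f)) - opD (opδ g (opM g f))
      + opδ g (opM g (opS (opD f))) + opδ g (opS (opM g (opD f))) := by
  rw [M_eq hg hf, opA_sub hg ((hf.δ hg).D.sub (hf.D.S.δ hg)) hf.P,
    opA_sub hg (hf.δ hg).D (hf.D.S.δ hg), A_D hg (hf.δ hg), A_δ hg hf, A_δ hg hf.D.S, A_S,
    A_D hg hf, A_P, opS_sub, opδ_sub hg (hf.A hg).D.S (hf.D.M hg).S,
    opD_sub ((hf.A hg).δ hg) ((hf.M hg).δ hg), M_eq hg (hf.A hg), ← M_eq hg hf]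
  abel

/-- The equation of the velocity. -/
theorem A_gT (hg : Field g) : opA g (gT g) = -opδ g (opD (gT g)) - gT g :=
  (hg.sm_gT.A hg).ext ((hg.sm_gT.D.δ hg).neg.sub hg.sm_gT) fun a p hp => by
    rcases a with _ | ⟨k, _ | ⟨l, r⟩⟩
    · simp [opA, gT, opδ, opD, cut_of_mem hp, px_zero, cut_zero, mat]
    · simp only [Pi.sub_apply, Pi.neg_apply, opA, gT, opδ, opD, cut_of_mem hp, mat_cut hp,
        px_cut hp]
      rw [hg.mat_eq k p hp]
      have e : ∀ j, px j (px j (cut (gc g k))) p = px j (px j (gc g k)) p := fun j => by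
        have h : px j (cut (gc g k)) =ᶠ[𝓝 p] px j (gc g k) :=
          Filter.eventually_of_mem (isOpen_Dom.mem_nhds hp) fun q hq => px_cut hq j
        rw [px, h.fderiv_eq]
        rfl
      simp only [e, gc]
    · simp [opA, gT, opδ, opD, cut_of_mem hp, px_zero, cut_zero, mat]

end Fields

end Vale.Agent.P347.Shift
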