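import Mathlib

/-!
# P347: iterated material derivatives

A linear map `A` moves through a family of operators (`D`, its adjoint and multiplication by the
derivative of the velocity) up to finite sums of words of the same operators, each commutator
costing at most two orders. Then every iterate `A ^ r` of a word is bounded by the graded norms of
the iterates of its argument, and a solution of `A g = ∑ c • word g` has `A ^ r` applied to it
bounded by `2 r`
orders of `g`. The constants depend on `K`, `B`, `r` and the length of the word only.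
-/

open Finset

namespace Vale.Agent.P347.Shift.Material

variable {ι V : Type*}

/-- The order of a word. -/
def word (ord : ι → ℕ) (w : List ι) : ℕ := (w.map ord).sum

/-- A word applied to a vector. -/
def app (op : ι → V → V) (w : List ι) (f : V) : V := w.foldr op f

/-- The commutator of `A` with a word, as a list of weighted words. -/
def commW (comm : ι → List (ℝ × List ι)) : List ι → List (ℝ × List ι)
  | [] => []
  | X :: w => (comm X).map (fun p => (p.1, p.2 ++ w)) ++
      (commW comm w).map (fun p => (p.1, X :: p.2))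

/-- The total weight of a combination. -/
def wt (l : List (ℝ × List ι)) : ℝ := (l.map fun p => |p.1|).sum

/-- The constant of `iterate_app_le`. -/
def cW (K B : ℝ) : ℕ → ℕ → ℝ
  | 0, n => K ^ n
  | r + 1, n => cW K B r (n + 4) * (1 + n * B)

/-- The constant of `iterate_self_le`. -/
def gC (K B : ℝ) : ℕ → ℝ
  | 0 => 1
  | r + 1 => B * cW K B r 4 * (r + 1) * gC K B r + gC K B r

variable [AddCommGroup V] [Module ℝ V]

/-- A weighted sum of words applied to a vector. -/
def comb (op : ι → V → V) (l : List (ℝ × List ι)) (f : V) : V :=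
  (l.map fun p => p.1 • app op p.2 f).sum

/-- Graded seminorms, operators of given order and their commutators with `A`. -/
structure Sys (ι V : Type*) [AddCommGroup V] [Module ℝ V] where
  /-- the seminorms -/
  N : ℕ → V → ℝ
  /-- the derivative -/
  A : V →ₗ[ℝ] V
  /-- the operators -/
  op : ι → V →ₗ[ℝ] V
  /-- their orders -/
  ord : ι → ℕ
  /-- their commutators with `A` -/
  comm : ι → List (ℝ × List ι)
  /-- the cost of one order -/
  σ : ℝ
  /-- the norm of an operator -/
  K : ℝ
  /-- the weight of a commutator -/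
  B : ℝ
  one_le_σ : 1 ≤ σ
  one_le_K : 1 ≤ K
  B_nonneg : 0 ≤ B
  N_nonneg : ∀ q f, 0 ≤ N q f
  N_zero : ∀ q, N q 0 = 0
  N_add : ∀ q f g, N q (f + g) ≤ N q f + N q g
  N_smul : ∀ q (c : ℝ) f, N q (c • f) ≤ |c| * N q f
  N_mono : ∀ f, Monotone fun q => N q f
  op_le : ∀ X q f, N q (op X f) ≤ K * σ ^ ord X * N (q + ord X) f
  comm_eq : ∀ X f, A (op X f) = op X (A f) + comb (fun Y => op Y) (comm X) f
  comm_len : ∀ X, ∀ p ∈ comm X, p.2.length ≤ 4
  comm_ord : ∀ X, ∀ p ∈ comm X, word ord p.2 ≤ ord X + 2
  comm_wt : ∀ X, wt (comm X) ≤ B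

section

variable (S : Sys ι V)

omit [AddCommGroup V] [Module ℝ V] in
lemma wt_nonneg (l : List (ℝ × List ι)) : 0 ≤ wt l :=
  List.sum_nonneg fun x hx => by
    obtain ⟨p, -, rfl⟩ := List.mem_map.1 hx
    exact abs_nonneg _

omit [AddCommGroup V] [Module ℝ V] in
lemma wt_map (l : List (ℝ × List ι)) (φ : List ι → List ι) :
    wt (l.map fun p => (p.1, φ p.2)) = wt l := by
  simp [wt, Function.comp_def]

omit [AddCommGroup V] [Module ℝ V] in
lemma mem_commW {comm : ι → List (ℝ × List ι)} {w : List ι} {p : ℝ × List ι}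
    (hp : p ∈ commW comm w) :
    ∃ X a b, ∃ q ∈ comm X, w = a ++ X :: b ∧ p.2 = a ++ (q.2 ++ b) := by
  induction w generalizing p with
  | nil => simp [commW] at hp
  | cons Y w ih =>
    simp only [commW, List.mem_append, List.mem_map] at hp
    rcases hp with ⟨q, hq, rfl⟩ | ⟨q, hq, rfl⟩
    · exact ⟨Y, [], w, q, hq, rfl, rfl⟩
    · obtain ⟨X, a, b, q', hq', rfl, e⟩ := ih hq
      exact ⟨X, Y :: a, b, q', hq', rfl, by simp [e]⟩

lemma commW_len {w : List ι} {p : ℝ × List ι} (hp : p ∈ commW S.comm w) :
    p.2.length ≤ w.length + 4 := by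
  obtain ⟨X, a, b, q, hq, rfl, e⟩ := mem_commW hp
  have := S.comm_len X q hq
  simp only [e, List.length_append, List.length_cons]
  omega

lemma commW_ord {w : List ι} {p : ℝ × List ι} (hp : p ∈ commW S.comm w) :
    word S.ord p.2 ≤ word S.ord w + 2 := by
  obtain ⟨X, a, b, q, hq, rfl, e⟩ := mem_commW hp
  have := S.comm_ord X q hq
  simp only [word, e, List.map_append, List.map_cons, List.sum_append, List.sum_cons] at this ⊢
  omega

lemma commW_wt (w : List ι) : wt (commW S.comm w) ≤ w.length * S.B := by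
  induction w with
  | nil => simp [commW, wt]
  | cons X w ih =>
    have h1 := wt_map (S.comm X) fun u => u ++ w
    have h2 := wt_map (commW S.comm w) fun u => X :: u
    have e : wt (commW S.comm (X :: w)) = wt (S.comm X) + wt (commW S.comm w) := by
      rw [← h1, ← h2]; simp [commW, wt]
    rw [e, List.length_cons, Nat.cast_succ, add_mul, one_mul]
    linarith [S.comm_wt X]

lemma app_append (a b : List ι) (f : V) :
    app (fun Y => S.op Y) (a ++ b) f = app (fun Y => S.op Y) a (app (fun Y => S.op Y) b f) := by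
  simp [app]

lemma A_app (w : List ι) (f : V) :
    S.A (app (fun Y => S.op Y) w f) =
      app (fun Y => S.op Y) w (S.A f) + comb (fun Y => S.op Y) (commW S.comm w) f := by
  induction w with
  | nil => simp [app, comb, commW]
  | cons X w ih =>
    simp only [app, List.foldr_cons] at ih ⊢
    rw [S.comm_eq, ih, map_add, add_assoc]
    congr 1
    simp only [comb, commW, List.map_append, List.sum_append, map_list_sum]
    rw [add_comm]
    simp [app, List.map_map, Function.comp_def, map_smul]

lemma N_comb (l : List (ℝ × List ι)) (f : V) (T : V →ₗ[ℝ] V) (q : ℕ) {M : ℝ}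
    (h : ∀ p ∈ l, S.N q (T (app (fun Y => S.op Y) p.2 f)) ≤ M) :
    S.N q (T (comb (fun Y => S.op Y) l f)) ≤ wt l * M := by
  induction l with
  | nil => simp [comb, wt, S.N_zero]
  | cons p l ih =>
    have e : wt (p :: l) = |p.1| + wt l := by simp [wt]
    simp only [comb, List.map_cons, List.sum_cons, map_add, map_smul] at ih ⊢
    rw [e, add_mul]
    exact (S.N_add _ _ _).trans (add_le_add ((S.N_smul _ _ _).trans
      (mul_le_mul_of_nonneg_left (h p (by simp)) (abs_nonneg _)))
      (ih fun p hp => h p (by simp [hp])))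

lemma N_app (w : List ι) (q : ℕ) (f : V) :
    S.N q (app (fun Y => S.op Y) w f) ≤
      S.K ^ w.length * (S.σ ^ word S.ord w * S.N (q + word S.ord w) f) := by
  induction w generalizing q with
  | nil => simp [app, word]
  | cons X w ih =>
    have hK : (0:ℝ) ≤ S.K := zero_le_one.trans S.one_le_K
    have hs : (0:ℝ) ≤ S.σ := zero_le_one.trans S.one_le_σ
    refine (S.op_le X q _).trans ((mul_le_mul_of_nonneg_left (ih _) (by positivity)).trans_eq ?_)
    simp only [word, List.map_cons, List.sum_cons, List.length_cons, add_assoc]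
    ring

/-- The bound for one iterate of the derivative of a word of order `m`. -/
def bnd (r m q : ℕ) (f : V) : ℝ :=
  ∑ i ∈ range (r + 1), S.σ ^ (m + 2 * (r - i)) * S.N (q + (m + 2 * (r - i))) ((S.A ^ i) f)

lemma bnd_nonneg (r m q : ℕ) (f : V) : 0 ≤ bnd S r m q f :=
  sum_nonneg fun _ _ =>
    mul_nonneg (pow_nonneg (zero_le_one.trans S.one_le_σ) _) (S.N_nonneg _ _)

lemma bnd_mono {r m m' q : ℕ} (h : m ≤ m') (f : V) : bnd S r m q f ≤ bnd S r m' q f :=
  sum_le_sum fun i _ => mul_le_mul (pow_le_pow_right₀ S.one_le_σ (by omega))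
    (S.N_mono _ (by omega)) (S.N_nonneg _ _) (pow_nonneg (zero_le_one.trans S.one_le_σ) _)

lemma bnd_step (r m q : ℕ) (f : V) :
    bnd S r m q (S.A f) ≤ bnd S (r + 1) m q f ∧
      bnd S r (m + 2) q f ≤ bnd S (r + 1) m q f := by
  have h0 := fun i => mul_nonneg (pow_nonneg (zero_le_one.trans S.one_le_σ) (m + 2 * (r + 1 - i)))
    (S.N_nonneg (q + (m + 2 * (r + 1 - i))) ((S.A ^ i) f))
  constructor
  · rw [bnd, bnd, sum_range_succ' _ (r + 1)]
    refine le_trans (le_of_eq (sum_congr rfl fun i _ => ?_)) (le_add_of_nonneg_right (h0 0))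
    rw [pow_succ, Module.End.mul_apply, Nat.succ_sub_succ]
  · rw [bnd, bnd, sum_range_succ _ (r + 1)]
    refine le_trans (le_of_eq (sum_congr rfl fun i hi => ?_)) (le_add_of_nonneg_right (h0 _))
    have : m + 2 + 2 * (r - i) = m + 2 * (r + 1 - i) := by
      have := mem_range.1 hi
      omega
    rw [this]

lemma cW_nonneg (r n : ℕ) : 0 ≤ cW S.K S.B r n := by
  induction r generalizing n with
  | zero => exact pow_nonneg (zero_le_one.trans S.one_le_K) _
  | succ r ih =>
    have := ih (n + 4)
    have := S.B_nonneg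
    simp only [cW]; positivity

/-- Every iterate of a word is controlled by the iterates of its argument. -/
theorem iterate_app_le (r n : ℕ) (w : List ι) (hw : w.length ≤ n) (q : ℕ) (f : V) :
    S.N q ((S.A ^ r) (app (fun Y => S.op Y) w f)) ≤
      cW S.K S.B r n * bnd S r (word S.ord w) q f := by
  induction r generalizing n w q f with
  | zero =>
    refine (N_app S w q f).trans (mul_le_mul (pow_le_pow_right₀ S.one_le_K hw) ?_
      (mul_nonneg (pow_nonneg (zero_le_one.trans S.one_le_σ) _) (S.N_nonneg _ _))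
      (pow_nonneg (zero_le_one.trans S.one_le_K) _))
    simp [bnd]
  | succ r ih =>
    rw [pow_succ, Module.End.mul_apply, A_app, map_add]
    have hn : (0:ℝ) ≤ cW S.K S.B r (n + 4) := cW_nonneg S _ _
    have h1 := (ih (n + 4) w (by omega) q (S.A f)).trans
      (mul_le_mul_of_nonneg_left (bnd_step S r (word S.ord w) q f).1 hn)
    have h2 := N_comb S (commW S.comm w) f (S.A ^ r) q fun p hp =>
      ((ih (n + 4) p.2 ((commW_len S hp).trans (by omega)) q f).trans
      (mul_le_mul_of_nonneg_left ((bnd_mono S (commW_ord S hp) f).trans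
        (bnd_step S r (word S.ord w) q f).2) hn))
    have h3 : wt (commW S.comm w) ≤ n * S.B := (commW_wt S w).trans
      (mul_le_mul_of_nonneg_right (by exact_mod_cast hw) S.B_nonneg)
    have h4 := mul_le_mul_of_nonneg_right h3
      (mul_nonneg hn (bnd_nonneg S (r + 1) (word S.ord w) q f))
    refine (S.N_add _ _ _).trans ((add_le_add h1 (h2.trans h4)).trans_eq ?_)
    simp only [cW]
    ring

lemma gC_mono : Monotone (gC S.K S.B) := by
  have h : ∀ r, 0 ≤ gC S.K S.B r ∧ gC S.K S.B r ≤ gC S.K S.B (r + 1) := fun r => by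
    induction r with
    | zero =>
      have := mul_nonneg S.B_nonneg (cW_nonneg S 0 4)
      simp only [gC]; exact ⟨zero_le_one, by norm_num; linarith⟩
    | succ r ih =>
      have h0 : (0:ℝ) ≤ gC S.K S.B (r + 1) := ih.1.trans ih.2
      have := mul_nonneg (mul_nonneg (mul_nonneg S.B_nonneg (cW_nonneg S (r + 1) 4))
        (by positivity : (0:ℝ) ≤ ((r + 1 : ℕ) : ℝ) + 1)) h0
      exact ⟨h0, by rw [gC.eq_2 _ _ (r + 1)]; linarith⟩
  exact monotone_nat_of_le_succ fun r => (h r).2

/-- A solution of `A g = ∑ c • word g` (orders at most two) costs two orders per iterate. -/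
theorem iterate_self_le {g : V} {l : List (ℝ × List ι)}
    (hg : S.A g = comb (fun Y => S.op Y) l g) (hl : ∀ p ∈ l, p.2.length ≤ 4)
    (ho : ∀ p ∈ l, word S.ord p.2 ≤ 2) (hw : wt l ≤ S.B) (r q : ℕ) :
    S.N q ((S.A ^ r) g) ≤ gC S.K S.B r * (S.σ ^ (2 * r) * S.N (q + 2 * r) g) := by
  induction r using Nat.strong_induction_on generalizing q with
  | _ r ih =>
    rcases r with _ | r
    · simp [gC]
    rw [pow_succ, Module.End.mul_apply, hg]
    have hs : (0:ℝ) ≤ S.σ := zero_le_one.trans S.one_le_σ
    set T := S.σ ^ (2 * (r + 1)) * S.N (q + 2 * (r + 1)) g with hT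
    have hT0 : 0 ≤ T := mul_nonneg (pow_nonneg hs _) (S.N_nonneg _ _)
    have g0 : 0 ≤ gC S.K S.B r := zero_le_one.trans (gC_mono S (Nat.zero_le r))
    have hb : bnd S r 2 q g ≤ (r + 1) * gC S.K S.B r * T := by
      refine (sum_le_card_nsmul _ _ (gC S.K S.B r * T) fun i hi => ?_).trans_eq (by simp; ring)
      have hi' := mem_range.1 hi
      refine (mul_le_mul_of_nonneg_left (ih i (by omega) _) (pow_nonneg hs _)).trans ?_
      have e1 : q + (2 + 2 * (r - i)) + 2 * i = q + 2 * (r + 1) := by omega
      have e2 : S.σ ^ (2 * (r + 1)) = S.σ ^ (2 + 2 * (r - i)) * S.σ ^ (2 * i) := by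
        rw [← pow_add]; congr 1; omega
      rw [e1, hT, e2]
      calc _ = gC S.K S.B i * (S.σ ^ (2 + 2 * (r - i)) * S.σ ^ (2 * i) *
            S.N (q + 2 * (r + 1)) g) := by ring
        _ ≤ _ := mul_le_mul_of_nonneg_right (gC_mono S (by omega))
            (by have := S.N_nonneg (q + 2 * (r + 1)) g; positivity)
    have h2 := N_comb S l g (S.A ^ r) q fun p hp => (iterate_app_le S r 4 p.2 (hl p hp) q g).trans
      (mul_le_mul_of_nonneg_left ((bnd_mono S (ho p hp) g).trans hb) (cW_nonneg S r 4))
    refine (h2.trans (mul_le_mul_of_nonneg_right hw (mul_nonneg (cW_nonneg S r 4)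
      (by positivity)))).trans ?_
    have := mul_nonneg g0 hT0
    simp only [gC]
    linarith

end

end Vale.Agent.P347.Shift.Material
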