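import Vale.Agent.P347.Shift.DivergTilt

/-!
# P347: weighted derivative norms over a tilted Gaussian law

`Nw μ σ q V = ∑ j ≤ q, σ ^ j * DnM μ j V`.  In these norms a gradient and a divergence cost `σ⁻¹`
and one order, and a matrix field with `σ ^ m B m ≤ η` costs `η`, in every dimension.
-/

open MeasureTheory Real Finset

namespace Vale.Agent.P347.Shift

open Quarter

variable {ι : Type} [Fintype ι] [DecidableEq ι] {κ : Type} [Fintype κ]

/-- The weighted sum of the derivative norms up to order `q`. -/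
noncomputable def Nw (μ : Measure (Eu ι)) (σ : ℝ) (q : ℕ) (V : κ → Eu ι → ℝ) : ℝ :=
  ∑ j ∈ range (q + 1), σ ^ j * DnM μ j V

section Basic

variable {μ : Measure (Eu ι)} {σ : ℝ}

lemma Nw_nonneg (hσ : 0 ≤ σ) (q : ℕ) (V : κ → Eu ι → ℝ) : 0 ≤ Nw μ σ q V :=
  sum_nonneg fun j _ => mul_nonneg (pow_nonneg hσ j) (DnM_nonneg j V)

lemma DnM_le_Nw (hσ : 0 ≤ σ) {j q : ℕ} (h : j ≤ q) (V : κ → Eu ι → ℝ) :
    σ ^ j * DnM μ j V ≤ Nw μ σ q V :=
  single_le_sum (f := fun j => σ ^ j * DnM μ j V)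
    (fun j _ => mul_nonneg (pow_nonneg hσ j) (DnM_nonneg j V)) (mem_range.2 (by omega))

lemma Nw_mono (hσ : 0 ≤ σ) {q r : ℕ} (h : q ≤ r) (V : κ → Eu ι → ℝ) :
    Nw μ σ q V ≤ Nw μ σ r V :=
  sum_le_sum_of_subset_of_nonneg (range_mono (by omega)) fun j _ _ =>
    mul_nonneg (pow_nonneg hσ j) (DnM_nonneg j V)

lemma Nw_equiv {κ' : Type} [Fintype κ'] (e : κ' ≃ κ) (q : ℕ) (V : κ → Eu ι → ℝ) :
    Nw μ σ q (fun a => V (e a)) = Nw μ σ q V := by simp only [Nw, DnM_equiv e]

/-- Minkowski's inequality. -/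
theorem Nw_add_le (hμ : ∀ {f : Eu ι → ℝ}, f.HasTemperateGrowth → Integrable f μ) (hσ : 0 ≤ σ)
    (q : ℕ) {U V : κ → Eu ι → ℝ} (hU : ∀ a, (U a).HasTemperateGrowth)
    (hV : ∀ a, (V a).HasTemperateGrowth) :
    Nw μ σ q (fun a x => U a x + V a x) ≤ Nw μ σ q U + Nw μ σ q V := by
  rw [Nw, Nw, Nw, ← sum_add_distrib]
  refine sum_le_sum fun j _ => ?_
  rw [← mul_add]
  exact mul_le_mul_of_nonneg_left (DnM_add_le hμ j hU hV) (pow_nonneg hσ j)

/-- The gradient. -/
theorem Nw_grad_le (hσ : 0 < σ) (q : ℕ) (V : κ → Eu ι → ℝ) :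
    Nw μ σ q (fun p : ι × κ => pd p.1 (V p.2)) ≤ σ⁻¹ * Nw μ σ (q + 1) V := by
  rw [Nw, Nw, mul_sum, sum_range_succ' (fun j => σ⁻¹ * (σ ^ j * DnM μ j V))]
  refine le_add_of_le_of_nonneg (le_of_eq (sum_congr rfl fun j _ => ?_)) ?_
  · rw [DnM_succ, pow_succ]
    field_simp
  · exact mul_nonneg (inv_nonneg.2 hσ.le) (mul_nonneg (pow_nonneg hσ.le _) (DnM_nonneg _ _))

/-- A matrix field with row bounds. -/
theorem Nw_mulVec_le (hμ : ∀ {f : Eu ι → ℝ}, f.HasTemperateGrowth → Integrable f μ) (hσ : 0 ≤ σ)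
    (q : ℕ) {τ ρ : Type} [Fintype τ] [Fintype ρ] {T : ρ → κ → Eu ι → ℝ} {U : τ → κ → Eu ι → ℝ}
    {B : ℕ → ℝ} {η : ℝ} (hT : ∀ a k, (T a k).HasTemperateGrowth)
    (hU : ∀ p k, (U p k).HasTemperateGrowth) (hB : ∀ m, 0 ≤ B m) (h : RowBd T B)
    (hBη : ∀ m ≤ q, σ ^ m * B m ≤ η) :
    Nw μ σ q (fun p : τ × ρ => fun x => ∑ k, T p.2 k x * U p.1 k x) ≤
      (q + 1) * 2 ^ q * η * Nw μ σ q fun r : τ × κ => U r.1 r.2 := by
  set N := Nw μ σ q fun r : τ × κ => U r.1 r.2 with hN
  have hN0 : 0 ≤ N := Nw_nonneg hσ _ _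
  have hη : 0 ≤ η := (mul_nonneg (pow_nonneg hσ 0) (hB 0)).trans (hBη 0 (Nat.zero_le q))
  calc Nw μ σ q (fun p : τ × ρ => fun x => ∑ k, T p.2 k x * U p.1 k x)
      ≤ ∑ j ∈ range (q + 1), (2 : ℝ) ^ q * η * N := by
        refine sum_le_sum fun j hj => ?_
        have hjq : j ≤ q := by have := mem_range.1 hj; omega
        refine (mul_le_mul_of_nonneg_left (DnM_mulVec_le hμ j hT hU hB h) (pow_nonneg hσ j)).trans ?_
        rw [mul_sum]
        calc _ ≤ ∑ m ∈ range (j + 1), (j.choose m : ℝ) * (η * N) := sum_le_sum fun m hm => by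
              have hm' : m ≤ j := by have := mem_range.1 hm; omega
              have e : σ ^ j = σ ^ m * σ ^ (j - m) := by rw [← pow_add]; congr 1; omega
              rw [e, show ∀ a b c u v : ℝ, a * b * (c * (u * v)) = c * (a * u * (b * v)) by
                intros; ring]
              exact mul_le_mul_of_nonneg_left (mul_le_mul (hBη m (hm'.trans hjq))
                (DnM_le_Nw hσ (by omega) _) (mul_nonneg (pow_nonneg hσ _) (DnM_nonneg _ _)) hη)
                (Nat.cast_nonneg _)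
          _ = 2 ^ j * (η * N) := by
              rw [← sum_mul, ← Nat.cast_sum, Nat.sum_range_choose]
              push_cast
              rfl
          _ ≤ 2 ^ q * η * N := by
              rw [mul_assoc (2 ^ q : ℝ)]
              exact mul_le_mul_of_nonneg_right (pow_le_pow_right₀ (by norm_num) hjq)
                (mul_nonneg hη hN0)
    _ = _ := by simp; ring

end Basic

/-- The divergence of a tilted law. -/
theorem Nw_deltaT_le {Φ : Eu ι → ℝ} (hΦ : TiltPot Φ) {σ η : ℝ} (hσ : 0 < σ) (hσ1 : σ ≤ 1)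
    (hη0 : 0 ≤ η)
    (hη : ∀ x (v : ι → ℝ), ∑ k, ∑ i, hes Φ k i x * v i * v k ≤ η * ∑ i, v i ^ 2)
    {B : ℕ → ℝ} (hB : ∀ m, 0 ≤ B m) (hrow : RowBd (hes Φ) B) (q : ℕ)
    (hBη : ∀ m < q, σ ^ m * B m ≤ η) {U : κ → ι → Eu ι → ℝ}
    (hU : ∀ a i, (U a i).HasTemperateGrowth) :
    Nw (nuT Φ) σ q (fun a => deltaT Φ (U a)) ≤
      (q + 1) * ((1 + η) * (q + 2) + 2 ^ q * η) * σ⁻¹ *
        Nw (nuT Φ) σ (q + 1) fun p : κ × ι => U p.1 p.2 := by
  set X := fun n => DnM (nuT Φ) n fun p : κ × ι => U p.1 p.2 with hX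
  set N := Nw (nuT Φ) σ (q + 1) fun p : κ × ι => U p.1 p.2 with hN
  have hN0 : 0 ≤ N := Nw_nonneg hσ.le _ _
  have hX0 : ∀ n, 0 ≤ X n := fun n => DnM_nonneg _ _
  have hi : 1 ≤ σ⁻¹ := (one_le_inv₀ hσ).2 hσ1
  have hXn : ∀ n ≤ q + 1, σ ^ n * X n ≤ N := fun n hn => DnM_le_Nw hσ.le hn _
  calc Nw (nuT Φ) σ q (fun a => deltaT Φ (U a))
      ≤ ∑ j ∈ range (q + 1), ((1 + η) * (q + 2) + 2 ^ q * η) * σ⁻¹ * N := by
        refine sum_le_sum fun j hj => ?_
        have hjq : j ≤ q := by have := mem_range.1 hj; omega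
        have h := DnM_deltaT_le hΦ j hη hB hrow hU
        have hs : √((1 + η) * DSM (nuT Φ) j (fun p : κ × ι => U p.1 p.2) +
            DSM (nuT Φ) (j + 1) (fun p : κ × ι => U p.1 p.2)) ≤ (1 + η) * X j + X (j + 1) := by
          refine (sqrt_add_le (mul_nonneg (by linarith) (DSM_nonneg _ _)) (DSM_nonneg _ _)).trans ?_
          refine add_le_add ?_ le_rfl
          rw [sqrt_mul (by linarith)]
          exact mul_le_mul_of_nonneg_right (sqrt_le_iff.2 ⟨by linarith, by nlinarith⟩)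
            (sqrt_nonneg _)
        have h1 : σ ^ j * ((1 + η) * X j) ≤ (1 + η) * (σ⁻¹ * N) := by
          rw [mul_left_comm]
          exact mul_le_mul_of_nonneg_left ((hXn j (by omega)).trans
            (le_mul_of_one_le_left hN0 hi)) (by linarith)
        have h2 : σ ^ j * X (j + 1) ≤ σ⁻¹ * N := by
          rw [le_inv_mul_iff₀ hσ, ← mul_assoc, ← pow_succ']
          exact hXn (j + 1) (by omega)
        have h3 : σ ^ j * (j * X (j - 1)) ≤ q * (σ⁻¹ * N) := by
          rcases j with _ | m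
          · simp; positivity
          · rw [mul_left_comm, Nat.add_sub_cancel]
            refine mul_le_mul (by exact_mod_cast hjq) (le_trans ?_ (le_mul_of_one_le_left hN0 hi))
              (mul_nonneg (pow_nonneg hσ.le _) (hX0 _)) q.cast_nonneg
            refine le_trans ?_ (hXn m (by omega))
            exact mul_le_mul_of_nonneg_right (pow_le_pow_of_le_one hσ.le hσ1 (by omega)) (hX0 _)
        have h4 : σ ^ j * ∑ n ∈ range j, (j.choose n : ℝ) * (B (j - 1 - n) * X n) ≤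
            2 ^ q * η * (σ⁻¹ * N) := by
          rw [mul_sum]
          refine le_trans (sum_le_sum (g := fun n => (j.choose n : ℝ) * (η * (σ⁻¹ * N)))
            fun n hn => ?_) ?_
          · have hn' := mem_range.1 hn
            have e : σ ^ j = σ * (σ ^ (j - 1 - n) * σ ^ n) := by
              rw [← pow_add, ← pow_succ']; congr 1; omega
            rw [e, show ∀ a b d c u v : ℝ, a * (b * d) * (c * (u * v)) = c * (a * (b * u * (d * v)))
              by intros; ring]
            refine mul_le_mul_of_nonneg_left ?_ (Nat.cast_nonneg _)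
            refine le_trans (mul_le_mul hσ1 (mul_le_mul (hBη _ (by omega)) (hXn n (by omega))
              (mul_nonneg (pow_nonneg hσ.le _) (hX0 _)) hη0) ?_ zero_le_one) ?_
            · exact mul_nonneg (mul_nonneg (pow_nonneg hσ.le _) (hB _))
                (mul_nonneg (pow_nonneg hσ.le _) (hX0 _))
            · rw [one_mul]
              exact mul_le_mul_of_nonneg_left (le_mul_of_one_le_left hN0 hi) hη0
          · rw [← sum_mul, mul_assoc (2 ^ q : ℝ), ← Nat.cast_sum]
            refine mul_le_mul_of_nonneg_right ?_ (by positivity)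
            calc ((∑ n ∈ range j, j.choose n : ℕ) : ℝ) ≤ ((2 ^ j : ℕ) : ℝ) :=
                  Nat.cast_le.2 ((sum_le_sum_of_subset (range_mono (Nat.le_succ j))).trans
                    (Nat.sum_range_choose j).le)
              _ ≤ 2 ^ q := by
                  push_cast
                  exact pow_le_pow_right₀ (by norm_num) hjq
        refine (mul_le_mul_of_nonneg_left h (pow_nonneg hσ.le j)).trans ?_
        rw [mul_add, mul_add]
        have h5 := mul_le_mul_of_nonneg_left hs (pow_nonneg hσ.le j)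
        rw [mul_add] at h5
        have h6 : 0 ≤ (q : ℝ) * η * (σ⁻¹ * N) := by positivity
        have h7 : 0 ≤ η * (σ⁻¹ * N) := by positivity
        simp only [hX] at h1 h2 h3 h4 h5
        linarith
    _ = _ := by simp; ring

end Vale.Agent.P347.Shift
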