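import Vale.Agent.P347.Shift.Fields
import Vale.Agent.P347.Shift.Material
import Vale.Agent.P347.Shift.WeightTilt

/-!
# P347: iterated material derivatives of a score

On the tensor fields generated by a score `g` the operators `D`, `δ`, `M`, `S` form a system in the
sense of `Material.Sys` for the weighted `L²` norms of the moving law, with constants that depend
on the order only.  Hence `r` material derivatives of `g` cost `2 r` orders, in every dimension.
-/

open Real Finset MeasureTheory Filter Topology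
open scoped RealInnerProductSpace ContDiff

namespace Vale.Agent.P347.Shift

open Quarter Fields

namespace Fields

variable {d : ℕ}

/-- A score: its potentials, their weights and row bounds on all derivatives of their Hessians. -/
structure Score (g : Pt d → Sp d) (Φ : ℝ → Sp d → ℝ) (s : ℝ → ℝ) (c : ℕ → ℝ) : Prop
    extends Field g where
  s_pos : ∀ t, 0 < t → 0 < s t
  s_le : ∀ t, 0 < t → s t ≤ 1
  c_nonneg : ∀ m, 0 ≤ c m
  pot : ∀ t, 0 < t → TiltPot (Φ t)
  grad : ∀ t, 0 < t → ∀ i x, pd i (Φ t) x = g (t, x) i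
  row : ∀ t, 0 < t → RowBd (hes (Φ t)) fun m => c m * (s t)⁻¹ ^ m

/-- The fields generated by the velocity. -/
inductive Good (g : Pt d → Sp d) : Ten d → Prop
  | base : Good g (gT g)
  | zero : Good g 0
  | add {f h} : Good g f → Good g h → Good g (f + h)
  | smul (c : ℝ) {f} : Good g f → Good g (c • f)
  | D {f} : Good g f → Good g (opD f)
  | δ {f} : Good g f → Good g (opδ g f)
  | M {f} : Good g f → Good g (opM g f)
  | S {f} : Good g f → Good g (opS f)

variable {g : Pt d → Sp d} {Φ : ℝ → Sp d → ℝ} {s : ℝ → ℝ} {c : ℕ → ℝ} {f h : Ten d} {t : ℝ}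

lemma Good.neg (hf : Good g f) : Good g (-f) := by simpa using hf.smul (-1)

lemma Good.sub (hf : Good g f) (hh : Good g h) : Good g (f - h) := by
  simpa [sub_eq_add_neg] using hf.add hh.neg

lemma Good.sm (hg : Field g) (hf : Good g f) : Sm f := by
  induction hf with
  | base => exact hg.sm_gT
  | zero => exact .zero
  | add _ _ i j => exact i.add j
  | smul c _ i => exact i.smul c
  | D _ i => exact i.D
  | δ _ i => exact i.δ hg
  | M _ i => exact i.M hg
  | S _ i => exact i.S

lemma Good.A (hg : Field g) (hf : Good g f) : Good g (opA g f) := by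
  induction hf with
  | base => rw [A_gT hg]; exact Good.base.D.δ.neg.sub .base
  | zero =>
    have e : opA g (0 : Ten d) = 0 := by simpa using opA_smul hg Sm.zero (0 : ℝ)
    rw [e]; exact .zero
  | add hf hh i j => rw [opA_add hg (hf.sm hg) (hh.sm hg)]; exact i.add j
  | smul c hf i => rw [opA_smul hg (hf.sm hg)]; exact i.smul c
  | D hf i => rw [A_D hg (hf.sm hg)]; exact i.D.sub hf.D.M
  | δ hf i => rw [A_δ hg (hf.sm hg)]; exact i.δ.sub hf.M.δ
  | M hf i =>
    rw [A_M hg (hf.sm hg)]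
    exact (((i.M.sub hf.δ.D.M).sub hf.M.δ.D).add hf.D.S.M.δ).add hf.D.M.S.δ
  | S hf i => rw [A_S]; exact i.S

/-! ### Slices -/

/-- A component at a fixed time. -/
def sl (f : Ten d) (t : ℝ) (a : List (Fin d)) : Sp d → ℝ := fun x => f a (t, x)

/-- The component of rank `n` at a fixed time. -/
def slc (f : Ten d) (t : ℝ) (n : ℕ) : (Fin n → Fin d) → Sp d → ℝ := fun p => sl f t (List.ofFn p)

lemma px_slice {F : Pt d → ℝ} {x : Sp d} (hF : DifferentiableAt ℝ F (t, x)) (j : Fin d) :
    px j F (t, x) = pd j (fun y => F (t, y)) x := by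
  have h : HasFDerivAt (fun y => F (t, y))
      ((fderiv ℝ F (t, x)).comp (ContinuousLinearMap.inr ℝ ℝ (Sp d))) x :=
    hF.hasFDerivAt.comp x (hasFDerivAt_prodMk_right t x)
  rw [pd, h.fderiv]
  rfl

lemma sl_D (hf : Sm f) (ht : 0 < t) (j : Fin d) (r : List (Fin d)) :
    sl (opD f) t (j :: r) = pd j (sl f t r) := funext fun x => by
  rw [sl, opD, cut_of_mem (show (t, x) ∈ Dom from ht)]
  exact px_slice (diffAt (hf.smooth r) ht) j

lemma sl_δ (hS : Score g Φ s c) (hf : Sm f) (ht : 0 < t) (r : List (Fin d)) :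
    sl (opδ g f) t r = deltaT (Φ t) fun j => sl f t (j :: r) := funext fun x => by
  rw [sl, opδ, cut_of_mem (show (t, x) ∈ Dom from ht)]
  refine sum_congr rfl fun j _ => ?_
  rw [hS.grad t ht, px_slice (diffAt (hf.smooth (j :: r)) ht) j]
  rfl

lemma hes_eq (hS : Score g Φ s c) (ht : 0 < t) (j k : Fin d) (x : Sp d) :
    hes (Φ t) j k x = px j (gc g k) (t, x) := by
  rw [hes, show pd k (Φ t) = fun y => gc g k (t, y) from funext fun y => hS.grad t ht k y,
    px_slice (diffAt (hS.contDiffOn_gc k) ht) j]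

lemma sl_M (hS : Score g Φ s c) (ht : 0 < t) (j : Fin d) (r : List (Fin d)) :
    sl (opM g f) t (j :: r) = fun x => ∑ k, hes (Φ t) j k x * sl f t (k :: r) x := funext fun x => by
  rw [sl, opM_cons, cut_of_mem (show (t, x) ∈ Dom from ht)]
  simp only [hes_eq hS ht, sl]

lemma Good.tg (hS : Score g Φ s c) (hf : Good g f) (ht : 0 < t) (a : List (Fin d)) :
    (sl f t a).HasTemperateGrowth := by
  induction hf generalizing a with
  | base =>
    rcases a with _ | ⟨k, _ | ⟨l, r⟩⟩
    · exact Function.HasTemperateGrowth.const 0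
    · rw [show sl (gT g) t [k] = pd k (Φ t) from funext fun x => by
        rw [sl, gT, cut_of_mem (show (t, x) ∈ Dom from ht), hS.grad t ht]; rfl]
      exact tg_pd k (hS.pot t ht).1
    · exact Function.HasTemperateGrowth.const 0
  | zero => exact Function.HasTemperateGrowth.const 0
  | add _ _ i j => exact (i a).fun_add (j a)
  | smul c _ i => exact (Function.HasTemperateGrowth.const c).fun_mul (i a)
  | D hf i =>
    rcases a with _ | ⟨j, r⟩
    · exact Function.HasTemperateGrowth.const 0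
    · rw [sl_D (hf.sm hS.toField) ht]; exact tg_pd j (i r)
  | δ hf i =>
    rw [sl_δ hS (hf.sm hS.toField) ht]
    exact tg_deltaT (hS.pot t ht) fun j => i (j :: a)
  | M hf i =>
    rcases a with _ | ⟨j, r⟩
    · rw [show sl (opM g _) t [] = fun _ => 0 from funext fun x => by simp [sl, opM_nil]]
      exact Function.HasTemperateGrowth.const 0
    · rw [sl_M hS ht]
      exact .sum fun k _ => (tg_hes (hS.pot t ht) j k).fun_mul (i (k :: r))
  | S hf i =>
    rcases a with _ | ⟨i', _ | ⟨j, r⟩⟩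
    · exact Function.HasTemperateGrowth.const 0
    · exact Function.HasTemperateGrowth.const 0
    · exact i (j :: i' :: r)

/-! ### Elementary facts about the weighted norms -/

lemma dsqM_smul (μ : Measure (Sp d)) (a : ℝ) :
    ∀ (j : ℕ) {u : Sp d → ℝ}, u.HasTemperateGrowth →
      dsqM μ j (fun x => a * u x) = a ^ 2 * dsqM μ j u
  | 0, u, _ => by simp only [dsqM, mul_pow, integral_const_mul]
  | j + 1, u, hu => by
    have e : ∀ i, pd i (fun x => a * u x) = fun x => a * pd i u x := fun i => funext fun x => by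
      rw [pd, fderiv_const_mul (tg_differentiable hu x)]; rfl
    simp only [dsqM, e, mul_sum]
    exact sum_congr rfl fun i _ => dsqM_smul μ a j (tg_pd i hu)

lemma Nw_smul {κ : Type} [Fintype κ] (μ : Measure (Sp d)) (σ a : ℝ) (q : ℕ)
    {U : κ → Sp d → ℝ} (hU : ∀ p, (U p).HasTemperateGrowth) :
    Nw μ σ q (fun p x => a * U p x) = |a| * Nw μ σ q U := by
  simp only [Nw, mul_sum]
  refine sum_congr rfl fun j _ => ?_
  rw [DnM, DnM, DSM, DSM]
  simp only [fun p => dsqM_smul μ a j (hU p), ← mul_sum]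
  rw [sqrt_mul (sq_nonneg a), sqrt_sq_eq_abs]
  ring

lemma Nw_eq_zero {κ : Type} [Fintype κ] (μ : Measure (Sp d)) (σ : ℝ) (q : ℕ) :
    Nw μ σ q (fun (_ : κ) (_ : Sp d) => (0 : ℝ)) = 0 := by
  have h : ∀ j, dsqM μ j (fun _ : Sp d => (0 : ℝ)) = 0 := fun j => by
    simpa using dsqM_smul μ 0 j (Function.HasTemperateGrowth.const (0 : ℝ) : (fun _ : Sp d => (0:ℝ)).HasTemperateGrowth)
  simp [Nw, DnM, DSM, h]

/-! ### The norms -/

/-- The weighted norm of a field of all ranks at a fixed time. -/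
noncomputable def nrm (Φ : ℝ → Sp d → ℝ) (s : ℝ → ℝ) (t : ℝ) (q : ℕ) (f : Ten d) : ℝ :=
  ∑' n, Nw (nuT (Φ t)) (s t) q (slc f t n)

lemma slc_eq_zero (hf : Sm f) : ∃ N, ∀ n, N ≤ n → ∀ t, slc f t n = fun _ _ => 0 := by
  obtain ⟨N, hN⟩ := hf.fin
  exact ⟨N, fun n hn t => funext fun p => funext fun x => by
    simp [slc, sl, hN (List.ofFn p) (by simpa using hn)]⟩

lemma summable_nrm (hf : Sm f) (q : ℕ) :
    Summable fun n => Nw (nuT (Φ t)) (s t) q (slc f t n) := by
  obtain ⟨N, hN⟩ := slc_eq_zero hf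
  exact summable_of_ne_finset_zero (s := range N) fun n hn => by
    rw [hN n (by simpa using hn) t, Nw_eq_zero]

lemma nrm_nonneg (hs : 0 ≤ s t) (q : ℕ) (f : Ten d) : 0 ≤ nrm Φ s t q f :=
  tsum_nonneg fun _ => Nw_nonneg hs _ _

lemma nrm_mono (hs : 0 ≤ s t) (hf : Sm f) {q r : ℕ} (h : q ≤ r) :
    nrm Φ s t q f ≤ nrm Φ s t r f :=
  (summable_nrm hf q).tsum_le_tsum (fun _ => Nw_mono hs h _) (summable_nrm hf r)

lemma nrm_add (hS : Score g Φ s c) (ht : 0 < t) (hf : Good g f) (hh : Good g h) (q : ℕ) :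
    nrm Φ s t q (f + h) ≤ nrm Φ s t q f + nrm Φ s t q h := by
  have sf := summable_nrm (Φ := Φ) (s := s) (t := t) (hf.sm hS.toField) q
  have sh := summable_nrm (Φ := Φ) (s := s) (t := t) (hh.sm hS.toField) q
  rw [nrm, nrm, nrm, ← sf.tsum_add sh]
  exact (summable_nrm ((hf.add hh).sm hS.toField) q).tsum_le_tsum
    (fun n => Nw_add_le (fun hu => integrable_nuT (hS.pot t ht) hu) (hS.s_pos t ht).le q
      (fun p => hf.tg hS ht _) fun p => hh.tg hS ht _) (sf.add sh)

lemma nrm_smul (hS : Score g Φ s c) (ht : 0 < t) (hf : Good g f) (a : ℝ) (q : ℕ) :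
    nrm Φ s t q (a • f) = |a| * nrm Φ s t q f := by
  rw [nrm, nrm, ← tsum_mul_left]
  exact tsum_congr fun n => Nw_smul _ _ a q fun p => hf.tg hS ht _

lemma nrm_zero (q : ℕ) : nrm Φ s t q (0 : Ten d) = 0 := by
  refine (tsum_congr fun n => ?_).trans tsum_zero
  exact Nw_eq_zero (κ := Fin n → Fin d) _ _ q

/-- The constant of one operator. -/
noncomputable def opC (c : ℕ → ℝ) (q : ℕ) : ℝ :=
  1 + ((q + 1) * ((1 + ∑ m ∈ range (q + 1), c m) * (q + 2) + 2 ^ q * ∑ m ∈ range (q + 1), c m)
    + (q + 1) * 2 ^ q * ∑ m ∈ range (q + 1), c m)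

lemma Score.row_le (hS : Score g Φ s c) (ht : 0 < t) {m q : ℕ} (h : m ≤ q) :
    s t ^ m * (c m * (s t)⁻¹ ^ m) ≤ ∑ i ∈ range (q + 1), c i := by
  rw [mul_left_comm, ← mul_pow, mul_inv_cancel₀ (hS.s_pos t ht).ne', one_pow, mul_one]
  exact single_le_sum (f := c) (fun i _ => hS.c_nonneg i) (mem_range.2 (by omega))

lemma Score.hes_le (hS : Score g Φ s c) (ht : 0 < t) (q : ℕ) (x : Sp d) (v : Fin d → ℝ) :
    ∑ k, ∑ i, hes (Φ t) k i x * v i * v k ≤ (∑ m ∈ range (q + 1), c m) * ∑ i, v i ^ 2 := by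
  have h0 : ∑ k, (∑ i, hes (Φ t) k i x * v i) ^ 2 ≤ c 0 ^ 2 * ∑ i, v i ^ 2 := by
    simpa [psq] using hS.row t ht 0 x v
  have hV : 0 ≤ ∑ i, v i ^ 2 := sum_nonneg fun i _ => sq_nonneg _
  have hc : c 0 ≤ ∑ m ∈ range (q + 1), c m :=
    single_le_sum (f := c) (fun i _ => hS.c_nonneg i) (mem_range.2 (by omega))
  have hcs := sum_mul_sq_le_sq_mul_sq univ (fun k => ∑ i, hes (Φ t) k i x * v i) v
  have e : ∑ k, ∑ i, hes (Φ t) k i x * v i * v k =
      ∑ k, (∑ i, hes (Φ t) k i x * v i) * v k := by simp only [sum_mul]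
  have hsq : (∑ k, (∑ i, hes (Φ t) k i x * v i) * v k) ^ 2 ≤ (c 0 * ∑ i, v i ^ 2) ^ 2 :=
    hcs.trans (by nlinarith [mul_le_mul_of_nonneg_right h0 hV])
  rw [e]
  exact ((le_abs_self _).trans (abs_le_of_sq_le_sq hsq (mul_nonneg (hS.c_nonneg 0) hV))).trans
    (mul_le_mul_of_nonneg_right hc hV)

/-- Prepending a slot. -/
def consE (n : ℕ) : Fin d × (Fin n → Fin d) ≃ (Fin (n + 1) → Fin d) :=
  Fin.consEquiv fun _ => Fin d

lemma ofFn_consE (n : ℕ) (p : Fin d × (Fin n → Fin d)) :
    List.ofFn (consE n p) = p.1 :: List.ofFn p.2 := by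
  simp [consE, List.ofFn_succ, Fin.consEquiv]

theorem nrm_D (hS : Score g Φ s c) (ht : 0 < t) (hf : Good g f) (q : ℕ) :
    nrm Φ s t q (opD f) ≤ (s t)⁻¹ * nrm Φ s t (q + 1) f := by
  have hs := hf.sm hS.toField
  have hD := summable_nrm (Φ := Φ) (s := s) (t := t) hs.D q
  have h0 : Nw (nuT (Φ t)) (s t) q (slc (opD f) t 0) = 0 := by
    rw [show slc (opD f) t 0 = fun _ _ => 0 from funext fun p => funext fun x => by
      simp [slc, sl, opD]]
    exact Nw_eq_zero _ _ q
  rw [nrm, nrm, hD.tsum_eq_zero_add, h0, zero_add, ← tsum_mul_left]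
  refine ((summable_nat_add_iff 1).2 hD).tsum_le_tsum (fun n => ?_)
    ((summable_nrm hs (q + 1)).mul_left _)
  rw [← Nw_equiv (consE n) q (slc (opD f) t (n + 1))]
  refine le_of_eq_of_le (congrArg _ ?_) (Nw_grad_le (hS.s_pos t ht) q (slc f t n))
  funext p
  rw [slc, slc, ofFn_consE, sl_D hs ht]

lemma tsum_shift_le {u : ℕ → ℝ} (hu : Summable u) (h0 : ∀ n, 0 ≤ u n) :
    ∑' n, u (n + 1) ≤ ∑' n, u n := by
  rw [hu.tsum_eq_zero_add]
  linarith [h0 0]

theorem nrm_δ (hS : Score g Φ s c) (ht : 0 < t) (hf : Good g f) (q : ℕ) :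
    nrm Φ s t q (opδ g f) ≤ opC c q * (s t)⁻¹ * nrm Φ s t (q + 1) f := by
  have hs := hf.sm hS.toField
  set S := ∑ m ∈ range (q + 1), c m with hS'
  have hS0 : 0 ≤ S := sum_nonneg fun m _ => hS.c_nonneg m
  have hsp := hS.s_pos t ht
  have hu := summable_nrm (Φ := Φ) (s := s) (t := t) hs (q + 1)
  refine ((summable_nrm (hs.δ hS.toField) q).tsum_le_tsum (fun n => ?_)
    (((summable_nat_add_iff 1).2 hu).mul_left (opC c q * (s t)⁻¹))).trans ?_
  · have h := Nw_deltaT_le (hS.pot t ht) hsp (hS.s_le t ht) hS0 (hS.hes_le ht q)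
      (fun m => mul_nonneg (hS.c_nonneg m) (pow_nonneg (inv_nonneg.2 hsp.le) m)) (hS.row t ht) q
      (fun m hm => hS.row_le ht hm.le)
      (U := fun (p : Fin n → Fin d) j => sl f t (j :: List.ofFn p)) fun p j => hf.tg hS ht _
    rw [← Nw_equiv ((Equiv.prodComm _ _).trans (consE n)) (q + 1) (slc f t (n + 1))]
    refine le_of_eq_of_le (congrArg _ ?_) (h.trans (mul_le_mul (mul_le_mul_of_nonneg_right ?_
      (inv_nonneg.2 hsp.le)) (le_of_eq (congrArg _ ?_)) (Nw_nonneg hsp.le _ _) ?_))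
    · funext p
      rw [slc, sl_δ hS hs ht]
    · rw [opC]
      have : 0 ≤ (q + 1 : ℝ) * 2 ^ q * S := by positivity
      linarith
    · funext p
      simp [slc, consE, Fin.consEquiv]
    · exact mul_nonneg (by rw [opC]; positivity) (inv_nonneg.2 hsp.le)
  · rw [tsum_mul_left]
    exact mul_le_mul_of_nonneg_left (tsum_shift_le hu fun n => Nw_nonneg hsp.le _ _)
      (mul_nonneg (by rw [opC]; positivity) (inv_nonneg.2 hsp.le))

theorem nrm_M (hS : Score g Φ s c) (ht : 0 < t) (hf : Good g f) (q : ℕ) :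
    nrm Φ s t q (opM g f) ≤ opC c q * nrm Φ s t q f := by
  have hs := hf.sm hS.toField
  set S := ∑ m ∈ range (q + 1), c m with hS'
  have hS0 : 0 ≤ S := sum_nonneg fun m _ => hS.c_nonneg m
  have hsp := hS.s_pos t ht
  have hu := summable_nrm (Φ := Φ) (s := s) (t := t) hs q
  have hM := summable_nrm (Φ := Φ) (s := s) (t := t) (hs.M hS.toField) q
  have h0 : Nw (nuT (Φ t)) (s t) q (slc (opM g f) t 0) = 0 := by
    rw [show slc (opM g f) t 0 = fun _ _ => 0 from funext fun p => funext fun x => by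
      simp [slc, sl, opM_nil]]
    exact Nw_eq_zero _ _ q
  rw [nrm, nrm, hM.tsum_eq_zero_add, h0, zero_add]
  refine (((summable_nat_add_iff 1).2 hM).tsum_le_tsum (fun n => ?_)
    (((summable_nat_add_iff 1).2 hu).mul_left (opC c q))).trans ?_
  · have h := Nw_mulVec_le (μ := nuT (Φ t)) (fun hv => integrable_nuT (hS.pot t ht) hv) hsp.le q
      (T := fun j k => hes (Φ t) j k)
      (U := fun (p : Fin n → Fin d) j => sl f t (j :: List.ofFn p))
      (fun j k => tg_hes (hS.pot t ht) j k) (fun p j => hf.tg hS ht _)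
      (fun m => mul_nonneg (hS.c_nonneg m) (pow_nonneg (inv_nonneg.2 hsp.le) m)) (hS.row t ht)
      (fun m hm => hS.row_le ht hm)
    rw [← Nw_equiv ((Equiv.prodComm _ _).trans (consE n)) q (slc f t (n + 1)),
      ← Nw_equiv ((Equiv.prodComm _ _).trans (consE n)) q (slc (opM g f) t (n + 1))]
    refine le_of_eq_of_le (congrArg _ ?_) (h.trans (mul_le_mul ?_ (le_of_eq (congrArg _ ?_))
      (Nw_nonneg hsp.le _ _) (by rw [opC]; positivity)))
    · funext p
      simp [slc, consE, Fin.consEquiv, sl_M hS ht]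
    · rw [opC]
      have : 0 ≤ (q + 1 : ℝ) * ((1 + S) * (q + 2) + 2 ^ q * S) := by positivity
      linarith
    · funext p
      simp [slc, consE, Fin.consEquiv]
  · rw [tsum_mul_left]
    exact mul_le_mul_of_nonneg_left (tsum_shift_le hu fun n => Nw_nonneg hsp.le _ _)
      (by rw [opC]; positivity)

theorem nrm_S (hS : Score g Φ s c) (ht : 0 < t) (hf : Good g f) (q : ℕ) :
    nrm Φ s t q (opS f) ≤ nrm Φ s t q f := by
  refine (summable_nrm (hf.sm hS.toField).S q).tsum_le_tsum (fun n => ?_)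
    (summable_nrm (hf.sm hS.toField) q)
  rcases n with _ | _ | n
  · rw [show slc (opS f) t 0 = fun _ _ => 0 from funext fun p => funext fun x => by
      simp [slc, sl, opS], Nw_eq_zero]
    exact Nw_nonneg (hS.s_pos t ht).le _ _
  · rw [show slc (opS f) t 1 = fun _ _ => 0 from funext fun p => funext fun x => by
      simp [slc, sl, opS], Nw_eq_zero]
    exact Nw_nonneg (hS.s_pos t ht).le _ _
  · rw [← Nw_equiv ((Equiv.swap (0 : Fin (n + 2)) 1).arrowCongr (Equiv.refl (Fin d))) q
      (slc f t (n + 2))]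
    refine le_of_eq (congrArg _ (funext fun p => ?_))
    have h0 : ∀ i : Fin n, Equiv.swap (0 : Fin (n + 2)) 1 i.succ.succ = i.succ.succ := fun i =>
      Equiv.swap_apply_of_ne_of_ne (Fin.succ_ne_zero _) (by simp [Fin.ext_iff])
    simp [slc, List.ofFn_succ, h0]
    rfl

/-! ### The system -/

/-- The module of fields generated by the velocity. -/
def fieldsOf (g : Pt d → Sp d) : Submodule ℝ (Ten d) where
  carrier := {f | Good g f}
  zero_mem' := .zero
  add_mem' := Good.add
  smul_mem' c _ := Good.smul c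

/-- The letters. -/
inductive Op
  | D
  | δ
  | M
  | S

/-- Their orders. -/
def Op.ord : Op → ℕ
  | .S => 0
  | _ => 1

/-- Their commutators with the material derivative. -/
def Op.comm : Op → List (ℝ × List Op)
  | .D => [(-1, [.M, .D])]
  | .δ => [(-1, [.δ, .M])]
  | .M => [(-1, [.M, .D, .δ]), (-1, [.D, .δ, .M]), (1, [.δ, .M, .S, .D]), (1, [.δ, .S, .M, .D])]
  | .S => []

/-- A letter as a linear map. -/
noncomputable def Op.map (hg : Field g) : Op → (fieldsOf g →ₗ[ℝ] fieldsOf g)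
  | .D =>
    { toFun f := ⟨opD f.1, Good.D f.2⟩
      map_add' f h := Subtype.ext (opD_add (Good.sm hg f.2) (Good.sm hg h.2))
      map_smul' a f := Subtype.ext (opD_smul (Good.sm hg f.2) a) }
  | .δ =>
    { toFun f := ⟨opδ g f.1, Good.δ f.2⟩
      map_add' f h := Subtype.ext (opδ_add hg (Good.sm hg f.2) (Good.sm hg h.2))
      map_smul' a f := Subtype.ext (opδ_smul hg (Good.sm hg f.2) a) }
  | .M =>
    { toFun f := ⟨opM g f.1, Good.M f.2⟩
      map_add' f h := Subtype.ext (opT_add hg (Good.sm hg f.2) (Good.sm hg h.2) 0)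
      map_smul' a f := Subtype.ext (opT_smul hg (Good.sm hg f.2) a 0) }
  | .S =>
    { toFun f := ⟨opS f.1, Good.S f.2⟩
      map_add' _ _ := Subtype.ext opS_add
      map_smul' a _ := Subtype.ext (opS_smul a) }

/-- The material derivative as a linear map. -/
noncomputable def matL (hg : Field g) : fieldsOf g →ₗ[ℝ] fieldsOf g where
  toFun f := ⟨opA g f.1, Good.A hg f.2⟩
  map_add' f h := Subtype.ext (opA_add hg (Good.sm hg f.2) (Good.sm hg h.2))
  map_smul' a f := Subtype.ext (opA_smul hg (Good.sm hg f.2) a)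

/-- The weight of order `q`, absorbing the constants of the operators. -/
noncomputable def lam (c : ℕ → ℝ) : ℕ → ℝ
  | 0 => 1
  | q + 1 => lam c q * opC c q

lemma one_le_opC (hc : ∀ m, 0 ≤ c m) (q : ℕ) : 1 ≤ opC c q := by
  have : 0 ≤ ∑ m ∈ range (q + 1), c m := sum_nonneg fun m _ => hc m
  rw [opC, le_add_iff_nonneg_right]
  positivity

lemma one_le_lam (hc : ∀ m, 0 ≤ c m) : ∀ q, 1 ≤ lam c q
  | 0 => le_rfl
  | q + 1 => one_le_mul_of_one_le_of_one_le (one_le_lam hc q) (one_le_opC hc q)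

lemma lam_mono (hc : ∀ m, 0 ≤ c m) : Monotone (lam c) := monotone_nat_of_le_succ fun q =>
  le_mul_of_one_le_right (zero_le_one.trans (one_le_lam hc q)) (one_le_opC hc q)

lemma Score.inv_one_le (hS : Score g Φ s c) (ht : 0 < t) : 1 ≤ (s t)⁻¹ :=
  (one_le_inv₀ (hS.s_pos t ht)).2 (hS.s_le t ht)

/-- The system of operators of a score at a fixed time. -/
noncomputable def sys (hS : Score g Φ s c) (ht : 0 < t) : Material.Sys Op (fieldsOf g) where
  N q f := lam c q * nrm Φ s t q f.1
  A := matL hS.toField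
  op := Op.map hS.toField
  ord := Op.ord
  comm := Op.comm
  σ := (s t)⁻¹
  K := 1
  B := 4
  one_le_σ := hS.inv_one_le ht
  one_le_K := le_rfl
  B_nonneg := by norm_num
  N_nonneg q f := mul_nonneg (zero_le_one.trans (one_le_lam hS.c_nonneg q))
    (nrm_nonneg (hS.s_pos t ht).le q _)
  N_zero q := by simp [nrm_zero]
  N_add q f h := by
    rw [← mul_add]
    exact mul_le_mul_of_nonneg_left (nrm_add hS ht f.2 h.2 q)
      (zero_le_one.trans (one_le_lam hS.c_nonneg q))
  N_smul q a f := le_of_eq (by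
    rw [Submodule.coe_smul, nrm_smul hS ht f.2]; ring)
  N_mono f q r h := mul_le_mul (lam_mono hS.c_nonneg h)
    (nrm_mono (hS.s_pos t ht).le (Good.sm hS.toField f.2) h) (nrm_nonneg (hS.s_pos t ht).le q _)
    (zero_le_one.trans (one_le_lam hS.c_nonneg r))
  op_le X q f := by
    have hsp := hS.s_pos t ht
    have hl := zero_le_one.trans (one_le_lam hS.c_nonneg q)
    have hN := nrm_nonneg (Φ := Φ) hsp.le (q + 1) f.1
    have hC := one_le_opC hS.c_nonneg q
    have hm := nrm_mono (Φ := Φ) (t := t) hsp.le (Good.sm hS.toField f.2) (Nat.le_succ q)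
    cases X
    · simp only [Op.map, Op.ord, LinearMap.coe_mk, AddHom.coe_mk, one_mul, pow_one, lam]
      calc lam c q * nrm Φ s t q (opD f.1) ≤ lam c q * ((s t)⁻¹ * nrm Φ s t (q + 1) f.1) :=
            mul_le_mul_of_nonneg_left (nrm_D hS ht f.2 q) hl
        _ ≤ lam c q * ((s t)⁻¹ * nrm Φ s t (q + 1) f.1) * opC c q :=
            le_mul_of_one_le_right (by positivity) hC
        _ = _ := by ring
    · simp only [Op.map, Op.ord, LinearMap.coe_mk, AddHom.coe_mk, one_mul, pow_one, lam]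
      refine (mul_le_mul_of_nonneg_left (nrm_δ hS ht f.2 q) hl).trans (le_of_eq ?_)
      ring
    · simp only [Op.map, Op.ord, LinearMap.coe_mk, AddHom.coe_mk, one_mul, pow_one, lam]
      calc lam c q * nrm Φ s t q (opM g f.1) ≤ lam c q * (opC c q * nrm Φ s t (q + 1) f.1) :=
            mul_le_mul_of_nonneg_left ((nrm_M hS ht f.2 q).trans
              (mul_le_mul_of_nonneg_left hm (zero_le_one.trans hC))) hl
        _ ≤ (s t)⁻¹ * (lam c q * (opC c q * nrm Φ s t (q + 1) f.1)) :=
            le_mul_of_one_le_left (by positivity) (hS.inv_one_le ht)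
        _ = _ := by ring
    · simp only [Op.map, Op.ord, LinearMap.coe_mk, AddHom.coe_mk, one_mul, pow_zero, add_zero]
      exact mul_le_mul_of_nonneg_left (nrm_S hS ht f.2 q) hl
  comm_eq X f := by
    have hf : Sm f.1 := Good.sm hS.toField f.2
    apply Subtype.ext
    cases X <;>
      simp only [Op.map, Op.comm, matL, Material.comb, Material.app, List.foldr, List.map,
        List.sum_cons, List.sum_nil, LinearMap.coe_mk, AddHom.coe_mk, neg_smul, one_smul,
        Submodule.coe_add, Submodule.coe_neg, add_zero]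
    · rw [A_D hS.toField hf, sub_eq_add_neg]
    · rw [A_δ hS.toField hf, sub_eq_add_neg]
    · rw [A_M hS.toField hf]; abel
    · exact A_S
  comm_len X := by cases X <;> simp [Op.comm]
  comm_ord X := by cases X <;> simp [Op.comm, Material.word, Op.ord]
  comm_wt X := by cases X <;> norm_num [Op.comm, Material.wt]

lemma iterate_opA_gT (k : Fin d) :
    ∀ r, ∀ p ∈ Dom, (opA g)^[r] (gT g) [k] p = (mat g)^[r] (gc g k) p
  | 0, p, hp => by simp [gT, cut_of_mem hp]
  | r + 1, p, hp => by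
    rw [Function.iterate_succ_apply', Function.iterate_succ_apply', opA, cut_of_mem hp, mat, mat,
      Filter.EventuallyEq.fderiv_eq (f₁ := (opA g)^[r] (gT g) [k]) (f := (mat g)^[r] (gc g k))
        (Filter.eventually_of_mem (isOpen_Dom.mem_nhds hp) (iterate_opA_gT k r))]

/-- The velocity as an element of the module. -/
noncomputable def gV (g : Pt d → Sp d) : fieldsOf g := ⟨gT g, Good.base⟩

lemma coe_pow_matL (hg : Field g) :
    ∀ (r : ℕ) (f : fieldsOf g), ((matL hg ^ r) f).1 = (opA g)^[r] f.1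
  | 0, f => rfl
  | r + 1, f => by
    rw [pow_succ', Module.End.mul_apply, Function.iterate_succ_apply', ← coe_pow_matL hg r f]
    rfl

lemma nrm_gT (ht : 0 < t) (q : ℕ) :
    nrm Φ s t q (gT g) = Nw (nuT (Φ t)) (s t) q fun k x => g (t, x) k := by
  rw [nrm, tsum_eq_single 1]
  · rw [← Nw_equiv (Equiv.funUnique (Fin 1) (Fin d)).symm q (slc (gT g) t 1)]
    refine congrArg _ (funext fun k => funext fun x => ?_)
    simp [slc, sl, gT, Equiv.funUnique, cut_of_mem (show (t, x) ∈ Dom from ht), gc]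
  · intro n hn
    rw [show slc (gT g) t n = fun _ _ => 0 from funext fun p => funext fun x => by
      rcases n with _ | _ | n
      · simp [slc, sl, gT]
      · exact absurd rfl hn
      · simp [slc, sl, gT, List.ofFn_succ]]
    exact Nw_eq_zero _ _ q

/-- The constant of `r` material derivatives of a score. -/
noncomputable def scoreC (c : ℕ → ℝ) (r : ℕ) : ℝ := Material.gC 1 4 r * lam c (2 * r)

/-- **Material derivatives of a score**: `r` of them cost `2 r` orders, uniformly in `d`. -/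
theorem score_iterate (hS : Score g Φ s c) (ht : 0 < t) (r : ℕ) :
    √(∑ k, ∫ x, (mat g)^[r] (gc g k) (t, x) ^ 2 ∂nuT (Φ t)) ≤
      scoreC c r * (s t)⁻¹ ^ (2 * r) * Nw (nuT (Φ t)) (s t) (2 * r) fun k x => g (t, x) k := by
  have hg := hS.toField
  have hA : (sys hS ht).A (gV g) = Material.comb (fun Y => (sys hS ht).op Y)
      [((-1 : ℝ), [Op.δ, Op.D]), (-1, [])] (gV g) := by
    apply Subtype.ext
    simp only [sys, matL, gV, Material.comb, Material.app, List.foldr, List.map, List.sum_cons,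
      List.sum_nil, Op.map, LinearMap.coe_mk, AddHom.coe_mk, neg_smul, one_smul,
      Submodule.coe_add, Submodule.coe_neg, add_zero]
    rw [A_gT hg, sub_eq_add_neg]
  have h := Material.iterate_self_le (sys hS ht) hA
    (fun p hp => by simp at hp; rcases hp with rfl | rfl <;> simp)
    (fun p hp => by simp at hp; rcases hp with rfl | rfl <;> simp [Material.word, sys, Op.ord])
    (by norm_num [Material.wt, sys]) r 0
  simp only [sys, zero_add, lam, one_mul] at h
  rw [coe_pow_matL hg] at h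
  simp only [gV] at h
  rw [nrm_gT ht] at h
  refine le_trans ?_ (h.trans_eq (by rw [scoreC]; ring))
  have hsm : Sm ((opA g)^[r] (gT g)) := by
    have := Good.sm hg ((matL hg ^ r) (gV g)).2
    rwa [coe_pow_matL] at this
  refine le_trans (le_of_eq ?_) ((summable_nrm hsm 0).le_tsum 1 fun n _ =>
    Nw_nonneg (hS.s_pos t ht).le _ _)
  rw [← Nw_equiv (Equiv.funUnique (Fin 1) (Fin d)).symm]
  simp only [Nw, zero_add, sum_range_one, pow_zero, one_mul, DnM, DSM, dsqM]
  refine congrArg _ (sum_congr rfl fun k _ => integral_congr_ae (ae_of_all _ fun x => ?_))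
  simp [slc, sl, Equiv.funUnique, iterate_opA_gT k r (t, x) ht]

end Fields

end Vale.Agent.P347.Shift
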