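import Vale.Agent.P347.Shift.SpecGlue
import Vale.Agent.P347.Quarter.Main

/-!
# P347: whitened steps of every order give subpolynomial query complexity

The statement of the hand-in, from the specification of the whitened step.
-/

namespace Vale.Agent.P347.Shift

open MeasureTheory Real
open Quarter

/-- If whitened steps of every order exist then `d ^ δ` first order queries suffice for every
positive `δ` and all large `d`. -/
theorem transcript_of_spec (hyp : ∀ K, WhiteSpec K) :
    ∀ δ : ℝ, 0 < δ → ∃ d₀ : ℕ, ∀ d : ℕ, d₀ ≤ d → ∃ q : ℕ, (q : ℝ) ≤ (d : ℝ) ^ δ ∧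
      ∃ (Ω : Type) (_ : MeasurableSpace Ω) (P : Measure Ω) (_ : IsProbabilityMeasure P)
        (query : (m : Fin q) → Ω → (Fin m → ℝ × EuclideanSpace ℝ (Fin d)) →
          EuclideanSpace ℝ (Fin d))
        (out : Ω → (Fin q → ℝ × EuclideanSpace ℝ (Fin d)) → EuclideanSpace ℝ (Fin d)),
        (∀ m, Measurable (Function.uncurry (query m))) ∧ Measurable (Function.uncurry out) ∧
        ∀ V : EuclideanSpace ℝ (Fin d) → ℝ, ContDiff ℝ 2 V → V 0 = 0 → gradient V 0 = 0 →
          (∀ x v, ‖v‖ ^ 2 ≤ iteratedFDeriv ℝ 2 V x ![v, v] ∧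
            iteratedFDeriv ℝ 2 V x ![v, v] ≤ 2 * ‖v‖ ^ 2) →
          ∃ tr : Ω → Fin q → ℝ × EuclideanSpace ℝ (Fin d), Measurable tr ∧
            (∀ ω m, tr ω m =
              (V (query m ω fun j => tr ω (Fin.castLE m.isLt.le j)),
                gradient V (query m ω fun j => tr ω (Fin.castLE m.isLt.le j)))) ∧
            ∀ B : Set (EuclideanSpace ℝ (Fin d)), MeasurableSet B →
              |(P.map fun ω => out ω (tr ω)).real B -
                  (∫ x in B, exp (-V x)) / ∫ x, exp (-V x)| ≤ 1 / 10 := by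
  intro δ hδ
  obtain ⟨d₀, h⟩ := subpoly_of_spec hyp hδ
  refine ⟨d₀, fun d hd => ?_⟩
  obtain ⟨p, hq, hp⟩ := h d hd
  obtain ⟨query, out, hqm, hom, htr⟩ := p.exists_transcript ()
  refine ⟨p.cost, hq, p.Seed, inferInstance, p.seedLaw, inferInstance, query, out, hqm, hom,
    fun V hV _ hV0 hH => ?_⟩
  have hP : IsPot V (gradient V) (fderiv ℝ (gradient V)) 1 2 :=
    isPot_of_contDiff hV fun x v => by simpa using hH x v
  obtain ⟨tr, htm, heq, hlaw⟩ := htr (fun x => (V x, gradient V x))
    (hV.continuous.prodMk hP.continuous_grad).measurable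
  exact ⟨tr, htm, heq, fun B hB => by rw [hlaw]; exact hp V hV hV0 hH B hB⟩

end Vale.Agent.P347.Shift
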