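import Vale.Agent.P347.Shift.FlowVel
import Mathlib.Analysis.ODE.ExistUnique
import Mathlib.Analysis.ODE.Gronwall

/-!
# P347: the law of the probability flow

For `κ < 1` the equation `dx/dv = -uvel W G v x` on `[0, κ]` has a flow, and the map at time `v`
carries the Gaussian law to the law of `v X + √(1 - v²) Z`.  Proof: along an Euler step the mean
of a test function changes by the second order only, because in the rotated pair the derivative
of the interpolated point is a pure Gaussian vector, and integrating it by parts gives the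
velocity.
-/

open MeasureTheory ProbabilityTheory Real Filter Topology Finset
open scoped RealInnerProductSpace ContDiff NNReal

namespace Vale.Agent.P347.Shift

open Quarter

variable {d : ℕ} {W : Sp d → ℝ} {G : Sp d → Sp d} {H : Sp d → Sp d →L[ℝ] Sp d} {η κ v : ℝ}

namespace FlowLaw

/-! ### Means over the pair -/

/-- The clean point and the independent noise. -/
noncomputable def pairLaw (W : Sp d → ℝ) : Measure (Sp d × Sp d) := (gibbs W).prod (gd d)

lemma isProb_pairLaw (hW : IsPot W G H 0 η) : IsProbabilityMeasure (pairLaw W) := by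
  have := isProb_gibbs hW le_rfl
  unfold pairLaw; infer_instance

lemma integrable_exp_pair (hW : IsPot W G H 0 η) {f : Sp d × Sp d → ℝ} (hf : Continuous f)
    {C K : ℝ} (hb : ∀ p, |f p| ≤ C * exp (K * (‖p.1‖ + ‖p.2‖))) :
    Integrable (fun p : Sp d × Sp d => exp (-W p.1) * f p) ((gd d).prod (gd d)) := by
  refine (((integrable_exp_norm_gam (ι := Fin d) (‖G 0‖ + K)).mul_prod
    (integrable_exp_norm_gam (ι := Fin d) K)).const_mul (exp (-W 0) * C)).mono'
      ((continuous_exp.comp (hW.contDiff.continuous.comp continuous_fst).neg).mul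
        hf).aestronglyMeasurable (ae_of_all _ fun p => ?_)
  rw [norm_mul, norm_eq_abs, norm_eq_abs, abs_exp]
  refine (mul_le_mul (hW.exp_neg_le le_rfl p.1) (hb p) (abs_nonneg _)
    (by positivity)).trans_eq ?_
  rw [add_mul, mul_add, exp_add, exp_add]
  ring

lemma pairLaw_eq (hW : IsPot W G H 0 η) :
    pairLaw W = ((gd d).prod (gd d)).tilted fun p => -W p.1 := by
  have hi := hW.integrable_exp_neg (le_refl (0 : ℝ))
  have hZ : (∫ t, exp (-W t) ∂gd d) =
      ∫ p : Sp d × Sp d, exp (-W p.1) ∂(gd d).prod (gd d) := by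
    rw [integral_prod _ (hi.comp_fst (gd d))]; simp
  have hWc := hW.contDiff.continuous
  rw [pairLaw, gibbs, Measure.tilted, Measure.tilted, prod_withDensity_left (by fun_prop), ← hZ]

lemma integral_pairLaw (hW : IsPot W G H 0 η) (f : Sp d × Sp d → ℝ) :
    ∫ p, f p ∂pairLaw W = (∫ p : Sp d × Sp d, exp (-W p.1) ∂(gd d).prod (gd d))⁻¹ *
      ∫ p : Sp d × Sp d, exp (-W p.1) * f p ∂(gd d).prod (gd d) := by
  rw [pairLaw_eq hW, integral_tilted, ← integral_const_mul]
  simp only [smul_eq_mul, div_eq_inv_mul, mul_assoc]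

lemma integrable_pairLaw (hW : IsPot W G H 0 η) {f : Sp d × Sp d → ℝ} (hf : Continuous f)
    {C K : ℝ} (hb : ∀ p, |f p| ≤ C * exp (K * (‖p.1‖ + ‖p.2‖))) :
    Integrable f (pairLaw W) := by
  have h1 := integrable_exp_pair hW (f := fun _ => (1 : ℝ)) continuous_const (C := 1) (K := 0)
    (fun p => by simp)
  simp only [mul_one] at h1
  rw [pairLaw_eq hW, integrable_tilted_iff h1]
  simpa [smul_eq_mul] using integrable_exp_pair hW hf hb

/-! ### The derivative of the interpolated point -/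

/-- For a fixed point the Gaussian vector integrates by parts to the gradient. -/
lemma inner_ibp (hW : IsPot W G H 0 η) (hv : |v| < 1) (ℓ : Sp d →L[ℝ] ℝ) (s : Sp d) :
    ∫ t, exp (-W (interpPt v (s, t))) * ℓ ((√(1 - v ^ 2))⁻¹ • t) ∂gd d = -(ℓ (velN W G v s)) := by
  set b := √(1 - v ^ 2)
  have hb : 0 < b := sqrt_pos.2 (by nlinarith [abs_lt.1 hv])
  have hb1 : b ≤ 1 := sqrt_le_one.2 (by nlinarith [sq_nonneg v])
  have hGc := hW.continuous_grad
  have hw : ∀ t, exp (-W (interpPt v (s, t))) ≤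
      exp (-W 0) * exp (‖G 0‖ * ‖s‖) * exp (‖G 0‖ * ‖t‖) := fun t => by
    rw [mul_assoc, ← exp_add, ← mul_add]
    refine (hW.exp_neg_le le_rfl _).trans (mul_le_mul_of_nonneg_left (exp_le_exp.2
      (mul_le_mul_of_nonneg_left ((norm_interpPt_le v (s, t)).trans (add_le_add
        (mul_le_of_le_one_left (norm_nonneg s) hv.le) le_rfl)) (norm_nonneg _))) (exp_pos _).le)
  set r := (InnerProductSpace.toDual ℝ (Sp d)).symm ℓ
  have hr : ∀ y, ℓ y = ⟪r, y⟫ := fun y => InnerProductSpace.toDual_symm_apply.symm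
  set F := fun t => exp (-W (interpPt v (s, t)))
  have hd : ∀ t, HasFDerivAt F
      (-(F t * b) • innerSL ℝ (G (interpPt v (s, t)))) t := fun t => by
    have h1 : HasFDerivAt (fun t => interpPt v (s, t)) (b • ContinuousLinearMap.id ℝ (Sp d)) t :=
      ((hasFDerivAt_id t).const_smul b).const_add (v • s)
    refine (((hW.hasGrad _).comp t h1).neg.exp).congr_fderiv ?_
    ext w
    simp [F]
    ring
  have hFc : ContDiff ℝ 1 F := (contDiff_exp.comp (hW.contDiff.comp (by
    unfold interpPt; fun_prop)).neg).of_le (by norm_num)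
  set C0 := exp (-W 0) * exp ((‖G 0‖ + 1) * ‖s‖) * (1 + ‖G 0‖ + |η|)
  set K0 := ‖G 0‖ + 1
  have hexp : ∀ (t : Sp d) (m : ℝ), exp (-W 0) * exp (‖G 0‖ * ‖s‖) * exp (‖G 0‖ * ‖t‖) *
      (m * (exp ‖s‖ * exp ‖t‖)) = exp (-W 0) * exp (K0 * ‖s‖) * m * exp (K0 * ‖t‖) := fun t m => by
    simp only [K0, add_mul, one_mul, exp_add]; ring
  have hs1 : ∀ t : Sp d, 1 ≤ exp ‖s‖ * exp ‖t‖ := fun t =>
    one_le_mul_of_one_le_of_one_le (one_le_exp (norm_nonneg _)) (one_le_exp (norm_nonneg _))
  have h0 : ∀ t, |F t| ≤ C0 * exp (K0 * ‖t‖) := fun t => by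
    rw [abs_exp]
    refine ((hw t).trans (le_mul_of_one_le_right (by positivity) (one_le_mul_of_one_le_of_one_le
      (show 1 ≤ 1 + ‖G 0‖ + |η| by linarith [norm_nonneg (G 0), abs_nonneg η]) (hs1 t)))).trans_eq ?_
    exact hexp t _
  have h1 : ∀ t, ‖fderiv ℝ F t‖ ≤ C0 * exp (K0 * ‖t‖) := fun t => by
    rw [(hd t).fderiv, norm_smul, innerSL_apply_norm, norm_neg, norm_eq_abs,
      abs_of_pos (mul_pos (exp_pos _) hb)]
    have hg : ‖G (interpPt v (s, t))‖ ≤ (1 + ‖G 0‖ + |η|) * (exp ‖s‖ * exp ‖t‖) := by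
      refine (hW.grad_le le_rfl _).trans ?_
      have h2 : ‖interpPt v (s, t)‖ ≤ exp ‖s‖ * exp ‖t‖ := by
        rw [← exp_add]
        linarith [norm_interpPt_le v (s, t), mul_le_of_le_one_left (norm_nonneg s) hv.le,
          add_one_le_exp (‖s‖ + ‖t‖)]
      nlinarith [hs1 t, norm_nonneg (G 0), abs_nonneg η, norm_nonneg (interpPt v (s, t)),
        mul_le_mul_of_nonneg_right (le_abs_self η) (norm_nonneg (interpPt v (s, t))),
        mul_le_mul_of_nonneg_left h2 (abs_nonneg η),
        mul_le_mul_of_nonneg_left (hs1 t) (norm_nonneg (G 0))]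
    calc F t * b * ‖G (interpPt v (s, t))‖
        ≤ exp (-W 0) * exp (‖G 0‖ * ‖s‖) * exp (‖G 0‖ * ‖t‖) *
          ((1 + ‖G 0‖ + |η|) * (exp ‖s‖ * exp ‖t‖)) :=
          mul_le_mul ((mul_le_of_le_one_right (exp_pos _).le hb1).trans (hw t)) hg
            (norm_nonneg _) (by positivity)
      _ = C0 * exp (K0 * ‖t‖) := hexp t _
  have h := gauss_ibp hFc h0 h1 r
  have e1 : ∀ t, fderiv ℝ F t r = -b * ℓ (F t • G (interpPt v (s, t))) := fun t => by
    rw [(hd t).fderiv, map_smul, hr, smul_eq_mul]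
    simp only [smul_apply, innerSL_apply_apply, smul_eq_mul]
    rw [real_inner_comm]
    ring
  have hi : Integrable (fun t => F t • G (interpPt v (s, t))) (gd d) := by
    refine integrable_gam_of_le ((by fun_prop : Continuous F).smul (hGc.comp (by
      unfold interpPt; fun_prop))) (C := C0 / b) (K := K0) fun t => ?_
    have := h1 t
    rw [(hd t).fderiv, norm_smul, innerSL_apply_norm, norm_neg, norm_eq_abs,
      abs_of_pos (mul_pos (exp_pos _) hb)] at this
    rw [norm_smul, norm_eq_abs, abs_exp, div_mul_eq_mul_div, le_div_iff₀ hb]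
    linarith
  simp only [e1] at h
  rw [integral_const_mul, ℓ.integral_comp_comm hi] at h
  have e2 : ∀ t, F t * ℓ (b⁻¹ • t) = b⁻¹ * (F t * ⟪t, r⟫) := fun t => by
    rw [map_smul, smul_eq_mul, hr, real_inner_comm]; ring
  show ∫ t, F t * ℓ (b⁻¹ • t) ∂gd d = _
  simp only [e2]
  rw [integral_const_mul, ← h, show velN W G v s = ∫ t, F t • G (interpPt v (s, t)) ∂gd d from rfl]
  field_simp

/-- The velocity grows at most exponentially. -/
lemma uvel_growth (hW : IsPot W G H 0 η) (hv0 : 0 ≤ v) (hv : |v| < 1) :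
    ∃ A B : ℝ, 0 ≤ A ∧ 0 ≤ B ∧ ∀ x, ‖uvel W G v x‖ ≤ A * exp (B * ‖x‖) := by
  rcases Nat.eq_zero_or_pos d with rfl | hd
  · exact ⟨0, 0, le_rfl, le_rfl, fun x => by simp [Subsingleton.elim (uvel W G v x) 0]⟩
  have hη := hW.hess_nonneg_const hd
  refine ⟨‖uvel W G v 0‖ + η, 1, by positivity, zero_le_one, fun x => ?_⟩
  have := (uvel_smooth hW hη hv0 ((le_abs_self v).trans_lt hv)).2.2.1 x 0
  rw [sub_zero] at this
  rw [one_mul, add_mul]
  have h1 : v * η * ‖x‖ ≤ η * exp ‖x‖ :=
    mul_le_mul (mul_le_of_le_one_left hη ((le_abs_self v).trans hv.le))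
      (by linarith [add_one_le_exp ‖x‖]) (norm_nonneg x) hη
  have h2 := le_mul_of_one_le_right (norm_nonneg (uvel W G v 0)) (one_le_exp (norm_nonneg x))
  linarith [norm_sub_norm_le (uvel W G v x) (uvel W G v 0)]

/-- **The velocity identity**: in mean the derivative of the interpolated point is minus the
velocity. -/
theorem interp_identity (hW : IsPot W G H 0 η) (hv0 : 0 ≤ v) (hv : |v| < 1) {φ : Sp d → Sp d →L[ℝ] ℝ}
    (hφ : Continuous φ) {L : ℝ} (hL : ∀ x, ‖φ x‖ ≤ L) :
    ∫ p, φ (interpPt v p) (p.1 - (v / √(1 - v ^ 2)) • p.2) ∂pairLaw W =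
      -∫ p, φ (interpPt v p) (uvel W G v (interpPt v p)) ∂pairLaw W := by
  set b := √(1 - v ^ 2)
  have hb : 0 < b := sqrt_pos.2 (by nlinarith [abs_lt.1 hv])
  have hsum : v ^ 2 + b ^ 2 = 1 := by
    rw [sq_sqrt (by nlinarith [abs_lt.1 hv])]; ring
  have hb1 : b ≤ 1 := by nlinarith [sq_nonneg v]
  have hL0 : 0 ≤ L := (norm_nonneg _).trans (hL 0)
  have hWc := hW.contDiff.continuous
  have hGc := hW.continuous_grad
  have hR := gauss_rotate (ι := Fin d) hsum
  set R := fun p : Sp d × Sp d => (v • p.1 + b • p.2, b • p.1 - v • p.2)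
  have hR1 : ∀ p : Sp d × Sp d, interpPt v (R p) = p.1 := fun p => by
    show v • (v • p.1 + b • p.2) + b • (b • p.1 - v • p.2) = p.1
    rw [smul_add, smul_sub, smul_smul, smul_smul, smul_smul, smul_smul, mul_comm b v,
      add_add_sub_cancel, ← add_smul, ← pow_two, ← pow_two, hsum, one_smul]
  have hR2 : ∀ p : Sp d × Sp d, (R p).1 - (v / b) • (R p).2 = b⁻¹ • p.2 := fun p => by
    simp only [R, smul_sub, smul_smul, div_mul_cancel₀ v hb.ne']
    rw [show v • p.1 + b • p.2 - (v • p.1 - (v / b * v) • p.2) =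
      b • p.2 + (v / b * v) • p.2 by abel, ← add_smul]
    congr 1
    field_simp
    linarith
  have hm : ∀ f : Sp d × Sp d → ℝ, Continuous f →
      ∫ p, f (R p) ∂(gd d).prod (gd d) = ∫ p, f p ∂(gd d).prod (gd d) := fun f hf => by
    have h := integral_map (μ := (gd d).prod (gd d)) hR.measurable.aemeasurable (f := f)
      (by rw [hR.map_eq]; exact hf.aestronglyMeasurable)
    rw [hR.map_eq] at h
    exact h.symm
  have hu : Continuous fun x => uvel W G v x := continuous_uvel_right hW v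
  have inner : ∀ s, ∫ t, exp (-W (interpPt v (s, t))) * φ s (b⁻¹ • t) ∂gd d =
      -(φ s (velN W G v s)) := fun s => inner_ibp hW hv (φ s) s
  set f1 := fun p : Sp d × Sp d =>
    exp (-W p.1) * φ (interpPt v p) (p.1 - (v / b) • p.2)
  set f2 := fun p : Sp d × Sp d =>
    exp (-W p.1) * φ (interpPt v p) (uvel W G v (interpPt v p))
  have hphic : Continuous fun p : Sp d × Sp d => φ (interpPt v p) :=
    hφ.comp (continuous_interpPt_right v)
  have hlin : Continuous fun p : Sp d × Sp d => p.1 - (v / b) • p.2 := by fun_prop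
  have hf1 : Continuous f1 := (continuous_exp.comp (hWc.comp continuous_fst).neg).mul
    (hphic.clm_apply hlin)
  have hf2 : Continuous f2 := (continuous_exp.comp (hWc.comp continuous_fst).neg).mul
    (hphic.clm_apply (hu.comp (continuous_interpPt_right v)))
  have i1 : Integrable f1 ((gd d).prod (gd d)) := by
    refine integrable_exp_pair hW (hphic.clm_apply hlin) (C := L * (1 + |v / b|)) (K := 1) fun p => ?_
    rw [← norm_eq_abs]
    refine ((φ _).le_opNorm _).trans ?_
    rw [mul_assoc L]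
    refine mul_le_mul (hL _) ((norm_sub_le _ _).trans ?_) (norm_nonneg _) hL0
    rw [norm_smul, norm_eq_abs, one_mul]
    nlinarith [add_one_le_exp (‖p.1‖ + ‖p.2‖), norm_nonneg p.1, norm_nonneg p.2,
      abs_nonneg (v / b)]
  have hrot : ∀ p, f1 (R p) = exp (-W (interpPt v p)) * φ p.1 (b⁻¹ • p.2) := fun p => by
    simp only [f1, hR1, hR2]; rfl
  have hrot2 : ∀ p, f2 (R p) = exp (-W (interpPt v p)) * φ p.1 (uvel W G v p.1) := fun p => by
    simp only [f2, hR1]; rfl
  have hI1 : ∫ p, f1 p ∂(gd d).prod (gd d) = -∫ s, φ s (velN W G v s) ∂gd d := by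
    rw [← hm f1 hf1]
    rw [integral_prod _ (show Integrable (fun p => f1 (R p)) ((gd d).prod (gd d)) from
      hR.integrable_comp_of_integrable i1)]
    simp only [hrot, inner, integral_neg]
  obtain ⟨A, B, hA, hB, hub⟩ := uvel_growth hW hv0 hv
  have i2 : Integrable f2 ((gd d).prod (gd d)) := by
    refine integrable_exp_pair hW (hphic.clm_apply (hu.comp (continuous_interpPt_right v)))
      (C := L * A) (K := B) fun p => ?_
    rw [← norm_eq_abs, mul_assoc L]
    refine ((φ _).le_opNorm _).trans (mul_le_mul (hL _) ((hub _).trans ?_) (norm_nonneg _) hL0)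
    exact mul_le_mul_of_nonneg_left (exp_le_exp.2 (mul_le_mul_of_nonneg_left
      ((norm_interpPt_le v p).trans (add_le_add (mul_le_of_le_one_left (norm_nonneg _) hv.le)
        le_rfl)) hB)) hA
  have hI2 : ∫ p, f2 p ∂(gd d).prod (gd d) = ∫ s, φ s (velN W G v s) ∂gd d := by
    rw [← hm f2 hf2, integral_prod _ (show Integrable (fun p => f2 (R p)) ((gd d).prod (gd d)) from
      hR.integrable_comp_of_integrable i2)]
    refine integral_congr_ae (ae_of_all _ fun s => ?_)
    simp only [hrot2, integral_mul_const]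
    show velP W v s * φ s (uvel W G v s) = _
    rw [uvel_eq, map_smul, smul_eq_mul, ← mul_assoc, mul_inv_cancel₀ (velP_pos hW v s).ne',
      one_mul]
  rw [integral_pairLaw hW, integral_pairLaw hW, hI1, hI2, mul_neg]

end FlowLaw

end Vale.Agent.P347.Shift
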