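import Vale.Agent.P347.Shift.FlowLaw

/-!
# P347: the probability flow map and its law

For `κ < 1` the equation `dx/dv = -uvel W G v x` has a flow on `[0, κ]`; its map at time `v` carries
the Gaussian law to the law of `v X + √(1 - v²) Z`, that is to `gibbs (smPot v W)` for `0 < v`.
-/

open MeasureTheory ProbabilityTheory Real Filter Topology Finset
open scoped RealInnerProductSpace ContDiff NNReal

namespace Vale.Agent.P347.Shift

open Quarter

variable {d : ℕ} {W : Sp d → ℝ} {G : Sp d → Sp d} {H : Sp d → Sp d →L[ℝ] Sp d} {η κ : ℝ}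

/-- `Φ` solves `dx/dv = -uvel W G v x` on `[0, κ]` from the identity. -/
def IsVelFlow (W : Sp d → ℝ) (G : Sp d → Sp d) (κ : ℝ) (Φ : ℝ → Sp d → Sp d) : Prop :=
  (∀ x, Φ 0 x = x) ∧ ∀ x, ∀ v ∈ Set.Icc 0 κ,
    HasDerivWithinAt (fun v => Φ v x) (-uvel W G v (Φ v x)) (Set.Icc 0 κ) v

namespace FlowLaw

section Tests

/-- Test functions with bounded, Lipschitz derivative. -/
structure Test (ψ : Sp d → ℝ) (L L' : ℝ) : Prop where
  smooth : ContDiff ℝ 1 ψ
  grad : ∀ x, ‖fderiv ℝ ψ x‖ ≤ L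
  lip : ∀ x y, ‖fderiv ℝ ψ x - fderiv ℝ ψ y‖ ≤ L' * ‖x - y‖

variable {ψ : Sp d → ℝ} {L L' : ℝ}

lemma Test.taylor (hψ : Test ψ L L') (hL' : 0 ≤ L') (x y : Sp d) :
    |ψ y - ψ x - fderiv ℝ ψ x (y - x)| ≤ L' * ‖y - x‖ ^ 2 := by
  rw [← norm_eq_abs, pow_two, ← mul_assoc]
  refine (convex_segment x y).norm_image_sub_le_of_norm_fderiv_le'
    (fun z _ => hψ.smooth.differentiable one_ne_zero z) (fun z hz => ?_)
    (left_mem_segment ℝ x y) (right_mem_segment ℝ x y)
  exact (hψ.lip z x).trans (mul_le_mul_of_nonneg_left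
    (norm_sub_le_of_mem_segment hz) hL')

lemma Test.mono (hψ : Test ψ L L') {M M' : ℝ} (h : L ≤ M) (h' : L' ≤ M') : Test ψ M M' :=
  ⟨hψ.smooth, fun x => (hψ.grad x).trans h, fun x y =>
    (hψ.lip x y).trans (mul_le_mul_of_nonneg_right h' (norm_nonneg _))⟩

lemma Test.comp_step (hψ : Test ψ L L') (hL' : 0 ≤ L') {u : Sp d → Sp d} (hu : ContDiff ℝ 1 u)
    {K K' : ℝ} (hK : 0 ≤ K) (hu1 : ∀ x, ‖fderiv ℝ u x‖ ≤ K)
    (hu2 : ∀ x y, ‖fderiv ℝ u x - fderiv ℝ u y‖ ≤ K' * ‖x - y‖) {h : ℝ} (hh : 0 ≤ h) :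
    Test (fun x => ψ (x - h • u x)) (L * (1 + h * K))
      (L' * (1 + h * K) ^ 2 + L * (h * K')) := by
  set T := fun p => p - h • u p
  set D := fun x => ContinuousLinearMap.id ℝ (Sp d) - h • fderiv ℝ u x
  have hT : ∀ x, HasFDerivAt T (D x) x := fun x =>
    (hasFDerivAt_id x).sub ((hu.differentiable one_ne_zero x).hasFDerivAt.const_smul h)
  have hd : ∀ x, fderiv ℝ (fun x => ψ (T x)) x = (fderiv ℝ ψ (T x)).comp (D x) := fun x =>
    ((hψ.smooth.differentiable one_ne_zero (T x)).hasFDerivAt.comp x (hT x)).fderiv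
  have hn : ∀ x, ‖D x‖ ≤ 1 + h * K := fun x => by
    refine (norm_sub_le _ _).trans (add_le_add ContinuousLinearMap.norm_id_le ?_)
    rw [norm_smul, norm_eq_abs, abs_of_nonneg hh]
    exact mul_le_mul_of_nonneg_left (hu1 x) hh
  have hL0 : 0 ≤ L := (norm_nonneg _).trans (hψ.grad 0)
  have hTl : ∀ x y, ‖T x - T y‖ ≤ (1 + h * K) * ‖x - y‖ := fun x y =>
    Convex.norm_image_sub_le_of_norm_hasFDerivWithin_le
      (fun z _ => (hT z).hasFDerivWithinAt) (fun z _ => hn z) convex_univ (Set.mem_univ y)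
      (Set.mem_univ x)
  refine ⟨hψ.smooth.comp (contDiff_id.sub (hu.const_smul h)), fun x => ?_, fun x y => ?_⟩
  · rw [show (fun x => ψ (x - h • u x)) = fun x => ψ (T x) from rfl, hd]
    exact (ContinuousLinearMap.opNorm_comp_le _ _).trans
      (mul_le_mul (hψ.grad _) (hn _) (norm_nonneg _) hL0)
  · rw [show (fun x => ψ (x - h • u x)) = fun x => ψ (T x) from rfl, hd, hd]
    have e : (fderiv ℝ ψ (T x)).comp (D x) - (fderiv ℝ ψ (T y)).comp (D y) =
        (fderiv ℝ ψ (T x) - fderiv ℝ ψ (T y)).comp (D x) +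
          (fderiv ℝ ψ (T y)).comp (h • (fderiv ℝ u y - fderiv ℝ u x)) := by
      ext a; simp [D, smul_sub]; ring
    rw [e, add_mul]
    refine (norm_add_le _ _).trans (add_le_add
      ((ContinuousLinearMap.opNorm_comp_le _ _).trans ?_)
      ((ContinuousLinearMap.opNorm_comp_le _ _).trans ?_))
    · refine (mul_le_mul ((hψ.lip _ _).trans (mul_le_mul_of_nonneg_left (hTl x y) hL'))
        (hn x) (norm_nonneg _) (by positivity)).trans_eq ?_
      ring
    · rw [mul_assoc L, mul_assoc h]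
      refine mul_le_mul (hψ.grad _) ?_ (norm_nonneg _) hL0
      rw [norm_smul, norm_eq_abs, abs_of_nonneg hh, norm_sub_rev]
      exact mul_le_mul_of_nonneg_left (hu2 x y) hh

/-- Euler steps of size `h`, the first one at step number `a`. -/
noncomputable def euler (u : ℝ → Sp d → Sp d) (h : ℝ) : ℕ → ℕ → Sp d → Sp d
  | _, 0 => fun x => x
  | a, k + 1 => fun x => euler u h (a + 1) k (x - h • u (a * h) x)

lemma continuous_euler {u : ℝ → Sp d → Sp d} (hu : ∀ v, Continuous (u v)) (h : ℝ) :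
    ∀ k a, Continuous (euler u h a k)
  | 0, _ => continuous_id
  | k + 1, _ => (continuous_euler hu h k _).comp (continuous_id.sub ((hu _).const_smul h))

lemma euler_test {u : ℝ → Sp d → Sp d} {h K K' : ℝ} (hh : 0 ≤ h) (hK : 0 ≤ K) (hK' : 0 ≤ K')
    {n : ℕ} (hs : ∀ i < n, ContDiff ℝ 1 (u (i * h)) ∧ (∀ x, ‖fderiv ℝ (u (i * h)) x‖ ≤ K) ∧
      ∀ x y, ‖fderiv ℝ (u (i * h)) x - fderiv ℝ (u (i * h)) y‖ ≤ K' * ‖x - y‖)
    (hψ : Test ψ L L') (hL' : 0 ≤ L') :
    ∀ k a, a + k ≤ n → Test (fun x => ψ (euler u h a k x)) (L * (1 + h * K) ^ k)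
      ((L' + k * h * K' * L) * (1 + h * K) ^ (2 * k))
  | 0, a, _ => by simpa [euler] using hψ
  | k + 1, a, hak => by
    have hL0 : 0 ≤ L := (norm_nonneg _).trans (hψ.grad 0)
    obtain ⟨a1, a2, a3⟩ := hs a (by omega)
    have hq : 1 ≤ 1 + h * K := le_add_of_nonneg_right (by positivity)
    refine ((euler_test hh hK hK' hs hψ hL' k (a + 1) (by omega)).comp_step
      (by positivity) a1 hK a2 a3 hh).mono (le_of_eq (by ring)) ?_
    push_cast
    have h5 : L * (1 + h * K) ^ k * (h * K') ≤ L * (h * K') * (1 + h * K) ^ (2 * (k + 1)) := by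
      rw [mul_right_comm L]
      exact mul_le_mul_of_nonneg_left (pow_le_pow_right₀ hq (by omega)) (by positivity)
    have e5 : (L' + k * h * K' * L) * (1 + h * K) ^ (2 * k) * (1 + h * K) ^ 2 =
        (L' + k * h * K' * L) * (1 + h * K) ^ (2 * (k + 1)) := by
      rw [mul_assoc, ← pow_add]; ring_nf
    linarith

lemma euler_close {u : ℝ → Sp d → Sp d} {h K wt : ℝ} (hh : 0 ≤ h) (hK : 0 ≤ K) (hwt : 0 ≤ wt)
    {n : ℕ} (hl : ∀ i < n, ∀ x y, ‖u (i * h) x - u (i * h) y‖ ≤ K * ‖x - y‖) {f : ℕ → Sp d}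
    (hf : ∀ i < n, ‖f (i + 1) - (f i - h • u (i * h) (f i))‖ ≤ h * wt) :
    ∀ k a x, a + k ≤ n →
      ‖euler u h a k x - f (a + k)‖ ≤ (1 + h * K) ^ k * (‖x - f a‖ + k * (h * wt))
  | 0, a, x, _ => by simp [euler]
  | k + 1, a, x, hak => by
    have hq : 1 ≤ 1 + h * K := le_add_of_nonneg_right (by positivity)
    have h1 : ‖x - h • u (a * h) x - f (a + 1)‖ ≤ (1 + h * K) * ‖x - f a‖ + h * wt := by
      rw [show x - h • u (a * h) x - f (a + 1) = (x - f a - h • (u (a * h) x - u (a * h) (f a))) -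
        (f (a + 1) - (f a - h • u (a * h) (f a))) by rw [smul_sub]; abel]
      refine (norm_sub_le _ _).trans (add_le_add ((norm_sub_le _ _).trans ?_) (hf a (by omega)))
      rw [norm_smul, norm_eq_abs, abs_of_nonneg hh, add_mul, one_mul, mul_assoc]
      exact add_le_add le_rfl (mul_le_mul_of_nonneg_left (hl a (by omega) _ _) hh)
    have h2 := euler_close hh hK hwt hl hf k (a + 1) (x - h • u (a * h) x) (by omega)
    rw [show a + 1 + k = a + (k + 1) by omega] at h2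
    refine h2.trans ?_
    rw [pow_succ, mul_assoc]
    refine mul_le_mul_of_nonneg_left ?_ (by positivity)
    push_cast
    linarith [le_mul_of_one_le_left (mul_nonneg (add_nonneg (Nat.cast_nonneg (α := ℝ) k) zero_le_one)
      (mul_nonneg hh hwt)) hq, mul_nonneg hh hwt]

end Tests

/-- Two probability laws with the same integrals of waves are equal. -/
lemma measure_ext_waves {μ ν : Measure (Sp d)} [IsProbabilityMeasure μ] [IsProbabilityMeasure ν]
    (h : ∀ (ξ : Sp d) θ, ∫ x, cos (⟪x, ξ⟫ + θ) ∂μ = ∫ x, cos (⟪x, ξ⟫ + θ) ∂ν) : μ = ν := by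
  refine Measure.ext_of_charFun (funext fun ξ => ?_)
  have e : ∀ u : ℝ, Complex.exp (u * Complex.I) = (cos u : ℂ) + (cos (u - π / 2) : ℂ) * Complex.I :=
    fun u => by
      rw [Complex.exp_mul_I, Real.cos_sub_pi_div_two, Complex.ofReal_cos, Complex.ofReal_sin]
  have hi : ∀ (m : Measure (Sp d)) [IsProbabilityMeasure m] (θ : ℝ),
      Integrable (fun x => ((cos (⟪x, ξ⟫ + θ) : ℝ) : ℂ)) m := fun m _ θ =>
    (Integrable.of_bound (by fun_prop : Continuous fun x => cos (⟪x, ξ⟫ + θ)).aestronglyMeasurable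
      1 (ae_of_all _ fun x => by rw [Real.norm_eq_abs]; exact Real.abs_cos_le_one _)).ofReal
  have hrep : ∀ (m : Measure (Sp d)) [IsProbabilityMeasure m],
      ∫ x, Complex.exp (⟪x, ξ⟫ * Complex.I) ∂m = ((∫ x, cos (⟪x, ξ⟫ + 0) ∂m : ℝ) : ℂ) +
        ((∫ x, cos (⟪x, ξ⟫ + -(π / 2)) ∂m : ℝ) : ℂ) * Complex.I := fun m _ => by
    simp only [e]
    rw [← integral_complex_ofReal, ← integral_complex_ofReal, ← integral_mul_const,
      ← integral_add (hi m 0) ((hi m _).mul_const _)]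
    exact integral_congr_ae (ae_of_all _ fun x => by simp only [add_zero, ← sub_eq_add_neg])
  rw [charFun_apply, charFun_apply, hrep μ, hrep ν]
  simp only [h]

lemma test_wave (ξ : Sp d) (θ : ℝ) :
    Test (fun x => cos (⟪x, ξ⟫ + θ)) ‖ξ‖ (‖ξ‖ * ‖ξ‖) := by
  set φ : Sp d →L[ℝ] ℝ := innerSL ℝ ξ
  have e : (fun x => cos (⟪x, ξ⟫ + θ)) = fun x => cos (φ x + θ) := by
    funext x; simp [φ, real_inner_comm]
  rw [e]
  have hd : ∀ x, HasFDerivAt (fun x => cos (φ x + θ)) ((-sin (φ x + θ)) • φ) x := fun x =>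
    (φ.hasFDerivAt.add_const θ).cos
  have hn : ‖φ‖ = ‖ξ‖ := innerSL_apply_norm ℝ ξ
  refine ⟨Real.contDiff_cos.comp (φ.contDiff.add contDiff_const), fun x => ?_, fun x y => ?_⟩
  · rw [(hd x).fderiv, norm_smul, Real.norm_eq_abs, abs_neg, ← hn]
    exact mul_le_of_le_one_left (norm_nonneg _) (Real.abs_sin_le_one _)
  · rw [(hd x).fderiv, (hd y).fderiv, ← sub_smul, norm_smul, mul_comm, mul_assoc, ← hn]
    refine mul_le_mul_of_nonneg_left ?_ (norm_nonneg _)
    rw [Real.norm_eq_abs, neg_sub_neg, abs_sub_comm]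
    refine (Real.abs_sin_sub_sin_le _ _).trans ?_
    rw [show φ x + θ - (φ y + θ) = φ (x - y) by rw [map_sub]; ring, ← Real.norm_eq_abs]
    exact φ.le_opNorm _

variable (hW : IsPot W G H 0 η) (hη0 : 0 ≤ η)

include hW hη0 in
/-- Uniform growth of the velocity on `[0, κ]`. -/
lemma uvel_linear (hκ0 : 0 ≤ κ) (hκ1 : κ ≤ 1) :
    ∃ A : ℝ, 0 ≤ A ∧ ∀ v ∈ Set.Icc 0 κ, ∀ x, ‖uvel W G v x‖ ≤ A + η * ‖x‖ := by
  obtain ⟨A, hA⟩ := (isCompact_Icc (a := (0 : ℝ)) (b := κ)).exists_bound_of_continuousOn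
    (f := fun v => uvel W G v 0)
    (Continuous.continuousOn (Continuous.comp (g := fun q : ℝ × Sp d => uvel W G q.1 q.2)
      (f := fun v : ℝ => (v, (0 : Sp d))) (continuous_uvel hW) (Continuous.prodMk_left 0)))
  refine ⟨A, (norm_nonneg _).trans (hA 0 ⟨le_rfl, hκ0⟩), fun v hv x => ?_⟩
  have h := uvel_lip hW hη0 ⟨hv.1, hv.2.trans hκ1⟩ x 0
  rw [sub_zero] at h
  linarith [norm_sub_norm_le (uvel W G v x) (uvel W G v 0), hA v hv]

/-- The increments of the noise coefficient. -/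
lemma coef_bound (hκ1 : κ < 1) {v h : ℝ} (hv : 0 ≤ v) (hh : 0 ≤ h) (hvh : v + h ≤ κ) :
    |√(1 - (v + h) ^ 2) - √(1 - v ^ 2)| ≤ h * (2 / √(1 - κ ^ 2)) ∧
      |√(1 - (v + h) ^ 2) - √(1 - v ^ 2) + h * (v / √(1 - v ^ 2))| ≤
        h ^ 2 * ((2 / √(1 - κ ^ 2) + 1) / (2 * √(1 - κ ^ 2) ^ 2)) := by
  set β := √(1 - κ ^ 2)
  have hβ : 0 < β := sqrt_pos.2 (by nlinarith)
  have hb : β ≤ √(1 - v ^ 2) := sqrt_le_sqrt (by nlinarith)
  have hb' : β ≤ √(1 - (v + h) ^ 2) := sqrt_le_sqrt (by nlinarith)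
  set b := √(1 - v ^ 2)
  set b' := √(1 - (v + h) ^ 2)
  have e2 : b ^ 2 = 1 - v ^ 2 := sq_sqrt (by nlinarith)
  have e2' : b' ^ 2 = 1 - (v + h) ^ 2 := sq_sqrt (by nlinarith)
  have hd1 : |b' - b| ≤ h * (2 / β) := by
    have e : (b' - b) * (b + b') = -(h * (2 * v + h)) := by nlinarith
    have h0 : |b' - b| * (b + b') ≤ h * 2 := by
      rw [← abs_of_pos (show 0 < b + b' by linarith), ← abs_mul, e, abs_neg,
        abs_of_nonneg (by positivity)]
      exact mul_le_mul_of_nonneg_left (by linarith) hh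
    rw [← mul_div_assoc, le_div_iff₀ hβ]
    exact (mul_le_mul_of_nonneg_left (by linarith) (abs_nonneg _)).trans h0
  have hd2 : |b' - b + h * (v / b)| ≤ h ^ 2 * ((2 / β + 1) / (2 * β ^ 2)) := by
    have hb0 : 0 < b := hβ.trans_le hb
    have e : (b' - b + h * (v / b)) * (b * (b + b')) = h * (v * (b' - b) - h * b) := by
      field_simp
      nlinarith
    have h0 : |b' - b + h * (v / b)| * (b * (b + b')) ≤ h ^ 2 * (2 / β + 1) := by
      rw [← abs_of_pos (mul_pos hb0 (show 0 < b + b' by linarith)), ← abs_mul, e, abs_mul,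
        abs_of_nonneg hh, pow_two, mul_assoc]
      refine mul_le_mul_of_nonneg_left ((abs_sub _ _).trans ?_) hh
      rw [abs_mul, abs_mul, abs_of_nonneg hv, abs_of_nonneg hh, abs_of_pos hb0, mul_add, mul_one]
      exact add_le_add ((mul_le_of_le_one_left (abs_nonneg _) (by linarith)).trans hd1)
        (mul_le_of_le_one_right hh (sqrt_le_one.2 (by nlinarith [sq_nonneg v])))
    rw [← mul_div_assoc (h ^ 2), le_div_iff₀ (by positivity)]
    refine (mul_le_mul_of_nonneg_left ?_ (abs_nonneg _)).trans h0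
    nlinarith
  exact ⟨hd1, hd2⟩

/-- One Euler step at a point. -/
lemma step_point {v h β A : ℝ} (hh : 0 ≤ h) (hβ : 0 < β) {b b' : ℝ}
    (hd1 : |b' - b| ≤ h * (2 / β))
    (hd2 : |b' - b + h * (v / b)| ≤ h ^ 2 * ((2 / β + 1) / (2 * β ^ 2)))
    (hbv : b = √(1 - v ^ 2)) (hbv' : b' = √(1 - (v + h) ^ 2))
    {ψ : Sp d → ℝ} {L L' : ℝ} (hψ : Test ψ L L') (hL' : 0 ≤ L') (u : Sp d → Sp d)
    (p : Sp d × Sp d) (hux : ‖u (interpPt v p)‖ ≤ (A + 1) * (1 + ‖p.1‖ + ‖p.2‖)) :
    |ψ (interpPt (v + h) p) - ψ (interpPt v p - h • u (interpPt v p)) -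
      h * (fderiv ℝ ψ (interpPt v p) (p.1 - (v / b) • p.2) +
        fderiv ℝ ψ (interpPt v p) (u (interpPt v p)))| ≤
    h ^ 2 * (L + L') * ((2 / β + 1) / (2 * β ^ 2) + (1 + 2 / β) ^ 2 + (A + 1) ^ 2) *
      (1 + ‖p.1‖ + ‖p.2‖) ^ 2 := by
  have hL0 : 0 ≤ L := (norm_nonneg _).trans (hψ.grad 0)
  set x := interpPt v p
  set y := interpPt (v + h) p
  set w := u x
  have ey : y - x = h • p.1 + (b' - b) • p.2 := by
    simp only [y, x, interpPt, add_smul, sub_smul, hbv, hbv']; abel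
  have ey2 : y - x = h • (p.1 - (v / b) • p.2) + (b' - b + h * (v / b)) • p.2 := by
    rw [ey]; simp only [smul_sub, add_smul, smul_smul]; abel
  have hyx : ‖y - x‖ ≤ h * (1 + 2 / β) * (1 + ‖p.1‖ + ‖p.2‖) := by
    rw [ey]
    refine (norm_add_le _ _).trans ?_
    rw [norm_smul, norm_smul, norm_eq_abs, norm_eq_abs, abs_of_nonneg hh]
    have h1 := mul_le_mul_of_nonneg_right hd1 (norm_nonneg p.2)
    have hc0 : (0 : ℝ) ≤ 2 / β := by positivity
    linarith [mul_nonneg (mul_nonneg hh hc0) (norm_nonneg p.1), mul_nonneg hh (norm_nonneg p.2),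
      mul_nonneg hh hc0]
  have t1 := hψ.taylor hL' x y
  have t2 := hψ.taylor hL' x (x - h • w)
  rw [show x - h • w - x = -(h • w) by abel, norm_neg, map_neg, map_smul, norm_smul,
    norm_eq_abs, abs_of_nonneg hh, smul_eq_mul] at t2
  rw [ey2, map_add, map_smul, map_smul, smul_eq_mul, smul_eq_mul, ← ey2] at t1
  have t3 : |(b' - b + h * (v / b)) * fderiv ℝ ψ x p.2| ≤
      h ^ 2 * ((2 / β + 1) / (2 * β ^ 2)) * (L * (1 + ‖p.1‖ + ‖p.2‖)) := by
    rw [abs_mul]
    refine mul_le_mul hd2 (((fderiv ℝ ψ x).le_opNorm _).trans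
      (mul_le_mul (hψ.grad _) (by linarith [norm_nonneg p.1]) (norm_nonneg _) hL0))
      (abs_nonneg _) (by positivity)
  have s1 : L' * ‖y - x‖ ^ 2 ≤ h ^ 2 * (L + L') * (1 + 2 / β) ^ 2 * (1 + ‖p.1‖ + ‖p.2‖) ^ 2 := by
    calc L' * ‖y - x‖ ^ 2 ≤ (L + L') * (h * (1 + 2 / β) * (1 + ‖p.1‖ + ‖p.2‖)) ^ 2 :=
          mul_le_mul (le_add_of_nonneg_left hL0) (pow_le_pow_left₀ (norm_nonneg _) hyx 2)
            (sq_nonneg _) (by positivity)
      _ = _ := by ring
  have s2 : L' * (h * ‖w‖) ^ 2 ≤ h ^ 2 * (L + L') * (A + 1) ^ 2 * (1 + ‖p.1‖ + ‖p.2‖) ^ 2 := by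
    calc L' * (h * ‖w‖) ^ 2 ≤ (L + L') * (h * ((A + 1) * (1 + ‖p.1‖ + ‖p.2‖))) ^ 2 :=
          mul_le_mul (le_add_of_nonneg_left hL0) (pow_le_pow_left₀ (by positivity)
            (mul_le_mul_of_nonneg_left hux hh) 2) (sq_nonneg _) (by positivity)
      _ = _ := by ring
  have s3 : h ^ 2 * ((2 / β + 1) / (2 * β ^ 2)) * (L * (1 + ‖p.1‖ + ‖p.2‖)) ≤
      h ^ 2 * (L + L') * ((2 / β + 1) / (2 * β ^ 2)) * (1 + ‖p.1‖ + ‖p.2‖) ^ 2 := by
    calc h ^ 2 * ((2 / β + 1) / (2 * β ^ 2)) * (L * (1 + ‖p.1‖ + ‖p.2‖))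
        ≤ h ^ 2 * ((2 / β + 1) / (2 * β ^ 2)) * ((L + L') * (1 + ‖p.1‖ + ‖p.2‖) ^ 2) :=
          mul_le_mul_of_nonneg_left (mul_le_mul (le_add_of_nonneg_right hL')
            (le_self_pow₀ (by linarith [norm_nonneg p.1, norm_nonneg p.2]) two_ne_zero)
            (by positivity) (by positivity)) (by positivity)
      _ = _ := by ring
  rw [abs_le] at t1 t2 t3 ⊢
  constructor <;> linarith

include hW in
/-- One Euler step against the interpolated law. -/
lemma step_error (hκ1 : κ < 1) {A : ℝ} (hA0 : 0 ≤ A)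
    (hA : ∀ v ∈ Set.Icc 0 κ, ∀ x, ‖uvel W G v x‖ ≤ A + η * ‖x‖) (hη : η ≤ 1) {v h : ℝ}
    (hv : 0 ≤ v) (hh : 0 ≤ h) (hvh : v + h ≤ κ) {ψ : Sp d → ℝ} {L L' B : ℝ} (hψ : Test ψ L L')
    (hL' : 0 ≤ L') (hB : ∀ x, |ψ x| ≤ B) :
    |(∫ p, ψ (interpPt (v + h) p) ∂pairLaw W) -
        ∫ p, ψ (interpPt v p - h • uvel W G v (interpPt v p)) ∂pairLaw W| ≤
      h ^ 2 * (L + L') * ((2 / √(1 - κ ^ 2) + 1) / (2 * √(1 - κ ^ 2) ^ 2) +
        (1 + 2 / √(1 - κ ^ 2)) ^ 2 + (A + 1) ^ 2) *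
          ∫ p : Sp d × Sp d, (1 + ‖p.1‖ + ‖p.2‖) ^ 2 ∂pairLaw W := by
  set β := √(1 - κ ^ 2)
  have hβ : 0 < β := sqrt_pos.2 (by nlinarith)
  have hb : β ≤ √(1 - v ^ 2) := sqrt_le_sqrt (by nlinarith)
  have hb' : β ≤ √(1 - (v + h) ^ 2) := sqrt_le_sqrt (by nlinarith)
  set b := √(1 - v ^ 2)
  set b' := √(1 - (v + h) ^ 2)
  have hv1 : |v| < 1 := by rw [abs_of_nonneg hv]; linarith
  have e2 : b ^ 2 = 1 - v ^ 2 := sq_sqrt (by nlinarith)
  have e2' : b' ^ 2 = 1 - (v + h) ^ 2 := sq_sqrt (by nlinarith)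
  have hL0 : 0 ≤ L := (norm_nonneg _).trans (hψ.grad 0)
  obtain ⟨hd1, hd2⟩ := coef_bound hκ1 hv hh hvh
  have hu : Continuous fun x => uvel W G v x := continuous_uvel_right hW v
  have hvI : v ∈ Set.Icc 0 κ := ⟨hv, by linarith⟩
  set D := fun p : Sp d × Sp d => fderiv ℝ ψ (interpPt v p) (p.1 - (v / b) • p.2)
  set U := fun p : Sp d × Sp d => fderiv ℝ ψ (interpPt v p) (uvel W G v (interpPt v p))
  set C0 := (2 / β + 1) / (2 * β ^ 2) + (1 + 2 / β) ^ 2 + (A + 1) ^ 2
  set m := fun p : Sp d × Sp d => (1 + ‖p.1‖ + ‖p.2‖) ^ 2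
  have hx : ∀ p : Sp d × Sp d, ‖interpPt v p‖ ≤ ‖p.1‖ + ‖p.2‖ := fun p =>
    (norm_interpPt_le v p).trans (add_le_add (mul_le_of_le_one_left (norm_nonneg _) hv1.le) le_rfl)
  have hux : ∀ p : Sp d × Sp d, ‖uvel W G v (interpPt v p)‖ ≤ (A + 1) * (1 + ‖p.1‖ + ‖p.2‖) :=
    fun p => by
      refine (hA v hvI _).trans ?_
      nlinarith [hx p, norm_nonneg p.1, norm_nonneg p.2, norm_nonneg (interpPt v p),
        mul_le_of_le_one_left (norm_nonneg (interpPt v p)) hη]
  have hpt : ∀ p : Sp d × Sp d,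
      |ψ (interpPt (v + h) p) - ψ (interpPt v p - h • uvel W G v (interpPt v p)) -
        h * (D p + U p)| ≤ h ^ 2 * (L + L') * C0 * m p := fun p =>
    step_point hh hβ hd1 hd2 rfl rfl hψ hL' (fun x => uvel W G v x) p (hux p)
  have hi : ∀ (f : Sp d × Sp d → ℝ), Continuous f → (∃ C K, ∀ p, |f p| ≤ C *
      exp (K * (‖p.1‖ + ‖p.2‖))) → Integrable f (pairLaw W) := fun f hf ⟨C, K, hb⟩ =>
    integrable_pairLaw hW hf hb
  have hfd : Continuous fun p => fderiv ℝ ψ (interpPt v p) :=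
    (hψ.smooth.continuous_fderiv one_ne_zero).comp (continuous_interpPt_right v)
  have hexp : ∀ p : Sp d × Sp d, 1 + ‖p.1‖ + ‖p.2‖ ≤ exp (1 * (‖p.1‖ + ‖p.2‖)) := fun p => by
    rw [one_mul]; linarith [add_one_le_exp (‖p.1‖ + ‖p.2‖)]
  have iy : Integrable (fun p => ψ (interpPt (v + h) p)) (pairLaw W) :=
    hi _ (hψ.smooth.continuous.comp (continuous_interpPt_right _))
      ⟨B, 0, fun p => by simpa using hB _⟩
  have it : Integrable (fun p => ψ (interpPt v p - h • uvel W G v (interpPt v p))) (pairLaw W) :=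
    hi _ (hψ.smooth.continuous.comp ((continuous_interpPt_right v).sub
      ((hu.comp (continuous_interpPt_right v)).const_smul h)))
      ⟨B, 0, fun p => by simpa using hB _⟩
  have iD : Integrable D (pairLaw W) := hi _ (hfd.clm_apply (by fun_prop))
    ⟨L * (1 + |v / b|), 1, fun p => by
      rw [← norm_eq_abs, mul_assoc]
      refine ((fderiv ℝ ψ _).le_opNorm _).trans (mul_le_mul (hψ.grad _)
        ((norm_sub_le _ _).trans ?_) (norm_nonneg _) hL0)
      rw [norm_smul, norm_eq_abs]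
      nlinarith [hexp p, norm_nonneg p.1, norm_nonneg p.2, abs_nonneg (v / b)]⟩
  have iU : Integrable U (pairLaw W) := hi _ (hfd.clm_apply (hu.comp (continuous_interpPt_right v)))
    ⟨L * (A + 1), 1, fun p => by
      rw [← norm_eq_abs, mul_assoc]
      exact ((fderiv ℝ ψ _).le_opNorm _).trans (mul_le_mul (hψ.grad _)
        ((hux p).trans (mul_le_mul_of_nonneg_left (hexp p) (by positivity))) (norm_nonneg _) hL0)⟩
  have im : Integrable m (pairLaw W) := hi _ (by fun_prop) ⟨1, 2, fun p => by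
    simp only [m]
    rw [one_mul, abs_of_nonneg (sq_nonneg _), two_mul, exp_add, pow_two]
    have := hexp p
    rw [one_mul] at this
    exact mul_le_mul this this (by positivity) (exp_pos _).le⟩
  have hz : ∫ p, h * (D p + U p) ∂pairLaw W = 0 := by
    have hid := interp_identity hW hv hv1 (hψ.smooth.continuous_fderiv one_ne_zero) hψ.grad
    rw [integral_const_mul, integral_add iD iU]
    simp only [D, U] at *
    rw [hid]; ring
  have iz : Integrable (fun p => h * (D p + U p)) (pairLaw W) := (iD.add iU).const_mul h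
  have e : (∫ p, ψ (interpPt (v + h) p) ∂pairLaw W) -
      ∫ p, ψ (interpPt v p - h • uvel W G v (interpPt v p)) ∂pairLaw W =
      ∫ p, (ψ (interpPt (v + h) p) - ψ (interpPt v p - h • uvel W G v (interpPt v p)) -
        h * (D p + U p)) ∂pairLaw W := by
    rw [integral_sub (iy.sub' it) iz, hz, sub_zero, integral_sub iy it]
  rw [e, ← integral_const_mul, ← norm_eq_abs]
  exact norm_integral_le_of_norm_le (im.const_mul _)
    (ae_of_all _ fun p => by rw [norm_eq_abs]; exact hpt p)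

end FlowLaw

open FlowLaw

variable (hW : IsPot W G H 0 η) (hη0 : 0 ≤ η)

include hW hη0 in
/-- The flow exists. -/
theorem exists_velFlow (hη : η ≤ 1 / 2) (hκ0 : 0 ≤ κ) (hκ1 : κ ≤ 1) :
    ∃ Φ, IsVelFlow W G κ Φ := by
  obtain ⟨A, hA0, hA⟩ := uvel_linear hW hη0 hκ0 hκ1
  have key : ∀ x : Sp d, ∃ α : ℝ → Sp d, α 0 = x ∧ ∀ v ∈ Set.Icc 0 κ,
      HasDerivWithinAt α (-uvel W G v (α v)) (Set.Icc 0 κ) v := fun x => by
    set a := 2 * (A + η * ‖x‖)
    have ha : 0 ≤ a := by positivity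
    have hL : 0 ≤ A + η * (‖x‖ + a) := by positivity
    have hpl : IsPicardLindelof (fun v y => -uvel W G v y) (⟨0, le_rfl, hκ0⟩ : Set.Icc (0:ℝ) κ)
        x a.toNNReal 0 (A + η * (‖x‖ + a)).toNNReal η.toNNReal := by
      refine ⟨fun t ht => ?_, fun y _ => ?_, fun t ht y hy => ?_, ?_⟩
      · refine LipschitzOnWith.of_dist_le_mul fun y _ z _ => ?_
        rw [dist_eq_norm, dist_eq_norm, Real.coe_toNNReal _ hη0, neg_sub_neg, norm_sub_rev]
        exact uvel_lip hW hη0 ⟨ht.1, ht.2.trans hκ1⟩ y z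
      · exact (Continuous.comp (g := fun q : ℝ × Sp d => uvel W G q.1 q.2)
          (f := fun v : ℝ => (v, y)) (continuous_uvel hW)
            (Continuous.prodMk_left y)).neg.continuousOn
      · rw [Metric.mem_closedBall, dist_eq_norm, Real.coe_toNNReal _ ha] at hy
        rw [norm_neg, Real.coe_toNNReal _ hL]
        refine (hA t ht y).trans ?_
        nlinarith [norm_sub_norm_le y x]
      · simp only [Real.coe_toNNReal _ ha, Real.coe_toNNReal _ hL, NNReal.coe_zero, sub_zero,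
          sub_self, max_eq_left hκ0]
        refine (mul_le_of_le_one_right hL hκ1).trans ?_
        simp only [a]
        nlinarith [norm_nonneg x, mul_le_mul_of_nonneg_right hη ha]
    exact hpl.exists_eq_forall_mem_Icc_hasDerivWithinAt₀
  choose α h0 hd using key
  exact ⟨fun v x => α x v, h0, hd⟩

include hW hη0 in
/-- The flow is Lipschitz in the starting point. -/
theorem IsVelFlow.dist_le {Φ : ℝ → Sp d → Sp d} (hΦ : IsVelFlow W G κ Φ) (hκ1 : κ ≤ 1)
    {v : ℝ} (hv : v ∈ Set.Icc 0 κ) (x y : Sp d) :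
    ‖Φ v x - Φ v y‖ ≤ exp (η * v) * ‖x - y‖ := by
  set f : ℝ → Sp d → Sp d := fun t z => if t ∈ Set.Icc 0 κ then -uvel W G t z else 0
  have hf : ∀ t, LipschitzWith η.toNNReal (f t) := fun t => by
    by_cases ht : t ∈ Set.Icc 0 κ
    · refine LipschitzWith.of_dist_le_mul fun a b => ?_
      simp only [f, if_pos ht]
      rw [dist_eq_norm, dist_eq_norm, Real.coe_toNNReal _ hη0, neg_sub_neg, norm_sub_rev]
      exact uvel_lip hW hη0 ⟨ht.1, ht.2.trans hκ1⟩ a b
    · simp only [f, if_neg ht]; exact (LipschitzWith.const (0 : Sp d)).weaken bot_le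
  have hc : ∀ z, ContinuousOn (fun t => Φ t z) (Set.Icc 0 κ) := fun z t ht =>
    (hΦ.2 z t ht).continuousWithinAt
  have hd : ∀ z, ∀ t ∈ Set.Ico 0 κ,
      HasDerivWithinAt (fun t => Φ t z) (f t (Φ t z)) (Set.Ici t) t := fun z t ht => by
    simp only [f, if_pos (Set.Ico_subset_Icc_self ht)]
    exact (hΦ.2 z t (Set.Ico_subset_Icc_self ht)).mono_of_mem_nhdsWithin
      (Filter.mem_of_superset (Icc_mem_nhdsGE ht.2) (Set.Icc_subset_Icc_left ht.1))
  have h := dist_le_of_trajectories_ODE hf (hc x) (hd x) (hc y) (hd y) le_rfl v hv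
  simp only [dist_eq_norm, hΦ.1, Real.coe_toNNReal _ hη0, sub_zero] at h
  linarith

include hW hη0 in
/-- The flow at a fixed time is continuous. -/
theorem IsVelFlow.continuous {Φ : ℝ → Sp d → Sp d} (hΦ : IsVelFlow W G κ Φ) (hκ1 : κ ≤ 1)
    {v : ℝ} (hv : v ∈ Set.Icc 0 κ) : Continuous (Φ v) :=
  (LipschitzWith.of_dist_le' fun x y => by
    simpa [dist_eq_norm] using hΦ.dist_le hW hη0 hκ1 hv x y).continuous

include hW hη0 in
/-- **The law of the flow map.** -/
theorem IsVelFlow.map_eq {Φ : ℝ → Sp d → Sp d} (hΦ : IsVelFlow W G κ Φ) (hη : η ≤ 1)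
    (hκ1 : κ < 1) {v : ℝ} (hv : v ∈ Set.Icc 0 κ) :
    (gd d).map (Φ v) = (pairLaw W).map (interpPt v) := by
  have := isProb_pairLaw hW
  have := isProb_gibbs hW le_rfl
  have hc := hΦ.continuous hW hη0 hκ1.le hv
  have : IsProbabilityMeasure ((gd d).map (Φ v)) :=
    Measure.isProbabilityMeasure_map hc.aemeasurable
  have : IsProbabilityMeasure ((pairLaw W).map (interpPt v)) :=
    Measure.isProbabilityMeasure_map (continuous_interpPt_right v).aemeasurable
  refine measure_ext_waves fun ξ θ => ?_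
  rw [integral_map hc.aemeasurable (by fun_prop : Continuous _).aestronglyMeasurable,
    integral_map (continuous_interpPt_right v).aemeasurable
      (by fun_prop : Continuous _).aestronglyMeasurable]
  set ψ : Sp d → ℝ := fun x => cos (⟪x, ξ⟫ + θ)
  have hψ : Test ψ ‖ξ‖ (‖ξ‖ * ‖ξ‖) := test_wave ξ θ
  have hB : ∀ x, |ψ x| ≤ 1 := fun x => Real.abs_cos_le_one _
  have hκ0 : 0 ≤ κ := hv.1.trans hv.2
  obtain ⟨A, hA0, hA⟩ := uvel_linear hW hη0 hκ0 hκ1.le
  set β := √(1 - κ ^ 2)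
  have hβ : 0 < β := sqrt_pos.2 (by nlinarith)
  set u := fun t x => uvel W G t x
  have hu : ∀ t, Continuous (u t) := fun t => continuous_uvel_right hW t
  set L := ‖ξ‖ * exp (η * v)
  set L' := (‖ξ‖ * ‖ξ‖ + v * (2 * η / β) * ‖ξ‖) * exp (2 * (η * v))
  have hL' : 0 ≤ L' := mul_nonneg (add_nonneg (by positivity)
    (mul_nonneg (mul_nonneg hv.1 (by positivity)) (norm_nonneg ξ))) (exp_pos _).le
  set C := (L + L') * ((2 / β + 1) / (2 * β ^ 2) + (1 + 2 / β) ^ 2 + (A + 1) ^ 2) *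
    ∫ p : Sp d × Sp d, (1 + ‖p.1‖ + ‖p.2‖) ^ 2 ∂pairLaw W
  have hsm : ∀ t ∈ Set.Icc 0 κ, ContDiff ℝ 1 (u t) ∧ (∀ x, ‖fderiv ℝ (u t) x‖ ≤ η) ∧
      (∀ x y, ‖u t x - u t y‖ ≤ η * ‖x - y‖) ∧
      ∀ x y, ‖fderiv ℝ (u t) x - fderiv ℝ (u t) y‖ ≤ 2 * η / β * ‖x - y‖ := fun t ht => by
    obtain ⟨h1, h2, h3, h4⟩ := uvel_smooth hW hη0 ht.1 (ht.2.trans_lt hκ1)
    have ht1 : t ≤ 1 := ht.2.trans hκ1.le
    refine ⟨h1.of_le (by exact_mod_cast le_top), fun x => (h2 x).trans
      (mul_le_of_le_one_left hη0 ht1), fun x y => (h3 x y).trans (mul_le_mul_of_nonneg_right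
        (mul_le_of_le_one_left hη0 ht1) (norm_nonneg _)), fun x y => (h4 x y).trans
      (mul_le_mul_of_nonneg_right ?_ (norm_nonneg _))⟩
    exact div_le_div₀ (by positivity) (mul_le_of_le_one_right (by positivity)
      (pow_le_one₀ ht.1 ht1)) hβ (sqrt_le_sqrt (by nlinarith [ht.1, ht.2]))
  have hcast : ∀ (n i : ℕ), 1 ≤ n → i ≤ n → (i : ℝ) * (v / n) ∈ Set.Icc 0 v := fun n i hn hi => by
    have hn0 : (0 : ℝ) < n := by exact_mod_cast hn
    refine ⟨mul_nonneg (Nat.cast_nonneg i) (div_nonneg hv.1 hn0.le), ?_⟩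
    calc (i : ℝ) * (v / n) ≤ n * (v / n) :=
          mul_le_mul_of_nonneg_right (by exact_mod_cast hi) (div_nonneg hv.1 hn0.le)
      _ = v := by field_simp
  have hI : ∀ n : ℕ, 1 ≤ n → |(∫ p, ψ (interpPt v p) ∂pairLaw W) -
      ∫ p, ψ (euler u (v / n) 0 n (interpPt 0 p)) ∂pairLaw W| ≤ v ^ 2 * C / n := fun n hn => by
    have hn0 : (0 : ℝ) < n := by exact_mod_cast hn
    set h := v / n
    have hh : 0 ≤ h := div_nonneg hv.1 hn0.le
    have hnh : (n : ℝ) * h = v := by simp only [h]; field_simp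
    set I := fun j : ℕ => ∫ p, ψ (euler u h j (n - j) (interpPt (j * h) p)) ∂pairLaw W
    have hexp : ∀ (k : ℕ) (c : ℝ), k ≤ n → 0 ≤ c → (1 + h * c) ^ k ≤ exp (c * v) :=
      fun k c hk hc' => by
      refine (pow_le_pow_left₀ (by positivity)
        ((add_comm _ _).trans_le (Real.add_one_le_exp _)) _).trans ?_
      rw [← Real.exp_nat_mul, ← hnh]
      refine exp_le_exp.2 ?_
      nlinarith [mul_le_mul_of_nonneg_right (show (k : ℝ) ≤ n by exact_mod_cast hk)
        (mul_nonneg hh hc')]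
    have hstep : ∀ j < n, |I (j + 1) - I j| ≤ h ^ 2 * C := fun j hj => by
      obtain ⟨k, e1⟩ : ∃ k, n - j = k + 1 := ⟨n - j - 1, by omega⟩
      have e2 : n - (j + 1) = k := by omega
      simp only [I, e1, e2, euler, Nat.cast_add, Nat.cast_one, add_mul, one_mul]
      have hT : Test (fun x => ψ (euler u h (j + 1) k x)) L L' := by
        refine (euler_test (K' := 2 * η / β) hh hη0 (by positivity) (n := n) (fun i hi => ?_) hψ
          (by positivity) k (j + 1) (by omega)).mono ?_ ?_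
        · obtain ⟨a1, a2, -, a4⟩ := hsm _ ⟨(hcast n i hn hi.le).1, (hcast n i hn hi.le).2.trans hv.2⟩
          exact ⟨a1, a2, a4⟩
        · exact mul_le_mul_of_nonneg_left (hexp k η (by omega) hη0) (norm_nonneg _)
        · refine mul_le_mul (add_le_add le_rfl (mul_le_mul_of_nonneg_right
            (mul_le_mul_of_nonneg_right ?_ (by positivity)) (norm_nonneg _))) ?_ (by positivity)
            (add_nonneg (by positivity) (mul_nonneg (mul_nonneg hv.1 (by positivity)) (norm_nonneg _)))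
          · exact ((hcast n k hn (by omega)).2)
          · rw [mul_comm 2 k, pow_mul]
            refine (pow_le_pow_left₀ (by positivity) (hexp k η (by omega) hη0) 2).trans_eq ?_
            rw [← Real.exp_nat_mul]; norm_num
      have hjh := hcast n (j + 1) hn (by omega)
      push_cast [add_mul, one_mul] at hjh
      refine (step_error hW hκ1 hA0 hA hη (hcast n j hn hj.le).1 hh (hjh.2.trans hv.2) hT
        hL' fun x => hB _).trans_eq ?_
      simp only [C]; ring
    have htel : I n - I 0 = ∑ j ∈ range n, (I (j + 1) - I j) := (sum_range_sub I n).symm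
    have e0 : I n = ∫ p, ψ (interpPt v p) ∂pairLaw W := by simp [I, euler, hnh]
    have e1 : I 0 = ∫ p, ψ (euler u h 0 n (interpPt 0 p)) ∂pairLaw W := by simp [I]
    rw [← e0, ← e1, htel]
    refine (abs_sum_le_sum_abs _ _).trans ((sum_le_sum fun j hj =>
      hstep j (mem_range.1 hj)).trans_eq ?_)
    rw [sum_const, card_range, nsmul_eq_mul, ← hnh]
    field_simp
  have hlim : Tendsto (fun n : ℕ => ∫ p, ψ (euler u (v / n) 0 n (interpPt 0 p)) ∂pairLaw W) atTop
      (𝓝 (∫ z, ψ (Φ v z) ∂gd d)) := by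
    have e : ∫ z, ψ (Φ v z) ∂gd d = ∫ p, ψ (Φ v (interpPt 0 p)) ∂pairLaw W := by
      rw [show (fun p : Sp d × Sp d => ψ (Φ v (interpPt 0 p))) = fun p => ψ (Φ v p.2) from
        funext fun p => by simp [interpPt], pairLaw]
      conv_lhs => rw [← (measurePreserving_snd (μ := gibbs W) (ν := gd d)).map_eq]
      rw [integral_map measurable_snd.aemeasurable]
      exact (hψ.smooth.continuous.comp hc).aestronglyMeasurable
    rw [e]
    refine tendsto_integral_of_dominated_convergence (fun _ => 1) (fun n => ?_)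
      (integrable_const 1) (fun n => ae_of_all _ fun p => by rw [norm_eq_abs]; exact hB _)
      (ae_of_all _ fun p => ?_)
    · exact (hψ.smooth.continuous.comp ((continuous_euler hu _ n 0).comp
        (continuous_interpPt_right 0))).aestronglyMeasurable
    refine (hψ.smooth.continuous.tendsto _).comp ?_
    set z := interpPt 0 p
    have hg : ContinuousOn (fun t => u t (Φ t z)) (Set.Icc 0 κ) :=
      Continuous.comp_continuousOn (g := fun q : ℝ × Sp d => uvel W G q.1 q.2)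
        (f := fun t => (t, Φ t z)) (continuous_uvel hW)
        (continuousOn_id.prodMk fun t ht => (hΦ.2 z t ht).continuousWithinAt)
    rw [Metric.tendsto_atTop]
    intro ε hε
    set wt := ε / (2 * exp (η * v) * (v + 1))
    have hwt : 0 < wt := div_pos hε (mul_pos (by positivity) (by linarith [hv.1]))
    obtain ⟨δ, hδ, hδu⟩ := Metric.uniformContinuousOn_iff.1
      (isCompact_Icc.uniformContinuousOn_of_continuous hg) wt hwt
    obtain ⟨N, hN⟩ := exists_nat_gt (v / δ)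
    refine ⟨N + 1, fun n hn => ?_⟩
    have hn1 : 1 ≤ n := by omega
    have hn0 : (0 : ℝ) < n := by exact_mod_cast hn1
    set h := v / n
    have hh : 0 ≤ h := div_nonneg hv.1 hn0.le
    have hhd : h < δ := by
      rw [div_lt_iff₀ hn0]
      rw [div_lt_iff₀ hδ] at hN
      nlinarith [show (N : ℝ) + 1 ≤ n by exact_mod_cast hn]
    have hnh : (n : ℝ) * h = v := by simp only [h]; field_simp
    have hlocal : ∀ i < n, ‖Φ (((i + 1 : ℕ) : ℝ) * h) z -
        (Φ (i * h) z - h • u (i * h) (Φ (i * h) z))‖ ≤ h * wt := fun i hi => by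
      have ha := hcast n i hn1 hi.le
      have hb := hcast n (i + 1) hn1 hi
      set a := (i : ℝ) * h
      set b := ((i + 1 : ℕ) : ℝ) * h
      have eb : b - a = h := by simp only [a, b]; push_cast; ring
      have hsub : Set.Icc a b ⊆ Set.Icc 0 κ := Set.Icc_subset_Icc ha.1 (hb.2.trans hv.2)
      have hab : a ≤ b := by linarith
      set g := u a (Φ a z)
      have := Convex.norm_image_sub_le_of_norm_hasDerivWithin_le
        (f := fun t => Φ t z + t • g) (f' := fun t => -u t (Φ t z) + g) (C := wt)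
        (fun t ht => ((hΦ.2 z t (hsub ht)).mono hsub).add
          (by simpa using ((hasDerivAt_id t).smul_const g).hasDerivWithinAt))
        (fun t ht => ?_) (convex_Icc a b) (Set.left_mem_Icc.2 hab) (Set.right_mem_Icc.2 hab)
      · rw [norm_eq_abs, eb, abs_of_nonneg hh] at this
        rw [mul_comm h]
        refine le_of_eq_of_le (congrArg norm ?_) this
        rw [← eb, sub_smul]
        abel
      · rw [neg_add_eq_sub, ← dist_eq_norm]
        refine (hδu a (hsub (Set.left_mem_Icc.2 hab)) t (hsub ht) ?_).le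
        rw [Real.dist_eq, abs_sub_comm, abs_of_nonneg (by linarith [ht.1])]
        linarith [ht.2]
    have hc2 := euler_close (u := u) (K := η) hh hη0 hwt.le (n := n)
      (fun i hi => (hsm _ ⟨(hcast n i hn1 hi.le).1, (hcast n i hn1 hi.le).2.trans hv.2⟩).2.2.1)
      (f := fun i => Φ (i * h) z) hlocal n 0 z (by omega)
    simp only [zero_add, Nat.cast_zero, zero_mul, hΦ.1, sub_self, norm_zero] at hc2
    rw [hnh] at hc2
    rw [dist_eq_norm]
    refine hc2.trans_lt ?_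
    have hq : (1 + h * η) ^ n ≤ exp (η * v) := by
      refine (pow_le_pow_left₀ (by positivity)
        ((add_comm _ _).trans_le (Real.add_one_le_exp _)) _).trans_eq ?_
      rw [← Real.exp_nat_mul, ← mul_assoc, hnh, mul_comm]
    rw [← mul_assoc (n : ℝ) h wt, hnh]
    refine (mul_le_mul_of_nonneg_right hq (mul_nonneg hv.1 hwt.le)).trans_lt ?_
    have : exp (η * v) * (v * wt) * 2 ≤ ε := by
      rw [show exp (η * v) * (v * wt) * 2 = ε * (v / (v + 1)) by simp only [wt]; field_simp]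
      exact mul_le_of_le_one_right hε.le ((div_le_one (by linarith [hv.1])).2 (by linarith))
    linarith
  refine tendsto_nhds_unique hlim (tendsto_iff_norm_sub_tendsto_zero.2 ?_)
  refine squeeze_zero' (Eventually.of_forall fun _ => norm_nonneg _) ?_
    (tendsto_const_div_atTop_nhds_zero_nat (v ^ 2 * C))
  filter_upwards [eventually_ge_atTop 1] with n hn
  rw [norm_sub_rev, norm_eq_abs]
  exact hI n hn

include hW hη0 in
/-- **The probability flow**: a Lipschitz map for every `v ≤ κ` carrying the Gaussian law to the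
smoothed target. -/
theorem exists_flow_law (hη : η ≤ 1 / 2) (hκ0 : 0 ≤ κ) (hκ1 : κ < 1) :
    ∃ Φ, IsVelFlow W G κ Φ ∧ ∀ v ∈ Set.Icc 0 κ, Continuous (Φ v) ∧
      (∀ x y, ‖Φ v x - Φ v y‖ ≤ exp (η * v) * ‖x - y‖) ∧
      (gd d).map (Φ v) = (pairLaw W).map (interpPt v) ∧
      (0 < v → (gd d).map (Φ v) = gibbs (smPot v W)) := by
  obtain ⟨Φ, hΦ⟩ := exists_velFlow hW hη0 hη hκ0 hκ1.le
  refine ⟨Φ, hΦ, fun v hv => ?_⟩
  have he := hΦ.map_eq hW hη0 (by linarith) hκ1 hv
  refine ⟨hΦ.continuous hW hη0 hκ1.le hv, hΦ.dist_le hW hη0 hκ1.le hv, he, fun hv0 => ?_⟩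
  obtain ⟨-, -, -, -, h⟩ := smPot_spec hW hη hv0 (hv.2.trans hκ1.le)
  exact he.trans h

include hW hη0 in
/-- **The flow on all of `[0, 1]`**, continuous in time and space, with its law up to time one. -/
theorem exists_flowV (hη : η ≤ 1 / 2) :
    ∃ Y : ℝ → Sp d → Sp d, (∀ z, Y 0 z = z) ∧ (Continuous fun p : ℝ × Sp d => Y p.1 p.2) ∧
      (∀ z, ∀ v ∈ Set.Ioo (0 : ℝ) 1, HasDerivAt (fun v => Y v z) (-(uvel W G v (Y v z))) v) ∧
      ∀ v ∈ Set.Icc (0 : ℝ) 1, (gd d).map (Y v) = (pairLaw W).map (interpPt v) := by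
  obtain ⟨Φ, hΦ⟩ := exists_velFlow hW hη0 hη zero_le_one le_rfl
  set π₁ : ℝ → ℝ := fun v => (Set.projIcc (0 : ℝ) 1 zero_le_one v : ℝ)
  set Y : ℝ → Sp d → Sp d := fun v => Φ (π₁ v)
  have hπ : ∀ v, π₁ v ∈ Set.Icc (0 : ℝ) 1 := fun v => Subtype.coe_prop _
  have hπe : ∀ v ∈ Set.Icc (0 : ℝ) 1, π₁ v = v := fun v hv => by
    simp [π₁, Set.projIcc_of_mem zero_le_one hv]
  have hY : ∀ v ∈ Set.Icc (0 : ℝ) 1, Y v = Φ v := fun v hv => by simp only [Y, hπe v hv]
  have hc : ContinuousOn (fun p : ℝ × Sp d => Φ p.1 p.2) (Set.Icc 0 1 ×ˢ Set.univ) := by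
    refine continuousOn_prod_of_continuousOn_lipschitzOnWith' _ (exp η).toNNReal
      (fun t ht => ?_) fun z _ t ht => (hΦ.2 z t ht).continuousWithinAt
    refine LipschitzOnWith.of_dist_le_mul fun x _ y _ => ?_
    rw [dist_eq_norm, dist_eq_norm, Real.coe_toNNReal _ (exp_pos _).le]
    exact (hΦ.dist_le hW hη0 le_rfl ht x y).trans (mul_le_mul_of_nonneg_right
      (exp_le_exp.2 (mul_le_of_le_one_right hη0 ht.2)) (norm_nonneg _))
  have hYc : Continuous fun p : ℝ × Sp d => Y p.1 p.2 :=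
    hc.comp_continuous (f := fun p : ℝ × Sp d => (π₁ p.1, p.2))
      (((continuous_subtype_val.comp continuous_projIcc).comp continuous_fst).prodMk
        continuous_snd) fun p => ⟨hπ p.1, trivial⟩
  refine ⟨Y, fun z => by rw [hY 0 ⟨le_rfl, zero_le_one⟩, hΦ.1], hYc, fun z v hv => ?_,
    fun v hv => ?_⟩
  · rw [hY v (Set.Ioo_subset_Icc_self hv)]
    refine ((hΦ.2 z v (Set.Ioo_subset_Icc_self hv)).hasDerivAt
      (Icc_mem_nhds hv.1 hv.2)).congr_of_eventuallyEq ?_
    filter_upwards [Icc_mem_nhds hv.1 hv.2] with t ht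
    rw [hY t ht]
  have := isProb_pairLaw hW
  have := isProb_gibbs hW le_rfl
  have hYv : ∀ t, Continuous (Y t) := fun t =>
    Continuous.comp (g := fun p : ℝ × Sp d => Y p.1 p.2) (f := fun z => (t, z)) hYc
      (Continuous.prodMk_right t)
  have : IsProbabilityMeasure ((gd d).map (Y v)) :=
    Measure.isProbabilityMeasure_map (hYv v).aemeasurable
  have : IsProbabilityMeasure ((pairLaw W).map (interpPt v)) :=
    Measure.isProbabilityMeasure_map (continuous_interpPt_right v).aemeasurable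
  refine measure_ext_waves fun ξ θ => ?_
  rw [integral_map (hYv v).aemeasurable (by fun_prop : Continuous _).aestronglyMeasurable,
    integral_map (continuous_interpPt_right v).aemeasurable
      (by fun_prop : Continuous _).aestronglyMeasurable]
  have hb : ∀ x : Sp d, ‖cos (⟪x, ξ⟫ + θ)‖ ≤ 1 := fun x => Real.abs_cos_le_one _
  have c1 : Continuous fun t => ∫ z, cos (⟪Y t z, ξ⟫ + θ) ∂gd d :=
    continuous_of_dominated (bound := fun _ => 1)
      (fun t => (Real.continuous_cos.comp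
        (((hYv t).inner continuous_const).add continuous_const)).aestronglyMeasurable)
      (fun t => ae_of_all _ fun z => hb _) (integrable_const 1)
      (ae_of_all _ fun z => Real.continuous_cos.comp
        (((hYc.comp (Continuous.prodMk_left z)).inner continuous_const).add continuous_const))
  have c2 : Continuous fun t => ∫ p, cos (⟪interpPt t p, ξ⟫ + θ) ∂pairLaw W :=
    continuous_of_dominated (bound := fun _ => 1)
      (fun t => (Real.continuous_cos.comp (((continuous_interpPt_right t).inner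
        continuous_const).add continuous_const)).aestronglyMeasurable)
      (fun t => ae_of_all _ fun p => hb _) (integrable_const 1)
      (ae_of_all _ fun p => Real.continuous_cos.comp
        (((continuous_interpPt.comp (Continuous.prodMk_left p)).inner continuous_const).add
          continuous_const))
  have heq : Set.EqOn (fun t => ∫ z, cos (⟪Y t z, ξ⟫ + θ) ∂gd d)
      (fun t => ∫ p, cos (⟪interpPt t p, ξ⟫ + θ) ∂pairLaw W) (Set.Ico (0 : ℝ) 1) := by
    intro t ht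
    have hΦt : IsVelFlow W G t Φ := ⟨hΦ.1, fun x s hs => (hΦ.2 x s ⟨hs.1, hs.2.trans ht.2.le⟩).mono
      (Set.Icc_subset_Icc_right ht.2.le)⟩
    have he := hΦt.map_eq hW hη0 (by linarith) ht.2 ⟨ht.1, le_rfl⟩
    rw [← hY t (Set.Ico_subset_Icc_self ht)] at he
    show ∫ z, cos (⟪Y t z, ξ⟫ + θ) ∂gd d = _
    rw [← integral_map (hYv t).aemeasurable (f := fun x => cos (⟪x, ξ⟫ + θ))
      (by fun_prop : Continuous _).aestronglyMeasurable, he,
      integral_map (continuous_interpPt_right t).aemeasurable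
        (by fun_prop : Continuous _).aestronglyMeasurable]
  rw [← closure_Ico zero_ne_one] at hv
  exact heq.closure c1 c2 hv

end Vale.Agent.P347.Shift
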