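import Vale.Agent.P347.Shift.Appell

/-!
# P347: the velocity of the probability flow

Let `X` follow `gibbs W` and `X_v = v X + √(1 - v²) Z`.  The velocity is the conditional mean
`uvel W G v x = E[G X | X_v = x]`.  It is jointly continuous, for `v < 1` it is smooth, `v η`
Lipschitz in space, and its derivative is Lipschitz, all with no dependence on the dimension.
-/

open MeasureTheory ProbabilityTheory Real Filter Topology
open scoped RealInnerProductSpace ContDiff

namespace Vale.Agent.P347.Shift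

open Quarter

variable {d : ℕ} {W : Sp d → ℝ} {G : Sp d → Sp d} {H : Sp d → Sp d →L[ℝ] Sp d} {η v : ℝ}

/-- The point at time `v` between a Gaussian point and the clean point. -/
noncomputable def interpPt (v : ℝ) (p : Sp d × Sp d) : Sp d := v • p.1 + √(1 - v ^ 2) • p.2

/-- The velocity: the mean of `G` given the point at time `v`. -/
noncomputable def uvel (W : Sp d → ℝ) (G : Sp d → Sp d) (v : ℝ) (x : Sp d) : Sp d :=
  ∫ w, G (interpPt v (x, w)) ∂gibbs fun w => W (interpPt v (x, w))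

/-- The weight of the point at time `v`. -/
noncomputable def velP (W : Sp d → ℝ) (v : ℝ) (x : Sp d) : ℝ :=
  ∫ w, exp (-W (interpPt v (x, w))) ∂gd d

/-- The unnormalised velocity. -/
noncomputable def velN (W : Sp d → ℝ) (G : Sp d → Sp d) (v : ℝ) (x : Sp d) : Sp d :=
  ∫ w, exp (-W (interpPt v (x, w))) • G (interpPt v (x, w)) ∂gd d

lemma uvel_eq (W : Sp d → ℝ) (G : Sp d → Sp d) (v : ℝ) (x : Sp d) :
    uvel W G v x = (velP W v x)⁻¹ • velN W G v x := by
  rw [uvel, gibbs, integral_tilted]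
  simp only [velP, velN, div_eq_inv_mul, mul_smul, integral_smul]

lemma continuous_interpPt : Continuous fun q : ℝ × (Sp d × Sp d) => interpPt q.1 q.2 := by
  unfold interpPt; fun_prop

lemma continuous_interpPt_right (v : ℝ) : Continuous (interpPt (d := d) v) := by
  unfold interpPt; fun_prop

lemma norm_interpPt_le (v : ℝ) (p : Sp d × Sp d) : ‖interpPt v p‖ ≤ |v| * ‖p.1‖ + ‖p.2‖ := by
  refine (norm_add_le _ _).trans (add_le_add (by rw [norm_smul, norm_eq_abs]) ?_)
  rw [norm_smul, norm_eq_abs, abs_of_nonneg (sqrt_nonneg _)]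
  exact mul_le_of_le_one_left (norm_nonneg _) (sqrt_le_one.2 (by nlinarith [sq_nonneg v]))

/-- Weight and weighted gradient grow exponentially. -/
lemma weightGrad_le (hW : IsPot W G H 0 η) (y : Sp d) :
    exp (-W y) ≤ exp (-W 0) * exp (‖G 0‖ * ‖y‖) ∧
      ‖exp (-W y) • G y‖ ≤ exp (-W 0) * (‖G 0‖ + |η|) * exp ((‖G 0‖ + 1) * ‖y‖) := by
  refine ⟨hW.exp_neg_le le_rfl y, ?_⟩
  have hg : ‖G y‖ ≤ (‖G 0‖ + |η|) * exp ‖y‖ := (hW.grad_le le_rfl y).trans (by
    nlinarith [add_one_le_exp ‖y‖, abs_nonneg η, norm_nonneg (G 0), norm_nonneg y,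
      mul_le_mul_of_nonneg_right (le_abs_self η) (norm_nonneg y)])
  rw [norm_smul, norm_eq_abs, abs_exp, add_mul ‖G 0‖ 1, one_mul, exp_add]
  exact (mul_le_mul (hW.exp_neg_le le_rfl y) hg (norm_nonneg _) (by positivity)).trans
    (le_of_eq (by ring))

lemma velP_pos (hW : IsPot W G H 0 η) (v : ℝ) (x : Sp d) : 0 < velP W v x := by
  refine integral_exp_pos (integrable_gam_of_le
    (C := exp (-W 0) * exp (‖G 0‖ * (|v| * ‖x‖))) (K := ‖G 0‖) ?_ fun w => ?_)
  · exact continuous_exp.comp (hW.contDiff.continuous.comp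
      (by unfold interpPt; fun_prop)).neg
  · rw [norm_eq_abs, abs_exp, mul_assoc, ← exp_add, ← mul_add]
    exact (weightGrad_le hW _).1.trans (mul_le_mul_of_nonneg_left (exp_le_exp.2
      (mul_le_mul_of_nonneg_left (norm_interpPt_le v (x, w)) (norm_nonneg _))) (exp_pos _).le)

/-- Continuity of Gaussian means along `interpPt`. -/
lemma continuous_interp_mean {F : Type*} [NormedAddCommGroup F] [NormedSpace ℝ F]
    [SecondCountableTopology F] {φ : Sp d → F} (hφ : Continuous φ) {C K : ℝ} (hK : 0 ≤ K)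
    (hb : ∀ y, ‖φ y‖ ≤ C * exp (K * ‖y‖)) :
    Continuous fun q : ℝ × Sp d => ∫ w, φ (interpPt q.1 (q.2, w)) ∂gd d := by
  have hC : 0 ≤ C := by simpa using (norm_nonneg _).trans (hb 0)
  have hc : ∀ q : ℝ × Sp d, Continuous fun w => φ (interpPt q.1 (q.2, w)) := fun q =>
    hφ.comp ((continuous_interpPt_right q.1).comp (continuous_const.prodMk continuous_id))
  refine continuous_iff_continuousAt.2 fun q => continuousAt_of_dominated (μ := gd d)
    (bound := fun w => C * exp (K * ((|q.1| + 1) * (‖q.2‖ + 1))) * exp (K * ‖w‖))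
    (Eventually.of_forall fun y => (hc y).aestronglyMeasurable)
    (Filter.mem_of_superset (Metric.ball_mem_nhds q one_pos) fun y hy => ae_of_all _ fun w => ?_)
    ((integrable_exp_norm_gam _).const_mul _)
    (ae_of_all _ fun w => (hφ.comp (continuous_interpPt.comp
      (continuous_fst.prodMk (continuous_snd.prodMk continuous_const)))).continuousAt)
  rw [Metric.mem_ball, Prod.dist_eq, max_lt_iff, dist_eq_norm, dist_eq_norm] at hy
  refine (hb _).trans ?_
  rw [mul_assoc, ← exp_add, ← mul_add]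
  refine mul_le_mul_of_nonneg_left (exp_le_exp.2 (mul_le_mul_of_nonneg_left
    ((norm_interpPt_le _ _).trans (add_le_add ?_ le_rfl)) hK)) hC
  have h1 : |y.1| ≤ |q.1| + 1 := by
    linarith [abs_sub_abs_le_abs_sub y.1 q.1, Real.norm_eq_abs (y.1 - q.1)]
  have h2 : ‖y.2‖ ≤ ‖q.2‖ + 1 := by linarith [norm_sub_norm_le y.2 q.2]
  exact mul_le_mul h1 h2 (norm_nonneg _) (by positivity)

/-- The velocity is jointly continuous. -/
theorem continuous_uvel (hW : IsPot W G H 0 η) :
    Continuous fun q : ℝ × Sp d => uvel W G q.1 q.2 := by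
  have hWc := hW.contDiff.continuous
  have hP := continuous_interp_mean (F := ℝ) (φ := fun y => exp (-W y)) (by fun_prop)
    (norm_nonneg (G 0)) fun y => by
      rw [norm_eq_abs, abs_exp]; exact (weightGrad_le hW y).1
  have hN := continuous_interp_mean (φ := fun y => exp (-W y) • G y)
    ((continuous_exp.comp hWc.neg).smul hW.continuous_grad) (by positivity)
    fun y => (weightGrad_le hW y).2
  simp only [uvel_eq]
  exact (hP.inv₀ fun q => (velP_pos hW q.1 q.2).ne').smul hN

/-- The velocity at one time is continuous. -/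
theorem continuous_uvel_right (hW : IsPot W G H 0 η) (v : ℝ) :
    Continuous fun x : Sp d => uvel W G v x :=
  Continuous.comp (g := fun q : ℝ × Sp d => uvel W G q.1 q.2) (f := fun x : Sp d => (v, x))
    (continuous_uvel hW) (Continuous.prodMk_right v)

section Smooth

/-- The potential seen at scale `b`. -/
lemma isPot_dil (hW : IsPot W G H 0 η) {b : ℝ} (hb : 0 ≤ b) (hb1 : b ≤ 1) :
    IsPot (fun z => W (b • z)) (fun z => b • G (b • z)) (fun z => b ^ 2 • H (b • z)) 0 η := by
  simpa using hW.slice (κ := (0 : ℝ)) hb hb1 0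

/-- Moving the Gaussian law. -/
lemma integral_translate (c : Sp d) {f : Sp d → ℝ} (hf : Continuous f) :
    ∫ w, f (w + c) ∂gd d = (∫ y, exp ⟪c, y⟫ ∂gd d)⁻¹ * ∫ y, exp ⟪c, y⟫ * f y ∂gd d := by
  have h := integral_map (μ := gd d) (φ := fun w => w + c) (by fun_prop) (f := f)
    hf.aestronglyMeasurable
  rw [gauss_translate] at h
  rw [← h, integral_tilted, ← integral_const_mul]
  simp only [smul_eq_mul, div_eq_inv_mul, mul_assoc]

/-- The velocity in each direction is a tilted mean. -/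
lemma inner_uvel (hW : IsPot W G H 0 η) (hv : |v| < 1) (e x : Sp d) :
    ⟪e, uvel W G v x⟫ = tiltMean (fun z => W (√(1 - v ^ 2) • z))
      (fun z => ⟪e, G (√(1 - v ^ 2) • z)⟫) ((v / √(1 - v ^ 2)) • x) := by
  set b := √(1 - v ^ 2)
  have hb : 0 < b := sqrt_pos.2 (by nlinarith [abs_lt.1 hv])
  have hb1 : b ≤ 1 := sqrt_le_one.2 (by nlinarith [sq_nonneg v])
  have hS := hW.slice (κ := v) hb.le hb1 x
  have hGc := hW.continuous_grad
  have hWc := hW.contDiff.continuous
  have hi : Integrable (fun w => G (interpPt v (x, w))) (gibbs fun w => W (interpPt v (x, w))) :=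
    hS.integrable_gibbs_of_le le_rfl (f := fun w => G (v • x + b • w)) (by fun_prop)
      (C := ‖G 0‖ + |η| * (|v| * ‖x‖ + 1)) (K := 1) fun w => by
      refine (hW.grad_le le_rfl _).trans ?_
      have h1 : ‖v • x + b • w‖ ≤ |v| * ‖x‖ + ‖w‖ := norm_interpPt_le v (x, w)
      have h2 := add_one_le_exp ‖w‖
      rw [one_mul]
      nlinarith [mul_le_mul_of_nonneg_left h1 (abs_nonneg η),
        mul_le_mul_of_nonneg_right (le_abs_self η) (norm_nonneg (v • x + b • w)),
        norm_nonneg (G 0), mul_nonneg (abs_nonneg η) (mul_nonneg (abs_nonneg v) (norm_nonneg x)),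
        norm_nonneg w, abs_nonneg η]
  set c : Sp d := (v / b) • x
  have e1 : ∀ w, interpPt v (x, w) = b • (w + c) := fun w => by
    simp only [interpPt, c, smul_add, smul_smul, mul_div_cancel₀ _ hb.ne']
    exact add_comm _ _
  rw [uvel, ← integral_inner hi e, tiltMean, IsPot.integral_gibbs, IsPot.integral_gibbs]
  simp only [e1]
  rw [integral_translate c (f := fun y => exp (-W (b • y)) * ⟪e, G (b • y)⟫) (by fun_prop),
    integral_translate c (f := fun y => exp (-W (b • y))) (by fun_prop),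
    mul_div_mul_left _ _ (inv_ne_zero (ne_of_gt (integral_exp_pos (μ := gd d) (f := fun y => ⟪c, y⟫)
      (integrable_gam_of_le (by fun_prop) (C := 1) (K := ‖c‖) fun y => by
        rw [norm_eq_abs, abs_exp, one_mul]; exact exp_le_exp.2 (real_inner_le_norm c y)))))]
  simp only [neg_sub, sub_eq_add_neg ⟪c, _⟫, exp_add, mul_assoc]

/-- A second derivative bounded in Frobenius norm is bounded in operator norm. -/
lemma norm_le_of_entries {T : Sp d →L[ℝ] Sp d →L[ℝ] ℝ} {B : ℝ} (hB : 0 ≤ B)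
    (h : ∑ i, ∑ k, T (Appell.ei i) (Appell.ei k) ^ 2 ≤ B ^ 2) : ‖T‖ ≤ B := by
  refine T.opNorm_le_bound hB fun a => (pow_le_pow_iff_left₀ (norm_nonneg _)
    (by positivity) two_ne_zero).1 ?_
  have ha : a = ∑ i, a i • Appell.ei i := by
    simpa [Appell.ei] using ((EuclideanSpace.basisFun (Fin d) ℝ).sum_repr a).symm
  have h1 : ∀ k, T a (Appell.ei k) = ∑ i, a i * T (Appell.ei i) (Appell.ei k) := fun k => by
    conv_lhs => rw [ha]
    simp
  have h2 : ∀ k, T a (Appell.ei k) ^ 2 ≤ ‖a‖ ^ 2 * ∑ i, T (Appell.ei i) (Appell.ei k) ^ 2 :=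
    fun k => by
      rw [h1, EuclideanSpace.norm_sq_eq]
      simpa using Finset.sum_mul_sq_le_sq_mul_sq Finset.univ (fun i => a i)
        fun i => T (Appell.ei i) (Appell.ei k)
  rw [Appell.norm_sq_clm]
  refine (Finset.sum_le_sum fun k _ => h2 k).trans ?_
  rw [← Finset.mul_sum, Finset.sum_comm, mul_pow, mul_comm (B ^ 2)]
  exact mul_le_mul_of_nonneg_left h (sq_nonneg _)

variable (hW : IsPot W G H 0 η) (hη : 0 ≤ η)

include hW hη in
/-- The scalar tilted means behind the velocity, with their two derivative bounds. -/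
lemma uvel_component {b : ℝ} (hb : 0 < b) (hb1 : b ≤ 1) (e : Sp d) :
    ContDiff ℝ ∞ (tiltMean (fun z => W (b • z)) fun z => ⟪e, G (b • z)⟫) ∧
      (∀ θ, ‖fderiv ℝ (tiltMean (fun z => W (b • z)) fun z => ⟪e, G (b • z)⟫) θ‖ ≤ ‖e‖ * (η * b)) ∧
      ∀ θ θ', ‖fderiv ℝ (tiltMean (fun z => W (b • z)) fun z => ⟪e, G (b • z)⟫) θ -
        fderiv ℝ (tiltMean (fun z => W (b • z)) fun z => ⟪e, G (b • z)⟫) θ'‖ ≤
          2 * (‖e‖ * (η * b)) * ‖θ - θ'‖ := by
  have hWb := isPot_dil hW hb.le hb1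
  set f : Sp d → ℝ := fun z => ⟪e, G (b • z)⟫
  set g := tiltMean (fun z => W (b • z)) f
  set L := ‖e‖ * (η * b)
  have hL : 0 ≤ L := by positivity
  have hfc : ContDiff ℝ 1 f :=
    contDiff_const.inner ℝ (hW.contDiff_grad.comp (contDiff_const_smul b))
  have hfd : ∀ z, ‖fderiv ℝ f z‖ ≤ L := fun z => by
    have h : HasFDerivAt f ((innerSL ℝ e).comp ((H (b • z)).comp
        (b • ContinuousLinearMap.id ℝ (Sp d)))) z :=
      (innerSL ℝ e).hasFDerivAt.comp z
        ((hW.hasHess _).comp z ((hasFDerivAt_id z).const_smul b))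
    rw [h.fderiv]
    refine ContinuousLinearMap.opNorm_le_bound _ hL fun a => ?_
    simp only [ContinuousLinearMap.comp_apply, smul_apply,
      ContinuousLinearMap.id_apply, innerSL_apply_apply]
    refine (norm_inner_le_norm _ _).trans ?_
    refine (mul_le_mul_of_nonneg_left (((H _).le_opNorm _).trans (mul_le_mul_of_nonneg_right
      (hW.norm_hess hη _) (norm_nonneg _))) (norm_nonneg e)).trans_eq ?_
    rw [norm_smul, norm_eq_abs, abs_of_pos hb]
    ring
  obtain ⟨C, K, hCK⟩ := (Appell.expB_lip hfc hfd).2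
  have hg : ContDiff ℝ ∞ g := tiltMean_contDiff hWb hfc.continuous hCK
  refine ⟨hg, fun θ => ?_, ?_⟩
  · have h : ∑ p : Fin 1 → Fin d,
        iteratedFDeriv ℝ 1 g θ (fun i => EuclideanSpace.single (p i) (1 : ℝ)) ^ 2 ≤ L ^ 2 :=
      (appell hWb le_rfl hfc hfd 0 θ).trans_eq (by simp)
    rw [← Equiv.sum_comp (Equiv.funUnique (Fin 1) (Fin d)).symm] at h
    simp only [iteratedFDeriv_one_apply] at h
    refine (pow_le_pow_iff_left₀ (norm_nonneg _) hL two_ne_zero).1 ?_
    rw [Appell.norm_sq_clm]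
    simpa [Appell.ei] using h
  · have hd2 : Differentiable ℝ (fderiv ℝ g) :=
      (hg.fderiv_right (m := 1) (WithTop.coe_le_coe.2 le_top)).differentiable one_ne_zero
    have hbd : ∀ θ, ‖fderiv ℝ (fderiv ℝ g) θ‖ ≤ 2 * L := fun θ => by
      have h : ∑ p : Fin 2 → Fin d, iteratedFDeriv ℝ 2 g θ
          (fun i => EuclideanSpace.single (p i) (1 : ℝ)) ^ 2 ≤ (2 * L) ^ 2 :=
        (appell hWb le_rfl hfc hfd 1 θ).trans_eq (by simp [Nat.factorial])
      rw [← Equiv.sum_comp (finTwoArrowEquiv (Fin d)).symm, Fintype.sum_prod_type] at h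
      simp only [iteratedFDeriv_two_apply] at h
      exact norm_le_of_entries (by positivity) (by simpa [Appell.ei] using h)
    exact fun θ θ' => Convex.norm_image_sub_le_of_norm_fderiv_le (fun z _ => hd2 z)
      (fun z _ => hbd z) convex_univ (Set.mem_univ θ') (Set.mem_univ θ)

include hW hη in
/-- **The velocity before time one**: smooth, `v η` Lipschitz, with a Lipschitz derivative. -/
theorem uvel_smooth (hv : 0 ≤ v) (hv1 : v < 1) :
    ContDiff ℝ ∞ (uvel W G v) ∧ (∀ x, ‖fderiv ℝ (uvel W G v) x‖ ≤ v * η) ∧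
      (∀ x y, ‖uvel W G v x - uvel W G v y‖ ≤ v * η * ‖x - y‖) ∧
      ∀ x y, ‖fderiv ℝ (uvel W G v) x - fderiv ℝ (uvel W G v) y‖ ≤
        2 * η * v ^ 2 / √(1 - v ^ 2) * ‖x - y‖ := by
  set b := √(1 - v ^ 2)
  have hva : |v| < 1 := by rwa [abs_of_nonneg hv]
  have hb : 0 < b := sqrt_pos.2 (by nlinarith)
  have hb1 : b ≤ 1 := sqrt_le_one.2 (by nlinarith [sq_nonneg v])
  set c := v / b
  have hc : 0 ≤ c := div_nonneg hv hb.le
  set g : Sp d → Sp d → ℝ := fun e => tiltMean (fun z => W (b • z)) fun z => ⟪e, G (b • z)⟫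
  have he : ∀ e, (fun x => ⟪e, uvel W G v x⟫) = fun x => g e (c • x) := fun e =>
    funext (inner_uvel hW hva e)
  have hu : ContDiff ℝ ∞ (uvel W G v) := contDiff_euclidean.2 fun i => by
    have h : ContDiff ℝ ∞ fun x : Sp d => g (Appell.ei i) (c • x) :=
      (uvel_component hW hη hb hb1 (Appell.ei i)).1.comp (contDiff_const_smul c)
    rw [← he] at h
    simpa [Appell.ei, EuclideanSpace.inner_single_left] using h
  have hD : ∀ e x a, ⟪e, fderiv ℝ (uvel W G v) x a⟫ = c * fderiv ℝ (g e) (c • x) a := fun e x a => by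
    have h1 : HasFDerivAt (fun x => ⟪e, uvel W G v x⟫)
        ((innerSL ℝ e).comp (fderiv ℝ (uvel W G v) x)) x :=
      (innerSL ℝ e).hasFDerivAt.comp x (hu.differentiable (by simp) x).hasFDerivAt
    have h2 : HasFDerivAt (fun x => g e (c • x))
        ((fderiv ℝ (g e) (c • x)).comp (c • ContinuousLinearMap.id ℝ (Sp d))) x :=
      ((uvel_component hW hη hb hb1 e).1.differentiable (by simp) _).hasFDerivAt.comp x
        ((hasFDerivAt_id x).const_smul c)
    rw [← he] at h2
    simpa using DFunLike.congr_fun (h1.unique h2) a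
  have hcb : c * b = v := div_mul_cancel₀ v hb.ne'
  have h1 : ∀ x, ‖fderiv ℝ (uvel W G v) x‖ ≤ v * η := fun x =>
    ContinuousLinearMap.opNorm_le_bound _ (by positivity) fun a => by
      set e := fderiv ℝ (uvel W G v) x a with he'
      have h := hD e x a
      rw [← he', real_inner_self_eq_norm_sq] at h
      have h' : ‖e‖ ^ 2 ≤ v * η * ‖a‖ * ‖e‖ := by
        rw [h]
        refine (mul_le_mul_of_nonneg_left ((le_abs_self _).trans
          (((fderiv ℝ (g e) (c • x)).le_opNorm a).trans (mul_le_mul_of_nonneg_right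
            ((uvel_component hW hη hb hb1 e).2.1 _) (norm_nonneg a)))) hc).trans_eq ?_
        rw [← hcb]; ring
      rcases (norm_nonneg e).eq_or_lt with h0 | h0
      · rw [← h0]; positivity
      · exact le_of_mul_le_mul_right (by rwa [← pow_two]) h0
  refine ⟨hu, h1, fun x y => Convex.norm_image_sub_le_of_norm_fderiv_le
    (fun z _ => hu.differentiable (by simp) z) (fun z _ => h1 z) convex_univ (Set.mem_univ y)
    (Set.mem_univ x), fun x y => ?_⟩
  refine ContinuousLinearMap.opNorm_le_bound _ (by positivity) fun a => ?_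
  set e := (fderiv ℝ (uvel W G v) x - fderiv ℝ (uvel W G v) y) a with he'
  have h : ‖e‖ ^ 2 = c * (fderiv ℝ (g e) (c • x) - fderiv ℝ (g e) (c • y)) a := by
    rw [← real_inner_self_eq_norm_sq, sub_apply, mul_sub, ← hD, ← hD, ← inner_sub_right,
      ← sub_apply]
  have h' : ‖e‖ ^ 2 ≤ 2 * η * v ^ 2 / b * ‖x - y‖ * ‖a‖ * ‖e‖ := by
    rw [h]
    refine (mul_le_mul_of_nonneg_left ((le_abs_self _).trans
      ((ContinuousLinearMap.le_opNorm _ a).trans (mul_le_mul_of_nonneg_right
        ((uvel_component hW hη hb hb1 e).2.2 _ _) (norm_nonneg a)))) hc).trans_eq ?_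
    rw [← smul_sub, norm_smul, norm_eq_abs, abs_of_nonneg hc]
    simp only [c]
    field_simp
  rcases (norm_nonneg e).eq_or_lt with h0 | h0
  · rw [← h0]; positivity
  · exact le_of_mul_le_mul_right (by rwa [← pow_two]) h0

include hW hη in
/-- The velocity is `η` Lipschitz up to time one. -/
theorem uvel_lip (hv : v ∈ Set.Icc (0 : ℝ) 1) (x y : Sp d) :
    ‖uvel W G v x - uvel W G v y‖ ≤ η * ‖x - y‖ := by
  have hc : ∀ z, Continuous fun t : ℝ => uvel W G t z := fun z =>
    Continuous.comp (g := fun q : ℝ × Sp d => uvel W G q.1 q.2) (f := fun t : ℝ => (t, z))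
      (continuous_uvel hW) (Continuous.prodMk_left z)
  have hcl : IsClosed {t : ℝ | ‖uvel W G t x - uvel W G t y‖ ≤ η * ‖x - y‖} :=
    isClosed_le ((hc x).sub (hc y)).norm continuous_const
  rw [← closure_Ico zero_ne_one] at hv
  exact hcl.closure_subset_iff.2 (fun t ht => ((uvel_smooth hW hη ht.1 ht.2).2.2.1 x y).trans
    (mul_le_mul_of_nonneg_right (mul_le_of_le_one_left hη ht.2.le) (norm_nonneg _))) hv

end Smooth

end Vale.Agent.P347.Shift
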