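import Vale.Agent.P347.Quarter.Gauss

/-!
# P347: the Gaussian divergence in square mean

For a `C¹` field `U` with square integrable value and derivative the Gaussian divergence
`⟪x, U⟫ - div U` has second moment at most `E ‖U‖² + E ‖D U‖_F²`, and it is adjoint to the
derivative. This is the integration by parts in the room behind per-step total variation.
-/

open MeasureTheory ProbabilityTheory Real Filter Topology ContinuousLinearMap
open scoped RealInnerProductSpace ENNReal

namespace Vale.Agent.P347.Shift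

open Quarter

variable {ι : Type} [Fintype ι]

/-- The `i`-th basis vector. -/
noncomputable abbrev bv (i : ι) : Eu ι := EuclideanSpace.basisFun ι ℝ i

/-- The Gaussian divergence. -/
noncomputable def gdiv (U : Eu ι → Eu ι) (x : Eu ι) : ℝ :=
  ⟪x, U x⟫ - ∑ i, ⟪fderiv ℝ U x (bv i), bv i⟫

/-- The squared Frobenius norm of the derivative. -/
noncomputable def dfrob (U : Eu ι → Eu ι) (x : Eu ι) : ℝ := ∑ i, ‖fderiv ℝ U x (bv i)‖ ^ 2

/-- The `i`-th coordinate of a field. -/
noncomputable def crd (U : Eu ι → Eu ι) (i : ι) (x : Eu ι) : ℝ := ⟪bv i, U x⟫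

lemma dfrob_nonneg (U : Eu ι → Eu ι) (x : Eu ι) : 0 ≤ dfrob U x :=
  Finset.sum_nonneg fun _ _ => sq_nonneg _

lemma contDiff_crd {n : ℕ∞} {U : Eu ι → Eu ι} (hU : ContDiff ℝ n U) (i : ι) :
    ContDiff ℝ n (crd U i) :=
  (innerSL ℝ (bv i)).contDiff.comp hU

lemma fderiv_crd {U : Eu ι → Eu ι} (hU : Differentiable ℝ U) (i : ι) (x v : Eu ι) :
    fderiv ℝ (crd U i) x v = ⟪bv i, fderiv ℝ U x v⟫ := by
  rw [show crd U i = innerSL ℝ (bv i) ∘ U from rfl,
    ((innerSL ℝ (bv i)).hasFDerivAt.comp x (hU x).hasFDerivAt).fderiv]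
  simp

lemma hasCompactSupport_crd {U : Eu ι → Eu ι} (hc : HasCompactSupport U) (i : ι) :
    HasCompactSupport (crd U i) :=
  hc.comp_left (g := fun y => ⟪bv i, y⟫) (inner_zero_right _)

lemma sum_crd (U : Eu ι → Eu ι) (x : Eu ι) : ∑ i, crd U i x • bv i = U x :=
  (EuclideanSpace.basisFun ι ℝ).sum_repr' (U x)

lemma gdiv_eq {U : Eu ι → Eu ι} (hU : Differentiable ℝ U) (x : Eu ι) :
    gdiv U x = ∑ i, (⟪x, bv i⟫ * crd U i x - fderiv ℝ (crd U i) x (bv i)) := by
  simp only [fderiv_crd hU]
  rw [gdiv, Finset.sum_sub_distrib]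
  congr 1
  · conv_lhs => rw [← sum_crd U x, inner_sum]
    simp [real_inner_smul_right, mul_comm]
  · exact Finset.sum_congr rfl fun i _ => real_inner_comm _ _

lemma dfrob_eq {U : Eu ι → Eu ι} (hU : Differentiable ℝ U) (x : Eu ι) :
    dfrob U x = ∑ j, ∑ i, fderiv ℝ (crd U i) x (bv j) ^ 2 := by
  simp only [fderiv_crd hU]
  exact Finset.sum_congr rfl fun j _ =>
    ((EuclideanSpace.basisFun ι ℝ).sum_sq_inner_right _).symm

lemma continuous_gdiv {U : Eu ι → Eu ι} (hU : ContDiff ℝ 1 U) : Continuous (gdiv U) := by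
  have := hU.continuous
  have := hU.continuous_fderiv one_ne_zero
  unfold gdiv
  fun_prop

lemma continuous_dfrob {U : Eu ι → Eu ι} (hU : ContDiff ℝ 1 U) : Continuous (dfrob U) := by
  have := hU.continuous_fderiv one_ne_zero
  unfold dfrob
  fun_prop

lemma integrable_of_compact {F : Type*} [NormedAddCommGroup F] [NormedSpace ℝ F]
    [SecondCountableTopology F] {f : Eu ι → F} (hf : Continuous f) (hc : HasCompactSupport f) :
    Integrable f (gam ι) := by
  obtain ⟨C, hC⟩ := hc.exists_bound_of_continuous hf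
  exact .of_bound hf.aestronglyMeasurable C (ae_of_all _ hC)

/-- Integration by parts in one coordinate for a test product of compact support. -/
lemma ibp_coord {a b : Eu ι → ℝ} (ha : ContDiff ℝ 1 a) (hb : ContDiff ℝ 1 b)
    (hc : HasCompactSupport a) (v : Eu ι) :
    ∫ x, (⟪x, v⟫ * a x - fderiv ℝ a x v) * b x ∂gam ι = ∫ x, a x * fderiv ℝ b x v ∂gam ι := by
  have hab : ContDiff ℝ 1 fun x => a x * b x := ha.mul hb
  have hs : HasCompactSupport fun x => a x * b x := hc.mul_right
  obtain ⟨C₀, hC₀⟩ := hs.exists_bound_of_continuous hab.continuous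
  obtain ⟨C₁, hC₁⟩ := (hs.fderiv ℝ).exists_bound_of_continuous (hab.continuous_fderiv one_ne_zero)
  have h := gauss_ibp hab (C := max C₀ C₁) (K := 0)
    (fun x => by simpa using Or.inl (hC₀ x)) (fun x => by simpa using Or.inr (hC₁ x)) v
  have hd : ∀ x, fderiv ℝ (fun x => a x * b x) x v =
      a x * fderiv ℝ b x v + fderiv ℝ a x v * b x := fun x => by
    rw [fderiv_fun_mul (ha.differentiable one_ne_zero x) (hb.differentiable one_ne_zero x)]
    simp [mul_comm (b x)]
  have hac := ha.continuous
  have hbc := hb.continuous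
  have hdac := ha.continuous_fderiv one_ne_zero
  have hdbc := hb.continuous_fderiv one_ne_zero
  have i1 : Integrable (fun x => a x * fderiv ℝ b x v) (gam ι) :=
    integrable_of_compact (by fun_prop) hc.mul_right
  have i2 : Integrable (fun x => fderiv ℝ a x v * b x) (gam ι) :=
    integrable_of_compact (by fun_prop) (hc.fderiv_apply ℝ v).mul_right
  have i3 : Integrable (fun x => a x * b x * ⟪x, v⟫) (gam ι) :=
    integrable_of_compact (by fun_prop) hs.mul_right
  simp only [hd] at h
  rw [integral_add i1 i2] at h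
  calc ∫ x, (⟪x, v⟫ * a x - fderiv ℝ a x v) * b x ∂gam ι
      = ∫ x, a x * b x * ⟪x, v⟫ - fderiv ℝ a x v * b x ∂gam ι :=
        integral_congr_ae (ae_of_all _ fun x => by ring)
    _ = _ := by rw [integral_sub i3 i2]; linarith

/-- The divergence is adjoint to the derivative: fields of compact support. -/
lemma gdiv_ibp_compact {U : Eu ι → Eu ι} (hU : ContDiff ℝ 1 U) (hc : HasCompactSupport U)
    {f : Eu ι → ℝ} (hf : ContDiff ℝ 1 f) :
    ∫ x, f x * gdiv U x ∂gam ι = ∫ x, fderiv ℝ f x (U x) ∂gam ι := by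
  have hfc := hf.continuous
  have hfd := hf.continuous_fderiv one_ne_zero
  have hu : ∀ i, ContDiff ℝ 1 (crd U i) := fun i => contDiff_crd (n := 1) hU i
  have hs := fun i => hasCompactSupport_crd hc i
  have i1 : ∀ i, Integrable
      (fun x => (⟪x, bv i⟫ * crd U i x - fderiv ℝ (crd U i) x (bv i)) * f x) (gam ι) := fun i => by
    have := (hu i).continuous
    have := (hu i).continuous_fderiv one_ne_zero
    exact integrable_of_compact (by fun_prop)
      (((hs i).mul_left).sub ((hs i).fderiv_apply ℝ _)).mul_right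
  have i2 : ∀ i, Integrable (fun x => crd U i x * fderiv ℝ f x (bv i)) (gam ι) := fun i => by
    have := (hu i).continuous
    exact integrable_of_compact (by fun_prop) (hs i).mul_right
  calc ∫ x, f x * gdiv U x ∂gam ι
      = ∫ x, ∑ i, (⟪x, bv i⟫ * crd U i x - fderiv ℝ (crd U i) x (bv i)) * f x ∂gam ι :=
        integral_congr_ae (ae_of_all _ fun x => by
          simp only [gdiv_eq (hU.differentiable one_ne_zero)]
          rw [mul_comm, Finset.sum_mul])
    _ = ∑ i, ∫ x, crd U i x * fderiv ℝ f x (bv i) ∂gam ι := by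
        rw [integral_finsetSum _ fun i _ => i1 i]
        exact Finset.sum_congr rfl fun i _ => ibp_coord (hu i) hf (hs i) _
    _ = _ := by
        rw [← integral_finsetSum _ fun i _ => i2 i]
        refine integral_congr_ae (ae_of_all _ fun x => ?_)
        beta_reduce
        conv_rhs => rw [← sum_crd U x, map_sum]
        simp

/-- The second moment for a `C²` field of compact support. -/
lemma gdiv_sq_two {U : Eu ι → Eu ι} (hU : ContDiff ℝ 2 U) (hc : HasCompactSupport U) :
    ∫ x, gdiv U x ^ 2 ∂gam ι ≤ ∫ x, ‖U x‖ ^ 2 + dfrob U x ∂gam ι := by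
  have hU1 : ContDiff ℝ 1 U := hU.of_le (by norm_num)
  have hd := hU1.differentiable one_ne_zero
  have hu : ∀ i, ContDiff ℝ 1 (crd U i) := fun i => contDiff_crd (n := 1) hU1 i
  have hu2 : ∀ i, ContDiff ℝ 2 (crd U i) := fun i => contDiff_crd (n := 2) hU i
  have hs := fun i => hasCompactSupport_crd hc i
  have hud : ∀ i v, ContDiff ℝ 1 fun x => fderiv ℝ (crd U i) x v := fun i v =>
    ((hu2 i).fderiv_right (by norm_num)).clm_apply contDiff_const
  set δ := fun (i : ι) (x : Eu ι) => ⟪x, bv i⟫ * crd U i x - fderiv ℝ (crd U i) x (bv i) with hδ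
  have hδ1 : ∀ i, ContDiff ℝ 1 (δ i) := fun i =>
    ((contDiff_id.inner ℝ contDiff_const).mul (hu i)).sub (hud i _)
  have hδs : ∀ i, HasCompactSupport (δ i) := fun i =>
    ((hs i).mul_left).sub ((hs i).fderiv_apply ℝ _)
  have hdd : ∀ j i x, fderiv ℝ (δ j) x (bv i) = ⟪bv i, bv j⟫ * crd U j x +
      (⟪x, bv j⟫ * fderiv ℝ (crd U j) x (bv i) -
        fderiv ℝ (fun y => fderiv ℝ (crd U j) y (bv i)) x (bv j)) := by
    intro j i x
    have h2 :=
      (((hu2 j).fderiv_right (m := 1) (by norm_num)).differentiable one_ne_zero x).hasFDerivAt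
    have hsym := ((hu2 j).contDiffAt (x := x)).isSymmSndFDerivAt (by simp)
    have h := (((hasFDerivAt_id x).inner ℝ (hasFDerivAt_const (bv j) x)).mul
      ((hu j).differentiable one_ne_zero x).hasFDerivAt).sub
        (h2.clm_apply (hasFDerivAt_const (bv j) x))
    rw [show δ j = (fun t => ⟪id t, bv j⟫) * crd U j - fun y => fderiv ℝ (crd U j) y (bv j)
        from rfl, h.fderiv,
      (h2.clm_apply (hasFDerivAt_const (bv i) x)).fderiv]
    simp [hsym.eq (bv i) (bv j)]
    ring
  have key : ∀ i j, ∫ x, δ i x * δ j x ∂gam ι =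
      (∫ x, ⟪bv i, bv j⟫ * (crd U j x * crd U i x) ∂gam ι) +
        ∫ x, fderiv ℝ (crd U j) x (bv i) * fderiv ℝ (crd U i) x (bv j) ∂gam ι := by
    intro i j
    have := (hu i).continuous
    have := (hu j).continuous
    have := (hud j (bv i)).continuous
    have := (hud j (bv i)).continuous_fderiv one_ne_zero
    have a1 : Integrable (fun x => ⟪bv i, bv j⟫ * (crd U j x * crd U i x)) (gam ι) :=
      integrable_of_compact (by fun_prop) (hs j).mul_right.mul_left
    have a2 : Integrable (fun x => (⟪x, bv j⟫ * fderiv ℝ (crd U j) x (bv i) -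
        fderiv ℝ (fun y => fderiv ℝ (crd U j) y (bv i)) x (bv j)) * crd U i x) (gam ι) :=
      integrable_of_compact (by fun_prop) (hs i).mul_left
    rw [ibp_coord (hu i) (hδ1 j) (hs i) (bv i),
      show (fun x => crd U i x * fderiv ℝ (δ j) x (bv i)) = fun x =>
        ⟪bv i, bv j⟫ * (crd U j x * crd U i x) + (⟪x, bv j⟫ * fderiv ℝ (crd U j) x (bv i) -
          fderiv ℝ (fun y => fderiv ℝ (crd U j) y (bv i)) x (bv j)) * crd U i x from
        funext fun x => by rw [hdd]; ring,
      integral_add a1 a2, ibp_coord (hud j _) (hu i) ((hs j).fderiv_apply ℝ _) (bv j)]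
  have iδ : ∀ i j, Integrable (fun x => δ i x * δ j x) (gam ι) := fun i j =>
    integrable_of_compact ((hδ1 i).continuous.mul (hδ1 j).continuous) (hδs i).mul_right
  have ia : ∀ i j, Integrable (fun x => ⟪bv i, bv j⟫ * (crd U j x * crd U i x)) (gam ι) :=
    fun i j => integrable_of_compact
      (continuous_const.mul ((hu j).continuous.mul (hu i).continuous)) (hs j).mul_right.mul_left
  have ib : ∀ i j, Integrable
      (fun x => fderiv ℝ (crd U j) x (bv i) * fderiv ℝ (crd U i) x (bv j)) (gam ι) :=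
    fun i j => integrable_of_compact ((hud j _).continuous.mul (hud i _).continuous)
      ((hs j).fderiv_apply ℝ _).mul_right
  have iab : Integrable (fun x => ∑ i, ∑ j, (⟪bv i, bv j⟫ * (crd U j x * crd U i x) +
      fderiv ℝ (crd U j) x (bv i) * fderiv ℝ (crd U i) x (bv j))) (gam ι) :=
    integrable_finsetSum _ fun i _ => integrable_finsetSum _ fun j _ => (ia i j).add (ib i j)
  have hab : ∀ i j, Integrable (fun x => ⟪bv i, bv j⟫ * (crd U j x * crd U i x) +
      fderiv ℝ (crd U j) x (bv i) * fderiv ℝ (crd U i) x (bv j)) (gam ι) :=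
    fun i j => (ia i j).add (ib i j)
  calc ∫ x, gdiv U x ^ 2 ∂gam ι
      = ∫ x, ∑ i, ∑ j, δ i x * δ j x ∂gam ι := integral_congr_ae (ae_of_all _ fun x => by
          simp only [gdiv_eq hd, sq, Finset.sum_mul_sum, hδ])
    _ = ∫ x, ∑ i, ∑ j, (⟪bv i, bv j⟫ * (crd U j x * crd U i x) +
          fderiv ℝ (crd U j) x (bv i) * fderiv ℝ (crd U i) x (bv j)) ∂gam ι := by
        rw [integral_finsetSum _ fun i _ => integrable_finsetSum _ fun j _ => iδ i j,
          integral_finsetSum _ fun i _ => integrable_finsetSum _ fun j _ => hab i j]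
        refine Finset.sum_congr rfl fun i _ => ?_
        rw [integral_finsetSum _ fun j _ => iδ i j,
          integral_finsetSum _ fun j _ => hab i j]
        exact Finset.sum_congr rfl fun j _ => by rw [key, integral_add (ia i j) (ib i j)]
    _ ≤ _ := by
        have i3 : Integrable (fun x => ‖U x‖ ^ 2 + dfrob U x) (gam ι) := by
          have := continuous_dfrob hU1
          have := hU.continuous
          refine integrable_of_compact (by fun_prop) ?_
          refine (hc.norm.comp_left (g := fun t : ℝ => t ^ 2) (by simp)).add ?_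
          exact (hc.fderiv ℝ).comp_left
            (g := fun L : Eu ι →L[ℝ] Eu ι => ∑ i, ‖L (bv i)‖ ^ 2) (by simp)
        refine integral_mono iab i3 fun x => ?_
        simp only [Finset.sum_add_distrib]
        refine add_le_add (le_of_eq ?_) ?_
        · rw [← real_inner_self_eq_norm_sq]
          conv_rhs => rw [← sum_crd U x]
          simp only [sum_inner, inner_sum, real_inner_smul_left, real_inner_smul_right]
          exact Finset.sum_congr rfl fun i _ => Finset.sum_congr rfl fun j _ => by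
            rw [real_inner_comm (bv i) (bv j)]; ring
        · have hsum : ∑ i, ∑ j, fderiv ℝ (crd U i) x (bv j) ^ 2 =
              ∑ i, ∑ j, fderiv ℝ (crd U j) x (bv i) ^ 2 := Finset.sum_comm
          have hle : ∑ i, ∑ j, fderiv ℝ (crd U j) x (bv i) * fderiv ℝ (crd U i) x (bv j) ≤
              ∑ i, ∑ j, (fderiv ℝ (crd U j) x (bv i) ^ 2 / 2 +
                fderiv ℝ (crd U i) x (bv j) ^ 2 / 2) :=
            Finset.sum_le_sum fun i _ => Finset.sum_le_sum fun j _ => by
              nlinarith [sq_nonneg (fderiv ℝ (crd U j) x (bv i) - fderiv ℝ (crd U i) x (bv j))]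
          refine hle.trans_eq ?_
          simp only [Finset.sum_add_distrib, ← Finset.sum_div, hsum, dfrob_eq hd]
          ring

end Vale.Agent.P347.Shift
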