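import Vale.Agent.P347.Quarter.Quad
import Vale.Agent.P347.Quarter.Gauss
import Vale.Agent.P347.Shift.Bessel

/-!
# P347: quadrature in the Mehler parameter for a bounded continuous field

For `ρ ≤ 1 - η ^ A` a rule with `C η ^ (-θ)` nodes replaces `∫_0^ρ pv v h dv` up to `C η ^ N` times
the bound of `h`, in the Gaussian mean square.  With `a = √ρ` one has `flow ρ h = a • flow a (pv a h)`
and the presmoothed field is smooth, so the rule of `Quarter.quad_rule` applies.
-/

open MeasureTheory ProbabilityTheory Real Filter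
open scoped RealInnerProductSpace NNReal

namespace Vale.Agent.P347.Shift

open Quarter

variable {d : ℕ} {h : Sp d → Sp d} {M : ℝ}

/-- The semigroup law for a bounded continuous field. -/
lemma pv_pv_bdd (hc : Continuous h) (hM : ∀ x, ‖h x‖ ≤ M) {a v : ℝ} (ha : 0 ≤ a) (ha1 : a ≤ 1)
    (hv : 0 ≤ v) (hv1 : v ≤ 1) (x : Sp d) : pv v (pv a h) x = pv (a * v) h x := by
  set v' := √(1 - v ^ 2) with hv'
  set a' := √(1 - a ^ 2) with ha'
  have e : √((a * v') ^ 2 + a' ^ 2) = √(1 - (a * v) ^ 2) := by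
    congr 1
    rw [mul_pow, hv', ha', Real.sq_sqrt (by nlinarith), Real.sq_sqrt (by nlinarith)]
    ring
  have hi : Integrable (fun p : Sp d × Sp d => h ((a * v) • x + ((a * v') • p.1 + a' • p.2)))
      ((gd d).prod (gd d)) :=
    (integrable_const M).mono' (hc.comp (by fun_prop)).aestronglyMeasurable
      (ae_of_all _ fun p => hM _)
  have hh : Continuous fun u : Sp d => h ((a * v) • x + u) := by fun_prop
  calc pv v (pv a h) x
      = ∫ z, ∫ w, h ((a * v) • x + ((a * v') • z + a' • w)) ∂gd d ∂gd d := by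
        simp only [pv, smth, smul_add, smul_smul, ← hv', ← ha', add_assoc]
    _ = ∫ p, h ((a * v) • x + ((a * v') • p.1 + a' • p.2)) ∂(gd d).prod (gd d) :=
        (integral_prod _ hi).symm
    _ = ∫ u, h ((a * v) • x + u)
          ∂((gd d).prod (gd d)).map fun p : Sp d × Sp d => (a * v') • p.1 + a' • p.2 :=
        (integral_map (φ := fun p : Sp d × Sp d => (a * v') • p.1 + a' • p.2) (by fun_prop)
          hh.aestronglyMeasurable).symm
    _ = pv (a * v) h x := by
        rw [gauss_combine, e, integral_map (φ := fun u : Sp d => √(1 - (a * v) ^ 2) • u)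
          (by fun_prop) hh.aestronglyMeasurable]
        rfl

lemma norm_pv_bdd (hM : ∀ x, ‖h x‖ ≤ M) (a : ℝ) (x : Sp d) : ‖pv a h x‖ ≤ M :=
  (norm_integral_le_of_norm_le_const (ae_of_all _ fun _ => hM _)).trans_eq (by simp)

/-- A presmoothed bounded continuous field is smooth and Lipschitz. -/
lemma pv_bdd_regular (hc : Continuous h) (hM : ∀ x, ‖h x‖ ≤ M) {a : ℝ} (ha : 0 ≤ a) (ha1 : a < 1) :
    ContDiff ℝ 1 (pv a h) ∧ ∃ L : ℝ≥0, LipschitzWith L (pv a h) := by
  have hb : √(1 - a ^ 2) ≠ 0 := (Real.sqrt_pos.2 (by nlinarith)).ne'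
  set hk : Fin d → Sp d → ℝ := fun k y => h y k
  have hkc : ∀ k, Continuous (hk k) := fun k => by simp only [hk]; fun_prop
  have hkb : ∀ k y, |hk k y| ≤ M := fun k y => (PiLp.norm_apply_le (h y) k).trans (hM y)
  have e : ∀ k, (fun x => pv a h x k) = smo a (√(1 - a ^ 2)) (hk k) fun _ => 1 := fun k => by
    funext x
    have hi : Integrable (fun w => h (a • x + √(1 - a ^ 2) • w)) (gd d) :=
      (integrable_const M).mono' (hc.comp (by fun_prop)).aestronglyMeasurable
        (ae_of_all _ fun w => hM _)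
    have := (EuclideanSpace.proj (𝕜 := ℝ) k).integral_comp_comm hi
    simpa [pv, smth, smo, hk] using this.symm
  have ha' := fun k => contDiff_smo_aux (a := a) (hkc k) (hkb k) hb 1
    (Function.HasTemperateGrowth.const (1 : ℝ) : (fun _ : Sp d => (1 : ℝ)).HasTemperateGrowth)
  have hcd : ∀ k, ContDiff ℝ 1 fun x => pv a h x k := fun k => by
    rw [e k]; exact_mod_cast (ha' k).1
  have hG : ContDiff ℝ 1 (pv a h) := contDiff_piLp (p := 2) |>.2 hcd
  choose B hB using fun k => (ha' k).2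
  refine ⟨hG, (∑ k, B k).toNNReal, lipschitzWith_of_nnnorm_fderiv_le
    (hG.differentiable one_ne_zero) fun x => NNReal.coe_le_coe.1 ?_⟩
  rw [coe_nnnorm]
  refine ContinuousLinearMap.opNorm_le_bound _ (NNReal.coe_nonneg _) fun u => ?_
  have hp : ∀ k, |(fderiv ℝ (pv a h) x u) k| ≤ B k * ‖u‖ := fun k => by
    have h1 : fderiv ℝ (fun y => pv a h y k) x =
        (EuclideanSpace.proj (𝕜 := ℝ) k).comp (fderiv ℝ (pv a h) x) :=
      ((EuclideanSpace.proj (𝕜 := ℝ) k).hasFDerivAt.comp x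
        (hG.differentiable one_ne_zero x).hasFDerivAt).fderiv
    have h2 := (fderiv ℝ (fun y => pv a h y k) x).le_opNorm u
    rw [← norm_iteratedFDeriv_one (𝕜 := ℝ) (f := fun y => pv a h y k) (x := x), e k] at h2
    have h3 := h2.trans (mul_le_mul_of_nonneg_right (hB k x) (norm_nonneg u))
    rw [← e k, h1] at h3
    simpa [Real.norm_eq_abs] using h3
  refine le_trans ?_ (mul_le_mul_of_nonneg_right (Real.le_coe_toNNReal _) (norm_nonneg u))
  rw [Finset.sum_mul]
  set v := fderiv ℝ (pv a h) x u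
  calc ‖v‖ = ‖∑ k, v k • EuclideanSpace.single k (1 : ℝ)‖ := by
        congr 1
        ext j
        simp [Pi.single_apply, WithLp.ofLp_sum, Finset.sum_apply]
    _ ≤ ∑ k, B k * ‖u‖ := (norm_sum_le _ _).trans (Finset.sum_le_sum fun k _ => by
        simpa [norm_smul, Real.norm_eq_abs] using hp k)

/-- **Quadrature in the Mehler parameter.** -/
theorem mehler_rule (N A : ℕ) {θ : ℝ} (hθ : 0 < θ) :
    ∃ C η₀ : ℝ, 0 ≤ C ∧ 0 < η₀ ∧ ∀ η ρ : ℝ, 0 < η → η ≤ η₀ → 1 / 2 ≤ ρ → ρ < 1 →
      η ^ A ≤ 1 - ρ → ∃ (n : ℕ) (w u : Fin n → ℝ),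
        (n : ℝ) ≤ C * η ^ (-θ) ∧ ∑ j, |w j| ≤ C ∧ (∀ j, 0 ≤ u j ∧ u j ≤ √ρ) ∧
        ∀ (d : ℕ) (h : Sp d → Sp d), Continuous h → ∀ M : ℝ, (∀ x, ‖h x‖ ≤ M) →
          Integrable (fun x => ‖flow ρ h x - qflow w u h x‖ ^ 2) (gd d) ∧
          ∫ x, ‖flow ρ h x - qflow w u h x‖ ^ 2 ∂gd d ≤ (C * η ^ N * M) ^ 2 := by
  set t := θ / 2 with ht'
  have ht : 0 < t := half_pos hθ
  set p := ⌈(N : ℝ) / t⌉₊ + 1 with hp'
  have hp : 1 ≤ p := Nat.le_add_left 1 _
  have hpN : (N : ℝ) ≤ ((p : ℝ) - 1) * t := by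
    have := Nat.le_ceil ((N : ℝ) / t)
    rw [div_le_iff₀ ht] at this
    simp only [hp']
    push_cast
    linarith
  obtain ⟨C, hC, hrule⟩ := quad_rule hp
  set Cb : ℝ := 2 * ((A : ℝ) + 2) / t + 2
  have hCb : 0 ≤ Cb := by positivity
  refine ⟨2 * p * Cb + C * (Cb + N.factorial + 1), 1, by positivity, one_pos,
    fun η ρ hη hη1 hρ hρ1 hA => ?_⟩
  have hX : 1 ≤ η ^ (-t) := Real.one_le_rpow_of_pos_of_le_one_of_nonpos hη hη1 (by linarith)
  have hl0 : 0 ≤ log (1 / η) := log_nonneg ((one_le_div hη).2 hη1)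
  have hl : log (1 / η) ≤ η ^ (-t) / t := by
    refine (log_le_rpow_div (one_div_pos.2 hη).le ht).trans_eq ?_
    rw [one_div, inv_rpow hη.le, ← rpow_neg hη.le]
  -- parameters
  set a := √ρ
  have hρ0 : 0 < ρ := by linarith
  have ha0 : 0 < a := Real.sqrt_pos.2 hρ0
  have ha1 : a < 1 := (Real.sqrt_lt' one_pos).2 (by linarith)
  set t₀ := -log ρ / 2 with ht₀'
  have hexp : exp (-t₀) = a := by
    simp only [ht₀', a, neg_div, neg_neg]
    rw [← log_sqrt hρ0.le, exp_log ha0]
  have hlρ := log_le_sub_one_of_pos hρ0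
  have ht₀ : 0 < t₀ := by simp only [ht₀']; linarith
  have ht₀1 : t₀ ≤ 1 := by
    have : log (1 / 2) ≤ log ρ := log_le_log (by norm_num) hρ
    rw [one_div, log_inv] at this
    simp only [ht₀']
    linarith [log_two_lt_d9]
  have ht₀A : η ^ A / 2 ≤ t₀ := by simp only [ht₀']; linarith
  set Nq := ⌈η ^ (-t)⌉₊
  have hNq1 : 1 ≤ Nq := Nat.one_le_ceil_iff.2 (zero_lt_one.trans_le hX)
  have hNq : η ^ (-t) ≤ Nq := Nat.le_ceil _
  have hNq2 : (Nq : ℝ) ≤ 2 * η ^ (-t) := by
    have := Nat.ceil_lt_add_one (zero_le_one.trans hX)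
    linarith
  set b := ⌈2 * ((A : ℝ) + 2) * log (1 / η)⌉₊ + 1
  have hb : (b : ℝ) ≤ Cb * η ^ (-t) := by
    have := Nat.ceil_lt_add_one (show 0 ≤ 2 * ((A : ℝ) + 2) * log (1 / η) by positivity)
    have h2 := mul_le_mul_of_nonneg_left hl (show (0 : ℝ) ≤ 2 * ((A : ℝ) + 2) by positivity)
    simp only [b, Cb]
    push_cast
    rw [add_mul, div_mul_eq_mul_div, ← mul_div_assoc'] at *
    linarith
  obtain ⟨w, v, hv, hw, -, hbound⟩ := hrule ht₀ ht₀1 Nq b hNq1
  refine ⟨Nq * p * b, fun j => a * w j, fun j => a * v j, ?_, ?_, fun j => ⟨?_, ?_⟩, ?_⟩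
  · push_cast
    have e : η ^ (-θ) = η ^ (-t) * η ^ (-t) := by
      rw [← rpow_add hη]; congr 1; simp only [ht']; ring
    calc (Nq : ℝ) * p * b ≤ 2 * η ^ (-t) * p * (Cb * η ^ (-t)) := by gcongr
      _ = 2 * p * Cb * η ^ (-θ) := by rw [e]; ring
      _ ≤ _ := mul_le_mul_of_nonneg_right (le_add_of_nonneg_right (by positivity)) (by positivity)
  · refine le_trans ?_ (le_add_of_nonneg_left (by positivity))
    calc ∑ j, |a * w j| ≤ ∑ j, |w j| := Finset.sum_le_sum fun j _ => by
          rw [abs_mul, abs_of_pos ha0]; exact mul_le_of_le_one_left (abs_nonneg _) ha1.le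
      _ ≤ C := hw
      _ ≤ _ := le_mul_of_one_le_right hC (le_add_of_nonneg_left (by positivity))
  · exact mul_nonneg ha0.le (hv j).1
  · exact mul_le_of_le_one_right ha0.le (hv j).2
  intro d h hc M hM
  have hM0 : 0 ≤ M := (norm_nonneg _).trans (hM 0)
  obtain ⟨hG1, L, hGL⟩ := pv_bdd_regular hc hM ha0.le ha1
  have hGM := norm_pv_bdd hM a
  have hb' := hbound hG1 hGL
  rw [hexp] at hb'
  set G := pv a h
  have e1 : ∀ x, flow ρ h x = a • flow a G x := fun x => by
    have hsub : a • ∫ v in (0:ℝ)..a, pv (a * v) h x = ∫ v in (0:ℝ)..ρ, pv v h x := by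
      rw [intervalIntegral.smul_integral_comp_mul_left (fun v => pv v h x) a, mul_zero,
        show a * a = ρ from Real.mul_self_sqrt hρ0.le]
    simp only [flow]
    rw [← hsub, intervalIntegral.integral_congr fun v hv' => ?_]
    rw [Set.uIcc_of_le ha0.le] at hv'
    exact (pv_pv_bdd hc hM ha0.le ha1.le hv'.1 (hv'.2.trans ha1.le) x).symm
  have e2 : ∀ x, qflow (fun j => a * w j) (fun j => a * v j) h x = a • qflow w v G x := fun x => by
    simp only [qflow, Finset.smul_sum, smul_smul]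
    exact Finset.sum_congr rfl fun j _ => by
      rw [pv_pv_bdd hc hM ha0.le ha1.le (hv j).1 (hv j).2]
  set D : Sp d → Sp d := fun x => flow a G x - qflow w v G x
  have hDc : Continuous D := by
    refine Continuous.sub ?_ (continuous_finsetSum _ fun j _ =>
      (Quad.lip_pv hGL (hv j).1 (hv j).2).continuous.const_smul (w j))
    rw [continuous_iff_continuousAt]
    intro x
    refine intervalIntegral.continuousAt_of_dominated_interval (bound := fun _ => M)
      (Eventually.of_forall fun y => ?_) (Eventually.of_forall fun y => ae_of_all _ fun v _ =>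
        norm_pv_bdd hGM v y) intervalIntegrable_const (ae_of_all _ fun v hv' => ?_)
    · exact ((Quad.continuousOn_pv hGL y).mono
        (by rw [Set.uIoc_of_le ha0.le]; exact fun v hv' => ⟨hv'.1.le, hv'.2.trans ha1.le⟩))
          |>.aestronglyMeasurable measurableSet_uIoc
    · rw [Set.uIoc_of_le ha0.le] at hv'
      exact (Quad.lip_pv hGL hv'.1.le (hv'.2.trans ha1.le)).continuous.continuousAt
  have hD : ∀ x, ‖D x‖ ≤ (1 + C) * M := fun x => by
    refine (norm_sub_le _ _).trans ?_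
    rw [add_mul, one_mul]
    refine add_le_add ((intervalIntegral.norm_integral_le_of_norm_le_const fun v _ =>
      norm_pv_bdd hGM v x).trans ?_) ((norm_sum_le _ _).trans ?_)
    · rw [sub_zero, abs_of_pos ha0]
      exact mul_le_of_le_one_right hM0 ha1.le
    · refine le_trans (Finset.sum_le_sum (g := fun j => |w j| * M) fun j _ => ?_) ?_
      · rw [norm_smul, Real.norm_eq_abs]
        exact mul_le_mul_of_nonneg_left (norm_pv_bdd hGM _ x) (abs_nonneg _)
      · rw [← Finset.sum_mul]; exact mul_le_mul_of_nonneg_right hw hM0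
  have hDi : Integrable (fun x => ‖D x‖ ^ 2) (gd d) :=
    (integrable_const (((1 + C) * M) ^ 2)).mono' (hDc.norm.pow 2).aestronglyMeasurable
      (ae_of_all _ fun x => by
        rw [norm_pow, norm_norm]; exact pow_le_pow_left₀ (norm_nonneg _) (hD x) 2)
  have e3 : (fun x => ‖flow ρ h x - qflow (fun j => a * w j) (fun j => a * v j) h x‖ ^ 2) =
      fun x => a ^ 2 * ‖D x‖ ^ 2 := funext fun x => by
    rw [e1, e2, ← smul_sub, norm_smul, mul_pow, Real.norm_eq_abs, sq_abs]
  rw [e3]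
  refine ⟨hDi.const_mul _, ?_⟩
  rw [integral_const_mul]
  have hG2 : ∫ x, ‖G x‖ ^ 2 ∂gd d ≤ M ^ 2 :=
    (integral_mono_of_nonneg (ae_of_all _ fun x => sq_nonneg _) (integrable_const (M ^ 2))
      (ae_of_all _ fun x => pow_le_pow_left₀ (norm_nonneg _) (hGM x) 2)).trans_eq (by simp)
  -- the error of the rule
  set δ := (b : ℝ) * (1 / (Nq : ℝ)) ^ p + exp (-(t₀ * 2 ^ b))
  have hδ0 : 0 ≤ δ := by positivity
  have h1 : (b : ℝ) * (1 / (Nq : ℝ)) ^ p ≤ Cb * η ^ N := by
    have h1' : (1 / (Nq : ℝ)) ≤ η ^ t := by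
      rw [div_le_iff₀ (by exact_mod_cast hNq1 : (0 : ℝ) < Nq)]
      refine le_trans (le_of_eq ?_) (mul_le_mul_of_nonneg_left hNq (by positivity))
      rw [← rpow_add hη, add_neg_cancel, rpow_zero]
    calc (b : ℝ) * (1 / (Nq : ℝ)) ^ p ≤ Cb * η ^ (-t) * (η ^ t) ^ p := by gcongr
      _ = Cb * η ^ (((p : ℝ) - 1) * t) := by
          rw [mul_assoc, ← rpow_natCast (η ^ t) p, ← rpow_mul hη.le, ← rpow_add hη]
          congr 2; ring
      _ ≤ Cb * η ^ (N : ℝ) := by gcongr ?_ * ?_; exact rpow_le_rpow_of_exponent_ge hη hη1 hpN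
      _ = _ := by rw [rpow_natCast]
  have h2 : exp (-(t₀ * 2 ^ b)) ≤ N.factorial * η ^ N := by
    have hpow : 2 / η ^ (A + 1) ≤ (2 : ℝ) ^ b := by
      have hbl : ((A : ℝ) + 2) * log (1 / η) + log 2 ≤ b * log 2 := by
        have := Nat.le_ceil (2 * ((A : ℝ) + 2) * log (1 / η))
        simp only [b]
        push_cast
        nlinarith [log_two_gt_d9, mul_nonneg (show (0 : ℝ) ≤ (A : ℝ) + 2 by positivity) hl0,
          Nat.cast_nonneg (α := ℝ) ⌈2 * ((A : ℝ) + 2) * log (1 / η)⌉₊]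
      calc 2 / η ^ (A + 1) ≤ 2 / η ^ (A + 2) := div_le_div_of_nonneg_left two_pos.le
            (by positivity) (pow_le_pow_of_le_one hη.le hη1 (by omega))
        _ = exp (((A : ℝ) + 2) * log (1 / η) + log 2) := by
            rw [exp_add, exp_log two_pos, show ((A : ℝ) + 2) = ((A + 2 : ℕ) : ℝ) by push_cast; ring,
              exp_nat_mul, exp_log (one_div_pos.2 hη), one_div, inv_pow]
            ring
        _ ≤ exp (b * log 2) := exp_le_exp.2 hbl
        _ = _ := by rw [exp_nat_mul, exp_log two_pos]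
    have hk : 1 / η ≤ t₀ * 2 ^ b :=
      calc 1 / η = η ^ A / 2 * (2 / η ^ (A + 1)) := by
            field_simp; ring
        _ ≤ _ := mul_le_mul ht₀A hpow (by positivity) ht₀.le
    refine (exp_le_exp.2 (neg_le_neg hk)).trans ?_
    have h3 := pow_div_factorial_le_exp (1 / η) (one_div_pos.2 hη).le N
    rw [one_div, inv_pow, div_le_iff₀ (by exact_mod_cast N.factorial_pos), inv_le_iff_one_le_mul₀
      (by positivity)] at h3
    rw [exp_neg, inv_le_iff_one_le_mul₀ (exp_pos _), one_div]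
    linarith
  calc a ^ 2 * ∫ x, ‖D x‖ ^ 2 ∂gd d ≤ 1 * ((C * δ) ^ 2 * M ^ 2) := by
        refine mul_le_mul (pow_le_one₀ ha0.le ha1.le)
          (hb'.trans (mul_le_mul_of_nonneg_left hG2 (sq_nonneg _)))
          (integral_nonneg fun _ => sq_nonneg _) zero_le_one
    _ = (C * δ * M) ^ 2 := by ring
    _ ≤ _ := by
        refine pow_le_pow_left₀ (by positivity) (mul_le_mul_of_nonneg_right ?_ hM0) 2
        calc C * δ ≤ C * ((Cb + N.factorial) * η ^ N) := by
              refine mul_le_mul_of_nonneg_left ?_ hC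
              rw [add_mul]; exact add_le_add h1 h2
          _ ≤ _ := by
              rw [← mul_assoc]
              refine mul_le_mul_of_nonneg_right (le_trans ?_ (le_add_of_nonneg_left (by positivity)))
                (by positivity)
              exact mul_le_mul_of_nonneg_left (le_add_of_nonneg_right zero_le_one) hC

end Vale.Agent.P347.Shift
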