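import Vale.Agent.P347.Shift.Spec

/-!
# P347, all orders: arithmetic of the exponents

The parameters are exact: `pE K = 1 / (4800 (K + 1) ^ 2)`, `pD K = 300 (K + 1) ^ 2`, so
`pD K * pE K = 1 / 16` and `pTop K * pE K = K + 2`.
-/

open Real

namespace Vale.Agent.P347.Shift

lemma pA_pos (K : ℕ) : 0 < pA K := by unfold pA; positivity

lemma pA_le (K : ℕ) : pA K ≤ 1 / 600 := by
  unfold pA
  exact one_div_le_one_div_of_le (by norm_num) (by linarith [Nat.cast_nonneg (α := ℝ) K])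

lemma pE_eq (K : ℕ) : pE K = 1 / (4800 * ((K : ℝ) + 1) ^ 2) := by
  unfold pE pA
  field_simp
  ring

lemma pE_pos (K : ℕ) : 0 < pE K := by rw [pE_eq]; positivity

lemma pE_le_pA (K : ℕ) : pE K ≤ pA K := by
  unfold pE
  exact div_le_self (pA_pos K).le (by linarith [Nat.cast_nonneg (α := ℝ) K])

lemma pE_le (K : ℕ) : pE K ≤ 1 / 600 := (pE_le_pA K).trans (pA_le K)

lemma pD_eq (K : ℕ) : pD K = 300 * (K + 1) ^ 2 := by
  have h : (1 : ℝ) / (16 * pE K) = ((300 * (K + 1) ^ 2 : ℕ) : ℝ) := by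
    rw [pE_eq]; push_cast; field_simp; ring
  rw [pD, h, Nat.floor_natCast]

lemma pD_pos (K : ℕ) : 0 < pD K := by rw [pD_eq]; positivity

lemma pD_mul_pE (K : ℕ) : (pD K : ℝ) * pE K = 1 / 16 := by
  rw [pD_eq, pE_eq]; push_cast; field_simp; ring

lemma pTop_eq (K : ℕ) : pTop K = 4800 * (K + 1) ^ 2 * (K + 2) := by
  have h : ((K : ℝ) + 2) / pE K = ((4800 * (K + 1) ^ 2 * (K + 2) : ℕ) : ℝ) := by
    rw [pE_eq]; push_cast; field_simp
  rw [pTop, h, Nat.ceil_natCast]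

lemma pTop_mul_pE (K : ℕ) : (pTop K : ℝ) * pE K = (K : ℝ) + 2 := by
  rw [pTop_eq, pE_eq]; push_cast; field_simp

lemma pTop_eq_mul_pD (K : ℕ) : pTop K = 16 * (K + 2) * pD K := by
  rw [pTop_eq, pD_eq]; ring

lemma pTop_pos (K : ℕ) : 0 < pTop K := by rw [pTop_eq]; positivity

/-- The number of blocks of `pD` orders below `n`. -/
lemma blocks_mono (K : ℕ) {m n : ℕ} (h : m ≤ n) :
    (m + pD K - 1) / pD K ≤ (n + pD K - 1) / pD K := Nat.div_le_div_right (by omega)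

lemma pW_zero (K : ℕ) : pW K 0 = 1 / 16 := by
  have h : (0 + pD K - 1) / pD K = 0 := Nat.div_eq_of_lt (by have := pD_pos K; omega)
  rw [pW, h]
  simp

lemma pW_mono (K : ℕ) {m n : ℕ} (h : m ≤ n) : pW K m ≤ pW K n := by
  unfold pW
  gcongr 1 / 16 + 4 * pA K * ?_
  · exact mul_nonneg (by norm_num) (pA_pos K).le
  · exact_mod_cast blocks_mono K h

lemma pW_ge (K n : ℕ) : 1 / 16 ≤ pW K n := pW_zero K ▸ pW_mono K (Nat.zero_le n)

lemma pW_pos (K n : ℕ) : 0 < pW K n := lt_of_lt_of_le (by norm_num) (pW_ge K n)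

/-- One injection drops `pD` orders and frees `4 pA` of threshold. -/
lemma pW_sub_pD (K : ℕ) {n : ℕ} (hn : 0 < n) : pW K n = pW K (n - pD K) + 4 * pA K := by
  have hD := pD_pos K
  have key : (n + pD K - 1) / pD K = (n - pD K + pD K - 1) / pD K + 1 := by
    rcases le_or_gt (pD K) n with h | h
    · rw [Nat.sub_add_cancel h, show n + pD K - 1 = n - 1 + pD K by omega, Nat.add_div_right _ hD]
    · rw [show n - pD K = 0 by omega, zero_add, Nat.div_eq_of_lt (a := pD K - 1) (by omega),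
        show n + pD K - 1 = n - 1 + pD K by omega, Nat.add_div_right _ hD,
        Nat.div_eq_of_lt (a := n - 1) (by omega)]
  unfold pW
  rw [key]
  push_cast
  ring

lemma pW_sub_le (K : ℕ) {n : ℕ} (hn : 0 < n) : pW K (n - pD K) + 4 * pA K ≤ pW K n :=
  (pW_sub_pD K hn).ge

lemma pW_add_pD (K n : ℕ) : pW K (n + pD K) = pW K n + 4 * pA K := by
  rw [pW_sub_pD K (n := n + pD K) (by have := pD_pos K; omega), Nat.add_sub_cancel]

lemma pW_pTop (K : ℕ) : pW K (pTop K) ≤ 3 / 10 := by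
  have h : (pTop K + pD K - 1) / pD K = 16 * (K + 2) := by
    have := pD_pos K
    rw [pTop_eq_mul_pD,
      show 16 * (K + 2) * pD K + pD K - 1 = pD K - 1 + 16 * (K + 2) * pD K by omega,
      Nat.add_mul_div_right _ _ this, Nat.div_eq_of_lt (by omega), zero_add]
  rw [pW, h, pA]
  push_cast
  have hK : (0 : ℝ) ≤ K := Nat.cast_nonneg K
  rw [div_add' _ _ _ (by norm_num), div_le_div_iff₀ (by norm_num) (by norm_num)]
  have : 4 * (1 / (600 * ((K : ℝ) + 1))) * (16 * ((K : ℝ) + 2)) ≤ 128 / 600 := by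
    rw [show 4 * (1 / (600 * ((K : ℝ) + 1))) * (16 * ((K : ℝ) + 2)) =
      64 * ((K : ℝ) + 2) / (600 * ((K : ℝ) + 1)) by field_simp; ring,
      div_le_div_iff₀ (by positivity) (by norm_num)]
    nlinarith
  linarith

lemma pW_le_three_tenths (K : ℕ) {n : ℕ} (hn : n ≤ pTop K) : pW K n ≤ 3 / 10 :=
  (pW_mono K hn).trans (pW_pTop K)

lemma pW_le_half (K : ℕ) {n : ℕ} (hn : n ≤ pTop K) : pW K n ≤ 1 / 2 :=
  (pW_le_three_tenths K hn).trans (by norm_num)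

/-- The margin left for a gain of a full power. -/
lemma pW_add_margin (K : ℕ) {n : ℕ} (hn : n ≤ pTop K) : pW K n + 8 * pA K ≤ 1 / 2 := by
  linarith [pW_le_three_tenths K hn, pA_le K]

lemma order_sub_ge (K n : ℕ) :
    (n : ℝ) * pE K - 1 / 16 ≤ ((n - pD K : ℕ) : ℝ) * pE K := by
  rw [← pD_mul_pE K, ← sub_mul]
  refine mul_le_mul_of_nonneg_right ?_ (pE_pos K).le
  rcases le_or_gt (pD K) n with h | h
  · rw [Nat.cast_sub h]
  · rw [show n - pD K = 0 by omega, Nat.cast_zero, sub_nonpos]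
    exact_mod_cast h.le

lemma order_le_top (K : ℕ) {n : ℕ} (hn : n ≤ pTop K) : (n : ℝ) * pE K ≤ (K : ℝ) + 2 := by
  rw [← pTop_mul_pE K]
  exact mul_le_mul_of_nonneg_right (by exact_mod_cast hn) (pE_pos K).le

variable {η : ℝ}

/-- Powers of a small parameter decrease in the exponent. -/
lemma eta_rpow_le (h0 : 0 < η) (h1 : η ≤ 1) {a b : ℝ} (h : b ≤ a) : η ^ a ≤ η ^ b :=
  rpow_le_rpow_of_exponent_ge h0 h1 h

lemma eta_rpow_le_one (h0 : 0 < η) (h1 : η ≤ 1) {a : ℝ} (h : 0 ≤ a) : η ^ a ≤ 1 :=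
  rpow_le_one h0.le h1 h

lemma one_le_eta_rpow_neg (h0 : 0 < η) (h1 : η ≤ 1) {a : ℝ} (h : 0 ≤ a) : 1 ≤ η ^ (-a) :=
  one_le_rpow_of_pos_of_le_one_of_nonpos h0 h1 (by linarith)

lemma eta_order_le_one (K n : ℕ) (h0 : 0 < η) (h1 : η ≤ 1) : η ^ ((n : ℝ) * pE K) ≤ 1 :=
  eta_rpow_le_one h0 h1 (mul_nonneg (Nat.cast_nonneg n) (pE_pos K).le)

lemma eta_order_anti (K : ℕ) (h0 : 0 < η) (h1 : η ≤ 1) {m n : ℕ} (h : m ≤ n) :
    η ^ ((n : ℝ) * pE K) ≤ η ^ ((m : ℝ) * pE K) :=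
  eta_rpow_le h0 h1 (mul_le_mul_of_nonneg_right (by exact_mod_cast h) (pE_pos K).le)

/-- A gain of `η ^ g` with `g ≥ 1 / 16` pays for dropping `pD` orders. -/
lemma eta_order_gain (K n : ℕ) (h0 : 0 < η) (h1 : η ≤ 1) {g : ℝ} (hg : 1 / 16 ≤ g) :
    η ^ g * η ^ (((n - pD K : ℕ) : ℝ) * pE K) ≤ η ^ ((n : ℝ) * pE K) := by
  rw [← rpow_add h0]
  exact eta_rpow_le h0 h1 (by linarith [order_sub_ge K n])

/-- A gain of one order. -/
lemma eta_order_succ (K n : ℕ) (h0 : 0 < η) (h1 : η ≤ 1) {g : ℝ} (hg : pE K ≤ g) :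
    η ^ g * η ^ ((n : ℝ) * pE K) ≤ η ^ (((n + 1 : ℕ) : ℝ) * pE K) := by
  rw [← rpow_add h0]
  exact eta_rpow_le h0 h1 (by push_cast; linarith)

lemma eta_pW_anti (K : ℕ) (h0 : 0 < η) (h1 : η ≤ 1) {m n : ℕ} (h : m ≤ n) :
    η ^ (-pW K m) ≤ η ^ (-pW K n) := eta_rpow_le h0 h1 (by linarith [pW_mono K h])

/-- The threshold after an injection, with the loss of two derivative products to spare. -/
lemma eta_pW_inject (K : ℕ) (h0 : 0 < η) (h1 : η ≤ 1) {n : ℕ} (hn : 0 < n) {c : ℝ}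
    (hc : c ≤ 4 * pA K) : η ^ (-pW K (n - pD K)) * η ^ (-c) ≤ η ^ (-pW K n) := by
  rw [← rpow_add h0]
  exact eta_rpow_le h0 h1 (by linarith [pW_sub_pD K hn])

/-- At the top order the error is `η ^ (K + 2)`. -/
lemma eta_top (K : ℕ) : η ^ ((pTop K : ℝ) * pE K) = η ^ (K + 2) := by
  rw [pTop_mul_pE, show (K : ℝ) + 2 = ((K + 2 : ℕ) : ℝ) by push_cast; ring, rpow_natCast]

lemma eta_top_le (K : ℕ) (h0 : 0 < η) (h1 : η ≤ 1) :
    η ^ ((pTop K : ℝ) * pE K) ≤ η ^ (K + 2) ∧ η ^ ((pTop K : ℝ) * pE K) ≤ η ^ K := by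
  rw [eta_top]
  exact ⟨le_rfl, pow_le_pow_of_le_one h0.le h1 (by omega)⟩

end Vale.Agent.P347.Shift
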