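import Vale.Agent.P347.Shift.Syntax
import Vale.Agent.P347.Quarter.Gauss
import Vale.Agent.P347.Quarter.Smooth

/-!
# P347: derivatives, transposes and Lipschitz bounds of expressions
-/

open MeasureTheory ProbabilityTheory Filter
open scoped Topology RealInnerProductSpace

namespace Vale.Agent.P347.Shift

open Quarter

variable {κ : Type} {d J : ℕ} {V : κ → Sp d → Sp d} {DV : κ → Sp d → Sp d →L[ℝ] Sp d} {η : κ → ℝ}
  {c : Fin J → Sp d}

section GMean

variable {X E F : Type*} [NormedAddCommGroup X] [NormedSpace ℝ X] [NormedAddCommGroup E]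
  [NormedSpace ℝ E] [NormedAddCommGroup F] [NormedSpace ℝ F]

/-- A map with bounded derivative is integrable along Gaussian affine images. -/
lemma integrable_gmean [SecondCountableTopology E] {f : E → F} {f' : E → E →L[ℝ] F} {C : ℝ}
    (hf : ∀ y, HasFDerivAt f (f' y) y) (hC : ∀ y, ‖f' y‖ ≤ C) (y : E) (S : Sp d →L[ℝ] E) :
    Integrable (fun z => f (y + S z)) (gd d) := by
  have hc : Continuous f := continuous_iff_continuousAt.2 fun x => (hf x).continuousAt
  have hC0 : 0 ≤ C := (norm_nonneg _).trans (hC y)
  refine ((integrable_const ‖f y‖).add (integrable_norm_gd.const_mul (C * ‖S‖))).mono'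
    (hc.comp (by fun_prop)).aestronglyMeasurable (Eventually.of_forall fun z => ?_)
  have h := Convex.norm_image_sub_le_of_norm_hasFDerivWithin_le
    (fun w _ => (hf w).hasFDerivWithinAt) (fun w _ => hC w) convex_univ (Set.mem_univ y)
    (Set.mem_univ (y + S z))
  rw [add_sub_cancel_left] at h
  simp only [Pi.add_apply]
  have h1 := (h.trans (mul_le_mul_of_nonneg_left (S.le_opNorm z) hC0))
  linarith [norm_le_insert' (f (y + S z)) (f y)]

/-- Differentiation under a Gaussian mean. -/
lemma hasFDerivAt_gmean [SecondCountableTopology E] [CompleteSpace F] {f : E → F}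
    {f' : E → E →L[ℝ] F} {C : ℝ}
    (hf : ∀ y, HasFDerivAt f (f' y) y) (hc : Continuous f') (hC : ∀ y, ‖f' y‖ ≤ C)
    (T : X →L[ℝ] E) (S : Sp d →L[ℝ] E) (x : X) :
    HasFDerivAt (fun x => ∫ z, f (T x + S z) ∂gd d)
      (∫ z, (f' (T x + S z)).comp T ∂gd d) x := by
  have hcf : Continuous f := continuous_iff_continuousAt.2 fun x => (hf x).continuousAt
  refine hasFDerivAt_integral_of_dominated_of_fderiv_le (s := Set.univ)
    (F := fun y z => f (T y + S z)) (F' := fun y z => (f' (T y + S z)).comp T)
    (bound := fun _ => C * ‖T‖) univ_mem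
    (Eventually.of_forall fun y => (hcf.comp (by fun_prop)).aestronglyMeasurable)
    (integrable_gmean hf hC _ S)
    ((hc.comp (f := fun z => T x + S z) (by fun_prop)).clm_comp
      continuous_const).aestronglyMeasurable ?_ (integrable_const _) ?_
  · exact Eventually.of_forall fun z y _ => (ContinuousLinearMap.opNorm_comp_le _ _).trans
      (mul_le_mul_of_nonneg_right (hC _) (norm_nonneg _))
  · exact Eventually.of_forall fun z y _ =>
      (hf _).comp y (T.hasFDerivAt.add_const (S z))

end GMean

/-- The insertion of a new first variable. -/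
noncomputable def consL (n : ℕ) : (Fin n → Sp d) →L[ℝ] (Fin (n + 1) → Sp d) :=
  ContinuousLinearMap.pi (Fin.cons 0 fun i => ContinuousLinearMap.proj i)

/-- The first variable. -/
noncomputable def headL (n : ℕ) : Sp d →L[ℝ] (Fin (n + 1) → Sp d) :=
  ContinuousLinearMap.single ℝ (fun _ => Sp d) 0

lemma consL_add_headL {n : ℕ} (x : Fin n → Sp d) (z : Sp d) :
    consL n x + headL n z = Fin.cons z x := by
  funext i
  refine Fin.cases ?_ (fun j => ?_) i <;> simp [consL, headL, Fin.succ_ne_zero]

lemma continuous_cons {n : ℕ} :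
    Continuous fun p : (Fin n → Sp d) × Sp d => (Fin.cons p.2 p.1 : Fin (n + 1) → Sp d) := by
  refine continuous_pi fun i => ?_
  refine Fin.cases ?_ (fun j => ?_) i <;> simp <;> fun_prop

lemma consL_add_headL' {n : ℕ} (x : Fin n → Sp d) (z v : Sp d) :
    consL n x + headL n z + headL n v = Fin.cons (z + v) x := by
  rw [add_assoc, ← map_add, consL_add_headL]

namespace IsBoxes

variable (hB : IsBoxes V DV η)
include hB

lemma integrable_node (k : κ) (σ : ℝ) (y : Sp d) :
    Integrable (fun z => V k ((1:ℝ) • y + σ • z)) (gd d) := by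
  simpa using integrable_gmean (hB.hasDeriv k) (hB.bound k) ((1:ℝ) • y)
    (σ • ContinuousLinearMap.id ℝ (Sp d))

lemma hasFDerivAt_node (k : κ) (σ : ℝ) (y : Sp d) :
    HasFDerivAt (smth 1 σ (V k)) (smth 1 σ (DV k) y) y := by
  unfold smth
  simpa [Function.comp_def] using hasFDerivAt_gmean (hB.hasDeriv k) (hB.cont k) (hB.bound k)
    (ContinuousLinearMap.id ℝ (Sp d)) (σ • ContinuousLinearMap.id ℝ (Sp d)) y

lemma norm_hessAvg_le (k : κ) (σ : ℝ) (y : Sp d) : ‖smth 1 σ (DV k) y‖ ≤ η k := by
  refine (norm_integral_le_of_norm_le_const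
    (Eventually.of_forall fun _ => hB.bound k _)).trans_eq ?_
  simp

lemma continuous_hessAvg (k : κ) (σ : ℝ) : Continuous (smth 1 σ (DV k)) :=
  continuous_of_dominated
    (fun y => ((hB.cont k).comp (f := fun w => (1:ℝ) • y + σ • w) (by fun_prop)).aestronglyMeasurable)
    (fun y => Eventually.of_forall fun w => hB.bound k _) (integrable_const _)
    (Eventually.of_forall fun w => (hB.cont k).comp (f := fun y => (1:ℝ) • y + σ • w) (by fun_prop))

lemma symm_hessAvg (k : κ) (σ : ℝ) (y u v : Sp d) :
    ⟪smth 1 σ (DV k) y u, v⟫ = ⟪u, smth 1 σ (DV k) y v⟫ := by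
  have hi : Integrable (fun w => DV k ((1:ℝ) • y + σ • w)) (gd d) :=
    (integrable_const (η k)).mono'
      ((hB.cont k).comp (f := fun w => (1:ℝ) • y + σ • w) (by fun_prop)).aestronglyMeasurable
      (Eventually.of_forall fun w => hB.bound k _)
  simp only [smth]
  rw [ContinuousLinearMap.integral_apply hi, ContinuousLinearMap.integral_apply hi,
    ← integral_inner (hi.apply_continuousLinearMap v), real_inner_comm,
    ← integral_inner (hi.apply_continuousLinearMap u)]
  exact integral_congr_ae (Eventually.of_forall fun w => by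
    simpa only [real_inner_comm v] using hB.symm k _ u v)

end IsBoxes

namespace Op

lemma wt_nonneg (hη : ∀ k, 0 ≤ η k) {n : ℕ} (P : Op κ J n) : 0 ≤ P.wt η := by
  induction P with
  | scal a => exact abs_nonneg a
  | hess k σ e => exact hη k
  | add P Q hP hQ => exact add_nonneg hP hQ
  | mul P Q hP hQ => exact mul_nonneg hP hQ
  | mean C P hP => exact hP

lemma norm_eval_le (hB : IsBoxes V DV η) {n : ℕ} (P : Op κ J n) :
    ∀ x : Fin n → Sp d, ‖P.eval V DV c x‖ ≤ P.wt η := by
  induction P with
  | scal a =>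
    intro x
    simp only [eval, wt, norm_smul, Real.norm_eq_abs]
    exact mul_le_of_le_one_right (abs_nonneg a) ContinuousLinearMap.norm_id_le
  | hess k σ e => intro x; exact hB.norm_hessAvg_le k σ _
  | add P Q hP hQ => intro x; exact (norm_add_le _ _).trans (add_le_add (hP x) (hQ x))
  | mul P Q hP hQ =>
    intro x
    exact (ContinuousLinearMap.opNorm_comp_le _ _).trans
      (mul_le_mul (hP x) (hQ x) (norm_nonneg _) (P.wt_nonneg hB.nonneg))
  | mean C P hP =>
    intro x
    refine (norm_integral_le_of_norm_le_const (Eventually.of_forall fun z => hP _)).trans_eq ?_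
    simp [wt]

end Op

section Dev

/-- A Gaussian mean is the best constant: deviation from it is at most Lipschitz times `√d`. -/
lemma integral_sq_dev_le {f : Sp d → Sp d} {L : ℝ}
    (hf : ∀ z, ‖f z - f 0‖ ≤ L * ‖z‖) (hc : Continuous f) :
    Integrable (fun z => ‖f z - ∫ w, f w ∂gd d‖ ^ 2) (gd d) ∧
      ∫ z, ‖f z - ∫ w, f w ∂gd d‖ ^ 2 ∂gd d ≤ L ^ 2 * d := by
  obtain ⟨i2, e2⟩ := integral_norm_sq (ι := Fin d)
  rw [Fintype.card_fin] at e2
  have hsq : ∀ z, ‖f z - f 0‖ ^ 2 ≤ L ^ 2 * ‖z‖ ^ 2 := fun z => by
    rw [← mul_pow]; exact pow_le_pow_left₀ (norm_nonneg _) (hf z) 2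
  have hi2 : Integrable (fun z => ‖f z - f 0‖ ^ 2) (gd d) :=
    (i2.const_mul (L ^ 2)).mono' (by fun_prop)
      (Eventually.of_forall fun z => (Real.norm_of_nonneg (sq_nonneg _)).trans_le (hsq z))
  have hi : Integrable (fun z => f z - f 0) (gd d) :=
    (integrable_norm_gd.const_mul L).mono' (by fun_prop) (Eventually.of_forall hf)
  have hm : (∫ w, f w ∂gd d) = (∫ z, (f z - f 0) ∂gd d) + f 0 := by
    have : Integrable f (gd d) := by simpa [Pi.add_def] using hi.add (integrable_const (f 0))
    rw [integral_sub this (integrable_const _)]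
    simp
  set m := ∫ z, (f z - f 0) ∂gd d
  rw [hm]
  have he : ∀ z, ‖f z - (m + f 0)‖ ^ 2 = ‖f z - f 0‖ ^ 2 - 2 * ⟪m, f z - f 0⟫ + ‖m‖ ^ 2 :=
    fun z => by
      rw [show f z - (m + f 0) = (f z - f 0) - m by abel, norm_sub_sq_real, real_inner_comm]
  simp only [he]
  have hin : Integrable (fun z => 2 * ⟪m, f z - f 0⟫) (gd d) := (hi.const_inner m).const_mul 2
  refine ⟨(hi2.sub hin).add (integrable_const _), ?_⟩
  rw [integral_add (f := fun z => ‖f z - f 0‖ ^ 2 - 2 * ⟪m, f z - f 0⟫) (hi2.sub hin)
    (integrable_const _), integral_sub hi2 hin, integral_const_mul, integral_inner hi,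
    integral_const]
  simp only [probReal_univ, one_smul]
  refine le_trans ?_ ((integral_mono hi2 (i2.const_mul (L ^ 2)) hsq).trans_eq ?_)
  · have h : ⟪m, ∫ z, (f z - f 0) ∂gd d⟫ = ‖m‖ ^ 2 := real_inner_self_eq_norm_sq m
    linarith [sq_nonneg ‖m‖]
  · rw [integral_const_mul, e2]

/-- The crude sample of a node. -/
lemma IsBoxes.node_dev_le (hB : IsBoxes V DV η) (k : κ) (σ : ℝ) (y : Sp d) :
    ∫ z, ‖V k ((1:ℝ) • y + σ • z) - smth 1 σ (V k) y‖ ^ 2 ∂gd d ≤ (η k * |σ|) ^ 2 * d := by
  refine (integral_sq_dev_le (f := fun z => V k ((1:ℝ) • y + σ • z)) (fun z => ?_) ?_).2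
  · refine (hB.lipschitz k _ _).trans_eq ?_
    simp [norm_smul, mul_assoc]
  · exact (hB.cont_field k).comp (by fun_prop)

end Dev

namespace Expr

/-- The derivative of the value, as a sum over the variables. -/
noncomputable def jac (V : κ → Sp d → Sp d) (DV : κ → Sp d → Sp d →L[ℝ] Sp d) (c : Fin J → Sp d)
    {n : ℕ} (e : Expr κ J n) (x : Fin n → Sp d) : (Fin n → Sp d) →L[ℝ] Sp d :=
  ∑ i, ((e.deriv i).eval V DV c x).comp (ContinuousLinearMap.proj i)

lemma norm_jac_le (hB : IsBoxes V DV η) {n : ℕ} (e : Expr κ J n) (x : Fin n → Sp d) :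
    ‖e.jac V DV c x‖ ≤ ∑ i, e.lip η i := by
  refine ContinuousLinearMap.opNorm_le_bound _
    (Finset.sum_nonneg fun i _ => e.lip_nonneg hB.nonneg i) fun v => ?_
  simp only [jac, _root_.sum_apply, ContinuousLinearMap.comp_apply,
    ContinuousLinearMap.proj_apply, Finset.sum_mul]
  refine (norm_sum_le _ _).trans (Finset.sum_le_sum fun i _ => ?_)
  exact (ContinuousLinearMap.le_opNorm _ _).trans (mul_le_mul ((e.deriv i).norm_eval_le hB x)
    (norm_le_pi_norm v i) (norm_nonneg _) (e.lip_nonneg hB.nonneg i))

end Expr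

namespace Op

lemma continuous_mean (hB : IsBoxes V DV η) {n : ℕ} (C : Fin J → ℝ) (P : Op κ J (n + 1))
    (hc : Continuous fun x => P.eval V DV c x) :
    Continuous fun x => (Op.mean C P).eval V DV c x := by
  simp only [eval]
  exact continuous_of_dominated
    (fun x => (hc.comp (f := fun z => Fin.cons (z + ∑ j, C j • c j) x)
      (continuous_cons.comp (f := fun z => (x, z + ∑ j, C j • c j))
        (by fun_prop))).aestronglyMeasurable)
    (fun x => Eventually.of_forall fun _ => P.norm_eval_le hB _) (integrable_const _)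
    (Eventually.of_forall fun z => hc.comp (f := fun x => Fin.cons (z + ∑ j, C j • c j) x)
      (continuous_cons.comp (f := fun x => (x, z + ∑ j, C j • c j)) (by fun_prop)))

lemma integrable_cons (hB : IsBoxes V DV η) {n : ℕ} (P : Op κ J (n + 1))
    (hc : Continuous fun x => P.eval V DV c x) (v : Sp d) (x : Fin n → Sp d) :
    Integrable (fun z => P.eval V DV c (Fin.cons (z + v) x)) (gd d) :=
  (integrable_const (P.wt η)).mono'
    (hc.comp (f := fun z => Fin.cons (z + v) x)
      (continuous_cons.comp (f := fun z => (x, z + v)) (by fun_prop))).aestronglyMeasurable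
    (Eventually.of_forall fun _ => P.norm_eval_le hB _)

end Op

namespace Expr

lemma main (hB : IsBoxes V DV η) {n : ℕ} (e : Expr κ J n) :
    (∀ x, HasFDerivAt (e.eval V c) (e.jac V DV c x) x) ∧
      ∀ i, Continuous fun x => (e.deriv i).eval V DV c x := by
  induction e with
  | var j =>
    refine ⟨fun x => ?_, fun i => by simp [deriv, Op.eval, continuous_const]⟩
    have h : (var j : Expr κ J _).jac V DV c x = ContinuousLinearMap.proj j := by
      ext v : 1
      simp only [jac, _root_.sum_apply]
      rw [Finset.sum_eq_single j (fun b _ hb => by simp [deriv, Op.eval, Ne.symm hb]) (by simp)]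
      simp [deriv, Op.eval]
    rw [h]
    exact (ContinuousLinearMap.proj (R := ℝ) (φ := fun _ => Sp d) j).hasFDerivAt
  | zero =>
    refine ⟨fun x => ?_, fun i => by simp [deriv, Op.eval, continuous_const]⟩
    have h : (zero : Expr κ J _).jac V DV c x = 0 := by ext v : 1; simp [jac, deriv, Op.eval]
    rw [h]
    exact hasFDerivAt_const (0 : Sp d) x
  | add e f he hf =>
    refine ⟨fun x => ?_, fun i => (he.2 i).add (hf.2 i)⟩
    have h : (add e f).jac V DV c x = e.jac V DV c x + f.jac V DV c x := by
      simp [jac, deriv, Op.eval, ContinuousLinearMap.add_comp, Finset.sum_add_distrib]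
    rw [h]
    exact (he.1 x).add (hf.1 x)
  | smul a e he =>
    refine ⟨fun x => ?_, fun i => ?_⟩
    · have h : (smul a e).jac V DV c x = a • e.jac V DV c x := by
        ext v : 1
        simp [jac, deriv, Op.eval, Finset.smul_sum]
      rw [h]
      exact (he.1 x).const_smul a
    · simp only [deriv, Op.eval]
      exact continuous_const.clm_comp (he.2 i)
  | node k σ e he =>
    have hce : Continuous fun x => e.eval V c x :=
      continuous_iff_continuousAt.2 fun x => (he.1 x).continuousAt
    refine ⟨fun x => ?_, fun i => ?_⟩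
    · have h : (node k σ e).jac V DV c x =
          (smth 1 σ (DV k) (e.eval V c x)).comp (e.jac V DV c x) := by
        ext v : 1
        simp [jac, deriv, Op.eval]
      rw [h]
      exact (hB.hasFDerivAt_node k σ _).comp x (he.1 x)
    · simp only [deriv, Op.eval]
      exact ((hB.continuous_hessAvg k σ).comp hce).clm_comp (he.2 i)
  | mean C e he =>
    refine ⟨fun x => ?_, fun i => (e.deriv i.succ).continuous_mean hB C (he.2 i.succ)⟩
    have hcj : Continuous fun y => e.jac V DV c y :=
      continuous_finsetSum _ fun i _ => (he.2 i).clm_comp continuous_const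
    set v₀ : Sp d := ∑ j, C j • c j with hv₀
    have h := hasFDerivAt_gmean (f := fun w => e.eval V c (w + headL _ v₀))
      (f' := fun w => e.jac V DV c (w + headL _ v₀))
      (fun w => (hasFDerivAt_comp_add_right _).2 (he.1 _))
      (hcj.comp (f := fun w => w + headL _ v₀) (by fun_prop))
      (fun w => e.norm_jac_le hB _) (consL _) (headL _) x
    simp only [consL_add_headL'] at h
    refine h.congr_fderiv ?_
    ext v : 1
    have hi : Integrable (fun z => (e.jac V DV c (Fin.cons (z + v₀) x)).comp (consL _)) (gd d) :=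
      (integrable_const ((∑ i, e.lip η i) * ‖(consL _ : (Fin _ → Sp d) →L[ℝ] _)‖)).mono'
        ((hcj.comp (f := fun z => Fin.cons (z + v₀) x)
          (continuous_cons.comp (f := fun z => (x, z + v₀)) (by fun_prop))).clm_comp
          continuous_const).aestronglyMeasurable
        (Eventually.of_forall fun z => (ContinuousLinearMap.opNorm_comp_le _ _).trans
          (mul_le_mul_of_nonneg_right (e.norm_jac_le hB _) (norm_nonneg _)))
    rw [ContinuousLinearMap.integral_apply hi]
    have hj : ∀ j, Integrable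
        (fun z => (e.deriv (Fin.succ j)).eval V DV c (Fin.cons (z + v₀) x) (v j)) (gd d) := fun j =>
      ((e.deriv (Fin.succ j)).integrable_cons hB (he.2 _) v₀ x).apply_continuousLinearMap (v j)
    simp only [jac, ContinuousLinearMap.comp_apply, _root_.sum_apply,
      ContinuousLinearMap.proj_apply, deriv, Op.eval]
    simp only [Fin.sum_univ_succ, consL, ContinuousLinearMap.pi_apply, Fin.cons_zero,
      Fin.cons_succ, _root_.zero_apply, ContinuousLinearMap.proj_apply, map_zero, zero_add]
    rw [integral_finsetSum _ fun j _ => hj j]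
    exact Finset.sum_congr rfl fun j _ =>
      (ContinuousLinearMap.integral_apply ((e.deriv j.succ).integrable_cons hB (he.2 _) v₀ x) _).symm

lemma hasFDerivAt_eval (hB : IsBoxes V DV η) {n : ℕ} (e : Expr κ J n) (x : Fin n → Sp d) :
    HasFDerivAt (e.eval V c) (e.jac V DV c x) x := (e.main hB).1 x

lemma continuous_eval (hB : IsBoxes V DV η) {n : ℕ} (e : Expr κ J n) : Continuous (e.eval V c) :=
  continuous_iff_continuousAt.2 fun x => (e.hasFDerivAt_eval hB x).continuousAt

/-- The syntactic Lipschitz bound. -/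
theorem norm_eval_sub_le (hB : IsBoxes V DV η) {n : ℕ} (e : Expr κ J n) (x y : Fin n → Sp d) :
    ‖e.eval V c x - e.eval V c y‖ ≤ ∑ i, e.lip η i * ‖x i - y i‖ := by
  have hd : ∀ t : ℝ, HasDerivAt (fun t : ℝ => e.eval V c (y + t • (x - y)))
      (e.jac V DV c (y + t • (x - y)) (x - y)) t := fun t => by
    have h1 : HasDerivAt (fun t : ℝ => y + t • (x - y)) (x - y) t := by
      simpa using ((hasDerivAt_id t).smul_const (x - y)).const_add y
    exact (e.hasFDerivAt_eval hB _).comp_hasDerivAt t h1
  have h := Convex.norm_image_sub_le_of_norm_hasDerivWithin_le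
    (C := ∑ i, e.lip η i * ‖x i - y i‖)
    (fun t _ => (hd t).hasDerivWithinAt) (fun t _ => ?_) convex_univ (Set.mem_univ (0:ℝ))
    (Set.mem_univ 1)
  · simpa using h
  · simp only [jac, _root_.sum_apply, ContinuousLinearMap.comp_apply,
      ContinuousLinearMap.proj_apply, Pi.sub_apply]
    exact (norm_sum_le _ _).trans (Finset.sum_le_sum fun i _ =>
      ((ContinuousLinearMap.le_opNorm _ _).trans
        (mul_le_mul_of_nonneg_right ((e.deriv i).norm_eval_le hB _) (norm_nonneg _))))

lemma integrable_cons (hB : IsBoxes V DV η) {n : ℕ} (e : Expr κ J (n + 1)) (v : Sp d)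
    (x : Fin n → Sp d) : Integrable (fun z => e.eval V c (Fin.cons (z + v) x)) (gd d) := by
  have h := integrable_gmean (e.hasFDerivAt_eval (c := c) hB) (e.norm_jac_le hB)
    (consL n x + headL n v) (headL n)
  simpa only [add_right_comm _ (headL n v), consL_add_headL'] using h

end Expr

namespace Op

lemma continuous_eval (hB : IsBoxes V DV η) {n : ℕ} (P : Op κ J n) :
    Continuous fun x => P.eval V DV c x := by
  induction P with
  | scal a => exact continuous_const
  | hess k σ e => exact (hB.continuous_hessAvg k σ).comp (e.continuous_eval hB)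
  | add P Q hP hQ => exact hP.add hQ
  | mul P Q hP hQ => exact hP.clm_comp hQ
  | mean C P hP => exact P.continuous_mean hB C hP

/-- The transpose is the adjoint. -/
theorem inner_eval_tr (hB : IsBoxes V DV η) {n : ℕ} (P : Op κ J n) :
    ∀ (x : Fin n → Sp d) (u v : Sp d),
      ⟪P.tr.eval V DV c x u, v⟫ = ⟪u, P.eval V DV c x v⟫ := by
  induction P with
  | scal a => intro x u v; simp [tr, eval, real_inner_smul_left, real_inner_smul_right]
  | hess k σ e => intro x u v; exact hB.symm_hessAvg k σ _ u v
  | add P Q hP hQ => intro x u v; simp [tr, eval, inner_add_left, inner_add_right, hP, hQ]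
  | mul P Q hP hQ => intro x u v; simp [tr, eval, hP, hQ]
  | mean C P hP =>
    intro x u v
    set v₀ : Sp d := ∑ j, C j • c j
    have h1 := P.tr.integrable_cons (c := c) hB (P.tr.continuous_eval hB) v₀ x
    have h2 := P.integrable_cons (c := c) hB (P.continuous_eval hB) v₀ x
    simp only [tr, eval]
    rw [ContinuousLinearMap.integral_apply h1, ContinuousLinearMap.integral_apply h2,
      real_inner_comm, ← integral_inner (h1.apply_continuousLinearMap u),
      ← integral_inner (h2.apply_continuousLinearMap v)]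
    exact integral_congr_ae (Eventually.of_forall fun z => by
      simpa only [real_inner_comm v] using hP (Fin.cons (z + v₀) x) u v)

end Op

namespace Expr

/-- The crude sample of a mean. -/
lemma mean_dev_le (hB : IsBoxes V DV η) {n : ℕ} (C : Fin J → ℝ) (e : Expr κ J (n + 1))
    (x : Fin n → Sp d) :
    ∫ z, ‖e.eval V c (Fin.cons (z + ∑ j, C j • c j) x) - (Expr.mean C e).eval V c x‖ ^ 2 ∂gd d ≤
      e.lip η 0 ^ 2 * d := by
  refine (integral_sq_dev_le (f := fun z => e.eval V c (Fin.cons (z + ∑ j, C j • c j) x))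
    (fun z => ?_) ?_).2
  · refine (e.norm_eval_sub_le hB _ _).trans_eq ?_
    rw [Fin.sum_univ_succ]
    simp
  · exact (e.continuous_eval hB).comp (continuous_cons.comp
      (f := fun z => (x, z + ∑ j, C j • c j)) (by fun_prop))

end Expr

namespace Expr

/-- The syntactic Lipschitz constant in centre `j`. -/
noncomputable def clip (η : κ → ℝ) : {n : ℕ} → Expr κ J n → Fin J → ℝ
  | _, var _, _ => 0
  | _, zero, _ => 0
  | _, add e f, j => e.clip η j + f.clip η j
  | _, smul a e, j => |a| * e.clip η j
  | _, node k _ e, j => η k * e.clip η j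
  | _, mean C e, j => e.clip η j + |C j| * e.lip η 0

lemma clip_nonneg (hη : ∀ k, 0 ≤ η k) {n : ℕ} (e : Expr κ J n) (j : Fin J) :
    0 ≤ e.clip η j := by
  induction e with
  | var i => simp [clip]
  | zero => simp [clip]
  | add e f he hf => exact add_nonneg he hf
  | smul a e he => exact mul_nonneg (abs_nonneg a) he
  | node k σ e he => exact mul_nonneg (hη k) he
  | mean C e he => exact add_nonneg he (mul_nonneg (abs_nonneg _) (e.lip_nonneg hη 0))

/-- The Lipschitz bound jointly in the variables and the centres. -/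
theorem norm_eval_sub_le_joint (hB : IsBoxes V DV η) {n : ℕ} (e : Expr κ J n) :
    ∀ (c' : Fin J → Sp d) (x y : Fin n → Sp d), ‖e.eval V c x - e.eval V c' y‖ ≤
      ∑ i, e.lip η i * ‖x i - y i‖ + ∑ j, e.clip η j * ‖c j - c' j‖ := by
  suffices h : ∀ (c' : Fin J → Sp d) (y : Fin n → Sp d),
      ‖e.eval V c y - e.eval V c' y‖ ≤ ∑ j, e.clip η j * ‖c j - c' j‖ by
    intro c' x y
    exact (norm_sub_le_norm_sub_add_norm_sub _ (e.eval V c y) _).trans
      (add_le_add (e.norm_eval_sub_le hB x y) (h c' y))
  induction e with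
  | var i => intro c' y; simp [eval, clip]
  | zero => intro c' y; simp [eval, clip]
  | add e f he hf =>
    intro c' y
    simp only [eval, clip, add_mul, Finset.sum_add_distrib, add_sub_add_comm]
    exact (norm_add_le _ _).trans (add_le_add (he c' y) (hf c' y))
  | smul a e he =>
    intro c' y
    simp only [eval, clip, mul_assoc, ← Finset.mul_sum, ← smul_sub, norm_smul, Real.norm_eq_abs]
    exact mul_le_mul_of_nonneg_left (he c' y) (abs_nonneg a)
  | node k σ e he =>
    intro c' y
    simp only [eval, clip, mul_assoc, ← Finset.mul_sum, smth]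
    rw [← integral_sub (hB.integrable_node k σ _) (hB.integrable_node k σ _)]
    refine (norm_integral_le_of_norm_le_const (Eventually.of_forall fun z => ?_)).trans_eq
      (by rw [probReal_univ, mul_one])
    refine (hB.lipschitz k _ _).trans (mul_le_mul_of_nonneg_left ?_ (hB.nonneg k))
    simpa using he c' y
  | mean C e he =>
    intro c' y
    simp only [eval]
    rw [← integral_sub (e.integrable_cons hB _ y) (e.integrable_cons hB _ y)]
    refine (norm_integral_le_of_norm_le_const
      (C := ∑ j, (Expr.mean C e).clip η j * ‖c j - c' j‖)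
      (Eventually.of_forall fun z => ?_)).trans_eq (by rw [probReal_univ, mul_one])
    refine (norm_sub_le_norm_sub_add_norm_sub _
      (e.eval V c (Fin.cons (z + ∑ j, C j • c' j) y)) _).trans ?_
    have h1 := e.norm_eval_sub_le (c := c) hB (Fin.cons (z + ∑ j, C j • c j) y)
      (Fin.cons (z + ∑ j, C j • c' j) y)
    simp only [Fin.sum_univ_succ, Fin.cons_zero, Fin.cons_succ, sub_self, norm_zero, mul_zero,
      Finset.sum_const_zero, add_zero, add_sub_add_left_eq_sub] at h1
    have h2 : ‖(∑ j, C j • c j) - ∑ j, C j • c' j‖ ≤ ∑ j, |C j| * ‖c j - c' j‖ := by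
      rw [← Finset.sum_sub_distrib]
      exact (norm_sum_le _ _).trans_eq (Finset.sum_congr rfl fun j _ => by
        rw [← smul_sub, norm_smul, Real.norm_eq_abs])
    refine (add_le_add (h1.trans (mul_le_mul_of_nonneg_left h2 (e.lip_nonneg hB.nonneg 0)))
      (he c' _)).trans_eq ?_
    simp only [clip, add_mul, Finset.sum_add_distrib, Finset.mul_sum]
    rw [add_comm]
    congr 1
    exact Finset.sum_congr rfl fun j _ => by ring

end Expr

end Vale.Agent.P347.Shift
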