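import Vale.Agent.P347.Shift.Spec
import Vale.Agent.P347.Shift.SyntaxDeriv

/-!
# P347: node centres and values of expressions under renaming, substitution and motion

`cen` of a renamed or substituted expression, the variation of values and of node centres in the
variables and in the centres (measured by their rooms), and the mean square of the node centres
over a bound variable.
-/

open MeasureTheory ProbabilityTheory Real

namespace Vale.Agent.P347.Shift

open Quarter

variable {κ : Type} {d J : ℕ}

/-- Fields are boxes. -/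
lemma isBoxes_of_isField {L : ℝ} (hL : 0 ≤ L) {V : κ → Sp d → Sp d}
    (hV : ∀ k, IsField L (V k)) : IsBoxes V (fun k => fderiv ℝ (V k)) fun _ => L :=
  ⟨fun _ => hL, fun k x => ((hV k).smooth.differentiable one_ne_zero x).hasFDerivAt,
    fun k => (hV k).smooth.continuous_fderiv one_ne_zero, fun k => (hV k).sym,
    fun k => (hV k).bound⟩

namespace Expr

variable {L η B R w : ℝ} {sc : κ → ℝ} {kap : Fin J → ℝ}

/-! ### Algebra -/

lemma cen_nonneg (V : κ → Sp d → Sp d) (c : Fin J → Sp d) {n : ℕ} (e : Expr κ J n) :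
    ∀ x : Fin n → Sp d, 0 ≤ e.cen V c x := by
  induction e with
  | var i => intro x; exact le_rfl
  | zero => intro x; exact le_rfl
  | add e f he hf => intro x; exact le_max_of_le_left (he x)
  | smul t e he => intro x; exact he x
  | node k σ e he => intro x; exact le_max_of_le_right (he x)
  | mean C e he => intro x; exact he _

/-- The node centres of a renamed expression. -/
lemma cen_ren (V : κ → Sp d → Sp d) (c : Fin J → Sp d) {n : ℕ} (e : Expr κ J n) :
    ∀ {m : ℕ} (r : Fin n → Fin m) (x : Fin m → Sp d),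
      (e.ren r).cen V c x = e.cen V c (x ∘ r) := by
  induction e with
  | var i => intro m r x; rfl
  | zero => intro m r x; rfl
  | add e f he hf => intro m r x; simp [ren, cen, he, hf]
  | smul t e he => intro m r x; simp [ren, cen, he]
  | node k σ e he => intro m r x; simp [ren, cen, he, eval_ren]
  | mean C e he =>
    intro m r x
    simp only [ren, cen, he]
    congr 1; funext i
    refine Fin.cases ?_ (fun j => ?_) i <;> simp

/-- The node centres of a substituted expression. -/
lemma cen_subst_le (V : κ → Sp d → Sp d) (c : Fin J → Sp d) {n : ℕ} (e : Expr κ J n) :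
    ∀ {m : ℕ} (s : Fin n → Expr κ J m) (x : Fin m → Sp d) (M : ℝ), 0 ≤ M →
      (∀ j, (s j).cen V c x ≤ M) →
      (e.subst s).cen V c x ≤ max (e.cen V c fun j => (s j).eval V c x) M := by
  induction e with
  | var i => intro m s x M _ h; exact (h i).trans (le_max_right _ _)
  | zero => intro m s x M hM _; exact le_max_of_le_left le_rfl
  | add e f he hf =>
    intro m s x M hM h
    exact max_le ((he s x M hM h).trans (max_le_max (le_max_left _ _) le_rfl))
      ((hf s x M hM h).trans (max_le_max (le_max_right _ _) le_rfl))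
  | smul t e he => intro m s x M hM h; exact he s x M hM h
  | node k σ e he =>
    intro m s x M hM h
    simp only [subst, cen, eval_subst]
    exact max_le (le_max_of_le_left (le_max_left _ _))
      ((he s x M hM h).trans (max_le_max (le_max_right _ _) le_rfl))
  | mean C e he =>
    intro m s x M hM h
    simp only [subst, cen]
    refine (he (lift s) _ M hM fun j => ?_).trans (le_of_eq ?_)
    · refine Fin.cases ?_ (fun j => ?_) j
      · simpa [lift, cen] using hM
      · simpa [lift, cen_ren, Function.comp_def] using h j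
    · congr 2; funext i
      refine Fin.cases ?_ (fun j => ?_) i
      · simp [lift, eval]
      · simp [lift, eval_ren, Function.comp_def]

/-- Substitution does not remove node centres. -/
lemma le_cen_subst (V : κ → Sp d → Sp d) (c : Fin J → Sp d) {n : ℕ} (e : Expr κ J n) :
    ∀ {m : ℕ} (s : Fin n → Expr κ J m) (x : Fin m → Sp d),
      (e.cen V c fun j => (s j).eval V c x) ≤ (e.subst s).cen V c x := by
  induction e with
  | var i => intro m s x; exact (s i).cen_nonneg V c x
  | zero => intro m s x; exact le_rfl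
  | add e f he hf => intro m s x; exact max_le_max (he s x) (hf s x)
  | smul t e he => intro m s x; exact he s x
  | node k σ e he =>
    intro m s x
    simp only [subst, cen, eval_subst]
    exact max_le_max le_rfl (he s x)
  | mean C e he =>
    intro m s x
    simp only [subst, cen]
    refine le_trans (le_of_eq ?_) (he (lift s) _)
    congr 1; funext i
    refine Fin.cases ?_ (fun j => ?_) i
    · simp [lift, eval]
    · simp [lift, eval_ren, Function.comp_def]

/-! ### Variation -/

lemma norm_sum_smul_sub_le (hkap : ∀ j, 0 < kap j) {C : Fin J → ℝ}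
    (hC : ∑ j, (C j * kap j) ^ 2 ≤ 1 / 4) (c c' : Fin J → Sp d) :
    ‖(∑ j, C j • c j) - ∑ j, C j • c' j‖ ≤ ∑ j, ‖c j - c' j‖ / kap j := by
  rw [← Finset.sum_sub_distrib]
  refine (norm_sum_le _ _).trans (Finset.sum_le_sum fun j _ => ?_)
  rw [← smul_sub, norm_smul, Real.norm_eq_abs, le_div_iff₀ (hkap j)]
  have h1 : (|C j| * kap j) ^ 2 ≤ 1 := by
    refine le_trans ?_ (hC.trans (by norm_num : (1 / 4 : ℝ) ≤ 1))
    refine le_trans (le_of_eq ?_) (Finset.single_le_sum (fun i _ => sq_nonneg (C i * kap i))
      (Finset.mem_univ j))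
    rw [mul_pow, mul_pow, sq_abs]
  have h2 : |C j| * kap j ≤ 1 := (sq_le_one_iff₀ (by positivity [(hkap j).le])).1 h1
  nlinarith [mul_le_mul_of_nonneg_left h2 (norm_nonneg (c j - c' j))]

/-- The part outside the linear one moves by at most `B` times the size, in the unit of the motion
of the variables and of the centres measured by their rooms. -/
theorem norm_eval_sub_aff_le (hL : 0 ≤ L) (hB : 1 ≤ B)
    {V : κ → Sp d → Sp d} (hV : ∀ k, IsField L (V k)) (hkap : ∀ j, 0 < kap j)
    (c c' : Fin J → Sp d) {n : ℕ} (e : Expr κ J n) :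
    e.Good η L sc B R w → e.Fill kap → ∀ (x y : Fin n → Sp d) (M : ℝ), (∀ i, ‖x i - y i‖ ≤ M) →
      ∑ j, ‖c j - c' j‖ / kap j ≤ M →
      ‖e.eval V c x - e.eval V c' y - ∑ i, e.aff i • (x i - y i)‖ ≤ B * e.sm L sc * M := by
  have hbox := isBoxes_of_isField hL hV
  induction e with
  | var j => intro _ _ x y M _ _; simp [eval, aff, sm, ite_smul]
  | zero => intro _ _ x y M _ _; simp [eval, aff, sm]
  | add e f he hf =>
    intro hg hF x y M hx hc
    simp only [eval, aff, sm, add_smul, Finset.sum_add_distrib, mul_add, add_mul]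
    refine le_trans (le_of_eq ?_)
      ((norm_add_le _ _).trans (add_le_add (he hg.1 hF.1 x y M hx hc) (hf hg.2 hF.2 x y M hx hc)))
    congr 1
    abel
  | smul t e he =>
    intro hg hF x y M hx hc
    simp only [eval, aff, sm, mul_smul, ← Finset.smul_sum, ← smul_sub, norm_smul, Real.norm_eq_abs]
    exact (mul_le_mul_of_nonneg_left (he hg hF x y M hx hc) (abs_nonneg t)).trans_eq (by ring)
  | node k σ e he =>
    intro hg hF x y M hx hc
    obtain ⟨-, -, -, -, h5, -, h7⟩ := hg
    have hM : 0 ≤ M := (Finset.sum_nonneg fun j _ =>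
      div_nonneg (norm_nonneg _) (hkap j).le).trans hc
    have he' := he h7 hF x y M hx hc
    have hlin : ‖∑ i, e.aff i • (x i - y i)‖ ≤ (∑ i, |e.aff i|) * M := by
      rw [Finset.sum_mul]
      refine (norm_sum_le _ _).trans (Finset.sum_le_sum fun i _ => ?_)
      rw [norm_smul, Real.norm_eq_abs]
      exact mul_le_mul_of_nonneg_left (hx i) (abs_nonneg _)
    simp only [eval, aff, zero_smul, Finset.sum_const_zero, sub_zero, sm, smth]
    rw [← integral_sub (hbox.integrable_node k σ _) (hbox.integrable_node k σ _)]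
    refine (norm_integral_le_of_norm_le_const
      (C := L * ((∑ i, |e.aff i|) * M + B * e.sm L sc * M))
      (Filter.Eventually.of_forall fun z => ?_)).trans ?_
    · refine (hbox.lipschitz k _ _).trans (mul_le_mul_of_nonneg_left ?_ hL)
      simp only [one_smul, add_sub_add_right_eq_sub]
      refine le_trans ?_ (add_le_add hlin he')
      refine le_trans (le_of_eq ?_) (norm_add_le _ _)
      congr 1
      abel
    · rw [probReal_univ, mul_one]
      have := mul_le_mul_of_nonneg_left (mul_le_mul_of_nonneg_right h5 hM) hL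
      linarith
  | mean C e he =>
    intro hg hF x y M hx hc
    obtain ⟨hC, hF⟩ := hF
    set v := ∑ j, C j • c j
    set v' := ∑ j, C j • c' j
    have hM : 0 ≤ M := (Finset.sum_nonneg fun j _ =>
      div_nonneg (norm_nonneg _) (hkap j).le).trans hc
    have hv : ‖v - v'‖ ≤ M := by
      refine le_trans ?_ hc
      rw [← Finset.sum_sub_distrib]
      refine (norm_sum_le _ _).trans (Finset.sum_le_sum fun j _ => ?_)
      rw [← smul_sub, norm_smul, Real.norm_eq_abs, le_div_iff₀ (hkap j)]
      have h1 : (|C j| * kap j) ^ 2 ≤ 1 := by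
        refine le_trans ?_ (hC.trans (by norm_num : (1 / 4 : ℝ) ≤ 1))
        refine le_trans (le_of_eq ?_) (Finset.single_le_sum (fun i _ => sq_nonneg (C i * kap i))
          (Finset.mem_univ j))
        rw [mul_pow, mul_pow, sq_abs]
      have h2 : |C j| * kap j ≤ 1 := (sq_le_one_iff₀ (by positivity [(hkap j).le])).1 h1
      nlinarith [mul_le_mul_of_nonneg_left h2 (norm_nonneg (c j - c' j))]
    simp only [eval, aff, sm]
    rw [← integral_sub (e.integrable_cons hbox v x) (e.integrable_cons hbox v' y)]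
    have hk : ∑ i, e.aff (Fin.succ i) • (x i - y i) =
        ∫ _z : Sp d, ∑ i, e.aff (Fin.succ i) • (x i - y i) ∂gd d := by simp
    rw [hk, ← integral_sub ((e.integrable_cons hbox v x).sub' (e.integrable_cons hbox v' y))
      (integrable_const _)]
    refine (norm_integral_le_of_norm_le_const (C := B * (e.sm L sc + |e.aff 0|) * M)
      (Filter.Eventually.of_forall fun z => ?_)).trans_eq (by rw [probReal_univ, mul_one])
    have h := he hg hF (Fin.cons (z + v) x) (Fin.cons (z + v') y) M
      (fun i => Fin.cases (by simpa using hv) (fun j => by simpa using hx j) i) hc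
    simp only [Fin.sum_univ_succ, Fin.cons_zero, Fin.cons_succ, add_sub_add_left_eq_sub] at h
    refine le_trans (le_of_eq ?_) ((norm_add_le _ (e.aff 0 • (v - v'))).trans
      ((add_le_add h (le_of_eq (norm_smul _ _))).trans ?_))
    · congr 1
      abel
    · rw [Real.norm_eq_abs]
      nlinarith [mul_le_mul_of_nonneg_left hv (abs_nonneg (e.aff 0)),
        mul_le_mul_of_nonneg_right hB (mul_nonneg (abs_nonneg (e.aff 0)) hM)]

/-- Values move by the linear part plus `B` times the size. -/
theorem norm_eval_sub_le_sm (hL : 0 ≤ L) (hB : 1 ≤ B)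
    {V : κ → Sp d → Sp d} (hV : ∀ k, IsField L (V k)) (hkap : ∀ j, 0 < kap j)
    (c c' : Fin J → Sp d) {n : ℕ} (e : Expr κ J n) (hg : e.Good η L sc B R w) (hF : e.Fill kap)
    (x y : Fin n → Sp d) (M : ℝ) (hx : ∀ i, ‖x i - y i‖ ≤ M)
    (hc : ∑ j, ‖c j - c' j‖ / kap j ≤ M) :
    ‖e.eval V c x - e.eval V c' y‖ ≤ (∑ i, |e.aff i| + B * e.sm L sc) * M := by
  refine (norm_le_norm_add_norm_sub' _ (∑ i, e.aff i • (x i - y i))).trans ?_
  rw [add_mul]
  refine add_le_add ?_ (e.norm_eval_sub_aff_le hL hB hV hkap c c' hg hF x y M hx hc)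
  rw [Finset.sum_mul]
  refine (norm_sum_le _ _).trans (Finset.sum_le_sum fun i _ => ?_)
  rw [norm_smul, Real.norm_eq_abs]
  exact mul_le_mul_of_nonneg_left (hx i) (abs_nonneg _)

/-- The node centres move by at most `2 B ^ 4` units. -/
theorem cen_le_add (hL : 0 ≤ L) (hB : 1 ≤ B) (hw : η ^ w ≤ 1)
    {V : κ → Sp d → Sp d} (hV : ∀ k, IsField L (V k)) (hkap : ∀ j, 0 < kap j)
    (c c' : Fin J → Sp d) {n : ℕ} (e : Expr κ J n) :
    e.Good η L sc B R w → e.Fill kap → ∀ (x y : Fin n → Sp d) (M : ℝ), (∀ i, ‖x i - y i‖ ≤ M) →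
      ∑ j, ‖c j - c' j‖ / kap j ≤ M →
      e.cen V c x ≤ e.cen V c' y + 2 * B ^ 4 * M := by
  induction e with
  | var i =>
    intro _ _ x y M _ hc
    simp only [cen, zero_add]
    exact mul_nonneg (by positivity) ((Finset.sum_nonneg fun j _ =>
      div_nonneg (norm_nonneg _) (hkap j).le).trans hc)
  | zero =>
    intro _ _ x y M _ hc
    simp only [cen, zero_add]
    exact mul_nonneg (by positivity) ((Finset.sum_nonneg fun j _ =>
      div_nonneg (norm_nonneg _) (hkap j).le).trans hc)
  | add e f he hf =>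
    intro hg hF x y M hx hc
    simp only [cen, ← max_add_add_right]
    exact max_le_max (he hg.1 hF.1 x y M hx hc) (hf hg.2 hF.2 x y M hx hc)
  | smul t e he => intro hg hF x y M hx hc; exact he hg hF x y M hx hc
  | node k σ e he =>
    intro hg hF x y M hx hc
    obtain ⟨hσ, h2, h3, -, h5, h6, h7⟩ := hg
    have hM : 0 ≤ M := (Finset.sum_nonneg fun j _ =>
      div_nonneg (norm_nonneg _) (hkap j).le).trans hc
    have hB0 : 0 ≤ B := zero_le_one.trans hB
    have hB24 : B ^ 2 ≤ B ^ 4 := pow_le_pow_right₀ hB (by norm_num)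
    have h8 : ∑ i, |e.aff i| ≤ B ^ 4 :=
      (h5.trans (mul_le_mul_of_nonneg_left h3 hB0)).trans (le_of_eq (sq B).symm |>.trans hB24)
    have hσB : σ ≤ B ^ 2 := (h2.trans (mul_le_mul_of_nonneg_left h3 hB0)).trans_eq (sq B).symm
    have h9 : B * e.sm L sc ≤ B ^ 4 := by
      refine (mul_le_mul_of_nonneg_left (h6.trans (mul_le_of_le_one_right
        (mul_nonneg hB0 hσ.le) hw)) hB0).trans ?_
      calc B * (B * σ) ≤ B * (B * B ^ 2) := by gcongr
        _ = B ^ 4 := by ring
    simp only [cen, ← max_add_add_right]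
    refine max_le_max ((norm_le_norm_add_norm_sub' _ (e.eval V c' y)).trans (add_le_add le_rfl ?_))
      (he h7 hF x y M hx hc)
    refine (e.norm_eval_sub_le_sm hL hB hV hkap c c' h7 hF x y M hx hc).trans ?_
    exact mul_le_mul_of_nonneg_right (by linarith) hM
  | mean C e he =>
    intro hg hF x y M hx hc
    exact he hg hF.2 _ _ M (fun i => Fin.cases
      (by simpa using (norm_sum_smul_sub_le hkap hF.1 c c').trans hc)
      (fun j => by simpa using hx j) i) hc

/-- The node centres under a mean, at a bound variable `z` away from its mean. -/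
theorem cen_cons_le (hL : 0 ≤ L) (hB : 1 ≤ B) (hw : η ^ w ≤ 1)
    {V : κ → Sp d → Sp d} (hV : ∀ k, IsField L (V k)) (hkap : ∀ j, 0 < kap j)
    (c : Fin J → Sp d) {n : ℕ} (C : Fin J → ℝ) (e : Expr κ J (n + 1))
    (hg : e.Good η L sc B R w) (hF : e.Fill kap) (x : Fin n → Sp d) (z : Sp d) :
    e.cen V c (Fin.cons (z + ∑ j, C j • c j) x) ≤
      (Expr.mean C e).cen V c x + 2 * B ^ 4 * ‖z‖ :=
  e.cen_le_add hL hB hw hV hkap c c hg hF _ _ ‖z‖
    (fun i => Fin.cases (by simp) (fun j => by simp) i) (by simp)

/-- Values are continuous in the variables and the centres together. -/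
lemma continuous_eval_joint {V : κ → Sp d → Sp d} {DV : κ → Sp d → Sp d →L[ℝ] Sp d} {e' : κ → ℝ}
    (hV : IsBoxes V DV e') {n : ℕ} (e : Expr κ J n) :
    Continuous fun p : (Fin J → Sp d) × (Fin n → Sp d) => e.eval V p.1 p.2 := by
  refine (LipschitzWith.of_dist_le'
    (K := ∑ i, e.lip e' i + ∑ j, e.clip e' j) fun p q => ?_).continuous
  rw [dist_eq_norm, dist_eq_norm]
  refine (e.norm_eval_sub_le_joint hV q.1 p.2 q.2).trans ?_
  rw [add_mul, Finset.sum_mul, Finset.sum_mul]
  exact add_le_add
    (Finset.sum_le_sum fun i _ => mul_le_mul_of_nonneg_left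
      ((norm_le_pi_norm (p.2 - q.2) i).trans (norm_snd_le (p - q))) (e.lip_nonneg hV.nonneg i))
    (Finset.sum_le_sum fun j _ => mul_le_mul_of_nonneg_left
      ((norm_le_pi_norm (p.1 - q.1) j).trans (norm_fst_le (p - q))) (e.clip_nonneg hV.nonneg j))

/-- The node centres are continuous in the variables and the centres together. -/
lemma continuous_cen {V : κ → Sp d → Sp d} {DV : κ → Sp d → Sp d →L[ℝ] Sp d} {e' : κ → ℝ}
    (hV : IsBoxes V DV e') {n : ℕ} (e : Expr κ J n) :
    Continuous fun p : (Fin J → Sp d) × (Fin n → Sp d) => e.cen V p.1 p.2 := by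
  induction e with
  | var i => exact continuous_const
  | zero => exact continuous_const
  | add e f he hf => exact he.max hf
  | smul t e he => exact he
  | node k σ e he => exact (e.continuous_eval_joint hV).norm.max he
  | mean C e he =>
    exact he.comp (continuous_fst.prodMk (continuous_cons.comp
      (f := fun p : (Fin J → Sp d) × (Fin _ → Sp d) => (p.2, ∑ j, C j • p.1 j)) (by fun_prop)))

lemma measurable_cen {α : Type} [MeasurableSpace α] {V : κ → Sp d → Sp d}
    {DV : κ → Sp d → Sp d →L[ℝ] Sp d} {e' : κ → ℝ} (hV : IsBoxes V DV e') {n : ℕ}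
    (e : Expr κ J n) {c : α → Fin J → Sp d} {X : α → Fin n → Sp d} (hc : Measurable c)
    (hX : Measurable X) : Measurable fun a => e.cen V (c a) (X a) :=
  (e.continuous_cen hV).measurable.comp (hc.prodMk hX)

/-- Mean square of the node centres over a bound variable. -/
theorem lintegral_sq_cen_le (hL : 0 ≤ L) (hB : 1 ≤ B) (hw : η ^ w ≤ 1)
    {V : κ → Sp d → Sp d} (hV : ∀ k, IsField L (V k)) (hkap : ∀ j, 0 < kap j)
    (c : Fin J → Sp d) {n : ℕ} (C : Fin J → ℝ) (e : Expr κ J (n + 1))
    (hg : e.Good η L sc B R w) (hF : e.Fill kap) (x : Fin n → Sp d) {t : ℝ} (ht : 0 ≤ t) :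
    ∫⁻ z, ENNReal.ofReal ((t + e.cen V c (Fin.cons (z + ∑ j, C j • c j) x)) ^ 2) ∂gd d ≤
      ENNReal.ofReal ((t + (Expr.mean C e).cen V c x + 2 * B ^ 4 * √d) ^ 2) := by
  set A := t + (Expr.mean C e).cen V c x with hA
  set K := 2 * B ^ 4 with hK
  have hA0 : 0 ≤ A := add_nonneg ht (cen_nonneg V c _ x)
  have hK0 : 0 ≤ K := by positivity
  obtain ⟨i2, e2⟩ := integral_norm_sq (ι := Fin d)
  rw [Fintype.card_fin] at e2
  have hint : Integrable (fun z : Sp d => (A + K * ‖z‖) ^ 2) (gd d) := by
    have h := ((integrable_const (A ^ 2)).fun_add ((integrable_norm_gd (d := d)).const_mul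
      (2 * A * K))).fun_add (i2.const_mul (K ^ 2))
    exact h.congr (Filter.Eventually.of_forall fun z => by ring)
  have h1 : ∫ z, ‖z‖ ∂gd d ≤ √d := by
    refine (le_sqrt (integral_nonneg fun _ => norm_nonneg _) (Nat.cast_nonneg d)).2 ?_
    have h := variance_nonneg (fun z : Sp d => ‖z‖) (gd d)
    rw [variance_eq_sub ((memLp_two_iff_integrable_sq
      (by fun_prop : AEStronglyMeasurable (fun z : Sp d => ‖z‖) (gd d))).2 i2)] at h
    simp only [Pi.pow_apply] at h
    linarith
  calc ∫⁻ z, ENNReal.ofReal ((t + e.cen V c (Fin.cons (z + ∑ j, C j • c j) x)) ^ 2) ∂gd d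
      ≤ ∫⁻ z, ENNReal.ofReal ((A + K * ‖z‖) ^ 2) ∂gd d := by
        refine lintegral_mono fun z => ENNReal.ofReal_le_ofReal (pow_le_pow_left₀
          (add_nonneg ht (e.cen_nonneg V c _)) ?_ 2)
        rw [hA, hK, add_assoc]
        exact add_le_add le_rfl (e.cen_cons_le hL hB hw hV hkap c C hg hF x z)
    _ = ENNReal.ofReal (∫ z, (A + K * ‖z‖) ^ 2 ∂gd d) :=
        (ofReal_integral_eq_lintegral_ofReal hint
          (Filter.Eventually.of_forall fun _ => sq_nonneg _)).symm
    _ ≤ _ := by
        refine ENNReal.ofReal_le_ofReal ?_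
        have he : ∫ z, (A + K * ‖z‖) ^ 2 ∂gd d = A ^ 2 + 2 * A * K * (∫ z, ‖z‖ ∂gd d) + K ^ 2 * d := by
          rw [integral_congr_ae (Filter.Eventually.of_forall fun z => show
            (A + K * ‖z‖) ^ 2 = A ^ 2 + 2 * A * K * ‖z‖ + K ^ 2 * ‖z‖ ^ 2 by ring)]
          rw [integral_add ((integrable_const _).fun_add (integrable_norm_gd.const_mul _))
            (i2.const_mul _), integral_add (integrable_const _) (integrable_norm_gd.const_mul _),
            integral_const_mul, integral_const_mul, e2]
          simp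
        rw [he]
        nlinarith [mul_le_mul_of_nonneg_left h1 (by positivity : 0 ≤ 2 * A * K),
          sq_sqrt (Nat.cast_nonneg (α := ℝ) d)]

end Expr

end Vale.Agent.P347.Shift
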