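import Vale.Agent.P347.Shift.Spec

/-!
# P347: sizes of renamed, substituted and summed expressions

`Sens` bounds the Lipschitz constant, in one chosen variable, of every node centre against the
smoothing of its node: it is what substitution into that variable needs.
-/

open Finset

namespace Vale.Agent.P347.Shift.Expr

open Quarter

variable {κ : Type} {J : ℕ} {η L : ℝ} {sc : κ → ℝ} {B R w : ℝ}

/-- Every node centre is `Γ σ`-Lipschitz in variable `i`. -/
def Sens (L Γ : ℝ) : {n : ℕ} → Expr κ J n → Fin n → Prop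
  | _, var _, _ => True
  | _, zero, _ => True
  | _, add e f, i => e.Sens L Γ i ∧ f.Sens L Γ i
  | _, smul _ e, i => e.Sens L Γ i
  | _, node _ σ e, i => e.lip (fun _ => L) i ≤ Γ * σ ∧ e.Sens L Γ i
  | _, mean _ e, i => e.Sens L Γ i.succ

/-- A finite sum. -/
def esum {n : ℕ} : {m : ℕ} → (Fin m → Expr κ J n) → Expr κ J n
  | 0, _ => zero
  | _ + 1, f => add (f 0) (esum fun i => f i.succ)

/-! ### Finite sums -/

lemma eval_esum {d : ℕ} (V : κ → Sp d → Sp d) (c : Fin J → Sp d) {n : ℕ} (x : Fin n → Sp d) :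
    ∀ {m : ℕ} (f : Fin m → Expr κ J n), (esum f).eval V c x = ∑ i, (f i).eval V c x
  | 0, f => by simp [esum, eval]
  | m + 1, f => by rw [esum, eval, eval_esum V c x, Fin.sum_univ_succ]

lemma aff_esum {n : ℕ} (i : Fin n) :
    ∀ {m : ℕ} (f : Fin m → Expr κ J n), (esum f).aff i = ∑ j, (f j).aff i
  | 0, f => by simp [esum, aff]
  | m + 1, f => by rw [esum, aff, aff_esum i, Fin.sum_univ_succ]

lemma sm_esum {n : ℕ} :
    ∀ {m : ℕ} (f : Fin m → Expr κ J n), (esum f).sm L sc = ∑ j, (f j).sm L sc
  | 0, f => by simp [esum, sm]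
  | m + 1, f => by rw [esum, sm, sm_esum, Fin.sum_univ_succ]

lemma lip_esum (ν : κ → ℝ) {n : ℕ} (i : Fin n) :
    ∀ {m : ℕ} (f : Fin m → Expr κ J n), (esum f).lip ν i = ∑ j, (f j).lip ν i
  | 0, f => by simp [esum, lip, deriv, Op.wt]
  | m + 1, f => by rw [esum, lip_add, lip_esum ν i, Fin.sum_univ_succ]

lemma depth_esum_le {n D : ℕ} :
    ∀ {m : ℕ} {f : Fin m → Expr κ J n}, (∀ j, (f j).depth ≤ D) → (esum f).depth ≤ D
  | 0, f, _ => by simp [esum, depth]
  | m + 1, f, h => by
    rw [esum, depth]
    exact max_le (h 0) (depth_esum_le fun j => h j.succ)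

lemma size_esum {n : ℕ} :
    ∀ {m : ℕ} (f : Fin m → Expr κ J n), (esum f).size = 1 + ∑ j, ((f j).size + 1)
  | 0, f => by simp [esum, size]
  | m + 1, f => by rw [esum, size, size_esum, Fin.sum_univ_succ]; ring

lemma good_esum {n : ℕ} :
    ∀ {m : ℕ} {f : Fin m → Expr κ J n}, (∀ j, (f j).Good η L sc B R w) →
      (esum f).Good η L sc B R w
  | 0, f, _ => trivial
  | m + 1, f, h => ⟨h 0, good_esum fun j => h j.succ⟩

lemma sens_esum {Γ : ℝ} {n : ℕ} {i : Fin n} :
    ∀ {m : ℕ} {f : Fin m → Expr κ J n}, (∀ j, (f j).Sens L Γ i) → (esum f).Sens L Γ i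
  | 0, f, _ => trivial
  | m + 1, f, h => ⟨h 0, sens_esum fun j => h j.succ⟩

lemma fill_esum {kap : Fin J → ℝ} {n : ℕ} :
    ∀ {m : ℕ} {f : Fin m → Expr κ J n}, (∀ j, (f j).Fill kap) → (esum f).Fill kap
  | 0, f, _ => trivial
  | m + 1, f, h => ⟨h 0, fill_esum fun j => h j.succ⟩

/-! ### Nonnegativity and monotonicity -/

lemma sm_nonneg (hL : 0 ≤ L) (hsc : ∀ k, 0 ≤ sc k) {n : ℕ} (e : Expr κ J n) :
    0 ≤ e.sm L sc := by
  induction e with
  | var j => simp [sm]
  | zero => simp [sm]
  | add e f he hf => exact add_nonneg he hf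
  | smul t e he => exact mul_nonneg (abs_nonneg t) he
  | node k σ e he => exact mul_nonneg hL (add_nonneg (hsc k) he)
  | mean C e he => exact add_nonneg he (abs_nonneg _)

lemma one_le_size {n : ℕ} (e : Expr κ J n) : 1 ≤ e.size := by
  cases e <;> simp [size]

lemma Good.mono (hη : 0 < η) (hη1 : η ≤ 1) {B' R' w' : ℝ} (hB0 : 0 ≤ B) (hB : B ≤ B')
    (hR : R ≤ R') (hw : w' ≤ w) (hsc : ∀ k, 0 ≤ sc k) {n : ℕ} {e : Expr κ J n}
    (h : e.Good η L sc B R w) : e.Good η L sc B' R' w' := by
  induction e with
  | var j => trivial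
  | zero => trivial
  | add e f he hf => exact ⟨he h.1, hf h.2⟩
  | smul t e he => exact he h
  | node k σ e he =>
    obtain ⟨h1, h2, h3, h4, h5, h6, h7⟩ := h
    refine ⟨h1, h2.trans (mul_le_mul_of_nonneg_right hB (hsc k)), h3.trans hB,
      h4.trans (mul_le_mul_of_nonneg_right hR h1.le),
      h5.trans (mul_le_mul_of_nonneg_right hB (hsc k)), h6.trans ?_, he h7⟩
    exact mul_le_mul (mul_le_mul_of_nonneg_right hB h1.le)
      (Real.rpow_le_rpow_of_exponent_ge hη hη1 hw) (Real.rpow_nonneg hη.le _)
      (mul_nonneg (hB0.trans hB) h1.le)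
  | mean C e he => exact he h

lemma Sens.mono {Γ Γ' : ℝ} (hΓ : Γ ≤ Γ') {n : ℕ} {e : Expr κ J n} {i : Fin n}
    (hg : e.Good η L sc B R w) (h : e.Sens L Γ i) : e.Sens L Γ' i := by
  induction e with
  | var j => trivial
  | zero => trivial
  | add e f he hf => exact ⟨he hg.1 h.1, hf hg.2 h.2⟩
  | smul t e he => exact he hg h
  | node k σ e he =>
    exact ⟨h.1.trans (mul_le_mul_of_nonneg_right hΓ hg.1.le), he hg.2.2.2.2.2.2 h.2⟩
  | mean C e he => exact he hg h

/-! ### Renaming -/

lemma aff_ren {n : ℕ} (e : Expr κ J n) : ∀ {m : ℕ} (r : Fin n → Fin m) (i : Fin m),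
    (e.ren r).aff i = ∑ j, if r j = i then e.aff j else 0 := by
  induction e with
  | var j =>
    intro m r i
    rw [Finset.sum_eq_single j (fun b _ hb => by simp [aff, Ne.symm hb]) (by simp)]
    by_cases h : r j = i <;> simp [ren, aff, h]
  | zero => intro m r i; simp [ren, aff]
  | add e f he hf =>
    intro m r i
    simp only [ren, aff, he, hf, ← Finset.sum_add_distrib]
    exact Finset.sum_congr rfl fun j _ => by split <;> simp
  | smul t e he =>
    intro m r i
    simp only [ren, aff, he, Finset.mul_sum]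
    exact Finset.sum_congr rfl fun j _ => by split <;> simp
  | node k σ e he => intro m r i; simp [ren, aff]
  | mean C e he =>
    intro m r i
    simp only [ren, aff, he, Fin.sum_univ_succ, Fin.cons_zero, Fin.cons_succ,
      Function.comp_apply, Fin.succ_inj]
    simp [(Fin.succ_ne_zero i).symm]

lemma sum_abs_aff_ren {n m : ℕ} (e : Expr κ J n) (r : Fin n → Fin m) :
    ∑ i, |(e.ren r).aff i| ≤ ∑ j, |e.aff j| := by
  calc ∑ i, |(e.ren r).aff i| ≤ ∑ i, ∑ j, |if r j = i then e.aff j else 0| :=
        Finset.sum_le_sum fun i _ => by rw [aff_ren]; exact Finset.abs_sum_le_sum_abs _ _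
    _ = ∑ j, ∑ i, |if r j = i then e.aff j else 0| := Finset.sum_comm
    _ = ∑ j, |e.aff j| := Finset.sum_congr rfl fun j _ => by simp [apply_ite]

lemma sm_ren {n : ℕ} (e : Expr κ J n) :
    ∀ {m : ℕ} (r : Fin n → Fin m), (e.ren r).sm L sc = e.sm L sc := by
  induction e with
  | var j => intro m r; rfl
  | zero => intro m r; rfl
  | add e f he hf => intro m r; simp [ren, sm, he, hf]
  | smul t e he => intro m r; simp [ren, sm, he]
  | node k σ e he => intro m r; simp [ren, sm, he]
  | mean C e he =>
    intro m r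
    simp [ren, sm, he, aff_ren, Fin.sum_univ_succ, Fin.succ_ne_zero]

lemma depth_ren {n : ℕ} (e : Expr κ J n) :
    ∀ {m : ℕ} (r : Fin n → Fin m), (e.ren r).depth = e.depth := by
  induction e with
  | var j => intro m r; rfl
  | zero => intro m r; rfl
  | add e f he hf => intro m r; simp [ren, depth, he, hf]
  | smul t e he => intro m r; simp [ren, depth, he]
  | node k σ e he => intro m r; simp [ren, depth, he]
  | mean C e he => intro m r; simp [ren, depth, he]

lemma size_ren {n : ℕ} (e : Expr κ J n) :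
    ∀ {m : ℕ} (r : Fin n → Fin m), (e.ren r).size = e.size := by
  induction e with
  | var j => intro m r; rfl
  | zero => intro m r; rfl
  | add e f he hf => intro m r; simp [ren, size, he, hf]
  | smul t e he => intro m r; simp [ren, size, he]
  | node k σ e he => intro m r; simp [ren, size, he]
  | mean C e he => intro m r; simp [ren, size, he]

lemma good_ren {n : ℕ} {e : Expr κ J n} : ∀ {m : ℕ} (r : Fin n → Fin m),
    e.Good η L sc B R w → (e.ren r).Good η L sc B R w := by
  induction e with
  | var j => intro m r _; trivial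
  | zero => intro m r _; trivial
  | add e f he hf => intro m r h; exact ⟨he r h.1, hf r h.2⟩
  | smul t e he => intro m r h; exact he r h
  | node k σ e he =>
    intro m r ⟨h1, h2, h3, h4, h5, h6, h7⟩
    exact ⟨h1, h2, h3, (sum_abs_aff_ren e r).trans h4, (sum_abs_aff_ren e r).trans h5,
      (sm_ren e r).le.trans h6, he r h7⟩
  | mean C e he => intro m r h; exact he _ h

lemma fill_ren {kap : Fin J → ℝ} {n : ℕ} {e : Expr κ J n} : ∀ {m : ℕ} (r : Fin n → Fin m),
    e.Fill kap → (e.ren r).Fill kap := by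
  induction e with
  | var j => intro m r _; trivial
  | zero => intro m r _; trivial
  | add e f he hf => intro m r h; exact ⟨he r h.1, hf r h.2⟩
  | smul t e he => intro m r h; exact he r h
  | node k σ e he => intro m r h; exact he r h
  | mean C e he => intro m r h; exact ⟨h.1, he _ h.2⟩

lemma sens_ren_zero {Γ : ℝ} (hΓ : 0 ≤ Γ) {n : ℕ} {e : Expr κ J n} :
    ∀ {m : ℕ} (r : Fin n → Fin m) (i : Fin m), (∀ j, r j ≠ i) → e.Good η L sc B R w →
      (e.ren r).Sens L Γ i := by
  induction e with
  | var j => intro m r i _ _; trivial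
  | zero => intro m r i _ _; trivial
  | add e f he hf => intro m r i h hg; exact ⟨he r i h hg.1, hf r i h hg.2⟩
  | smul t e he => intro m r i h hg; exact he r i h hg
  | node k σ e he =>
    intro m r i h hg
    refine ⟨?_, he r i h hg.2.2.2.2.2.2⟩
    rw [lip_ren, Finset.sum_eq_zero fun j _ => by simp [h j]]
    exact mul_nonneg hΓ hg.1.le
  | mean C e he =>
    intro m r i h hg
    refine he _ i.succ (fun j => ?_) hg
    refine Fin.cases ?_ (fun j => ?_) j
    · simpa using (Fin.succ_ne_zero i).symm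
    · simpa using h j

lemma sens_ren {Γ : ℝ} {n : ℕ} {e : Expr κ J n} :
    ∀ {m : ℕ} (r : Fin n → Fin m), Function.Injective r → ∀ i, e.Sens L Γ i →
      (e.ren r).Sens L Γ (r i) := by
  induction e with
  | var j => intro m r _ i _; trivial
  | zero => intro m r _ i _; trivial
  | add e f he hf => intro m r hr i h; exact ⟨he r hr i h.1, hf r hr i h.2⟩
  | smul t e he => intro m r hr i h; exact he r hr i h
  | node k σ e he =>
    intro m r hr i h
    refine ⟨?_, he r hr i h.2⟩
    rw [lip_ren, Finset.sum_eq_single i (fun b _ hb => by simp [hr.ne hb]) (by simp)]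
    simpa using h.1
  | mean C e he =>
    intro m r hr i h
    have hr' : Function.Injective (Fin.cons (0 : Fin (m + 1)) (Fin.succ ∘ r)) := by
      rw [Fin.cons_injective_iff]
      exact ⟨by simp [Fin.succ_ne_zero], (Fin.succ_injective _).comp hr⟩
    simpa [ren, Sens] using he _ hr' i.succ h

/-! ### Substitution -/

lemma aff_subst {n : ℕ} (e : Expr κ J n) : ∀ {m : ℕ} (s : Fin n → Expr κ J m) (i : Fin m),
    (e.subst s).aff i = ∑ j, e.aff j * (s j).aff i := by
  induction e with
  | var j =>
    intro m s i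
    rw [Finset.sum_eq_single j (fun b _ hb => by simp [aff, Ne.symm hb]) (by simp)]
    simp [subst, aff]
  | zero => intro m s i; simp [subst, aff]
  | add e f he hf =>
    intro m s i
    simp only [subst, aff, he, hf, add_mul, Finset.sum_add_distrib]
  | smul t e he =>
    intro m s i
    simp only [subst, aff, he, mul_assoc, Finset.mul_sum]
  | node k σ e he => intro m s i; simp [subst, aff]
  | mean C e he =>
    intro m s i
    simp only [subst, aff, he, Fin.sum_univ_succ]
    simp [lift, aff, aff_ren, (Fin.succ_ne_zero i).symm]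

lemma aff_subst_lift_zero {n m : ℕ} (e : Expr κ J (n + 1)) (s : Fin n → Expr κ J m) :
    (e.subst (lift s)).aff 0 = e.aff 0 := by
  rw [aff_subst, Fin.sum_univ_succ]
  simp [lift, aff, aff_ren, Fin.succ_ne_zero]

lemma sum_abs_aff_subst {n m : ℕ} (e : Expr κ J n) {s : Fin n → Expr κ J m}
    (hs : ∀ j, ∑ i, |(s j).aff i| ≤ 1) : ∑ i, |(e.subst s).aff i| ≤ ∑ j, |e.aff j| := by
  calc ∑ i, |(e.subst s).aff i| ≤ ∑ i, ∑ j, |e.aff j| * |(s j).aff i| :=
        Finset.sum_le_sum fun i _ => by
          rw [aff_subst]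
          exact (Finset.abs_sum_le_sum_abs _ _).trans_eq
            (Finset.sum_congr rfl fun j _ => abs_mul _ _)
    _ = ∑ j, |e.aff j| * ∑ i, |(s j).aff i| := by
        rw [Finset.sum_comm]; simp only [Finset.mul_sum]
    _ ≤ ∑ j, |e.aff j| := Finset.sum_le_sum fun j _ =>
        mul_le_of_le_one_right (abs_nonneg _) (hs j)

lemma sum_abs_aff_lift {n m : ℕ} {s : Fin n → Expr κ J m}
    (hs : ∀ j, ∑ i, |(s j).aff i| ≤ 1) (j : Fin (n + 1)) :
    ∑ i, |(lift s j).aff i| ≤ 1 := by
  refine Fin.cases ?_ (fun j => ?_) j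
  · simp [lift, aff, apply_ite]
  · simpa [lift] using (sum_abs_aff_ren _ _).trans (hs j)

/-- The size of a substitution. -/
lemma sm_subst (hL : 0 ≤ L) {n : ℕ} (e : Expr κ J n) : ∀ {m : ℕ} (s : Fin n → Expr κ J m),
    (e.subst s).sm L sc ≤ e.sm L sc + ∑ j, e.lip (fun _ => L) j * (s j).sm L sc := by
  induction e with
  | var j =>
    intro m s
    rw [Finset.sum_eq_single j (fun b _ hb => by simp [lip_var, Ne.symm hb]) (by simp)]
    simp [subst, sm, lip_var]
  | zero => intro m s; simp [subst, sm, lip, deriv, Op.wt]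
  | add e f he hf =>
    intro m s
    simp only [subst, sm, lip_add, add_mul, Finset.sum_add_distrib]
    linarith [he s, hf s]
  | smul t e he =>
    intro m s
    simp only [subst, sm, lip_smul, mul_assoc, ← Finset.mul_sum]
    exact (mul_le_mul_of_nonneg_left (he s) (abs_nonneg t)).trans_eq (mul_add _ _ _)
  | node k σ e he =>
    intro m s
    simp only [subst, sm, lip_node, mul_assoc, ← Finset.mul_sum]
    linarith [mul_le_mul_of_nonneg_left (he s) hL]
  | mean C e he =>
    intro m s
    have h := he (lift s)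
    rw [Fin.sum_univ_succ] at h
    simp only [lift, Fin.cons_zero, Fin.cons_succ, sm_ren] at h
    simp only [subst, sm, lip_mean, aff_subst_lift_zero]
    simp only [sm, mul_zero, zero_add] at h
    simp only [lift]
    linarith

lemma depth_subst_le {n : ℕ} (e : Expr κ J n) : ∀ {m : ℕ} (s : Fin n → Expr κ J m) {D : ℕ},
    (∀ j, (s j).depth ≤ D) → (e.subst s).depth ≤ e.depth + D := by
  induction e with
  | var j => intro m s D h; simpa [subst, depth] using h j
  | zero => intro m s D h; simp [subst, depth]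
  | add e f he hf =>
    intro m s D h
    have := he s h
    have := hf s h
    simp only [subst, depth]
    omega
  | smul t e he => intro m s D h; simpa [subst, depth] using he s h
  | node k σ e he =>
    intro m s D h
    have := he s h
    simp only [subst, depth]
    omega
  | mean C e he =>
    intro m s D h
    have := he (lift s) (D := D) fun j => by
      refine Fin.cases ?_ (fun j => ?_) j
      · simp [lift, depth]
      · simpa [lift, depth_ren] using h j
    simp only [subst, depth]
    omega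

lemma size_subst_le {n : ℕ} (e : Expr κ J n) : ∀ {m : ℕ} (s : Fin n → Expr κ J m) {M : ℕ},
    1 ≤ M → (∀ j, (s j).size ≤ M) → (e.subst s).size ≤ e.size * M := by
  induction e with
  | var j => intro m s M _ h; simpa [subst, size] using h j
  | zero => intro m s M hM h; simpa [subst, size] using hM
  | add e f he hf =>
    intro m s M hM h
    have := he s hM h
    have := hf s hM h
    simp only [subst, size, add_mul, one_mul]
    omega
  | smul t e he =>
    intro m s M hM h
    have := he s hM h
    simp only [subst, size, add_mul, one_mul]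
    omega
  | node k σ e he =>
    intro m s M hM h
    have := he s hM h
    simp only [subst, size, add_mul, one_mul]
    omega
  | mean C e he =>
    intro m s M hM h
    have := he (lift s) hM fun j => by
      refine Fin.cases ?_ (fun j => ?_) j
      · simpa [lift, size] using hM
      · simpa [lift, size_ren] using h j
    simp only [subst, size, add_mul, one_mul]
    omega

lemma fill_subst {kap : Fin J → ℝ} {n : ℕ} {e : Expr κ J n} :
    ∀ {m : ℕ} {s : Fin n → Expr κ J m}, (∀ j, (s j).Fill kap) → e.Fill kap →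
      (e.subst s).Fill kap := by
  induction e with
  | var j => intro m s h _; exact h j
  | zero => intro m s _ _; trivial
  | add e f he hf => intro m s h hg; exact ⟨he h hg.1, hf h hg.2⟩
  | smul t e he => intro m s h hg; exact he h hg
  | node k σ e he => intro m s h hg; exact he h hg
  | mean C e he =>
    intro m s h hg
    refine ⟨hg.1, he (fun j => ?_) hg.2⟩
    refine Fin.cases ?_ (fun j => ?_) j
    · simp [lift, Fill]
    · simpa [lift] using fill_ren _ (h j)

/-- Substitution of a small expression into the variable `g`. -/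
lemma good_subst (hL : 0 ≤ L) (hsc : ∀ k, 0 ≤ sc k) {B' R' w' Γ S : ℝ}
    (hB : B ≤ B') (hR : R ≤ R')
    (hBS : B * η ^ w + Γ * S ≤ B' * η ^ w') {n : ℕ} {e : Expr κ J n} :
    ∀ {m : ℕ} {s : Fin n → Expr κ J m} (g : Fin n),
      (∀ j, (s j).Good η L sc B' R' w') → (∀ j, ∑ i, |(s j).aff i| ≤ 1) →
      (∀ j ≠ g, (s j).sm L sc = 0) → (s g).sm L sc ≤ S →
      e.Good η L sc B R w → e.Sens L Γ g → (e.subst s).Good η L sc B' R' w' := by
  induction e with
  | var j => intro m s g h _ _ _ _ _; exact h j
  | zero => intro m s g _ _ _ _ _ _; trivial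
  | add e f he hf =>
    intro m s g h ha h0 hg hG hΓ
    exact ⟨he g h ha h0 hg hG.1 hΓ.1, hf g h ha h0 hg hG.2 hΓ.2⟩
  | smul t e he => intro m s g h ha h0 hg hG hΓ; exact he g h ha h0 hg hG hΓ
  | node k σ e he =>
    intro m s g h ha h0 hg ⟨h1, h2, h3, h4, h5, h6, h7⟩ hΓ
    refine ⟨h1, h2.trans (mul_le_mul_of_nonneg_right hB (hsc k)), h3.trans hB,
      (sum_abs_aff_subst e ha).trans (h4.trans (mul_le_mul_of_nonneg_right hR h1.le)),
      (sum_abs_aff_subst e ha).trans (h5.trans (mul_le_mul_of_nonneg_right hB (hsc k))),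
      (sm_subst hL e s).trans ?_, he g h ha h0 hg h7 hΓ.2⟩
    rw [Finset.sum_eq_single g (fun j _ hj => by rw [h0 j hj, mul_zero]) (by simp)]
    have hσ := mul_le_mul_of_nonneg_left hBS h1.le
    calc e.sm L sc + e.lip (fun _ => L) g * (s g).sm L sc
        ≤ B * σ * η ^ w + Γ * σ * S :=
          add_le_add h6 (mul_le_mul hΓ.1 hg (sm_nonneg hL hsc _)
            ((lip_nonneg (fun _ => hL) _ _).trans hΓ.1))
      _ = σ * (B * η ^ w + Γ * S) := by ring
      _ ≤ σ * (B' * η ^ w') := hσ
      _ = _ := by ring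
  | mean C e he =>
    intro m s g h ha h0 hg hG hΓ
    refine he g.succ (fun j => ?_) (sum_abs_aff_lift ha) (fun j hj => ?_)
      (by simpa [lift, sm_ren] using hg) hG hΓ
    · refine Fin.cases ?_ (fun j => ?_) j
      · trivial
      · simpa [lift] using good_ren _ (h j)
    · revert hj
      refine Fin.cases ?_ (fun j => ?_) j
      · intro _; rfl
      · intro hj
        simpa [lift, sm_ren] using h0 j fun e => hj (by rw [e])

/-- The sensitivity of a substitution. -/
lemma sens_subst (hL : 0 ≤ L) {Γ Γ' β : ℝ} (hΓ' : Γ * β ≤ Γ') {n : ℕ}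
    {e : Expr κ J n} : ∀ {m : ℕ} {s : Fin n → Expr κ J m} (g : Fin n) (i : Fin m),
      (∀ j, (s j).Sens L Γ' i) → (∀ j ≠ g, (s j).lip (fun _ => L) i = 0) →
      (s g).lip (fun _ => L) i ≤ β → e.Good η L sc B R w → e.Sens L Γ g →
      (e.subst s).Sens L Γ' i := by
  induction e with
  | var j => intro m s g i h _ _ _ _; exact h j
  | zero => intro m s g i _ _ _ _ _; trivial
  | add e f he hf =>
    intro m s g i h h0 hg hG hΓ
    exact ⟨he g i h h0 hg hG.1 hΓ.1, hf g i h h0 hg hG.2 hΓ.2⟩
  | smul t e he => intro m s g i h h0 hg hG hΓ; exact he g i h h0 hg hG hΓ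
  | node k σ e he =>
    intro m s g i h h0 hg hG hΓ
    refine ⟨?_, he g i h h0 hg hG.2.2.2.2.2.2 hΓ.2⟩
    rw [lip_subst, Finset.sum_eq_single g (fun j _ hj => by rw [h0 j hj, mul_zero]) (by simp)]
    calc e.lip (fun _ => L) g * (s g).lip (fun _ => L) i ≤ (Γ * σ) * β :=
          mul_le_mul hΓ.1 hg (lip_nonneg (fun _ => hL) _ _)
            ((lip_nonneg (fun _ => hL) _ _).trans hΓ.1)
      _ = Γ * β * σ := by ring
      _ ≤ Γ' * σ := mul_le_mul_of_nonneg_right hΓ' hG.1.le
  | mean C e he =>
    intro m s g i h h0 hg hG hΓ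
    refine he g.succ i.succ (fun j => ?_) (fun j hj => ?_)
      (by simpa [lip_lift_succ] using hg) hG hΓ
    · refine Fin.cases ?_ (fun j => ?_) j
      · trivial
      · simpa [lift] using sens_ren _ (Fin.succ_injective _) i (h j)
    · revert hj
      refine Fin.cases ?_ (fun j => ?_) j
      · intro _; simp [lift, lip_var, (Fin.succ_ne_zero i).symm]
      · intro hj
        rw [lip_lift_succ]
        exact h0 j fun e => hj (by rw [e])

end Vale.Agent.P347.Shift.Expr
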