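import Vale.Agent.P347.Shift.SyntaxCen
import Vale.Agent.P347.Shift.SyntaxSize

/-!
# P347: normal form of expressions and one more centre

`nrm e` is the linear part plus the rest, the same inside nodes and means. It has the same value,
linear part, size and node centres, and its Lipschitz constants do not cancel, so substitution
into it keeps the invariant. `wk e` is `e` with one more centre, placed last and unused.
-/

open MeasureTheory ProbabilityTheory Real
open scoped RealInnerProductSpace

namespace Vale.Agent.P347.Shift.Expr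

open Quarter

variable {κ : Type} {d J : ℕ} {L : ℝ} {sc : κ → ℝ} {η B B' R R' w w' : ℝ} {kap : Fin J → ℝ}

lemma sum_abs_aff_subst_le {n m : ℕ} (e : Expr κ J n) (s : Fin n → Expr κ J m) {a : ℝ}
    (ha : ∀ j, ∑ i, |(s j).aff i| ≤ a) :
    ∑ i, |(e.subst s).aff i| ≤ a * ∑ j, |e.aff j| :=
  calc ∑ i, |(e.subst s).aff i| ≤ ∑ i, ∑ j, |e.aff j| * |(s j).aff i| :=
        Finset.sum_le_sum fun i _ => by
          rw [aff_subst]
          exact (Finset.abs_sum_le_sum_abs _ _).trans_eq
            (Finset.sum_congr rfl fun j _ => abs_mul _ _)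
    _ = ∑ j, |e.aff j| * ∑ i, |(s j).aff i| := by rw [Finset.sum_comm]; simp [Finset.mul_sum]
    _ ≤ ∑ j, |e.aff j| * a := Finset.sum_le_sum fun j _ =>
        mul_le_mul_of_nonneg_left (ha j) (abs_nonneg _)
    _ = _ := by rw [← Finset.sum_mul, mul_comm]

/-! ### Normal form: linear part plus small part -/

/-- A linear form as an expression, zero coefficients left out. -/
noncomputable def linE : {n : ℕ} → {m : ℕ} → (Fin n → ℝ) → (Fin n → Fin m) → Expr κ J m
  | 0, _, _, _ => zero
  | _ + 1, _, a, r => if a 0 = 0 then linE (a ∘ Fin.succ) (r ∘ Fin.succ)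
      else add (smul (a 0) (var (r 0))) (linE (a ∘ Fin.succ) (r ∘ Fin.succ))

lemma eval_linE (V : κ → Sp d → Sp d) (c : Fin J → Sp d) : ∀ {n m : ℕ} (a : Fin n → ℝ)
    (r : Fin n → Fin m) (x : Fin m → Sp d),
    (linE a r : Expr κ J m).eval V c x = ∑ i, a i • x (r i)
  | 0, _, _, _, _ => by simp [linE, eval]
  | _ + 1, _, a, r, x => by
    by_cases h : a 0 = 0
    · simp [linE, h, eval_linE V c, Fin.sum_univ_succ]
    · simp only [linE, if_neg h, eval, eval_linE V c, Fin.sum_univ_succ]
      rfl

lemma aff_linE : ∀ {n m : ℕ} (a : Fin n → ℝ) (r : Fin n → Fin m) (i : Fin m),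
    (linE a r : Expr κ J m).aff i = ∑ j, if r j = i then a j else 0
  | 0, _, _, _, _ => by simp [linE, aff]
  | _ + 1, _, a, r, i => by
    by_cases h : a 0 = 0
    · simp [linE, h, aff_linE, Fin.sum_univ_succ]
    · simp only [linE, if_neg h, aff, aff_linE, Fin.sum_univ_succ, Function.comp_apply]
      congr 1
      split <;> simp

lemma lip_linE (e : κ → ℝ) : ∀ {n m : ℕ} (a : Fin n → ℝ) (r : Fin n → Fin m) (i : Fin m),
    (linE a r : Expr κ J m).lip e i = ∑ j, if r j = i then |a j| else 0
  | 0, _, _, _, _ => by simp [linE, lip, deriv, Op.wt]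
  | _ + 1, _, a, r, i => by
    by_cases h : a 0 = 0
    · simp [linE, h, lip_linE e, Fin.sum_univ_succ]
    · simp only [linE, if_neg h, lip_add, lip_smul, lip_var, lip_linE e, Fin.sum_univ_succ,
        Function.comp_apply]
      congr 1
      split <;> simp

lemma linE_spec : ∀ {n m : ℕ} (a : Fin n → ℝ) (r : Fin n → Fin m),
    (linE a r : Expr κ J m).sm L sc = 0 ∧ (linE a r : Expr κ J m).Good η L sc B R w ∧
      (linE a r : Expr κ J m).Fill kap ∧ (linE a r : Expr κ J m).depth = 0 ∧
      (linE a r : Expr κ J m).size ≤ 3 * (Finset.univ.filter fun i => a i ≠ 0).card + 1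
  | 0, _, _, _ => ⟨rfl, trivial, trivial, rfl, by simp [linE, size]⟩
  | _ + 1, _, a, r => by
    obtain ⟨h1, h2, h3, h4, h5⟩ := linE_spec (a ∘ Fin.succ) (r ∘ Fin.succ)
    simp only [Function.comp_apply] at h5
    by_cases h : a 0 = 0
    · simp only [linE, if_pos h]
      refine ⟨h1, h2, h3, h4, ?_⟩
      rw [Fin.card_filter_univ_succ, if_neg (not_not.2 h)]
      omega
    · simp only [linE, if_neg h]
      refine ⟨by simp [sm, h1], ⟨trivial, h2⟩, ⟨trivial, h3⟩, by simp [depth, h4], ?_⟩
      rw [Fin.card_filter_univ_succ, if_pos h]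
      simp only [size]
      omega

/-- The part without the linear part, normalised inside nodes and means. -/
noncomputable def nl : {n : ℕ} → Expr κ J n → Expr κ J n
  | _, var _ => zero
  | _, zero => zero
  | _, add e f => add e.nl f.nl
  | _, smul t e => smul t e.nl
  | _, node k σ e => node k σ (add (linE e.aff id) e.nl)
  | _, mean C e => mean C (add (smul (e.aff 0) (var 0)) e.nl)

/-- The normal form: linear part plus the rest. -/
noncomputable def nrm {n : ℕ} (e : Expr κ J n) : Expr κ J n := add (linE e.aff id) e.nl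

lemma aff_nl {n : ℕ} (e : Expr κ J n) : ∀ i, e.nl.aff i = 0 := by
  induction e with
  | var j => intro i; rfl
  | zero => intro i; rfl
  | add e f he hf => intro i; simp [nl, aff, he, hf]
  | smul t e he => intro i; simp [nl, aff, he]
  | node k σ e he => intro i; rfl
  | mean C e he => intro i; simp [nl, aff, he, (Fin.succ_ne_zero i).symm]

lemma aff_nrm {n : ℕ} (e : Expr κ J n) (i : Fin n) : e.nrm.aff i = e.aff i := by
  simp [nrm, aff, aff_linE, aff_nl]

lemma eval_nl {V : κ → Sp d → Sp d} {DV : κ → Sp d → Sp d →L[ℝ] Sp d} {e' : κ → ℝ}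
    (hV : IsBoxes V DV e') (c : Fin J → Sp d) {n : ℕ} (e : Expr κ J n) :
    ∀ x : Fin n → Sp d, ∑ i, e.aff i • x i + e.nl.eval V c x = e.eval V c x := by
  induction e with
  | var j => intro x; simp [nl, aff, eval, ite_smul]
  | zero => intro x; simp [nl, aff, eval]
  | add e f he hf =>
    intro x
    simp only [nl, aff, eval, add_smul, Finset.sum_add_distrib, ← he, ← hf]
    abel
  | smul t e he => intro x; simp only [nl, aff, eval, mul_smul, ← Finset.smul_sum, ← smul_add, he]
  | node k σ e he => intro x; simp [nl, aff, eval, eval_linE, he]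
  | mean C e he =>
    intro x
    simp only [nl, aff, eval]
    have hi := fun v => e.nl.integrable_cons (c := c) hV v x
    have hz : Integrable (fun z : Sp d => e.aff 0 • (z + ∑ j, C j • c j)) (gd d) :=
      (((IsGaussian.integrable_id (μ := gd d)).add (integrable_const _)).smul (e.aff 0))
    simp only [Fin.cons_zero]
    have hk : ∑ i, e.aff (Fin.succ i) • x i = ∫ _z : Sp d, ∑ i, e.aff (Fin.succ i) • x i ∂gd d := by
      simp
    rw [hk, ← integral_add (integrable_const _) (hz.fun_add (hi _))]
    refine integral_congr_ae (Filter.Eventually.of_forall fun z => ?_)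
    simp only
    rw [← he]
    simp only [Fin.sum_univ_succ, Fin.cons_zero, Fin.cons_succ]
    abel

lemma eval_nrm {V : κ → Sp d → Sp d} {DV : κ → Sp d → Sp d →L[ℝ] Sp d} {e' : κ → ℝ}
    (hV : IsBoxes V DV e') (c : Fin J → Sp d) {n : ℕ} (e : Expr κ J n) (x : Fin n → Sp d) :
    e.nrm.eval V c x = e.eval V c x := by
  simp [nrm, eval, eval_linE, e.eval_nl hV c x]

lemma sm_nl {n : ℕ} (e : Expr κ J n) : e.nl.sm L sc = e.sm L sc := by
  induction e with
  | var j => rfl
  | zero => rfl
  | add e f he hf => simp [nl, sm, he, hf]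
  | smul t e he => simp [nl, sm, he]
  | node k σ e he => simp [nl, sm, he, (linE_spec (κ := κ) (J := J) (L := L) (sc := sc)
      (η := 0) (B := 0) (R := 0) (w := 0) (kap := fun _ => 0) e.aff id).1]
  | mean C e he => simp [nl, sm, he, aff, aff_nl]

lemma sm_nrm {n : ℕ} (e : Expr κ J n) : e.nrm.sm L sc = e.sm L sc := by
  simp [nrm, sm, sm_nl, (linE_spec (κ := κ) (J := J) (L := L) (sc := sc)
      (η := 0) (B := 0) (R := 0) (w := 0) (kap := fun _ => 0) e.aff id).1]

/-- The Lipschitz constants of the small part add up to at most `B` times the size. -/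
lemma sum_lip_nl_le (hL : 0 ≤ L) (hB : 1 ≤ B) {n : ℕ} (e : Expr κ J n) :
    e.Good η L sc B R w → ∑ i, e.nl.lip (fun _ => L) i ≤ B * e.sm L sc := by
  induction e with
  | var j => intro _; simp [nl, sm, lip, deriv, Op.wt]
  | zero => intro _; simp [nl, sm, lip, deriv, Op.wt]
  | add e f he hf =>
    intro h
    simp only [nl, sm, lip_add, Finset.sum_add_distrib, mul_add]
    exact add_le_add (he h.1) (hf h.2)
  | smul t e he =>
    intro h
    simp only [nl, sm, lip_smul, ← Finset.mul_sum]
    exact (mul_le_mul_of_nonneg_left (he h) (abs_nonneg t)).trans_eq (by ring)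
  | node k σ e he =>
    intro h
    obtain ⟨-, -, -, -, h5, -, h7⟩ := h
    simp only [nl, sm, lip_node, lip_add, lip_linE, id_eq, Finset.sum_ite_eq', Finset.mem_univ,
      if_true, ← Finset.mul_sum, Finset.sum_add_distrib]
    exact (mul_le_mul_of_nonneg_left (add_le_add h5 (he h7)) hL).trans_eq (by ring)
  | mean C e he =>
    intro h
    have h1 := he h
    rw [Fin.sum_univ_succ] at h1
    simp only [nl, sm, lip_mean, lip_add, lip_smul, lip_var, (Fin.succ_ne_zero _).symm, if_false,
      mul_zero, zero_add, mul_add]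
    linarith [e.nl.lip_nonneg (η := fun _ => L) (fun _ => hL) 0,
      mul_nonneg (zero_le_one.trans hB) (abs_nonneg (e.aff 0))]

lemma sum_lip_nrm_le (hL : 0 ≤ L) (hB : 1 ≤ B) {n : ℕ} (e : Expr κ J n)
    (h : e.Good η L sc B R w) :
    ∑ i, e.nrm.lip (fun _ => L) i ≤ ∑ i, |e.aff i| + B * e.sm L sc := by
  simp only [nrm, lip_add, lip_linE, id_eq, Finset.sum_ite_eq', Finset.mem_univ, if_true,
    Finset.sum_add_distrib]
  exact add_le_add le_rfl (e.sum_lip_nl_le hL hB h)

/-- The size after substituting small parts `δ` into a normal form. -/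
lemma sm_subst_nrm (hL : 0 ≤ L) (hB : 1 ≤ B) {n m : ℕ} (e : Expr κ J n)
    (h : e.Good η L sc B R w) (s : Fin n → Expr κ J m) {δ : ℝ} (hδ : 0 ≤ δ)
    (hs : ∀ j, (s j).sm L sc ≤ δ) :
    (e.nrm.subst s).sm L sc ≤ e.sm L sc + (∑ i, |e.aff i| + B * e.sm L sc) * δ := by
  refine (e.nrm.sm_subst hL s).trans (add_le_add e.sm_nrm.le ?_)
  calc ∑ j, e.nrm.lip (fun _ => L) j * (s j).sm L sc
      ≤ ∑ j, e.nrm.lip (fun _ => L) j * δ := Finset.sum_le_sum fun j _ =>
        mul_le_mul_of_nonneg_left (hs j) (e.nrm.lip_nonneg (fun _ => hL) j)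
    _ ≤ _ := by
      rw [← Finset.sum_mul]
      exact mul_le_mul_of_nonneg_right (e.sum_lip_nrm_le hL hB h) hδ

/-- The invariant after substituting rows `a` and small parts `δ`. -/
lemma good_subst_nl (hL : 0 ≤ L) (hsc : ∀ k, 0 ≤ sc k) (hB : 1 ≤ B)
    (hB' : B ≤ B') {a δ : ℝ} (ha : 0 ≤ a) (hδ : 0 ≤ δ) (haB : a * B ≤ B') (haR : a * R ≤ R')
    (hsmall : B * η ^ w + (R + B * (B * η ^ w)) * δ ≤ B' * η ^ w') {n : ℕ} (e : Expr κ J n) :
    e.Good η L sc B R w → ∀ {m : ℕ} (s : Fin n → Expr κ J m), (∀ j, ∑ i, |(s j).aff i| ≤ max a 1) →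
      1 ≤ a → (∀ j, (s j).sm L sc ≤ δ) → (∀ j, (s j).Good η L sc B' R' w') →
      (e.nl.subst s).Good η L sc B' R' w' := by
  induction e with
  | var j => intro _ m s _ _ _ _; trivial
  | zero => intro _ m s _ _ _ _; trivial
  | add e f he hf =>
    intro h m s h1 h2 h3 h4
    exact ⟨he h.1 s h1 h2 h3 h4, hf h.2 s h1 h2 h3 h4⟩
  | smul t e he => intro h m s h1 h2 h3 h4; exact he h s h1 h2 h3 h4
  | node k σ e he =>
    intro hG m s h1 h1a h3 h4
    obtain ⟨g1, g2, g3, g4, g5, g6, g7⟩ := hG
    have hrow : ∑ i, |(e.nrm.subst s).aff i| ≤ a * ∑ i, |e.aff i| := by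
      refine (e.nrm.sum_abs_aff_subst_le s fun j => (h1 j).trans_eq (max_eq_left h1a)).trans_eq ?_
      simp only [aff_nrm]
    have hsub : ∀ {q : ℕ} (a' : Fin q → ℝ) (r : Fin q → Fin _),
        ((linE a' r : Expr κ J _).subst s).Good η L sc B' R' w' := by
      intro q
      induction q with
      | zero => intro a' r; trivial
      | succ q ih =>
        intro a' r
        simp only [linE]
        split
        · exact ih _ _
        · exact ⟨h4 _, ih _ _⟩
    refine ⟨g1, g2.trans (mul_le_mul_of_nonneg_right hB' (hsc k)), g3.trans hB',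
      hrow.trans ?_, hrow.trans ?_, ?_, hsub _ _, he g7 s h1 h1a h3 h4⟩
    · exact ((mul_le_mul_of_nonneg_left g4 ha).trans_eq (mul_assoc _ _ _).symm).trans
        (mul_le_mul_of_nonneg_right haR g1.le)
    · exact ((mul_le_mul_of_nonneg_left g5 ha).trans_eq (mul_assoc _ _ _).symm).trans
        (mul_le_mul_of_nonneg_right haB (hsc k))
    · refine (e.sm_subst_nrm hL hB g7 s hδ h3).trans ?_
      have h5 : (∑ i, |e.aff i| + B * e.sm L sc) * δ ≤ (R * σ + B * (B * σ * η ^ w)) * δ :=
        mul_le_mul_of_nonneg_right (add_le_add g4 (mul_le_mul_of_nonneg_left g6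
          (zero_le_one.trans hB))) hδ
      linarith [mul_le_mul_of_nonneg_left hsmall g1.le]
  | mean C e he =>
    intro hG m s h1 h1a h3 h4
    refine ⟨trivial, he hG (lift s) (fun j => Fin.cases ?_ (fun j => ?_) j) h1a
      (fun j => Fin.cases ?_ (fun j => ?_) j) (fun j => Fin.cases ?_ (fun j => ?_) j)⟩
    · simp [lift, aff, apply_ite abs]
    · simp only [lift, Fin.cons_succ]
      exact ((s j).sum_abs_aff_ren _).trans (h1 j)
    · simpa [lift, sm] using hδ
    · simpa [lift, sm_ren] using h3 j
    · simp [lift, Good]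
    · simpa [lift] using good_ren _ (h4 j)

/-- The invariant of a substituted normal form. -/
theorem good_subst_nrm (hL : 0 ≤ L) (hsc : ∀ k, 0 ≤ sc k) (hB : 1 ≤ B) (hB' : B ≤ B')
    {a δ : ℝ} (ha : 1 ≤ a) (hδ : 0 ≤ δ) (haB : a * B ≤ B') (haR : a * R ≤ R')
    (hsmall : B * η ^ w + (R + B * (B * η ^ w)) * δ ≤ B' * η ^ w') {n m : ℕ} (e : Expr κ J n)
    (h : e.Good η L sc B R w) (s : Fin n → Expr κ J m) (hrow : ∀ j, ∑ i, |(s j).aff i| ≤ a)
    (hs : ∀ j, (s j).sm L sc ≤ δ) (hg : ∀ j, (s j).Good η L sc B' R' w') :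
    (e.nrm.subst s).Good η L sc B' R' w' := by
  refine ⟨?_, e.good_subst_nl hL hsc hB hB' (zero_le_one.trans ha) hδ haB haR hsmall h s
    (fun j => (hrow j).trans (le_max_left _ _)) ha hs hg⟩
  have hsub : ∀ {q : ℕ} (a' : Fin q → ℝ) (r : Fin q → Fin n),
      ((linE a' r : Expr κ J n).subst s).Good η L sc B' R' w' := by
    intro q
    induction q with
    | zero => intro a' r; trivial
    | succ q ih =>
      intro a' r
      simp only [linE]
      split
      · exact ih _ _
      · exact ⟨hg _, ih _ _⟩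
  exact hsub _ _

lemma fill_nl {n : ℕ} (e : Expr κ J n) : e.Fill kap → e.nl.Fill kap := by
  induction e with
  | var j => intro _; trivial
  | zero => intro _; trivial
  | add e f he hf => intro h; exact ⟨he h.1, hf h.2⟩
  | smul t e he => intro h; exact he h
  | node k σ e he =>
    intro h
    exact ⟨(linE_spec (κ := κ) (J := J) (L := 0) (sc := fun _ => 0)
      (η := 0) (B := 0) (R := 0) (w := 0) (kap := kap) e.aff id).2.2.1, he h⟩
  | mean C e he => intro h; exact ⟨h.1, trivial, he h.2⟩

lemma fill_nrm {n : ℕ} (e : Expr κ J n) (h : e.Fill kap) : e.nrm.Fill kap :=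
  ⟨(linE_spec (κ := κ) (J := J) (L := 0) (sc := fun _ => 0)
    (η := 0) (B := 0) (R := 0) (w := 0) (kap := kap) e.aff id).2.2.1, e.fill_nl h⟩

lemma depth_nl {n : ℕ} (e : Expr κ J n) : e.nl.depth = e.depth := by
  induction e with
  | var j => rfl
  | zero => rfl
  | add e f he hf => simp [nl, depth, he, hf]
  | smul t e he => simp [nl, depth, he]
  | node k σ e he => simp [nl, depth, he, (linE_spec (κ := κ) (J := J) (L := 0) (sc := fun _ => 0)
      (η := 0) (B := 0) (R := 0) (w := 0) (kap := fun _ => 0) e.aff id).2.2.2.1]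
  | mean C e he => simp [nl, depth, he]

lemma depth_nrm {n : ℕ} (e : Expr κ J n) : e.nrm.depth = e.depth := by
  simp [nrm, depth, depth_nl, (linE_spec (κ := κ) (J := J) (L := 0) (sc := fun _ => 0)
      (η := 0) (B := 0) (R := 0) (w := 0) (kap := fun _ => 0) e.aff id).2.2.2.1]

lemma card_supp_aff_le {n : ℕ} (e : Expr κ J n) :
    (Finset.univ.filter fun i => e.aff i ≠ 0).card ≤ e.size := by
  induction e with
  | var j =>
    simp only [aff, size]
    refine Finset.card_le_one.2 fun a ha b hb => ?_
    simp only [Finset.mem_filter, ne_eq, ite_eq_right_iff, one_ne_zero, imp_false, not_not] at ha hb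
    exact ha.2.symm.trans hb.2
  | zero => simp [aff, size]
  | add e f he hf =>
    refine (Finset.card_le_card (t := (Finset.univ.filter fun i => e.aff i ≠ 0) ∪
      Finset.univ.filter fun i => f.aff i ≠ 0) fun i hi => ?_).trans ?_
    · have h : e.aff i + f.aff i ≠ 0 := (Finset.mem_filter.1 hi).2
      by_cases h1 : e.aff i = 0
      · exact Finset.mem_union_right _ (Finset.mem_filter.2
          ⟨Finset.mem_univ _, fun h2 => h (by rw [h1, h2, add_zero])⟩)
      · exact Finset.mem_union_left _ (Finset.mem_filter.2 ⟨Finset.mem_univ _, h1⟩)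
    · refine (Finset.card_union_le _ _).trans ?_
      simp only [size]
      omega
  | smul t e he =>
    refine (Finset.card_le_card (t := Finset.univ.filter fun i => e.aff i ≠ 0) fun i hi => ?_).trans
      (he.trans (Nat.le_succ _))
    have h : t * e.aff i ≠ 0 := (Finset.mem_filter.1 hi).2
    exact Finset.mem_filter.2 ⟨Finset.mem_univ _, right_ne_zero_of_mul h⟩
  | node k σ e he => simp [aff, size]
  | mean C e he =>
    refine (Finset.card_le_card_of_injOn Fin.succ (t := Finset.univ.filter fun i => e.aff i ≠ 0)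
      (fun i hi => Finset.mem_filter.2 ⟨Finset.mem_univ _, (Finset.mem_filter.1 hi).2⟩)
      (Fin.succ_injective _).injOn).trans (he.trans (Nat.le_succ _))

lemma size_nl_le {n : ℕ} (e : Expr κ J n) : e.nl.size ≤ 8 * e.size ^ 2 := by
  induction e with
  | var j => simp [nl, size]
  | zero => simp [nl, size]
  | add e f he hf =>
    simp only [nl, size]
    nlinarith [e.one_le_size, f.one_le_size]
  | smul t e he => simp only [nl, size]; nlinarith [e.one_le_size]
  | node k σ e he =>
    have h := (linE_spec (κ := κ) (J := J) (L := 0) (sc := fun _ => 0)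
      (η := 0) (B := 0) (R := 0) (w := 0) (kap := fun _ => 0) e.aff id).2.2.2.2
    have h2 := e.card_supp_aff_le
    simp only [nl, size]
    nlinarith [e.one_le_size]
  | mean C e he =>
    simp only [nl, size]
    nlinarith [e.one_le_size]

/-- The number of constructors of a normal form, free of the number of variables. -/
lemma size_nrm_le {n : ℕ} (e : Expr κ J n) : e.nrm.size ≤ 16 * e.size ^ 2 := by
  have h := (linE_spec (κ := κ) (J := J) (L := 0) (sc := fun _ => 0)
    (η := 0) (B := 0) (R := 0) (w := 0) (kap := fun _ => 0) e.aff id).2.2.2.2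
  have h2 := e.card_supp_aff_le
  simp only [nrm, size]
  nlinarith [e.size_nl_le, e.one_le_size]

/-- The invariant of a normal form. -/
lemma good_nl {n : ℕ} (e : Expr κ J n) :
    e.Good η L sc B R w → e.nl.Good η L sc B R w := by
  induction e with
  | var j => intro _; trivial
  | zero => intro _; trivial
  | add e f he hf => intro h; exact ⟨he h.1, hf h.2⟩
  | smul t e he => intro h; exact he h
  | node k σ e he =>
    intro ⟨h1, h2, h3, h4, h5, h6, h7⟩
    have hr : ∀ i, (add (linE e.aff id) e.nl).aff i = e.aff i := e.aff_nrm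
    refine ⟨h1, h2, h3, ?_, ?_, e.sm_nrm.trans_le h6,
      (linE_spec (kap := fun _ => 0) e.aff id).2.1, he h7⟩
    · simpa only [hr] using h4
    · simpa only [hr] using h5
  | mean C e he => intro h; exact ⟨trivial, he h⟩

lemma good_nrm {n : ℕ} (e : Expr κ J n) (h : e.Good η L sc B R w) :
    e.nrm.Good η L sc B R w :=
  ⟨(linE_spec (kap := fun _ => 0) e.aff id).2.1, e.good_nl h⟩

lemma cen_linE (V : κ → Sp d → Sp d) (c : Fin J → Sp d) : ∀ {n m : ℕ} (a : Fin n → ℝ)
    (r : Fin n → Fin m) (x : Fin m → Sp d), (linE a r : Expr κ J m).cen V c x = 0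
  | 0, _, _, _, _ => rfl
  | _ + 1, _, a, r, x => by
    by_cases h : a 0 = 0 <;> simp [linE, h, cen, cen_linE V c]

/-- The node centres of a normal form. -/
lemma cen_nl {V : κ → Sp d → Sp d} {DV : κ → Sp d → Sp d →L[ℝ] Sp d} {e' : κ → ℝ}
    (hV : IsBoxes V DV e') (c : Fin J → Sp d) {n : ℕ} (e : Expr κ J n) :
    ∀ x : Fin n → Sp d, e.nl.cen V c x = e.cen V c x := by
  induction e with
  | var j => intro x; rfl
  | zero => intro x; rfl
  | add e f he hf => intro x; simp [nl, cen, he, hf]
  | smul t e he => intro x; simp [nl, cen, he]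
  | node k σ e he =>
    intro x
    simp [nl, cen, he, cen_linE, cen_nonneg, eval, eval_linE, e.eval_nl hV c x]
  | mean C e he => intro x; simp [nl, cen, he, cen_nonneg]

lemma cen_nrm {V : κ → Sp d → Sp d} {DV : κ → Sp d → Sp d →L[ℝ] Sp d} {e' : κ → ℝ}
    (hV : IsBoxes V DV e') (c : Fin J → Sp d) {n : ℕ} (e : Expr κ J n) (x : Fin n → Sp d) :
    e.nrm.cen V c x = e.cen V c x := by
  simp [nrm, cen, cen_linE, cen_nl hV, cen_nonneg]

/-! ### One more centre -/

/-- The same expression with one more centre, placed last and unused. -/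
noncomputable def wk : {n : ℕ} → Expr κ J n → Expr κ (J + 1) n
  | _, var i => var i
  | _, zero => zero
  | _, add e f => add e.wk f.wk
  | _, smul t e => smul t e.wk
  | _, node k σ e => node k σ e.wk
  | _, mean C e => mean (Fin.snoc C 0) e.wk

lemma eval_wk (V : κ → Sp d → Sp d) (c : Fin J → Sp d) (c₀ : Sp d) {n : ℕ} (e : Expr κ J n) :
    ∀ x : Fin n → Sp d, e.wk.eval V (Fin.snoc c c₀) x = e.eval V c x := by
  induction e with
  | var i => intro x; rfl
  | zero => intro x; rfl
  | add e f he hf => intro x; simp [wk, eval, he, hf]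
  | smul t e he => intro x; simp [wk, eval, he]
  | node k σ e he => intro x; simp [wk, eval, he]
  | mean C e he => intro x; simp [wk, eval, he, Fin.sum_univ_castSucc]

lemma cen_wk (V : κ → Sp d → Sp d) (c : Fin J → Sp d) (c₀ : Sp d) {n : ℕ} (e : Expr κ J n) :
    ∀ x : Fin n → Sp d, e.wk.cen V (Fin.snoc c c₀) x = e.cen V c x := by
  induction e with
  | var i => intro x; rfl
  | zero => intro x; rfl
  | add e f he hf => intro x; simp [wk, cen, he, hf]
  | smul t e he => intro x; simp [wk, cen, he]
  | node k σ e he => intro x; simp [wk, cen, he, eval_wk]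
  | mean C e he => intro x; simp [wk, cen, he, Fin.sum_univ_castSucc]

lemma aff_wk {n : ℕ} (e : Expr κ J n) : ∀ i, e.wk.aff i = e.aff i := by
  induction e with
  | var j => intro i; rfl
  | zero => intro i; rfl
  | add e f he hf => intro i; simp [wk, aff, he, hf]
  | smul t e he => intro i; simp [wk, aff, he]
  | node k σ e he => intro i; rfl
  | mean C e he => intro i; simp [wk, aff, he]

lemma lip_wk (ν : κ → ℝ) {n : ℕ} (e : Expr κ J n) : ∀ i, e.wk.lip ν i = e.lip ν i := by
  induction e with
  | var j => intro i; rfl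
  | zero => intro i; rfl
  | add e f he hf => intro i; simp [wk, lip_add, he, hf]
  | smul t e he => intro i; simp [wk, lip_smul, he]
  | node k σ e he => intro i; simp [wk, lip_node, he]
  | mean C e he => intro i; simp [wk, lip_mean, he]

lemma sm_wk {n : ℕ} (e : Expr κ J n) : e.wk.sm L sc = e.sm L sc := by
  induction e with
  | var j => rfl
  | zero => rfl
  | add e f he hf => simp [wk, sm, he, hf]
  | smul t e he => simp [wk, sm, he]
  | node k σ e he => simp [wk, sm, he]
  | mean C e he => simp [wk, sm, he, aff_wk]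

lemma good_wk {n : ℕ} (e : Expr κ J n) :
    e.Good η L sc B R w → e.wk.Good η L sc B R w := by
  induction e with
  | var j => intro _; trivial
  | zero => intro _; trivial
  | add e f he hf => intro h; exact ⟨he h.1, hf h.2⟩
  | smul t e he => intro h; exact he h
  | node k σ e he =>
    intro ⟨h1, h2, h3, h4, h5, h6, h7⟩
    refine ⟨h1, h2, h3, ?_, ?_, e.sm_wk.trans_le h6, he h7⟩
    · simpa only [aff_wk] using h4
    · simpa only [aff_wk] using h5
  | mean C e he => intro h; exact he h

lemma fill_wk (r : ℝ) {n : ℕ} (e : Expr κ J n) : e.Fill kap → e.wk.Fill (Fin.snoc kap r) := by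
  induction e with
  | var j => intro _; trivial
  | zero => intro _; trivial
  | add e f he hf => intro h; exact ⟨he h.1, hf h.2⟩
  | smul t e he => intro h; exact he h
  | node k σ e he => intro h; exact he h
  | mean C e he =>
    intro h
    refine ⟨?_, he h.2⟩
    simpa [Fin.sum_univ_castSucc] using h.1

lemma depth_wk {n : ℕ} (e : Expr κ J n) : e.wk.depth = e.depth := by
  induction e with
  | var j => rfl
  | zero => rfl
  | add e f he hf => simp [wk, depth, he, hf]
  | smul t e he => simp [wk, depth, he]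
  | node k σ e he => simp [wk, depth, he]
  | mean C e he => simp [wk, depth, he]

lemma size_wk {n : ℕ} (e : Expr κ J n) : e.wk.size = e.size := by
  induction e with
  | var j => rfl
  | zero => rfl
  | add e f he hf => simp [wk, size, he, hf]
  | smul t e he => simp [wk, size, he]
  | node k σ e he => simp [wk, size, he]
  | mean C e he => simp [wk, size, he]

end Vale.Agent.P347.Shift.Expr
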