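import Vale.Agent.P347.Shift.PtParts
import Vale.Agent.P347.Shift.EmitBase

/-!
# P347: emission of expressions by structural induction

Linear parts are exact, rooms are split in proportion to the sizes, and the centre of a node is
emitted into half of its smoothing. What is left are the two halves `NodeSpec` and `MeanSpec`.
-/

open MeasureTheory ProbabilityTheory Real Filter
open scoped RealInnerProductSpace ENNReal

namespace Vale.Agent.P347.Shift

open Quarter

namespace Pt

section calculus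

variable {κ : Type} {J d : ℕ} {V : κ → Sp d → Sp d} {L η B R w : ℝ} {sc : κ → ℝ}

lemma norm_field_sub {U : Sp d → Sp d} (h : IsField L U) (x y : Sp d) :
    ‖U x - U y‖ ≤ L * ‖x - y‖ :=
  Convex.norm_image_sub_le_of_norm_hasFDerivWithin_le
    (fun z _ => ((h.smooth.differentiable one_ne_zero) z).hasFDerivAt.hasFDerivWithinAt)
    (fun z _ => h.bound z) convex_univ (Set.mem_univ y) (Set.mem_univ x)

lemma field_nonneg {U : Sp d → Sp d} (h : IsField L U) : 0 ≤ L := (norm_nonneg _).trans (h.bound 0)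

lemma integrable_of_lip {F : Sp d → Sp d} {l : ℝ} (hl : ∀ u v, ‖F u - F v‖ ≤ l * ‖u - v‖) :
    Integrable F (gd d) := by
  have hc : Continuous F := (LipschitzWith.of_dist_le_mul (K := l.toNNReal) fun u v => by
    rw [dist_eq_norm, dist_eq_norm]
    exact (hl u v).trans
      (mul_le_mul_of_nonneg_right (le_coe_toNNReal l) (norm_nonneg _))).continuous
  refine ((integrable_const ‖F 0‖).add (integrable_norm_gd.const_mul l)).mono'
    hc.aestronglyMeasurable (Eventually.of_forall fun u => ?_)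
  have h1 := hl u 0
  rw [sub_zero] at h1
  simp only [Pi.add_apply]
  linarith [norm_le_insert' (F u) (F 0)]

/-- Expressions are Lipschitz in variables and centres. -/
lemma exists_lip (hV : ∀ k, IsField L (V k)) : ∀ {n : ℕ} (e : Expr κ J n), ∃ ℓ : ℝ, 0 ≤ ℓ ∧
    ∀ (c c' : Fin J → Sp d) (x x' : Fin n → Sp d),
      ‖e.eval V c x - e.eval V c' x'‖ ≤ ℓ * (∑ i, ‖x i - x' i‖ + ∑ j, ‖c j - c' j‖)
  | _, .var i => ⟨1, zero_le_one, fun c c' x x' => by
      simp only [Expr.eval, one_mul]
      exact (Finset.single_le_sum (f := fun i => ‖x i - x' i‖) (fun _ _ => norm_nonneg _)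
        (Finset.mem_univ i)).trans
          (le_add_of_nonneg_right (Finset.sum_nonneg fun _ _ => norm_nonneg _))⟩
  | _, .zero => ⟨0, le_rfl, fun c c' x x' => by simp [Expr.eval]⟩
  | _, .add e f => by
      obtain ⟨a, ha, ha'⟩ := exists_lip hV e
      obtain ⟨b, hb, hb'⟩ := exists_lip hV f
      refine ⟨a + b, add_nonneg ha hb, fun c c' x x' => ?_⟩
      simp only [Expr.eval]
      rw [add_sub_add_comm, add_mul]
      exact (norm_add_le _ _).trans (add_le_add (ha' c c' x x') (hb' c c' x x'))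
  | _, .smul t e => by
      obtain ⟨a, ha, ha'⟩ := exists_lip hV e
      refine ⟨|t| * a, mul_nonneg (abs_nonneg t) ha, fun c c' x x' => ?_⟩
      simp only [Expr.eval]
      rw [← smul_sub, norm_smul, norm_eq_abs, mul_assoc]
      exact mul_le_mul_of_nonneg_left (ha' c c' x x') (abs_nonneg t)
  | _, .node k σ e => by
      obtain ⟨a, ha, ha'⟩ := exists_lip hV e
      have hL := field_nonneg (hV k)
      refine ⟨L * a, mul_nonneg hL ha, fun c c' x x' => ?_⟩
      have hi : ∀ z : Sp d, Integrable (fun u => V k ((1:ℝ) • z + σ • u)) (gd d) := fun z =>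
        integrable_of_lip (l := L * |σ|) fun u v => by
          refine (norm_field_sub (hV k) _ _).trans (le_of_eq ?_)
          rw [add_sub_add_left_eq_sub, ← smul_sub, norm_smul, norm_eq_abs, mul_assoc]
      simp only [Expr.eval, smth]
      rw [← integral_sub (hi _) (hi _)]
      refine (norm_integral_le_of_norm_le_const (C := L * (a * (∑ i, ‖x i - x' i‖ +
        ∑ j, ‖c j - c' j‖))) (Eventually.of_forall fun u => ?_)).trans_eq (by simp [mul_assoc])
      refine (norm_field_sub (hV k) _ _).trans (mul_le_mul_of_nonneg_left ?_ hL)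
      rw [one_smul, one_smul, add_sub_add_right_eq_sub]
      exact ha' c c' x x'
  | _, .mean C e => by
      obtain ⟨a, ha, ha'⟩ := exists_lip hV e
      refine ⟨a * (1 + ∑ j, |C j|), by positivity, fun c c' x x' => ?_⟩
      have hl : ∀ (p : Fin J → Sp d) (y : Fin _ → Sp d) (m u v : Sp d),
          ‖e.eval V p (Fin.cons (u + m) y) - e.eval V p (Fin.cons (v + m) y)‖ ≤ a * ‖u - v‖ :=
        fun p y m u v => by
          simpa [Fin.sum_univ_succ] using ha' p p (Fin.cons (u + m) y) (Fin.cons (v + m) y)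
      simp only [Expr.eval]
      rw [← integral_sub (integrable_of_lip (hl c x _)) (integrable_of_lip (hl c' x' _))]
      refine (norm_integral_le_of_norm_le_const (C := a * (1 + ∑ j, |C j|) *
        (∑ i, ‖x i - x' i‖ + ∑ j, ‖c j - c' j‖)) (Eventually.of_forall fun u => ?_)).trans_eq
          (by simp)
      refine (ha' c c' _ _).trans ?_
      rw [mul_assoc]
      refine mul_le_mul_of_nonneg_left ?_ ha
      simp only [Fin.sum_univ_succ, Fin.cons_zero, Fin.cons_succ, add_sub_add_left_eq_sub]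
      have h1 : ‖∑ j, C j • c j - ∑ j, C j • c' j‖ ≤ (∑ j, |C j|) * ∑ j, ‖c j - c' j‖ := by
        rw [← Finset.sum_sub_distrib, Finset.sum_mul]
        refine (norm_sum_le _ _).trans (Finset.sum_le_sum fun j _ => ?_)
        rw [← smul_sub, norm_smul, norm_eq_abs]
        exact mul_le_mul_of_nonneg_left (Finset.single_le_sum (f := fun j => ‖c j - c' j‖)
          (fun _ _ => norm_nonneg _) (Finset.mem_univ j)) (abs_nonneg _)
      have hx : 0 ≤ (∑ j, |C j|) * ∑ i, ‖x i - x' i‖ := by positivity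
      rw [add_mul, mul_add]
      linarith

/-- Evaluation is continuous in centres and variables together. -/
lemma continuous_eval (hV : ∀ k, IsField L (V k)) {n : ℕ} (e : Expr κ J n) :
    Continuous fun p : (Fin J → Sp d) × (Fin n → Sp d) => e.eval V p.1 p.2 := by
  obtain ⟨ℓ, hℓ, h⟩ := exists_lip hV e
  refine (LipschitzWith.of_dist_le_mul (K := (ℓ * (n + J)).toNNReal) fun p q => ?_).continuous
  rw [dist_eq_norm, dist_eq_norm]
  refine ((h p.1 q.1 p.2 q.2).trans ?_).trans
    (mul_le_mul_of_nonneg_right (le_coe_toNNReal _) (norm_nonneg _))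
  rw [mul_assoc]
  refine mul_le_mul_of_nonneg_left ?_ hℓ
  have h2 : ∀ j ∈ Finset.univ, ‖p.2 j - q.2 j‖ ≤ ‖p - q‖ := fun j _ =>
    (norm_le_pi_norm (p.2 - q.2) j).trans (norm_snd_le (p - q))
  have h1 : ∀ j ∈ Finset.univ, ‖p.1 j - q.1 j‖ ≤ ‖p - q‖ := fun j _ =>
    (norm_le_pi_norm (p.1 - q.1) j).trans (norm_fst_le (p - q))
  rw [add_mul]
  refine add_le_add ((Finset.sum_le_card_nsmul _ _ _ h2).trans_eq ?_)
    ((Finset.sum_le_card_nsmul _ _ _ h1).trans_eq ?_) <;> simp

lemma sm_nonneg (hL : 0 ≤ L) (hsc : ∀ k, 0 ≤ sc k) : ∀ {n : ℕ} (e : Expr κ J n), 0 ≤ e.sm L sc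
  | _, .var _ => le_rfl
  | _, .zero => le_rfl
  | _, .add e f => add_nonneg (sm_nonneg hL hsc e) (sm_nonneg hL hsc f)
  | _, .smul t e => mul_nonneg (abs_nonneg t) (sm_nonneg hL hsc e)
  | _, .node k _ e => mul_nonneg hL (add_nonneg (hsc k) (sm_nonneg hL hsc e))
  | _, .mean _ e => add_nonneg (sm_nonneg hL hsc e) (abs_nonneg _)

lemma cen_nonneg (c : Fin J → Sp d) : ∀ {n : ℕ} (e : Expr κ J n) (x : Fin n → Sp d),
    0 ≤ e.cen V c x
  | _, .var _, _ => le_rfl
  | _, .zero, _ => le_rfl
  | _, .add e _, x => le_max_of_le_left (cen_nonneg c e x)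
  | _, .smul _ e, x => cen_nonneg c e x
  | _, .node _ _ e, x => le_max_of_le_right (cen_nonneg c e x)
  | _, .mean _ e, _ => cen_nonneg c e _

/-- The invariant weakens when its constants grow. -/
lemma good_mono {B' R' : ℝ} (hη : 0 ≤ η) (hsc : ∀ k, 0 ≤ sc k) (hB : B ≤ B') (hR : R ≤ R') :
    ∀ {n : ℕ} (e : Expr κ J n), e.Good η L sc B R w → e.Good η L sc B' R' w
  | _, .var _, h => h
  | _, .zero, h => h
  | _, .add e f, h => ⟨good_mono hη hsc hB hR e h.1, good_mono hη hsc hB hR f h.2⟩
  | _, .smul _ e, h => good_mono hη hsc hB hR e h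
  | _, .node k _ e, h =>
      ⟨h.1, h.2.1.trans (mul_le_mul_of_nonneg_right hB (hsc k)), h.2.2.1.trans hB,
        h.2.2.2.1.trans (mul_le_mul_of_nonneg_right hR h.1.le),
        h.2.2.2.2.1.trans (mul_le_mul_of_nonneg_right hB (hsc k)),
        h.2.2.2.2.2.1.trans (mul_le_mul_of_nonneg_right
          (mul_le_mul_of_nonneg_right hB h.1.le) (rpow_nonneg hη w)),
        good_mono hη hsc hB hR e h.2.2.2.2.2.2⟩
  | _, .mean _ e, h => good_mono hη hsc hB hR e h

/-- Without nodes and means the size is zero. -/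
lemma sm_of_depth_zero : ∀ {n : ℕ} (e : Expr κ J n), e.depth ≤ 0 → e.sm L sc = 0
  | _, .var _, _ => rfl
  | _, .zero, _ => rfl
  | _, .add e f, h => by
      have h1 : max e.depth f.depth ≤ 0 := h
      simp [Expr.sm, sm_of_depth_zero e ((le_max_left _ _).trans h1),
        sm_of_depth_zero f ((le_max_right _ _).trans h1)]
  | _, .smul _ e, h => by simp [Expr.sm, sm_of_depth_zero e h]
  | _, .node _ _ e, h => absurd (show e.depth + 1 ≤ 0 from h) (by omega)
  | _, .mean _ e, h => absurd (show e.depth + 1 ≤ 0 from h) (by omega)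

/-- An expression of size zero is its linear part. -/
lemma eval_of_sm_zero (hV : ∀ k, IsField L (V k)) (hL : 0 ≤ L) (hsc : ∀ k, 0 ≤ sc k) :
    ∀ {n : ℕ} (e : Expr κ J n), e.Good η L sc B R w → e.sm L sc = 0 →
      ∀ (c : Fin J → Sp d) (x : Fin n → Sp d), e.eval V c x = ∑ i, e.aff i • x i
  | _, .var j, _, _, c, x => by simp [Expr.eval, Expr.aff, ite_smul]
  | _, .zero, _, _, c, x => by simp [Expr.eval, Expr.aff]
  | _, .add e f, h, h0, c, x => by
      obtain ⟨he, hf⟩ := (add_eq_zero_iff_of_nonneg (sm_nonneg hL hsc e)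
        (sm_nonneg hL hsc f)).1 h0
      simp only [Expr.eval, Expr.aff, add_smul, Finset.sum_add_distrib,
        eval_of_sm_zero hV hL hsc e h.1 he c x, eval_of_sm_zero hV hL hsc f h.2 hf c x]
  | _, .smul t e, h, h0, c, x => by
      rcases mul_eq_zero.1 h0 with ht | he
      · simp [Expr.eval, Expr.aff, abs_eq_zero.1 ht]
      · simp only [Expr.eval, Expr.aff, mul_smul, ← Finset.smul_sum,
          eval_of_sm_zero hV hL hsc e h he c x]
  | _, .node k σ e, h, h0, c, x => by
      have hk : 0 < sc k := by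
        rcases (hsc k).eq_or_lt with hk | hk
        · have := h.2.1
          rw [← hk, mul_zero] at this
          exact absurd h.1 (not_lt.2 this)
        · exact hk
      have hL0 : L = 0 := by
        rcases mul_eq_zero.1 h0 with hl | hl
        · exact hl
        · linarith [sm_nonneg hL hsc e]
      have hz : ∀ y, V k y = 0 := fun y => by
        have h1 := norm_field_sub (hV k) y 0
        have h2 := (hV k).zero
        rw [hL0, zero_mul] at h1 h2
        rw [norm_le_zero_iff.1 h2, sub_zero] at h1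
        exact norm_le_zero_iff.1 h1
      simp [Expr.eval, Expr.aff, smth, hz]
  | _, .mean C e, h, h0, c, x => by
      obtain ⟨he, ha⟩ := (add_eq_zero_iff_of_nonneg (sm_nonneg hL hsc e) (abs_nonneg _)).1 h0
      simp [Expr.eval, Expr.aff, eval_of_sm_zero hV hL hsc e h he, Fin.sum_univ_succ,
        abs_eq_zero.1 ha]

end calculus

section emission

variable {d J : ℕ} {κ α : Type} [MeasurableSpace α] {η L B R w θ C ν : ℝ} {A : ℕ} {Nb : ℕ}
  {sc : κ → ℝ} {kap : Fin J → ℝ} {𝒱 : κ → (Sp d → Sp d) → Sp d → Sp d}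

/-- The conclusion of the emission statement for one expression at one room; `ν` is the accuracy. -/
def Out (η L C ν θ : ℝ) (A Nb : ℕ) (sc : κ → ℝ) (kap : Fin J → ℝ)
    (𝒱 : κ → (Sp d → Sp d) → Sp d → Sp d) (q : Fin J → Emitter d α) {v : ℕ} (e : Expr κ J v)
    (X : α → Fin v → Sp d) (b : ℝ) : Prop :=
  ∃ p : Emitter d α,
    (p.cost : ℝ) ≤ C * η ^ (-θ) * (e.size : ℝ) ^ A * ((Nb : ℝ) + 1 + ∑ j, (q j).cost) ∧
    ∀ G, Adm η G → ∀ (c : α → Fin J → Sp d) (ec : Fin J → α → ℝ),
      (∀ j a, 0 ≤ ec j a) → (∀ j, Measurable fun a => c a j) →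
      (∀ j, Emits (q j) G (fun a => c a j) (kap j) (ec j)) →
      Emits p G (fun a => e.eval (fun k => 𝒱 k G) (c a) (X a)) b fun a =>
        C * e.sm L sc * (η ^ ν * (√d + e.cen (fun k => 𝒱 k G) (c a) (X a)) +
          ∑ j, ec j a / kap j)

variable {q : Fin J → Emitter d α}

omit [MeasurableSpace α] in
/-- The bracket of the error is nonnegative. -/
lemma bracket_nonneg {v : ℕ} (e : Expr κ J v) (hη : 0 ≤ η) (hkap : ∀ j, 0 < kap j)
    {ec : Fin J → α → ℝ} (hec : ∀ j a, 0 ≤ ec j a) (V : κ → Sp d → Sp d) (c : Fin J → Sp d)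
    (x : Fin v → Sp d) (a : α) :
    0 ≤ η ^ ν * (√d + e.cen V c x) + ∑ j, ec j a / kap j :=
  add_nonneg (mul_nonneg (rpow_nonneg hη _) (add_nonneg (sqrt_nonneg _) (cen_nonneg c e x)))
    (Finset.sum_nonneg fun j _ => div_nonneg (hec j a) (hkap j).le)

/-- Size zero: the linear part is emitted exactly, at any room. -/
lemma out_linear {v : ℕ} (e : Expr κ J v) {X : α → Fin v → Sp d} (hX : Measurable X) (b : ℝ)
    (hη : 0 ≤ η) (hC : 0 ≤ C) (hL : 0 ≤ L) (hsc : ∀ k, 0 ≤ sc k)
    (hV : ∀ k G, Adm η G → IsField L (𝒱 k G)) (hg : e.Good η L sc B R w) (h0 : e.sm L sc = 0) :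
    Out η L C ν θ A Nb sc kap 𝒱 q e X b := by
  obtain ⟨p, hp, hpe⟩ := emits_pure (d := d) (α := α) (f := fun a => ∑ i, e.aff i • X a i)
    (by fun_prop) b
  refine ⟨p, ?_, fun G hG c ec _ _ _ => ?_⟩
  · rw [hp, Nat.cast_zero]
    exact mul_nonneg (mul_nonneg (mul_nonneg hC (rpow_nonneg hη _)) (by positivity))
      (by positivity)
  · rw [funext fun a => eval_of_sm_zero (fun k => hV k G hG) hL hsc e hg h0 (c a) (X a)]
    exact EmitBase.emits_mono (hpe G) fun a => by simp only [Pi.zero_apply, abs_zero]; exact abs_nonneg _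

/-- Linear combinations of the depth-bounded cases: rooms in proportion to sizes. -/
lemma out_all {D : ℕ} (hη : 0 ≤ η) (hC : 0 ≤ C) (hA : 1 ≤ A) (hL : 0 ≤ L)
    (hsc : ∀ k, 0 ≤ sc k) (hkap : ∀ j, 0 < kap j)
    (hV : ∀ k G, Adm η G → IsField L (𝒱 k G))
    (hnode : ∀ {v : ℕ} (k : κ) (σ : ℝ) (e : Expr κ J v) (X : α → Fin v → Sp d) (b : ℝ),
      Measurable X → e.depth + 1 ≤ D + 1 → (Expr.node k σ e).Good η L sc B R w →
      (Expr.node k σ e).Fill kap → 0 < b → (Expr.node k σ e).sm L sc * η ^ (-w) ≤ B * b →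
      Out η L C ν θ A Nb sc kap 𝒱 q (Expr.node k σ e) X b)
    (hmean : ∀ {v : ℕ} (T : Fin J → ℝ) (e : Expr κ J (v + 1)) (X : α → Fin v → Sp d) (b : ℝ),
      Measurable X → e.depth + 1 ≤ D + 1 → (Expr.mean T e).Good η L sc B R w →
      (Expr.mean T e).Fill kap → 0 < b → (Expr.mean T e).sm L sc * η ^ (-w) ≤ B * b →
      Out η L C ν θ A Nb sc kap 𝒱 q (Expr.mean T e) X b) :
    ∀ {v : ℕ} (e : Expr κ J v) (X : α → Fin v → Sp d) (b : ℝ), Measurable X → e.depth ≤ D + 1 →
      e.Good η L sc B R w → e.Fill kap → 0 < b → e.sm L sc * η ^ (-w) ≤ B * b →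
      Out η L C ν θ A Nb sc kap 𝒱 q e X b
  | _, .var i, X, b, hX, _, hg, _, _, _ => out_linear _ hX b hη hC hL hsc hV hg rfl
  | _, .zero, X, b, hX, _, hg, _, _, _ => out_linear _ hX b hη hC hL hsc hV hg rfl
  | _, .node k σ e, X, b, hX, hd, hg, hf, hb, ht => hnode k σ e X b hX hd hg hf hb ht
  | _, .mean T e, X, b, hX, hd, hg, hf, hb, ht => hmean T e X b hX hd hg hf hb ht
  | _, .smul t e, X, b, hX, hd, hg, hf, hb, ht => by
      rcases (sm_nonneg hL hsc (Expr.smul t e)).eq_or_lt with h0 | h0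
      · exact out_linear _ hX b hη hC hL hsc hV hg h0.symm
      simp only [Expr.sm] at h0 ht
      have ht0 : 0 < |t| := pos_of_mul_pos_left h0 (sm_nonneg hL hsc e)
      obtain ⟨p, hp, hpe⟩ := out_all hη hC hA hL hsc hkap hV hnode hmean e X (b / |t|) hX hd hg hf
        (div_pos hb ht0) (by
          rw [mul_div, le_div_iff₀ ht0]
          calc _ = |t| * e.sm L sc * η ^ (-w) := by ring
            _ ≤ _ := ht)
      obtain ⟨o, ho, hoe⟩ := emits_sum (fun _ : Fin 1 => p) fun _ => t
      refine ⟨o, ?_, fun G hG c ec hec hc hq => ?_⟩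
      · refine le_trans (Nat.cast_le.2 ho) ?_
        simp only [Finset.univ_unique, Finset.sum_singleton, Expr.size]
        refine hp.trans ?_
        gcongr
        linarith
      · have h := hoe G hG.measurable (fun _ a => e.eval (fun k => 𝒱 k G) (c a) (X a))
          (fun _ => b / |t|) _ fun _ => hpe G hG c ec hec hc hq
        simp only [Finset.univ_unique, Finset.sum_singleton] at h
        rw [show √((t * (b / |t|)) ^ 2) = b by
          rw [sqrt_sq_eq_abs, abs_mul, abs_of_pos (div_pos hb ht0), mul_div_cancel₀ _ ht0.ne']] at h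
        refine EmitBase.emits_mono h fun a => le_of_eq ?_
        simp only [Expr.sm, Expr.cen, abs_mul, abs_abs]
        ring
  | _, .add e f, X, b, hX, hd, hg, hf, hb, ht => by
      rcases (sm_nonneg hL hsc (Expr.add e f)).eq_or_lt with h0 | h0
      · exact out_linear _ hX b hη hC hL hsc hV hg h0.symm
      simp only [Expr.sm] at h0 ht
      have hd' : max e.depth f.depth ≤ D + 1 := hd
      set S := e.sm L sc + f.sm L sc with hS
      have part : ∀ (g : Expr κ J _), g = e ∨ g = f →
          Out η L C ν θ A Nb sc kap 𝒱 q g X (b * g.sm L sc / S) := by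
        intro g hgef
        have hgg : g.Good η L sc B R w := by rcases hgef with rfl | rfl; exacts [hg.1, hg.2]
        rcases (sm_nonneg hL hsc g).eq_or_lt with g0 | g0
        · exact out_linear g hX _ hη hC hL hsc hV hgg g0.symm
        have hthr : g.sm L sc * η ^ (-w) ≤ B * (b * g.sm L sc / S) := by
          rw [mul_div, le_div_iff₀ h0]
          calc _ = g.sm L sc * (S * η ^ (-w)) := by ring
            _ ≤ g.sm L sc * (B * b) := mul_le_mul_of_nonneg_left ht g0.le
            _ = _ := by ring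
        rcases hgef with rfl | rfl
        · exact out_all hη hC hA hL hsc hkap hV hnode hmean g X _ hX
            ((le_max_left _ _).trans hd') hgg hf.1 (by positivity) hthr
        · exact out_all hη hC hA hL hsc hkap hV hnode hmean g X _ hX
            ((le_max_right _ _).trans hd') hgg hf.2 (by positivity) hthr
      obtain ⟨pe, hpe, hpe'⟩ := part e (Or.inl rfl)
      obtain ⟨pf, hpf, hpf'⟩ := part f (Or.inr rfl)
      obtain ⟨o, ho, hoe⟩ := emits_sum ![pe, pf] ![1, 1]
      set be := b * e.sm L sc / S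
      set bf := b * f.sm L sc / S
      have he0 : 0 ≤ be := div_nonneg (mul_nonneg hb.le (sm_nonneg hL hsc e)) h0.le
      have hf0 : 0 ≤ bf := div_nonneg (mul_nonneg hb.le (sm_nonneg hL hsc f)) h0.le
      have hroom : √(be ^ 2 + bf ^ 2) ≤ b := by
        rw [sqrt_le_left hb.le]
        have hsum : be + bf = b := by
          simp only [be, bf]
          rw [← add_div, ← mul_add, ← hS, mul_div_assoc, div_self h0.ne', mul_one]
        calc be ^ 2 + bf ^ 2 ≤ (be + bf) ^ 2 := by nlinarith
          _ = _ := by rw [hsum]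
      obtain ⟨o', ho', hoe'⟩ := emits_pad o (sqrt_nonneg _) hroom
      refine ⟨o', ?_, fun G hG c ec hec hc hq => ?_⟩
      · refine le_trans (Nat.cast_le.2 (ho'.trans ho)) ?_
        simp only [Fin.sum_univ_two, Matrix.cons_val_zero, Matrix.cons_val_one, Nat.cast_add,
          Expr.size, Nat.cast_one]
        refine (add_le_add hpe hpf).trans ?_
        rw [← add_mul, ← mul_add]
        gcongr
        exact (pow_add_pow_le (Nat.cast_nonneg _) (Nat.cast_nonneg _) (by omega)).trans
          (pow_le_pow_left₀ (by positivity) (le_add_of_nonneg_right zero_le_one) _)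
      · refine EmitBase.emits_mono (hoe' G hG.measurable _ _ ?_) fun a => le_rfl (a := _)
        have h := hoe G hG.measurable ![fun a => e.eval (fun k => 𝒱 k G) (c a) (X a),
            fun a => f.eval (fun k => 𝒱 k G) (c a) (X a)] ![be, bf]
          ![fun a => C * e.sm L sc * (η ^ ν * (√d + e.cen (fun k => 𝒱 k G) (c a) (X a)) +
              ∑ j, ec j a / kap j),
            fun a => C * f.sm L sc * (η ^ ν * (√d + f.cen (fun k => 𝒱 k G) (c a) (X a)) +
              ∑ j, ec j a / kap j)]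
          (Fin.forall_fin_two.2 ⟨hpe' G hG c ec hec hc hq, hpf' G hG c ec hec hc hq⟩)
        simp only [Fin.sum_univ_two, Matrix.cons_val_zero, Matrix.cons_val_one, one_mul,
          one_smul] at h
        refine EmitBase.emits_mono h fun a => ?_
        have k1 := bracket_nonneg (ν := ν) e hη hkap hec (fun k => 𝒱 k G) (c a) (X a) a
        have k2 := bracket_nonneg (ν := ν) f hη hkap hec (fun k => 𝒱 k G) (c a) (X a) a
        have k3 := bracket_nonneg (ν := ν) (Expr.add e f) hη hkap hec (fun k => 𝒱 k G) (c a)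
          (X a) a
        have k4 := sm_nonneg hL hsc e
        have k5 := sm_nonneg hL hsc f
        simp only [Expr.sm, Expr.cen] at k3 ⊢
        rw [abs_of_nonneg (add_nonneg (abs_nonneg _) (abs_nonneg _)),
          abs_of_nonneg (mul_nonneg (mul_nonneg hC k4) k1),
          abs_of_nonneg (mul_nonneg (mul_nonneg hC k5) k2),
          abs_of_nonneg (mul_nonneg (mul_nonneg hC (add_nonneg k4 k5)) k3)]
        calc _ ≤ C * e.sm L sc * (η ^ ν * (√d + max (e.cen (fun k => 𝒱 k G) (c a) (X a))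
                (f.cen (fun k => 𝒱 k G) (c a) (X a))) + ∑ j, ec j a / kap j) +
              C * f.sm L sc * (η ^ ν * (√d + max (e.cen (fun k => 𝒱 k G) (c a) (X a))
                (f.cen (fun k => 𝒱 k G) (c a) (X a))) + ∑ j, ec j a / kap j) := by
              gcongr
              · exact le_max_left _ _
              · exact le_max_right _ _
          _ = _ := by ring

end emission

variable {K n : ℕ}

/-- Expressions without nodes and means. -/
theorem ptDepth_zero (K n : ℕ) : PtDepth K n 0 := fun _ => ⟨0, 0, fun _ _ _ _ => ⟨0, 1, one_pos,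
  fun d J v κ α _ η L b Nb sc 𝒱 e kap X q _ hη _ hL _ _ _ hsc _ hX hD hg _ _ hbox =>
    out_linear e hX b hη.le le_rfl hL hsc (fun k => (hbox k 0 (Nat.zero_le n)).1) hg
      (sm_of_depth_zero e hD)⟩⟩

/-- One more level of nesting. -/
theorem ptDepth_succ (hN : NodeSpec K n) (hM : MeanSpec K n) {D : ℕ} (ih : PtDepth K n D) :
    PtDepth K n (D + 1) := by
  intro B
  set B2 := 2 * max B 1 with hB2
  have hBB2 : B ≤ B2 := by linarith [le_max_left B 1, le_max_right B 1]
  obtain ⟨B1', A1, h1⟩ := ih B2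
  obtain ⟨B2', h2⟩ := hN B2
  obtain ⟨B3', A3, h3⟩ := hM D ih B
  refine ⟨max B1' (max B2' B3'), max A1 A3 + 1, fun θ hθ Cb hCb => ?_⟩
  obtain ⟨C1, e1, he1, h1⟩ := h1 (θ / 2) (half_pos hθ) Cb hCb
  obtain ⟨C2, e2, he2, h2⟩ := h2 (θ / 2) (half_pos hθ) Cb hCb
  obtain ⟨C3, e3, he3, h3⟩ := h3 θ hθ Cb hCb
  set C := |C3| + |C2| * (1 + |C1|) with hCdef
  have hC : 0 ≤ C := by positivity
  refine ⟨C, min (min e1 e2) (min e3 1), lt_min (lt_min he1 he2) (lt_min he3 one_pos), ?_⟩
  intro d J v κ α _ η L b Nb sc 𝒱 e kap X q hd hη hη0 hL hL4 hb hNb hsc hkap hX hD hg hf ht hbox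
  have hη1 : η ≤ 1 := hη0.trans ((min_le_right _ _).trans (min_le_right _ _))
  have hV : ∀ k G, Adm η G → IsField L (𝒱 k G) := fun k => (hbox k 0 (Nat.zero_le n)).1
  have lower : ∀ {B0 : ℝ}, B0 ≤ max B1' (max B2' B3') → ∀ k, ∀ m ≤ n,
      IsBox d K η L (sc k) m B0 Cb Nb (𝒱 k) := fun hB0 k m hm =>
    (hbox k m hm).mono hη.le hL (hsc k) hCb hB0 le_rfl le_rfl
  have hcost : ∀ {s : ℕ} {T : ℝ}, 1 ≤ s → 0 ≤ T → ∀ i ≤ max A1 A3,
      (s : ℝ) ^ i * T ≤ (s : ℝ) ^ (max A1 A3 + 1) * T := fun hs hT i hi =>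
    mul_le_mul_of_nonneg_right (pow_le_pow_right₀ (by exact_mod_cast hs) (by omega)) hT
  have hT0 : (0 : ℝ) ≤ (Nb : ℝ) + 1 + ∑ j, (q j).cost := by positivity
  refine out_all (D := D) hη.le hC (Nat.le_add_left 1 _) hL hsc hkap hV ?_ ?_ e X b hX hD hg hf hb
    ht
  · intro v k σ e X b hX hd' hg hf hb ht
    obtain ⟨hσ, hσB, hscB, -, -, hsm, hge⟩ := hg
    simp only [Expr.sm] at ht
    have hsm0 := sm_nonneg hL hsc e
    obtain ⟨pc, hpc, hpce⟩ := h1 d J v κ α η L (σ / 2) Nb sc 𝒱 e kap X q hd hη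
      (hη0.trans ((min_le_left _ _).trans (min_le_left _ _))) hL hL4 (half_pos hσ) hNb hsc hkap hX
      (by omega)
      (good_mono hη.le hsc hBB2 (mul_le_mul_of_nonneg_right hBB2 (rpow_nonneg hη.le _)) e hge) hf
      (by
        refine (mul_le_mul_of_nonneg_right hsm (rpow_nonneg hη.le _)).trans ?_
        rw [mul_assoc (B * σ), ← rpow_add hη, add_neg_cancel, rpow_zero, mul_one, hB2]
        nlinarith [le_max_left B 1])
      (lower (le_max_left _ _))
    obtain ⟨p, hp, hpe⟩ := h2 d α η L b σ (sc k) Nb (𝒱 k) pc hd hη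
      (hη0.trans ((min_le_left _ _).trans (min_le_right _ _))) hL hL4 hb hNb hσ
      (hσB.trans (mul_le_mul_of_nonneg_right hBB2 (hsc k))) (hsc k) (hscB.trans hBB2)
      ((mul_le_mul_of_nonneg_right (mul_le_mul_of_nonneg_left (le_add_of_nonneg_right hsm0) hL)
        (rpow_nonneg hη.le _)).trans (ht.trans (mul_le_mul_of_nonneg_right hBB2 hb.le)))
      (lower ((le_max_left _ _).trans (le_max_right _ _)) k)
    refine ⟨p, ?_, fun G hG c ec hec hc hq => ?_⟩
    · refine hp.trans ?_
      set T : ℝ := (Nb : ℝ) + 1 + ((∑ j, (q j).cost : ℕ) : ℝ) with hT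
      set E := η ^ (-(θ / 2)) with hE
      have hE1 : 1 ≤ E := one_le_rpow_of_pos_of_le_one_of_nonpos hη hη1 (by linarith)
      set P := ((Expr.node k σ e).size : ℝ) ^ (max A1 A3 + 1)
      have hP1 : 1 ≤ P := one_le_pow₀ (by simp [Expr.size])
      have hPe : (e.size : ℝ) ^ A1 * T ≤ P * T := by
        refine (mul_le_mul_of_nonneg_right (pow_le_pow_left₀ (Nat.cast_nonneg _) ?_ _) hT0).trans
          (hcost (s := (Expr.node k σ e).size) (by simp [Expr.size]) hT0 A1 (le_max_left _ _))
        simp [Expr.size]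
      have hNT : (Nb : ℝ) + 1 ≤ E * (P * T) := by
        have : (Nb : ℝ) + 1 ≤ T := le_add_of_nonneg_right (Nat.cast_nonneg _)
        exact this.trans ((le_mul_of_one_le_left hT0 hP1).trans
          (le_mul_of_one_le_left (by positivity) hE1))
      have hEE : η ^ (-θ) = E * E := by rw [hE, ← rpow_add hη]; ring_nf
      calc C2 * E * ((Nb : ℝ) + 1 + pc.cost) ≤ |C2| * E * ((Nb : ℝ) + 1 + pc.cost) := by
            gcongr; exact le_abs_self _
        _ ≤ |C2| * E * (E * (P * T) + |C1| * E * (P * T)) := by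
            gcongr
            calc (pc.cost : ℝ) ≤ C1 * E * (e.size : ℝ) ^ A1 * T := hpc
              _ = C1 * E * ((e.size : ℝ) ^ A1 * T) := by ring
              _ ≤ |C1| * E * (P * T) := by gcongr; exact le_abs_self _
        _ = |C2| * (1 + |C1|) * (E * E) * P * T := by ring
        _ ≤ C * η ^ (-θ) * P * T := by
            rw [hEE]; gcongr; exact le_add_of_nonneg_left (abs_nonneg _)
    · set V := fun k => 𝒱 k G
      have hΦ : Measurable fun a => e.eval V (c a) (X a) :=
        (continuous_eval (fun k => hV k G hG) e).measurable.comp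
          ((measurable_pi_lambda _ hc).prodMk hX)
      have h := hpe G hG _ (fun a => |C1 * e.sm L sc * (η ^ ((n : ℝ) * pE K) *
        (√d + e.cen V (c a) (X a)) + ∑ j, ec j a / kap j)|) hΦ (fun a => abs_nonneg _)
        (EmitBase.emits_mono (hpce G hG c ec hec hc hq) fun a => (abs_abs _).ge)
      refine EmitBase.emits_mono h fun a => ?_
      simp only [Expr.sm]
      set m := max ‖e.eval V (c a) (X a)‖ (e.cen V (c a) (X a))
      set Q := η ^ ((n : ℝ) * pE K) * (√d + m) + ∑ j, ec j a / kap j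
      have hν : 0 ≤ η ^ ((n : ℝ) * pE K) := rpow_nonneg hη.le _
      have hs : 0 ≤ ∑ j, ec j a / kap j :=
        Finset.sum_nonneg fun j _ => div_nonneg (hec j a) (hkap j).le
      have hQ1 : η ^ ((n : ℝ) * pE K) * (√d + ‖e.eval V (c a) (X a)‖) ≤ Q :=
        le_trans (mul_le_mul_of_nonneg_left (add_le_add le_rfl (le_max_left _ _)) hν)
          (le_add_of_nonneg_right hs)
      have hb0 := bracket_nonneg (ν := (n : ℝ) * pE K) e hη.le hkap hec V (c a) (X a) a
      have hQ2 : η ^ ((n : ℝ) * pE K) * (√d + e.cen V (c a) (X a)) + ∑ j, ec j a / kap j ≤ Q :=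
        add_le_add (mul_le_mul_of_nonneg_left (add_le_add le_rfl (le_max_right _ _)) hν) le_rfl
      have hQ0 : 0 ≤ Q := hb0.trans hQ2
      have k1 := hsc k
      calc _ = |C2| * (L * sc k * (η ^ ((n : ℝ) * pE K) * (√d + ‖e.eval V (c a) (X a)‖)) +
            L * (|C1| * e.sm L sc * (η ^ ((n : ℝ) * pE K) * (√d + e.cen V (c a) (X a)) +
              ∑ j, ec j a / kap j))) := by
            rw [abs_mul C2, abs_mul (C1 * _), abs_mul C1, abs_of_nonneg hsm0, abs_of_nonneg hb0,
              abs_of_nonneg (add_nonneg (mul_nonneg (mul_nonneg hL k1)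
                (mul_nonneg hν (add_nonneg (sqrt_nonneg _) (norm_nonneg _))))
                (mul_nonneg hL (mul_nonneg (mul_nonneg (abs_nonneg _) hsm0) hb0)))]
        _ ≤ |C2| * (L * sc k * Q + L * (|C1| * e.sm L sc * Q)) := by gcongr
        _ ≤ |C2| * (1 + |C1|) * (L * (sc k + e.sm L sc)) * Q := by
            have : 0 ≤ |C2| * L * Q := by positivity
            nlinarith [mul_nonneg this k1, mul_nonneg this hsm0,
              mul_nonneg (mul_nonneg this k1) (abs_nonneg C1)]
        _ ≤ C * (L * (sc k + e.sm L sc)) * Q := by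
            gcongr; exact le_add_of_nonneg_left (abs_nonneg _)
        _ ≤ _ := le_abs_self _
  · intro v T e X b hX hd' hg hf hb ht
    obtain ⟨p, hp, hpe⟩ := h3 d J v κ α η L b Nb sc 𝒱 (Expr.mean T e) kap X q hd hη
      (hη0.trans ((min_le_right _ _).trans (min_le_left _ _))) hL hL4 hb hNb hsc hkap hX
      ⟨T, e, rfl, by omega⟩ hg hf ht (lower ((le_max_right _ _).trans (le_max_right _ _)))
    refine ⟨p, hp.trans ?_, fun G hG c ec hec hc hq => EmitBase.emits_mono
      (hpe G hG c ec hec hc hq) fun a => ?_⟩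
    · rw [mul_assoc, mul_assoc (C * η ^ (-θ))]
      exact mul_le_mul (mul_le_mul_of_nonneg_right ((le_abs_self C3).trans
        (le_add_of_nonneg_right (by positivity))) (rpow_nonneg hη.le _))
        (hcost (by simp [Expr.size]) hT0 A3 (le_max_right _ _)) (by positivity) (by positivity)
    · rw [abs_mul, abs_mul C3, abs_mul (C * _), abs_mul C, abs_of_nonneg hC]
      gcongr
      exact le_add_of_nonneg_right (by positivity)

end Pt

/-- Expressions are emitted once smoothed boxes and means are. -/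
theorem pt_of {K n : ℕ} (hN : NodeSpec K n) (hM : MeanSpec K n) : PtSpec K n := by
  intro D
  induction D with
  | zero => exact Pt.ptDepth_zero K n
  | succ D ih => exact Pt.ptDepth_succ hN hM ih

end Vale.Agent.P347.Shift
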