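import Vale.Agent.P347.Quarter.Defs
import Vale.Agent.P347.Quarter.Machine

/-!
# P347: the interface of a high order step

`WhiteStep K β` is what a provider owes: for a potential whose Hessian lies between `0` and `η`,
centred within `η √d`, a program with at most `C d ^ β` queries whose output is within
`C d ^ β (η ^ K √d + 1 / d)` of the tilt plus half a unit of noise, in the dual form of the mean
distance (tested on bounded Lipschitz functions; a coupling implies it, `Near.of_maps`).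
`ChainSpec K β` is the same in the coordinates of the proximal chain, against `halfLaw`; `SmallStep`
is the weaker property that the top level uses. All are definitions only: `Shift/Top.lean` shows
what follows from having `SmallStep a` for all small `a > 0`.
-/

open MeasureTheory ProbabilityTheory Real
open scoped RealInnerProductSpace

namespace Vale.Agent.P347.Shift

open Quarter

variable {d : ℕ}

/-- Bounded `L`-Lipschitz tests see a difference of at most `L e`. -/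
def Near (μ ν : Measure (Sp d)) (e : ℝ) : Prop :=
  ∀ (F : Sp d → ℝ) (L M : ℝ), 0 ≤ L → (∀ x, |F x| ≤ M) →
    (∀ x y, |F x - F y| ≤ L * ‖x - y‖) → |(∫ x, F x ∂μ) - ∫ x, F x ∂ν| ≤ L * e

/-- The allowed error of one whitened step of order `K`. -/
noncomputable def budget (d K : ℕ) (β h : ℝ) : ℝ := (d : ℝ) ^ β * (h ^ K * √d + 1 / d)

/-- The whitened target of one step: the tilt plus half a unit of noise. -/
noncomputable def whiteLaw (W : Sp d → ℝ) : Measure (Sp d) :=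
  ((gibbs W).prod (gd d)).map fun p => p.1 + √(1 / 2) • p.2

/-- A step of order `K` with `d ^ β` queries, in whitened coordinates. -/
def WhiteStep (K : ℕ) (β : ℝ) : Prop :=
  ∃ (C η₀ : ℝ) (d₀ : ℕ), 0 < η₀ ∧ ∀ d : ℕ, d₀ ≤ d → ∀ η : ℝ, ((d : ℝ) ^ 3)⁻¹ ≤ η → η ≤ η₀ →
    ∃ p : Prog (Sp d) (ℝ × Sp d) Unit (Sp d), (p.cost : ℝ) ≤ C * (d : ℝ) ^ β ∧
      ∀ (W : Sp d → ℝ) (G : Sp d → Sp d) (H : Sp d → Sp d →L[ℝ] Sp d),
        IsPot W G H 0 η → ‖G 0‖ ≤ η * √d →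
        Near (p.law (fun x => (W x, G x)) ()) (whiteLaw W) (C * budget d K β η)

/-- A step of order `K` with `d ^ β` queries, in the coordinates of the chain. -/
def ChainSpec (K : ℕ) (β : ℝ) : Prop :=
  ∃ (C h₀ : ℝ) (d₀ : ℕ), 0 < h₀ ∧ ∀ d : ℕ, d₀ ≤ d → ∀ h : ℝ, ((d : ℝ) ^ 3)⁻¹ ≤ h → h ≤ h₀ →
    ∃ p : Prog (Sp d) (ℝ × Sp d) (Sp d) (Sp d), (p.cost : ℝ) ≤ C * (d : ℝ) ^ β ∧
      ∀ (V : Sp d → ℝ) (G : Sp d → Sp d) (H : Sp d → Sp d →L[ℝ] Sp d),
        IsPot V G H 1 2 → G 0 = 0 → ∀ y : Sp d, ‖y‖ ≤ (d : ℝ) ^ 5 →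
        Near (p.law (fun x => (V x, G x)) y) (halfLaw V h y) (C * √h * budget d K β h)

/-- What the top level uses: steps for the step sizes between `d ^ (-3)` and `d ^ (-a)`, with
`C d ^ a` queries and mean distance `C √h d ^ (-2 a)`. -/
def SmallStep (a : ℝ) : Prop :=
  ∃ (C : ℝ) (d₀ : ℕ), ∀ d : ℕ, d₀ ≤ d → ∀ h : ℝ, ((d : ℝ) ^ 3)⁻¹ ≤ h → h ≤ (d : ℝ) ^ (-a) →
    ∃ p : Prog (Sp d) (ℝ × Sp d) (Sp d) (Sp d), (p.cost : ℝ) ≤ C * (d : ℝ) ^ a ∧
      ∀ (V : Sp d → ℝ) (G : Sp d → Sp d) (H : Sp d → Sp d →L[ℝ] Sp d),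
        IsPot V G H 1 2 → G 0 = 0 → ∀ y : Sp d, ‖y‖ ≤ (d : ℝ) ^ 5 →
        Near (p.law (fun x => (V x, G x)) y) (halfLaw V h y) (C * √h * (d : ℝ) ^ (-(2 * a)))

lemma continuous_of_lip {F : Sp d → ℝ} {L : ℝ} (hL : 0 ≤ L)
    (h : ∀ x y, |F x - F y| ≤ L * ‖x - y‖) : Continuous F :=
  (LipschitzWith.of_dist_le_mul (K := L.toNNReal) fun x y => by
    rw [Real.dist_eq, dist_eq_norm, coe_toNNReal L hL]; exact h x y).continuous

/-- A coupling on common seeds implies the dual bound. -/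
theorem Near.of_maps {Ω : Type} [MeasurableSpace Ω] {P : Measure Ω} [IsProbabilityMeasure P]
    {Φ Ψ : Ω → Sp d} (hΦ : Measurable Φ) (hΨ : Measurable Ψ) {e : ℝ}
    (hi : Integrable (fun ω => ‖Φ ω - Ψ ω‖) P) (he : ∫ ω, ‖Φ ω - Ψ ω‖ ∂P ≤ e) :
    Near (P.map Φ) (P.map Ψ) e := by
  intro F L M hL hM hF
  have hc : Measurable F := (continuous_of_lip hL hF).measurable
  have i1 : Integrable (fun ω => F (Φ ω)) P :=
    .of_bound (hc.comp hΦ).aestronglyMeasurable M (ae_of_all _ fun ω => hM _)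
  have i2 : Integrable (fun ω => F (Ψ ω)) P :=
    .of_bound (hc.comp hΨ).aestronglyMeasurable M (ae_of_all _ fun ω => hM _)
  rw [integral_map hΦ.aemeasurable hc.aestronglyMeasurable,
    integral_map hΨ.aemeasurable hc.aestronglyMeasurable, ← integral_sub i1 i2]
  refine (norm_integral_le_of_norm_le (f := fun ω => F (Φ ω) - F (Ψ ω)) (hi.const_mul L)
    (ae_of_all _ fun ω => hF _ _)).trans ?_
  rw [integral_const_mul]
  exact mul_le_mul_of_nonneg_left he hL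

/-- The same from the lower integral. -/
theorem Near.of_maps_lintegral {Ω : Type} [MeasurableSpace Ω] {P : Measure Ω}
    [IsProbabilityMeasure P] {Φ Ψ : Ω → Sp d} (hΦ : Measurable Φ) (hΨ : Measurable Ψ) {e : ℝ}
    (he0 : 0 ≤ e) (he : ∫⁻ ω, ‖Φ ω - Ψ ω‖ₑ ∂P ≤ ENNReal.ofReal e) :
    Near (P.map Φ) (P.map Ψ) e := by
  have hm : AEStronglyMeasurable (fun ω => Φ ω - Ψ ω) P := (hΦ.sub hΨ).aestronglyMeasurable
  have hfin : HasFiniteIntegral (fun ω => Φ ω - Ψ ω) P := he.trans_lt ENNReal.ofReal_lt_top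
  have hint : Integrable (fun ω => Φ ω - Ψ ω) P := ⟨hm, hfin⟩
  refine Near.of_maps hΦ hΨ hint.norm ?_
  rw [integral_norm_eq_lintegral_enorm hm]
  exact ENNReal.toReal_le_of_le_ofReal he0 he

/-- The same from the mean square. -/
theorem Near.of_maps_sq {Ω : Type} [MeasurableSpace Ω] {P : Measure Ω}
    [IsProbabilityMeasure P] {Φ Ψ : Ω → Sp d} (hΦ : Measurable Φ) (hΨ : Measurable Ψ) {e : ℝ}
    (he0 : 0 < e)
    (he : ∫⁻ ω, ENNReal.ofReal (‖Φ ω - Ψ ω‖ ^ 2) ∂P ≤ ENNReal.ofReal (e ^ 2)) :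
    Near (P.map Φ) (P.map Ψ) e := by
  have hm : Measurable fun ω => ‖Φ ω - Ψ ω‖ := (hΦ.sub hΨ).norm
  have hi2 : Integrable (fun ω => ‖Φ ω - Ψ ω‖ ^ 2) P :=
    ⟨(hm.pow_const 2).aestronglyMeasurable, (hasFiniteIntegral_iff_ofReal
      (ae_of_all _ fun ω => sq_nonneg _)).2 (he.trans_lt ENNReal.ofReal_lt_top)⟩
  have h2 : ∫ ω, ‖Φ ω - Ψ ω‖ ^ 2 ∂P ≤ e ^ 2 := by
    rw [integral_eq_lintegral_of_nonneg_ae (ae_of_all _ fun ω => sq_nonneg _)
      (hm.pow_const 2).aestronglyMeasurable]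
    exact ENNReal.toReal_le_of_le_ofReal (sq_nonneg e) he
  have hg : Integrable (fun ω => (2 * e)⁻¹ * ‖Φ ω - Ψ ω‖ ^ 2 + e / 2) P :=
    (hi2.const_mul _).add (integrable_const _)
  have hpt : ∀ ω, ‖Φ ω - Ψ ω‖ ≤ (2 * e)⁻¹ * ‖Φ ω - Ψ ω‖ ^ 2 + e / 2 := fun ω => by
    rw [← sub_nonneg, show (2 * e)⁻¹ * ‖Φ ω - Ψ ω‖ ^ 2 + e / 2 - ‖Φ ω - Ψ ω‖ =
      (‖Φ ω - Ψ ω‖ - e) ^ 2 / (2 * e) by field_simp; ring]
    positivity
  have hi : Integrable (fun ω => ‖Φ ω - Ψ ω‖) P :=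
    hg.mono' hm.aestronglyMeasurable (ae_of_all _ fun ω => by rw [norm_norm]; exact hpt ω)
  refine Near.of_maps hΦ hΨ hi ((integral_mono hi hg hpt).trans ?_)
  rw [integral_add (hi2.const_mul _) (integrable_const _), integral_const_mul, integral_const,
    probReal_univ, one_smul]
  calc (2 * e)⁻¹ * (∫ ω, ‖Φ ω - Ψ ω‖ ^ 2 ∂P) + e / 2 ≤ (2 * e)⁻¹ * e ^ 2 + e / 2 := by gcongr
    _ = e := by field_simp; ring

theorem Near.mono {μ ν : Measure (Sp d)} {e e' : ℝ} (h : Near μ ν e) (he : e ≤ e') :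
    Near μ ν e' := fun F L M hL hM hF =>
  (h F L M hL hM hF).trans (mul_le_mul_of_nonneg_left he hL)

/-- Images under `z ↦ x + a z`. -/
theorem Near.affine {μ ν : Measure (Sp d)} {e a : ℝ} (h : Near μ ν e) (ha : 0 ≤ a) (x : Sp d) :
    Near (μ.map fun z => x + a • z) (ν.map fun z => x + a • z) (a * e) := by
  intro F L M hL hM hF
  have hc : Measurable F := (continuous_of_lip hL hF).measurable
  rw [integral_map (by fun_prop) hc.aestronglyMeasurable,
    integral_map (by fun_prop) hc.aestronglyMeasurable]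
  refine (h (fun z => F (x + a • z)) (L * a) M (mul_nonneg hL ha) (fun z => hM _) fun u v => ?_
    ).trans_eq (mul_assoc L a e)
  refine (hF _ _).trans_eq ?_
  rw [add_sub_add_left_eq_sub, ← smul_sub, norm_smul, norm_of_nonneg ha, mul_assoc]

end Vale.Agent.P347.Shift
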