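import Vale.Agent.P347.Quarter.Half
import Vale.Agent.P347.Quarter.Oracle
import Vale.Agent.P347.Shift.StepSpec

/-!
# P347: from a whitened step to a step of the chain

A program for whitened potentials runs against the whitened oracle, which one true query
simulates; the centre costs logarithmically many queries.
-/

open MeasureTheory ProbabilityTheory Real
open scoped RealInnerProductSpace

namespace Vale.Agent.P347.Quarter.Prog

variable {X R α β : Type} [MeasurableSpace X] [MeasurableSpace R] [Inhabited R] [MeasurableSpace α]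
  [MeasurableSpace β] (p : Prog X R Unit β) (P : α → X → X) (T : α → X → R → R)

/-- The history seen by `p` when the answers are translated by `T`. -/
def tconv (s : p.Seed) (a : α) (h : ℕ → R) : ℕ → ℕ → R
  | 0 => fun _ => default
  | k + 1 => Function.update (tconv s a h k) k
      (T a (p.qry k s () (tconv s a h k)) (h k))

omit [MeasurableSpace α] in
theorem tconv_congr (s : p.Seed) (a : α) {h h' : ℕ → R} :
    ∀ k, (∀ j < k, h j = h' j) → p.tconv T s a h k = p.tconv T s a h' k
  | 0, _ => rfl
  | k + 1, e => by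
    simp only [tconv]
    rw [tconv_congr s a k fun j hj => e j (by omega), e k (Nat.lt_succ_self k)]

variable {T}

theorem measurable_tconv (hT : Measurable fun q : α × X × R => T q.1 q.2.1 q.2.2) (k : ℕ) :
    Measurable fun q : p.Seed × α × (ℕ → R) => p.tconv T q.1 q.2.1 q.2.2 k := by
  induction k with
  | zero => exact measurable_const
  | succ k ih =>
    refine measurable_pi_lambda _ fun j => ?_
    by_cases h : j = k
    · subst h
      simp only [tconv, Function.update_self]
      exact hT.comp ((measurable_fst.comp measurable_snd).prodMk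
        (((p.qry_meas j).comp (measurable_fst.prodMk (measurable_const.prodMk ih))).prodMk
          ((measurable_pi_apply j).comp (measurable_snd.comp measurable_snd))))
    · simp only [tconv, Function.update_of_ne h]
      exact (measurable_pi_apply j).comp ih

variable {P}

/-- Run `p` against the oracle `u ↦ T a u (O (P a u))` given by the input `a`. -/
noncomputable def translate (hP : Measurable fun q : α × X => P q.1 q.2)
    (hT : Measurable fun q : α × X × R => T q.1 q.2.1 q.2.2) : Prog X R α β where
  Seed := p.Seed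
  seedSpace := p.seedSpace
  seedLaw := p.seedLaw
  seedProb := p.seedProb
  qry := fun k s a h => P a (p.qry k s () (p.tconv T s a h k))
  out := fun s a h => p.out s () (p.tconv T s a h p.cost)
  cost := p.cost
  qry_meas := fun k => hP.comp ((measurable_fst.comp measurable_snd).prodMk
    ((p.qry_meas k).comp
      (measurable_fst.prodMk (measurable_const.prodMk (p.measurable_tconv hT k)))))
  out_meas := p.out_meas.comp
    (measurable_fst.prodMk (measurable_const.prodMk (p.measurable_tconv hT p.cost)))

theorem run_translate (hP : Measurable fun q : α × X => P q.1 q.2)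
    (hT : Measurable fun q : α × X × R => T q.1 q.2.1 q.2.2) (O : X → R) (s : p.Seed) (a : α) :
    (p.translate hP hT).run O s a = p.run (fun u => T a u (O (P a u))) s () := by
  have key : ∀ n, ∀ k ≤ n, p.tconv T s a ((p.translate hP hT).hist O s a n) k =
      p.hist (fun u => T a u (O (P a u))) s () k := by
    intro n
    induction n with
    | zero => intro k hk; obtain rfl := Nat.le_zero.1 hk; rfl
    | succ n ih =>
      have low : ∀ k ≤ n, p.tconv T s a ((p.translate hP hT).hist O s a (n + 1)) k =
          p.hist (fun u => T a u (O (P a u))) s () k := fun k hk =>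
        (p.tconv_congr T s a k fun j hj => Function.update_of_ne (by omega) _ _).trans (ih k hk)
      intro k hk
      rcases Nat.lt_succ_iff_lt_or_eq.1 (Nat.lt_succ_of_le hk) with h | rfl
      · exact low k (by omega)
      · simp only [tconv]
        rw [low n le_rfl]
        simp only [hist, Function.update_self, translate]
        rw [← ih n le_rfl]
        rfl
  exact congrArg (fun h => p.out s () h) (key p.cost p.cost le_rfl)

theorem law_translate (hP : Measurable fun q : α × X => P q.1 q.2)
    (hT : Measurable fun q : α × X × R => T q.1 q.2.1 q.2.2) (O : X → R) (a : α) :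
    (p.translate hP hT).law O a = p.law (fun u => T a u (O (P a u))) () :=
  congrArg (Measure.map · p.seedLaw) (funext fun s => p.run_translate hP hT O s a)

end Vale.Agent.P347.Quarter.Prog

namespace Vale.Agent.P347.Shift

open Quarter

variable {d : ℕ}

/-- A computed map of seed and input is a program with that law. -/
theorem exists_prog_of_calc {α β S : Type} [MeasurableSpace α] [MeasurableSpace β]
    [MeasurableSpace S] (μ : Measure S) [IsProbabilityMeasure μ] {k : ℕ}
    {F : (Sp d → Sp d) → S × α → β} (h : Calc k F) :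
    ∃ p : Prog (Sp d) (ℝ × Sp d) α β, p.cost ≤ k ∧
      ∀ {V : Sp d → ℝ} {G : Sp d → Sp d}, Continuous V → Continuous G → Measurable (F G) ∧
        ∀ a, p.law (fun x => (V x, G x)) a = μ.map fun s => F G (s, a) := by
  obtain ⟨p, hp, hl⟩ := h.draw μ
  refine ⟨p, hp, fun {V G} hV hG => ⟨(hl hV hG).1, fun a => ?_⟩⟩
  have hO : Measurable fun x => (V x, G x) := (hV.prodMk hG).measurable
  have hm : Measurable fun s => F G (s, a) := (hl hV hG).1.comp measurable_prodMk_right
  have := p.isProbabilityMeasure_law hO a
  have := Measure.isProbabilityMeasure_map (μ := μ) hm.aemeasurable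
  refine Measure.ext fun B hB => (ENNReal.toReal_eq_toReal_iff' (by finiteness) (by finiteness)).1 ?_
  have h1 := (hl hV hG).2 (measurable_one.indicator hB) (C := 1) (fun b => by
    by_cases hb : b ∈ B <;> simp [hb]) a
  rw [integral_indicator_one hB, ← integral_map hm.aemeasurable
    (measurable_one.indicator hB).aestronglyMeasurable, integral_indicator_one hB] at h1
  exact h1

/-- The true point of a whitened point `u`, at the pair `a = (y, x)`. -/
noncomputable def whP (h : ℝ) (a : Sp d × Sp d) (u : Sp d) : Sp d := a.2 + √h • u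

/-- The whitened answer from the true answer `v`. -/
noncomputable def whT (h : ℝ) (a : Sp d × Sp d) (u : Sp d) (v : ℝ × Sp d) : ℝ × Sp d :=
  (v.1 + ⟪a.2 - a.1, √h • u⟫ / h, √h • v.2 + (√h / h) • (a.2 - a.1))

lemma measurable_whP (h : ℝ) :
    Measurable fun q : (Sp d × Sp d) × Sp d => whP h q.1 q.2 := by
  unfold whP; fun_prop

lemma measurable_whT (h : ℝ) :
    Measurable fun q : (Sp d × Sp d) × Sp d × (ℝ × Sp d) => whT h q.1 q.2.1 q.2.2 := by
  unfold whT; fun_prop

/-- A whitened program run at a pair `(y, x)`, its output back in true coordinates. -/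
noncomputable def whProg (p : Prog (Sp d) (ℝ × Sp d) Unit (Sp d)) (h : ℝ) :
    Prog (Sp d) (ℝ × Sp d) (Sp d × Sp d) (Sp d) :=
  (p.translate (measurable_whP h) (measurable_whT h)).adapt id measurable_id (whP h)
    (measurable_whP h)

lemma law_whProg (p : Prog (Sp d) (ℝ × Sp d) Unit (Sp d)) (h : ℝ) {V : Sp d → ℝ}
    {G : Sp d → Sp d} (hV : Continuous V) (hG : Continuous G) (y x : Sp d) :
    (whProg p h).law (fun z => (V z, G z)) (y, x) =
      (p.law (fun z => (whW V h y x z, whG G h y x z)) ()).map fun z => x + √h • z := by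
  have hW : Measurable fun z => (whW V h y x z, whG G h y x z) := by
    unfold whW whG
    exact (Continuous.prodMk (by fun_prop) (by fun_prop)).measurable
  have e : (fun s : p.Seed => (whProg p h).run (fun z => (V z, G z)) s (y, x)) =
      (fun z => x + √h • z) ∘ fun s => p.run (fun z => (whW V h y x z, whG G h y x z)) s () := by
    funext s
    exact (Prog.run_adapt (p.translate (measurable_whP h) (measurable_whT h)) id measurable_id
      (whP h) (measurable_whP h) (fun z => (V z, G z)) s (y, x)).trans (congrArg (whP h (y, x))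
        (p.run_translate (measurable_whP h) (measurable_whT h) (fun z => (V z, G z)) s (y, x)))
  refine Eq.trans ?_ (Measure.map_map (by fun_prop)
    ((p.measurable_run hW).comp measurable_prodMk_right)).symm
  exact congrArg (fun F : p.Seed → Sp d => p.seedLaw.map F) e

/-- The program of the chain step made from a program for whitened potentials. -/
lemma exists_chain_prog (p : Prog (Sp d) (ℝ × Sp d) Unit (Sp d)) (h : ℝ) (M : ℕ) :
    ∃ q : Prog (Sp d) (ℝ × Sp d) (Sp d) (Sp d), q.cost ≤ M + p.cost ∧
      ∀ {V : Sp d → ℝ} {G : Sp d → Sp d}, Continuous V → Continuous G → ∀ y,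
        q.law (fun x => (V x, G x)) y =
          (p.law (fun z => (whW V h y (centre G h M y) z, whG G h y (centre G h M y) z)) ()).map
            fun z => centre G h M y + √h • z := by
  obtain ⟨p₁, hp₁, hr₁⟩ := (calc_centre (d := d) h M).keep
  refine ⟨p₁.andThen (whProg p h), add_le_add hp₁ le_rfl, fun {V G} hV hG y => ?_⟩
  have hO : Measurable fun x => (V x, G x) := (hV.prodMk hG).measurable
  have h1 : p₁.law (fun x => (V x, G x)) y = Measure.dirac (y, centre G h M y) := by
    simp only [Prog.law, hr₁, Measure.map_const, measure_univ, one_smul]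
  rw [p₁.law_andThen _ hO, h1, Measure.dirac_bind ((whProg p h).measurable_law hO),
    law_whProg p h hV hG]

/-- The budget at twice the step size. -/
lemma budget_two_le {K : ℕ} {β h : ℝ} (hd : 1 ≤ (d : ℝ)) :
    budget d K β (2 * h) ≤ 2 ^ K * budget d K β h := by
  have h2 : (1 : ℝ) ≤ 2 ^ K := one_le_pow₀ one_le_two
  have h0 : (0 : ℝ) ≤ 1 / d := by positivity
  have h3 := mul_le_mul_of_nonneg_left (le_mul_of_one_le_left h0 h2)
    (rpow_nonneg (Nat.cast_nonneg (α := ℝ) d) β)
  simp only [budget, mul_pow]
  linarith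

/-- The centre costs less than `d ^ β`. -/
lemma centre_count {d : ℕ} {β : ℝ} (hβ : 0 < β) (hd : 2 ≤ d) {h : ℝ}
    (hh : ((d : ℝ) ^ 3)⁻¹ ≤ h) (hh4 : h ≤ 1 / 4) :
    ∃ M : ℕ, (M : ℝ) ≤ (12 / β + 6) * (d : ℝ) ^ β ∧
      ∀ r : ℝ, 0 ≤ r → r ≤ (d : ℝ) ^ 5 → (2 * h) ^ M * r ≤ √(h * d) := by
  set x : ℝ := (d : ℝ) with hx
  have hx2 : (2 : ℝ) ≤ x := by rw [hx]; exact_mod_cast hd
  have hx0 : 0 < x := by linarith
  have hh0 : 0 ≤ h := le_trans (by positivity) hh
  refine ⟨6 * (Nat.log 2 d + 1), ?_, fun r hr0 hr => ?_⟩
  · have h1 : (Nat.log 2 d : ℝ) * log 2 ≤ log x := by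
      rw [← log_pow]
      refine log_le_log (by positivity) ?_
      rw [hx]
      exact_mod_cast Nat.pow_log_le_self 2 (by omega)
    have h2 : log x ≤ x ^ β / β := log_le_rpow_div hx0.le hβ
    have h3 : 1 ≤ x ^ β := one_le_rpow (by linarith) hβ.le
    have h4 : (Nat.log 2 d : ℝ) ≤ 2 * (x ^ β / β) := by
      nlinarith [log_two_gt_d9, Nat.cast_nonneg (α := ℝ) (Nat.log 2 d)]
    push_cast
    calc 6 * ((Nat.log 2 d : ℝ) + 1) ≤ 6 * (2 * (x ^ β / β) + x ^ β) := by gcongr
      _ = _ := by ring
  · have h2 : x ^ 6 ≤ (2 : ℝ) ^ (6 * (Nat.log 2 d + 1)) := by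
      rw [pow_mul', hx]
      gcongr
      exact_mod_cast (Nat.lt_pow_succ_log_self one_lt_two d).le
    calc (2 * h) ^ (6 * (Nat.log 2 d + 1)) * r
        ≤ (1 / 2) ^ (6 * (Nat.log 2 d + 1)) * x ^ 5 := by gcongr; linarith
      _ ≤ 1 / x ^ 6 * x ^ 5 := by
          rw [one_div_pow]
          gcongr
      _ = 1 / x := by field_simp
      _ ≤ √(h * x) := by
          refine le_sqrt_of_sq_le (le_trans (le_of_eq ?_) (mul_le_mul_of_nonneg_right hh hx0.le))
          field_simp

/-- **A whitened step gives a step of the chain.** -/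
theorem chainSpec_of_white {K : ℕ} {β : ℝ} (hβ : 0 < β) (hyp : WhiteStep K β) : ChainSpec K β := by
  obtain ⟨C, η₀, d₀, hη₀, hp⟩ := hyp
  refine ⟨|C| * 2 ^ K + (12 / β + 6), min (η₀ / 2) (1 / 4), max d₀ 2, by positivity,
    fun d hd h hl hu => ?_⟩
  have hd2 : 2 ≤ d := (le_max_right _ _).trans hd
  have hd1 : 1 ≤ (d : ℝ) := by exact_mod_cast one_le_two.trans hd2
  have hh4 : h ≤ 1 / 4 := hu.trans (min_le_right _ _)
  have hhη : 2 * h ≤ η₀ := by linarith [hu.trans (min_le_left _ _)]
  have hh : 0 < h := lt_of_lt_of_le (by positivity) hl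
  have hl2 : ((d : ℝ) ^ 3)⁻¹ ≤ 2 * h := by linarith
  obtain ⟨p, hpc, hps⟩ := hp d ((le_max_left _ _).trans hd) (2 * h) hl2 hhη
  obtain ⟨M, hM, hMr⟩ := centre_count hβ hd2 hl hh4
  obtain ⟨q, hqc, hq⟩ := exists_chain_prog p h M
  have h2K : (1 : ℝ) ≤ 2 ^ K := one_le_pow₀ one_le_two
  have hxβ : 0 ≤ (d : ℝ) ^ β := rpow_nonneg (Nat.cast_nonneg d) β
  refine ⟨q, ?_, fun V G H hV hG0 y hy => ?_⟩
  · refine (Nat.cast_le.2 hqc).trans ?_
    push_cast
    have h1 : C * (d : ℝ) ^ β ≤ |C| * 2 ^ K * (d : ℝ) ^ β := by
      gcongr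
      exact (le_abs_self C).trans (le_mul_of_one_le_right (abs_nonneg C) h2K)
    linarith
  set x := centre G h M y with hx
  have hW : IsPot (whW V h y x) (whG G h y x) (fun z => h • H (x + √h • z)) 0 (2 * h) :=
    isPot_whW hV hh y x
  have hW0 : ‖whG G h y x 0‖ ≤ 2 * h * √(d : ℝ) :=
    norm_whG_centre hV hG0 hh (hMr _ (norm_nonneg y) hy)
  have hN := (hps _ _ _ hW hW0).affine (sqrt_nonneg h) x
  have e : halfLaw V h y = (whiteLaw (whW V h y x)).map fun z => x + √h • z := by
    rw [halfLaw_whiten hV hh y x, whiteLaw, Measure.map_map (by fun_prop) (by fun_prop)]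
    rfl
  rw [hq (continuous_iff_continuousAt.2 fun z => (hV.hasGrad z).continuousAt) hV.continuous_grad,
    e, ← hx]
  refine hN.mono ?_
  have hb : 0 ≤ budget d K β h := by rw [budget]; positivity
  have hb2 : 0 ≤ budget d K β (2 * h) := by rw [budget]; positivity
  calc √h * (C * budget d K β (2 * h)) ≤ √h * (|C| * (2 ^ K * budget d K β h)) := by
        gcongr
        exacts [le_abs_self C, budget_two_le hd1]
    _ = |C| * 2 ^ K * √h * budget d K β h := by ring
    _ ≤ _ := by
        gcongr
        linarith [show 0 ≤ 12 / β by positivity]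

end Vale.Agent.P347.Shift
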