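import Vale.Agent.P347.Shift.TopGlue
import Vale.Agent.P347.Shift.White

/-!
# P347: the top level, assembled

Both entries of the top level: from whitened steps, and from half step emitters, of every order.
-/

open MeasureTheory ProbabilityTheory Real

namespace Vale.Agent.P347.Shift

open Quarter

/-- Whitened steps of every order give small steps. -/
theorem smallStep_of_white (hyp : ∀ K β, 0 < β → WhiteStep K β) {a : ℝ} (ha : 0 < a)
    (ha4 : a ≤ 1 / 4) : SmallStep a :=
  smallStep_of_chainSpec (fun K β hβ => chainSpec_of_white hβ (hyp K β hβ)) ha ha4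

/-- Whitened steps of every order give the program statement with every positive exponent. -/
theorem subpoly_of_white (hyp : ∀ K β, 0 < β → WhiteStep K β) {δ : ℝ} (hδ : 0 < δ) :
    ∃ d₀ : ℕ, ∀ d : ℕ, d₀ ≤ d → ∃ p : Prog (Sp d) (ℝ × Sp d) Unit (Sp d),
      (p.cost : ℝ) ≤ (d : ℝ) ^ δ ∧
      ∀ V : Sp d → ℝ, ContDiff ℝ 2 V → gradient V 0 = 0 →
        (∀ x v, ‖v‖ ^ 2 ≤ iteratedFDeriv ℝ 2 V x ![v, v] ∧
          iteratedFDeriv ℝ 2 V x ![v, v] ≤ 2 * ‖v‖ ^ 2) →
        ∀ B : Set (Sp d), MeasurableSet B →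
          |(p.law (fun x => (V x, gradient V x)) ()).real B -
              (∫ x in B, exp (-V x)) / ∫ x, exp (-V x)| ≤ 1 / 10 :=
  subpoly_of_small (fun _ ha ha4 => smallStep_of_white hyp ha ha4) hδ

end Vale.Agent.P347.Shift
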