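import Vale.Agent.P347.Quarter.Gauss

/-!
# P347: matrix-vector products by compensated Gaussian mixing

If `C C† + Q Q† = 1`, then `C z + Q g` is standard. So averaging a function over `z` at the point
`C z + Q g` contracts in `L²` and carries a linear map `L` to `L (Q g)`: an estimate of the linear
part of a vector field becomes an estimate of its product with the operator `Q`, with no change of
constants. The compensator is `C = 1 - B`, where `B` solves `B = (A + B²) / 2`, `A = Q Q†`; the
iterates of this equation are polynomials in `A` converging geometrically with ratio `‖A‖`.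
-/

open MeasureTheory ProbabilityTheory Real
open ContinuousLinearMap (adjoint)
open scoped RealInnerProductSpace

namespace Vale.Agent.P347.Shift.MatVec

open Vale.Agent.P347.Quarter

instance instIsGaussianGam (ι : Type) [Fintype ι] : IsGaussian (Quarter.gam ι) := by
  unfold Quarter.gam; infer_instance

variable {ι : Type} [Fintype ι] {E : Type*} [NormedAddCommGroup E] [InnerProductSpace ℝ E]
  [FiniteDimensional ℝ E]

/-- Mixing of two Gaussian vectors. -/
def mix (C Q : Eu ι →L[ℝ] Eu ι) (p : Eu ι × Eu ι) : Eu ι := C p.1 + Q p.2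

/-- The average over the fresh vector. -/
noncomputable def avg (C Q : Eu ι →L[ℝ] Eu ι) (F : Eu ι → E) (g : Eu ι) : E :=
  ∫ z, F (C z + Q g) ∂gam ι

lemma continuous_mix (C Q : Eu ι →L[ℝ] Eu ι) : Continuous (mix C Q) := by
  unfold mix; fun_prop

/-- A compensated mixture of standard vectors is standard. -/
theorem map_mix {C Q : Eu ι →L[ℝ] Eu ι} (h : C.comp (adjoint C) + Q.comp (adjoint Q) = 1) :
    ((gam ι).prod (gam ι)).map (mix C Q) = gam ι := by
  have hm := (continuous_mix C Q).measurable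
  have := Measure.isProbabilityMeasure_map (μ := (gam ι).prod (gam ι)) hm.aemeasurable
  refine Measure.ext_of_charFun (funext fun t => ?_)
  have h1 : ‖adjoint C t‖ ^ 2 + ‖adjoint Q t‖ ^ 2 = ‖t‖ ^ 2 := by
    rw [← real_inner_self_eq_norm_sq, ← real_inner_self_eq_norm_sq, ← real_inner_self_eq_norm_sq,
      ContinuousLinearMap.adjoint_inner_left, ContinuousLinearMap.adjoint_inner_left,
      ← inner_add_right]
    exact congrArg _ (DFunLike.congr_fun h t)
  have e : ∀ p : Eu ι × Eu ι,
      Complex.exp ((⟪mix C Q p, t⟫ : ℂ) * Complex.I) =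
        Complex.exp ((⟪p.1, adjoint C t⟫ : ℂ) * Complex.I) *
          Complex.exp ((⟪p.2, adjoint Q t⟫ : ℂ) * Complex.I) := fun p => by
    rw [← Complex.exp_add, ← add_mul, ← Complex.ofReal_add, mix, inner_add_left,
      ContinuousLinearMap.adjoint_inner_right, ContinuousLinearMap.adjoint_inner_right]
  rw [charFun_apply, show charFun (gam ι) t = Complex.exp (-(‖t‖ : ℂ) ^ 2 / 2) from
    charFun_stdGaussian t, integral_map hm.aemeasurable (by fun_prop),
    integral_congr_ae (ae_of_all _ e), integral_prod_mul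
      (fun z => Complex.exp ((⟪z, adjoint C t⟫ : ℂ) * Complex.I))
      (fun z => Complex.exp ((⟪z, adjoint Q t⟫ : ℂ) * Complex.I))]
  rw [← charFun_apply, ← charFun_apply]
  simp only [gam, charFun_stdGaussian]
  rw [← Complex.exp_add]
  congr 1
  rw [← add_div, ← neg_add, ← Complex.ofReal_pow, ← Complex.ofReal_pow, ← Complex.ofReal_add, h1]
  norm_num

omit [FiniteDimensional ℝ E] in
/-- Jensen for vector valued integrals. -/
lemma norm_integral_sq_le {α : Type*} [MeasurableSpace α] {μ : Measure α} [IsProbabilityMeasure μ]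
    {f : α → E} (hf : AEStronglyMeasurable f μ) (h2 : Integrable (fun a => ‖f a‖ ^ 2) μ) :
    ‖∫ a, f a ∂μ‖ ^ 2 ≤ ∫ a, ‖f a‖ ^ 2 ∂μ := by
  have hm : MemLp f 2 μ := (memLp_two_iff_integrable_sq_norm hf).2 h2
  have hn : MemLp (fun a => ‖f a‖) 2 μ := hm.norm
  have hv := variance_nonneg (fun a => ‖f a‖) μ
  rw [variance_eq_sub hn] at hv
  have h1 := norm_integral_le_integral_norm (μ := μ) f
  simp only [Pi.pow_apply] at hv
  nlinarith [pow_le_pow_left₀ (norm_nonneg _) h1 2]

section

variable {C Q : Eu ι →L[ℝ] Eu ι} (h : C.comp (adjoint C) + Q.comp (adjoint Q) = 1)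
include h

lemma measurePreserving_mix :
    MeasurePreserving (mix C Q) ((gam ι).prod (gam ι)) (gam ι) :=
  ⟨(continuous_mix C Q).measurable, map_mix h⟩

/-- The average is an `L²` contraction. -/
theorem integral_norm_avg_sq_le {F : Eu ι → E} (hF : Continuous F)
    (h2 : Integrable (fun x => ‖F x‖ ^ 2) (gam ι)) :
    Integrable (fun g => ‖avg C Q F g‖ ^ 2) (gam ι) ∧
      ∫ g, ‖avg C Q F g‖ ^ 2 ∂gam ι ≤ ∫ x, ‖F x‖ ^ 2 ∂gam ι := by
  have hp := measurePreserving_mix h
  have hi : Integrable (fun p => ‖F (mix C Q p)‖ ^ 2) ((gam ι).prod (gam ι)) :=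
    (hp.integrable_comp (by fun_prop)).2 h2
  have hs : ∀ g, AEStronglyMeasurable (fun z => F (C z + Q g)) (gam ι) := fun g =>
    (hF.comp (by fun_prop)).aestronglyMeasurable
  have hle : ∀ᵐ g ∂gam ι, ‖avg C Q F g‖ ^ 2 ≤ ∫ z, ‖F (mix C Q (z, g))‖ ^ 2 ∂gam ι := by
    filter_upwards [hi.prod_left_ae] with g hg using norm_integral_sq_le (hs g) hg
  have hc : StronglyMeasurable (avg C Q F) :=
    StronglyMeasurable.integral_prod_left' (f := fun p : Eu ι × Eu ι => F (mix C Q p))
      (hF.comp (continuous_mix C Q)).stronglyMeasurable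
  have hI : Integrable (fun g => ‖avg C Q F g‖ ^ 2) (gam ι) :=
    hi.integral_prod_right.mono' (hc.norm.pow 2).aestronglyMeasurable
      (hle.mono fun g hg => by rwa [norm_of_nonneg (sq_nonneg _)])
  refine ⟨hI, (integral_mono_ae hI hi.integral_prod_right hle).trans_eq ?_⟩
  have h3 := (integral_map (μ := (gam ι).prod (gam ι)) (continuous_mix C Q).measurable.aemeasurable
    (f := fun x => ‖F x‖ ^ 2) (by fun_prop)).symm
  rw [map_mix h] at h3
  rw [← integral_prod_symm _ hi]
  exact h3

omit h in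
/-- The average of a linear map is that map at `Q g`. -/
theorem avg_linear (L : Eu ι →L[ℝ] E) (g : Eu ι) : avg C Q L g = L (Q g) := by
  have hz : Integrable (fun z : Eu ι => z) (gam ι) := IsGaussian.integrable_fun_id
  simp only [avg, map_add]
  rw [integral_add (f := fun z => L (C z)) (g := fun _ => L (Q g))
    ((L.comp C).integrable_comp hz) (integrable_const _)]
  rw [show ∫ z, L (C z) ∂gam ι = (L.comp C) (∫ z, z ∂gam ι) from
    (L.comp C).integral_comp_comm hz]
  simp [gam]

/-- A linear estimate of a field becomes an estimate of its product with `Q`. -/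
theorem matvec {F : Eu ι → E} (hF : Continuous F) (L : Eu ι →L[ℝ] E)
    (h2 : Integrable (fun x => ‖F x - L x‖ ^ 2) (gam ι)) :
    Integrable (fun g => ‖avg C Q F g - L (Q g)‖ ^ 2) (gam ι) ∧
      ∫ g, ‖avg C Q F g - L (Q g)‖ ^ 2 ∂gam ι ≤ ∫ x, ‖F x - L x‖ ^ 2 ∂gam ι := by
  obtain ⟨hI, hb⟩ := integral_norm_avg_sq_le h (F := fun x => F x - L x) (by fun_prop) h2
  have hp := measurePreserving_mix h
  have hi : Integrable (fun p => ‖F (mix C Q p) - L (mix C Q p)‖ ^ 2)
      ((gam ι).prod (gam ι)) := (hp.integrable_comp (by fun_prop)).2 h2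
  have e : ∀ᵐ g ∂gam ι, avg C Q (fun x => F x - L x) g = avg C Q F g - L (Q g) := by
    filter_upwards [hi.prod_left_ae] with g hg
    have hc : Continuous fun z => F (C z + Q g) - L (C z + Q g) := by fun_prop
    have hL : Integrable (fun z => L (C z + Q g)) (gam ι) := by
      simp only [map_add]
      exact ((L.comp C).integrable_comp IsGaussian.integrable_fun_id).add (integrable_const _)
    have hd : Integrable (fun z => F (C z + Q g) - L (C z + Q g)) (gam ι) :=
      ((memLp_two_iff_integrable_sq_norm hc.aestronglyMeasurable).2 hg).integrable one_le_two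
    have hF' : Integrable (fun z => F (C z + Q g)) (gam ι) := by
      have := hd.add hL; simpa [Pi.add_def] using this
    rw [← avg_linear (C := C) L g]
    exact integral_sub hF' hL
  have e2 := e.mono fun g hg => show ‖avg C Q (fun x => F x - L x) g‖ ^ 2 =
    ‖avg C Q F g - L (Q g)‖ ^ 2 by rw [hg]
  exact ⟨hI.congr e2, (integral_congr_ae e2).symm.trans_le hb⟩

end

omit [FiniteDimensional ℝ E] in
/-- Stability of one node in its argument. -/
theorem norm_avg_sub_le {F : Eu ι → E} {M : ℝ} (hL : ∀ x y, ‖F x - F y‖ ≤ M * ‖x - y‖)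
    {a b : Eu ι → Eu ι} (ha : Integrable (fun z => F (a z)) (gam ι))
    (hb : Integrable (fun z => F (b z)) (gam ι))
    (hd : Integrable (fun z => ‖a z - b z‖) (gam ι)) :
    ‖∫ z, F (a z) ∂gam ι - ∫ z, F (b z) ∂gam ι‖ ≤ M * ∫ z, ‖a z - b z‖ ∂gam ι := by
  rw [← integral_sub ha hb, ← integral_const_mul]
  exact (norm_integral_le_integral_norm _).trans
    (integral_mono_of_nonneg (ae_of_all _ fun _ => norm_nonneg _) (hd.const_mul M)
      (ae_of_all _ fun z => hL (a z) (b z)))

/-! ### The compensator -/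

/-- The iterates of `B = (A + B²) / 2`. -/
noncomputable def compIter (A : Eu ι →L[ℝ] Eu ι) : ℕ → (Eu ι →L[ℝ] Eu ι)
  | 0 => 0
  | n + 1 => (1 / 2 : ℝ) • (A + compIter A n * compIter A n)

variable {A : Eu ι →L[ℝ] Eu ι}

lemma norm_iter_le (hA : ‖A‖ ≤ 1) (n : ℕ) : ‖compIter A n‖ ≤ ‖A‖ := by
  induction n with
  | zero => simp [compIter]
  | succ n ih =>
    rw [compIter, norm_smul, norm_eq_abs, abs_of_pos (by norm_num : (0:ℝ) < 1 / 2)]
    have h1 := (norm_mul_le (compIter A n) (compIter A n)).trans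
      (mul_le_mul ih ih (norm_nonneg _) (norm_nonneg _))
    have h2 := norm_add_le A (compIter A n * compIter A n)
    nlinarith [norm_nonneg A]

lemma adjoint_iter (hA : adjoint A = A) (n : ℕ) : adjoint (compIter A n) = compIter A n := by
  induction n with
  | zero => simp [compIter]
  | succ n ih =>
    simp only [compIter, map_smulₛₗ, map_add, hA, starRingEnd_apply, star_trivial]
    rw [show compIter A n * compIter A n = (compIter A n).comp (compIter A n) from rfl,
      ContinuousLinearMap.adjoint_comp, ih]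

lemma norm_iter_succ_sub (hA : ‖A‖ ≤ 1) (n : ℕ) :
    ‖compIter A (n + 1) - compIter A n‖ ≤ ‖A‖ ^ (n + 1) := by
  induction n with
  | zero =>
    simp only [compIter, mul_zero, add_zero, sub_zero, norm_smul, norm_eq_abs, zero_add, pow_one]
    rw [abs_of_pos (by norm_num : (0:ℝ) < 1 / 2)]
    linarith [norm_nonneg A]
  | succ n ih =>
    have e : compIter A (n + 2) - compIter A (n + 1) = (1 / 2 : ℝ) •
        (compIter A (n + 1) * (compIter A (n + 1) - compIter A n) +
          (compIter A (n + 1) - compIter A n) * compIter A n) := by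
      rw [mul_sub, sub_mul, show compIter A (n + 2) =
        (1 / 2 : ℝ) • (A + compIter A (n + 1) * compIter A (n + 1)) from rfl]
      conv_lhs => arg 2; rw [compIter]
      module
    rw [e, norm_smul, norm_eq_abs, abs_of_pos (by norm_num : (0:ℝ) < 1 / 2)]
    set D := compIter A (n + 1) - compIter A n
    have h1 := (norm_mul_le (compIter A (n + 1)) D).trans
      (mul_le_mul (norm_iter_le hA _) ih (norm_nonneg _) (norm_nonneg _))
    have h2 := (norm_mul_le D (compIter A n)).trans
      (mul_le_mul ih (norm_iter_le hA _) (norm_nonneg _) (pow_nonneg (norm_nonneg _) _))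
    have h3 := norm_add_le (compIter A (n + 1) * D) (D * compIter A n)
    have h4 : ‖A‖ ^ (n + 1 + 1) = ‖A‖ * ‖A‖ ^ (n + 1) := pow_succ' _ _
    nlinarith

/-- The compensator exists and the iterates approach it geometrically. -/
theorem exists_compensator {Q : Eu ι →L[ℝ] Eu ι} (hQ : ‖Q‖ ≤ 1 / 2) :
    ∃ C : Eu ι →L[ℝ] Eu ι, C.comp (adjoint C) + Q.comp (adjoint Q) = 1 ∧ ‖C‖ ≤ 2 ∧
      ∀ n, ‖C - (1 - compIter (Q.comp (adjoint Q)) n)‖ ≤ 2 * ‖Q‖ ^ (2 * (n + 1)) := by
  set A := Q.comp (adjoint Q) with hA0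
  have hAn : ‖A‖ ≤ ‖Q‖ ^ 2 := (ContinuousLinearMap.opNorm_comp_le _ _).trans_eq (by
    rw [LinearIsometryEquiv.norm_map, sq])
  have hA : ‖A‖ ≤ 1 / 4 := hAn.trans (by nlinarith [norm_nonneg Q])
  have hA1 : ‖A‖ ≤ 1 := hA.trans (by norm_num)
  have hAs : adjoint A = A := by
    rw [hA0, ContinuousLinearMap.adjoint_comp, ContinuousLinearMap.adjoint_adjoint]
  have hd : ∀ n, dist (compIter A n) (compIter A (n + 1)) ≤ ‖A‖ * ‖A‖ ^ n := fun n => by
    rw [dist_eq_norm, norm_sub_rev, ← pow_succ']; exact norm_iter_succ_sub hA1 n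
  obtain ⟨B, hB⟩ := cauchySeq_tendsto_of_complete
    (cauchySeq_of_le_geometric ‖A‖ ‖A‖ (by linarith) hd)
  have hfix : B = (1 / 2 : ℝ) • (A + B * B) := tendsto_nhds_unique
    (hB.comp (Filter.tendsto_add_atTop_nat 1))
    (((tendsto_const_nhds (x := A)).add (hB.mul hB)).const_smul (1 / 2 : ℝ))
  have hadj : adjoint B = B := tendsto_nhds_unique
    ((ContinuousLinearMap.adjoint.continuous.tendsto B).comp hB)
    (hB.congr fun n => (adjoint_iter hAs n).symm)
  refine ⟨1 - B, ?_, ?_, fun n => ?_⟩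
  · rw [map_sub, hadj, show adjoint (1 : Eu ι →L[ℝ] Eu ι) = 1 from ContinuousLinearMap.adjoint_id,
      show (1 - B).comp (1 - B) = (1 - B) * (1 - B) from rfl]
    have e : A = B + B - B * B := by
      have h2 : (2 : ℝ) • B = A + B * B := by
        conv_lhs => rw [hfix]
        module
      rw [two_smul ℝ B] at h2
      rw [h2]; abel
    rw [e]; simp only [sub_mul, mul_sub, one_mul, mul_one]; abel
  · have h1 : ‖B‖ ≤ 1 := le_of_tendsto (continuous_norm.tendsto B |>.comp hB)
      (Filter.Eventually.of_forall fun n => (norm_iter_le hA1 n).trans hA1)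
    refine (norm_sub_le _ _).trans ?_
    linarith [show ‖(1 : Eu ι →L[ℝ] Eu ι)‖ ≤ 1 from ContinuousLinearMap.norm_id_le]
  · rw [sub_sub_sub_cancel_left, ← dist_eq_norm]
    refine (dist_le_of_le_geometric_of_tendsto ‖A‖ ‖A‖ (by linarith) hd hB n).trans ?_
    have h4 : ‖A‖ ^ (n + 1) ≤ ‖Q‖ ^ (2 * (n + 1)) := by
      rw [pow_mul]; exact pow_le_pow_left₀ (norm_nonneg _) hAn _
    have h5 : (0:ℝ) ≤ ‖A‖ ^ (n + 1) := by positivity
    rw [← pow_succ', div_le_iff₀ (by linarith)]
    nlinarith

end Vale.Agent.P347.Shift.MatVec
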