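import Vale.Agent.P347.Shift.Level.Step
import Vale.Agent.P347.Shift.Level.Base
import Vale.Agent.P347.Shift.Level.Final

/-!
# P347: means, from the orders below

A mean is emitted to order `n` when boxes have the divergence rule and expressions are emitted to
every order below `n`: the body is emitted at the finest scale, and one flow step descends a level.
-/

namespace Vale.Agent.P347.Shift

open Quarter Level

/-- **Means.** -/
theorem meanSpec {K n : ℕ} (hmv : MVSpec K) (hn : n ≤ pTop K) (h : ∀ m < n, PtSpec K m) :
    MeanSpec K n := fun D hD =>
  ptOn_mean_of_scaleOn <| scaleOn_zero (scaleOn_base hD le_rfl fun _ _ _ _ _ hf => hf)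
    fun i hi => scaleOn_step hmv (h _ (Nat.sub_lt (by omega) (pD_pos K))) (by omega) hn
      (mul_nonneg (Nat.cast_nonneg i) (pE_pos K).le) fun _ _ _ _ _ hf => hf

end Vale.Agent.P347.Shift
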