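import Vale.Agent.P347.Shift.SpecArith
import Vale.Agent.P347.Shift.EmStep

/-!
# P347: arithmetic of one level of the emission of a node
-/

open Real Finset

namespace Vale.Agent.P347.Shift.Node

variable {K n : ℕ} {η a B L S b σ : ℝ}

lemma exists_small (C : ℝ) (ha : 0 < a) :
    ∃ η₀ : ℝ, 0 < η₀ ∧ η₀ ≤ 1 ∧ ∀ η : ℝ, 0 < η → η ≤ η₀ → C * η ^ a ≤ 1 := by
  refine ⟨min 1 ((1 / (|C| + 1)) ^ (1 / a)), lt_min one_pos (by positivity), min_le_left _ _,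
    fun η hη hle => ?_⟩
  have h1 : η ^ a ≤ 1 / (|C| + 1) := by
    refine (rpow_le_rpow hη.le (hle.trans (min_le_right _ _)) ha.le).trans_eq ?_
    rw [← rpow_mul (by positivity), one_div_mul_cancel ha.ne', rpow_one]
  calc C * η ^ a ≤ (|C| + 1) * η ^ a :=
        mul_le_mul_of_nonneg_right (by linarith [le_abs_self C]) (rpow_nonneg hη.le _)
    _ ≤ (|C| + 1) * (1 / (|C| + 1)) := mul_le_mul_of_nonneg_left h1 (by positivity)
    _ = 1 := mul_one_div_cancel (by positivity)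

lemma gain_ge (K : ℕ) (hn : 0 < n) : 1 / 16 ≤ pW K n - 2 * pA K := by
  linarith [pW_sub_pD K hn, pW_ge K (n - pD K), pA_pos K]

/-- The two small parameters of a level. -/
lemma level_ratios (hη : 0 < η) (hB : 0 ≤ B) (hb : 0 < b) (hL : 0 ≤ L) (hσS : σ ≤ B * S)
    (hth : L * S * η ^ (-pW K n) ≤ B * b) :
    L * S / (b / 2 * η ^ pA K * η ^ pA K) ≤ 2 * B * η ^ (pW K n - 2 * pA K) ∧
      σ * L / (b / 2 * η ^ pA K * η ^ pA K) ≤ 2 * B ^ 2 * η ^ (pW K n - 2 * pA K) := by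
  set ea := η ^ pA K
  have hea : 0 < ea := rpow_pos_of_pos hη _
  have hx : L * S / (b / 2 * ea * ea) ≤ 2 * B * η ^ (pW K n - 2 * pA K) := by
    rw [div_le_iff₀ (by positivity)]
    have h := mul_le_mul_of_nonneg_right hth (rpow_nonneg hη.le (pW K n))
    rw [mul_assoc (L * S), ← rpow_add hη, neg_add_cancel, rpow_zero, mul_one] at h
    refine h.trans_eq ?_
    rw [show pW K n = pW K n - 2 * pA K + (pA K + pA K) by ring, rpow_add hη, rpow_add hη]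
    simp only [ea]
    ring_nf
  refine ⟨hx, ?_⟩
  calc σ * L / (b / 2 * ea * ea) ≤ B * S * L / (b / 2 * ea * ea) := by gcongr
    _ = B * (L * S / (b / 2 * ea * ea)) := by ring
    _ ≤ B * (2 * B * η ^ (pW K n - 2 * pA K)) := mul_le_mul_of_nonneg_left hx hB
    _ = _ := by ring

/-- The unit of the corrections is below the threshold of the order `n - pD`. -/
lemma unit_small (hη : 0 < η) (h1 : η ≤ 1) (hn : 0 < n) {T CT : ℝ}
    (hT : T ≤ CT * η ^ (pW K n - 2 * pA K)) (hC : 12 * CT * η ^ pA K ≤ 1) :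
    12 * T ≤ η ^ pA K * η ^ pW K (n - pD K) ∧ T ≤ 1 := by
  have e : η ^ (pW K n - 2 * pA K) = η ^ pA K * (η ^ pA K * η ^ pW K (n - pD K)) := by
    rw [← rpow_add hη, ← rpow_add hη]
    congr 1
    linarith [pW_sub_pD K hn]
  have h : 12 * T ≤ η ^ pA K * η ^ pW K (n - pD K) := by
    calc 12 * T ≤ 12 * CT * η ^ pA K * (η ^ pA K * η ^ pW K (n - pD K)) := by
          rw [e] at hT; linarith
      _ ≤ 1 * (η ^ pA K * η ^ pW K (n - pD K)) := mul_le_mul_of_nonneg_right hC (by positivity)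
      _ = _ := one_mul _
  have h2 : η ^ pA K * η ^ pW K (n - pD K) ≤ 1 :=
    mul_le_one₀ (eta_rpow_le_one hη h1 (pA_pos K).le) (rpow_nonneg hη.le _)
      (eta_rpow_le_one hη h1 (pW_pos K _).le)
  exact ⟨h, by linarith⟩

/-- A high power of the ratio pays for the order. -/
lemma high_power {l : ℕ} (h0 : 0 < η) (h1 : η ≤ 1) (hn : 0 < n) (hl : 32 * n + 31 ≤ l) :
    η ^ (-(2 * pA K)) * (η ^ (pW K n - 2 * pA K)) ^ l ≤ η ^ ((n : ℝ) * pE K) := by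
  rw [← rpow_natCast, ← rpow_mul h0.le, ← rpow_add h0]
  refine eta_rpow_le h0 h1 ?_
  have := pA_le K
  have hl' : (32 : ℝ) * n + 31 ≤ l := by exact_mod_cast hl
  have hE : (n : ℝ) * pE K ≤ n := mul_le_of_le_one_right (Nat.cast_nonneg n) (by linarith [pE_le K])
  have := mul_le_mul_of_nonneg_right (gain_ge K hn) (show (0:ℝ) ≤ l by positivity)
  nlinarith [Nat.cast_nonneg (α := ℝ) n]

/-- The quadrature and contraction errors. -/
lemma pow_pay {l : ℕ} (h0 : 0 < η) (h1 : η ≤ 1) (hn : 0 < n) (hB : 0 ≤ B) (hb : 0 < b)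
    (hL : 0 ≤ L) (hS : 0 ≤ S) (hσ : 0 ≤ σ) (hσS : σ ≤ B * S)
    (hQ : σ * L / (b / 2 * η ^ pA K * η ^ pA K) ≤ 2 * B ^ 2 * η ^ (pW K n - 2 * pA K))
    (hl : 32 * n + 31 ≤ l) :
    b / 2 * (L * σ / (b / 2 * (η ^ pA K * η ^ pA K))) ^ (l + 1) ≤
      B * (2 * B ^ 2) ^ l * (L * S * η ^ ((n : ℝ) * pE K)) := by
  set τ := η ^ pA K * η ^ pA K with hτ
  have hτ0 : 0 < τ := mul_pos (rpow_pos_of_pos h0 _) (rpow_pos_of_pos h0 _)
  set Z := η ^ (pW K n - 2 * pA K)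
  have hz : L * σ / (b / 2 * τ) ≤ 2 * B ^ 2 * Z := by
    rw [hτ, ← mul_assoc, mul_comm L σ]; exact hQ
  have hτe : η ^ (-(2 * pA K)) = τ⁻¹ := by
    rw [rpow_neg h0.le, hτ, ← rpow_add h0]; ring_nf
  calc b / 2 * (L * σ / (b / 2 * τ)) ^ (l + 1)
      = L * σ / τ * (L * σ / (b / 2 * τ)) ^ l := by rw [pow_succ]; field_simp
    _ ≤ L * (B * S) / τ * (2 * B ^ 2 * Z) ^ l := by gcongr
    _ = B * (2 * B ^ 2) ^ l * (L * S * (η ^ (-(2 * pA K)) * Z ^ l)) := by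
        rw [hτe, mul_pow]; ring
    _ ≤ _ := by
        have := high_power (K := K) h0 h1 hn hl
        gcongr

/-- The error that the level below passes on. -/
lemma below_err {C₁ Cp Kc CT E Em T N ec cen nD ny sd : ℝ} (hL : 0 ≤ L) (hS : 0 ≤ S)
    (hσ : 0 < σ) (hKc : 1 ≤ Kc) (hT0 : 0 ≤ T) (hT1 : T ≤ 1) (hE : 0 ≤ E) (hEm : 0 ≤ Em)
    (hCT : 0 ≤ CT) (hB : 0 ≤ B) (hgain : σ * T * Em ≤ CT * B * (S * E)) (hec : 0 ≤ ec)
    (hcen0 : 0 ≤ cen) (hcen : cen ≤ 9 * Kc * N) (hsd0 : 0 ≤ sd) (hsd : sd ≤ N)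
    (hnD0 : 0 ≤ nD) (hnD : nD ≤ ny + Kc * N) (hny : ny ≤ N) :
    |C₁ * (L * S * (E * (sd + nD)) + L * (|Cp| * (σ * T) * (Em * (sd + cen) + ec / (σ / 4))))| ≤
      |C₁| * (3 * Kc + |Cp| * (10 * Kc * CT * B + 4)) * (L * S * E * N + L * ec) := by
  have hN : 0 ≤ N := hsd0.trans hsd
  have hKN : N ≤ Kc * N := le_mul_of_one_le_left hN hKc
  have hin : 0 ≤ L * S * (E * (sd + nD)) +
      L * (|Cp| * (σ * T) * (Em * (sd + cen) + ec / (σ / 4))) := by positivity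
  rw [abs_mul, abs_of_nonneg hin, mul_assoc |C₁|]
  refine mul_le_mul_of_nonneg_left ?_ (abs_nonneg _)
  have t1 : L * S * (E * (sd + nD)) ≤ 3 * Kc * (L * S * E * N) := by
    calc L * S * (E * (sd + nD)) = L * S * E * (sd + nD) := by ring
      _ ≤ L * S * E * (3 * Kc * N) := by gcongr; linarith
      _ = _ := by ring
  have t2 : L * (|Cp| * (σ * T) * (Em * (sd + cen) + ec / (σ / 4))) ≤
      |Cp| * (10 * Kc * CT * B * (L * S * E * N) + 4 * (L * ec)) := by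
    have u2 := mul_le_mul hgain (show sd + cen ≤ 10 * Kc * N by linarith) (by positivity) (by positivity)
    have u3 : σ * T * (ec / (σ / 4)) ≤ 4 * ec := by
      calc σ * T * (ec / (σ / 4)) = T * (4 * ec) := by field_simp
        _ ≤ _ := mul_le_of_le_one_left (by positivity) hT1
    calc L * (|Cp| * (σ * T) * (Em * (sd + cen) + ec / (σ / 4)))
        = |Cp| * (L * (σ * T * Em * (sd + cen) + σ * T * (ec / (σ / 4)))) := by ring
      _ ≤ |Cp| * (L * (CT * B * (S * E) * (10 * Kc * N) + 4 * ec)) := by gcongr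
      _ = _ := by ring
  have u4 : 0 ≤ L * S * E * N := by positivity
  have u5 : 0 ≤ L * ec := mul_nonneg hL hec
  have v1 : 0 ≤ Kc * (L * ec) := by positivity
  have v2 : 0 ≤ |Cp| * (10 * Kc * CT * B) * (L * ec) := by positivity
  have v3 : 0 ≤ |Cp| * (L * S * E * N) := by positivity
  nlinarith

/-- The cost of a level. -/
lemma level_cost {C₁ Cp' θ Nb qc : ℝ} {ι : Type} [Fintype ι] {rc pc : ι → ℝ} (hη : 0 < η)
    (h1 : η ≤ 1) (hθ : 0 < θ) (hN : 0 ≤ Nb) (hq : 0 ≤ qc) (hpc0 : ∀ i, 0 ≤ pc i)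
    (hr : ∀ i, rc i ≤ C₁ * η ^ (-(θ / 2)) * (Nb + 1 + pc i))
    (hp : ∀ i, pc i ≤ Cp' * η ^ (-(θ / 2)) * (4 * (Nb + 1 + qc))) :
    qc + ∑ i, rc i ≤ (1 + (Fintype.card ι : ℝ) * (|C₁| * (1 + 4 * Cp'))) * η ^ (-θ) *
      (Nb + 1 + qc) := by
  have hX : 0 ≤ Nb + 1 + qc := by linarith
  have he1 := one_le_eta_rpow_neg hη h1 hθ.le
  have he2 := one_le_eta_rpow_neg hη h1 (half_pos hθ).le
  have hee : η ^ (-(θ / 2)) * η ^ (-(θ / 2)) = η ^ (-θ) := by rw [← rpow_add hη]; ring_nf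
  have hR : ∀ i, rc i ≤ |C₁| * (1 + 4 * Cp') * η ^ (-θ) * (Nb + 1 + qc) := fun i => by
    have h3 : 0 ≤ Nb + 1 + pc i := by linarith [hpc0 i]
    calc rc i ≤ |C₁| * η ^ (-(θ / 2)) * (Nb + 1 + pc i) :=
          (hr i).trans (mul_le_mul_of_nonneg_right (mul_le_mul_of_nonneg_right (le_abs_self C₁)
            (by positivity)) h3)
      _ ≤ |C₁| * η ^ (-(θ / 2)) * ((1 + 4 * Cp') * η ^ (-(θ / 2)) * (Nb + 1 + qc)) := by
          refine mul_le_mul_of_nonneg_left ?_ (by positivity)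
          have h4 := mul_le_mul_of_nonneg_right he2 hX
          linarith [hp i]
      _ = |C₁| * (1 + 4 * Cp') * (η ^ (-(θ / 2)) * η ^ (-(θ / 2))) * (Nb + 1 + qc) := by ring
      _ = _ := by rw [hee]
  have hs := Finset.sum_le_sum (s := Finset.univ) fun i _ => hR i
  rw [Finset.sum_const, Finset.card_univ, nsmul_eq_mul] at hs
  have h5 := mul_le_mul_of_nonneg_right he1 hX
  linarith

/-- The rooms of a level fit. -/
lemma level_room {ι : Type} [Fintype ι] (w : ι → ℝ) (hb : 0 < b) :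
    √((b / 2) ^ 2 + ∑ i, (w i * (b / (2 * (1 + ∑ i, |w i|)))) ^ 2) ≤ b := by
  set Wc := 1 + ∑ i, |w i|
  have hWc : 0 < Wc := by positivity
  set ρ := b / (2 * Wc) with hρ
  have hρ0 : 0 ≤ ρ := by positivity
  refine sqrt_le_iff.2 ⟨hb.le, ?_⟩
  have h : ∑ i, (w i * ρ) ^ 2 ≤ (b / 2) ^ 2 := by
    calc ∑ i, (w i * ρ) ^ 2 = ∑ i, |w i * ρ| ^ 2 := by simp only [sq_abs]
      _ ≤ (∑ i, |w i * ρ|) ^ 2 := Finset.sum_sq_le_sq_sum_of_nonneg fun i _ => abs_nonneg _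
      _ ≤ (Wc * ρ) ^ 2 := by
          refine pow_le_pow_left₀ (by positivity) ?_ 2
          simp only [abs_mul, ← Finset.sum_mul, abs_of_nonneg hρ0]
          exact mul_le_mul_of_nonneg_right (le_add_of_nonneg_left zero_le_one) hρ0
      _ = _ := by rw [hρ]; field_simp
  nlinarith

/-- The size of an iterate costs a small power. -/
lemma size_pow {θ Cs G : ℝ} {k A : ℕ} {sz nq : ℝ} (hη : 0 < η) (h1 : η ≤ 1) (hθ : 0 < θ)
    (hG : 0 ≤ G) (hCs : 0 ≤ Cs) (hsz0 : 0 ≤ sz) (hsz : sz ≤ (G * (nq + 1)) ^ k) (hnq0 : 0 ≤ nq)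
    (hnq : nq ≤ Cs * η ^ (-(θ / (4 * ((k : ℝ) + 1) * ((A : ℝ) + 1))))) :
    sz ^ A ≤ (G * (Cs + 1)) ^ (k * A) * η ^ (-(θ / 4)) := by
  set θq := θ / (4 * ((k : ℝ) + 1) * ((A : ℝ) + 1)) with hθq
  have h5 : nq + 1 ≤ (Cs + 1) * η ^ (-θq) := by
    have := one_le_eta_rpow_neg hη h1 (show 0 ≤ θq by positivity)
    linarith
  calc sz ^ A ≤ ((G * ((Cs + 1) * η ^ (-θq))) ^ k) ^ A :=
        pow_le_pow_left₀ hsz0 (hsz.trans (by gcongr)) A
    _ = (G * (Cs + 1)) ^ (k * A) * η ^ (-θq * (k * A : ℕ)) := by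
        rw [← pow_mul, ← mul_assoc, mul_pow, ← rpow_natCast (η ^ (-θq)), ← rpow_mul hη.le]
    _ ≤ _ := by
        refine mul_le_mul_of_nonneg_left (eta_rpow_le hη h1 ?_) (by positivity)
        push_cast
        rw [neg_mul, neg_le_neg_iff, hθq, div_mul_eq_mul_div, div_le_iff₀ (by positivity)]
        nlinarith [Nat.cast_nonneg (α := ℝ) k, Nat.cast_nonneg (α := ℝ) A]

/-- The error of a level, in the units of the node. -/
lemma level_err {C b₂ M P₁ P₂ s sd E nΦ ec Wc Cr Kc a₁ a₂ : ℝ} {ι : Type} [Fintype ι] {w : ι → ℝ}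
    (hC : 0 ≤ C) (hw : ∑ i, |w i| ≤ Wc) (hWc : 0 ≤ Wc) (hCr : 0 ≤ Cr) (hL : 0 ≤ L) (hS : 0 ≤ S)
    (hB : 0 ≤ B) (hSB : S ≤ B) (hσ : 0 ≤ σ) (hσK : σ ≤ Kc) (hE : 0 ≤ E) (hE1 : E ≤ 1) (hsd : 0 ≤ sd)
    (hnΦ : 0 ≤ nΦ) (hec : 0 ≤ ec) (ha₁ : 0 ≤ a₁) (ha₂ : 0 ≤ a₂)
    (hP₁ : b₂ * P₁ ≤ a₁ * (L * S * E)) (hP₂ : b₂ * P₂ ≤ a₂ * (L * S * E))
    (hs : b₂ * s ≤ M * (L * S * E) * sd) (hM : 0 ≤ M) :
    C * b₂ * ((P₁ + P₂) * sd + s) + C * L * |ec| + ∑ i, |w i| *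
        (Cr * (L * S * E * (sd + 2 * nΦ) + L * ec) + Cr * (L * S * E) * (|ec| + (σ + 1) * sd)) ≤
      (C * (a₁ + a₂ + M + 1) + Wc * Cr * (3 + Kc + (1 + B))) *
        (L * S * (E * (sd + nΦ)) + L * ec) := by
  rw [abs_of_nonneg hec, ← Finset.sum_mul]
  set U := L * S * (E * (sd + nΦ)) with hU
  have hU0 : 0 ≤ U := by positivity
  have hUd : L * S * E * sd ≤ U := by
    calc L * S * E * sd = L * S * (E * sd) := by ring
      _ ≤ _ := by simp only [U]; gcongr; linarith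
  have hLec : 0 ≤ L * ec := mul_nonneg hL hec
  have h1 : b₂ * ((P₁ + P₂) * sd + s) ≤ (a₁ + a₂ + M) * U := by
    have e1 := mul_le_mul_of_nonneg_right hP₁ hsd
    have e2 := mul_le_mul_of_nonneg_right hP₂ hsd
    have e3 := mul_le_mul_of_nonneg_left hUd (show 0 ≤ a₁ + a₂ + M by positivity)
    linarith
  have h2 : C * b₂ * ((P₁ + P₂) * sd + s) + C * L * ec ≤ C * (a₁ + a₂ + M + 1) * (U + L * ec) := by
    have e1 := mul_le_mul_of_nonneg_left h1 hC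
    have e2 : 0 ≤ C * (a₁ + a₂ + M) * (L * ec) := by positivity
    have e3 : 0 ≤ C * U := by positivity
    linarith
  have hK0 : 0 ≤ Kc := hσ.trans hσK
  have h3 : (∑ i, |w i|) * (Cr * (L * S * E * (sd + 2 * nΦ) + L * ec) +
      Cr * (L * S * E) * (ec + (σ + 1) * sd)) ≤
      Wc * Cr * (3 + Kc + (1 + B)) * (U + L * ec) := by
    have e0 : 0 ≤ Cr * (L * S * E * (sd + 2 * nΦ) + L * ec) +
        Cr * (L * S * E) * (ec + (σ + 1) * sd) := by positivity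
    refine (mul_le_mul hw (d := Cr * ((3 + Kc + (1 + B)) * (U + L * ec))) ?_ e0 hWc).trans_eq
      (by ring)
    rw [mul_assoc Cr (L * S * E), ← mul_add]
    refine mul_le_mul_of_nonneg_left ?_ hCr
    have w1 : L * S * E * (sd + 2 * nΦ) ≤ 2 * U := by
      calc L * S * E * (sd + 2 * nΦ) ≤ L * S * E * (2 * (sd + nΦ)) := by gcongr; linarith
        _ = _ := by simp only [U]; ring
    have w2 : L * S * E * ec ≤ B * (L * ec) := by
      calc L * S * E * ec ≤ L * B * 1 * ec := by gcongr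
        _ = _ := by ring
    have w3 : L * S * E * ((σ + 1) * sd) ≤ (Kc + 1) * U := by
      calc L * S * E * ((σ + 1) * sd) = (σ + 1) * (L * S * E * sd) := by ring
        _ ≤ _ := mul_le_mul (by linarith) hUd (by positivity) (by linarith)
    have w4 : 0 ≤ Kc * (L * ec) := by positivity
    have w5 : 0 ≤ B * U := by positivity
    linarith
  linarith

/-- The total error of a level. -/
lemma level_total {Cem Cs Cr Kc Wc sd nΦ ec : ℝ} {r k : ℕ} {ι : Type} [Fintype ι] {w : ι → ℝ}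
    (h0 : 0 < η) (h1 : η ≤ 1) (hn : 0 < n) (hB : 0 ≤ B) (hb : 0 < b) (hL : 0 ≤ L) (hS : 0 ≤ S)
    (hSB : S ≤ B) (hσ : 0 < σ) (hσS : σ ≤ B * S) (hσK : σ ≤ Kc)
    (hQ : σ * L / (b / 2 * η ^ pA K * η ^ pA K) ≤ 2 * B ^ 2 * η ^ (pW K n - 2 * pA K))
    (hr : 32 * n + 31 ≤ r + 1) (hk : 32 * n + 31 ≤ k) (hCem : 0 ≤ Cem) (hCs : 0 ≤ Cs) (hCr : 0 ≤ Cr)
    (hw : ∑ i, |w i| ≤ Wc) (hWc : 0 ≤ Wc) (hsd : 0 ≤ sd) (hnΦ : 0 ≤ nΦ) (hec : 0 ≤ ec) :
    Cem * (b / 2) * (((L * σ / (b / 2 * (η ^ pA K * η ^ pA K))) ^ (r + 2) +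
        (Cem * (L * σ / (b / 2) + Cs * (σ * L / (b / 2 * η ^ pA K * η ^ pA K)))) ^ (k + 1)) * sd +
        Cs * (σ * L / (b / 2)) * (η ^ n + (η ^ pA K) ^ (n + 1)) * sd) + Cem * L * |ec| +
      ∑ i, |w i| * (Cr * (L * S * η ^ ((n : ℝ) * pE K) * (sd + 2 * nΦ) + L * ec) +
        Cr * (L * S * η ^ ((n : ℝ) * pE K)) * (|ec| + (σ + 1) * sd)) ≤
    (Cem * (B * (2 * B ^ 2) ^ (r + 1) + (Cem * (1 + Cs)) ^ (k + 1) * (B * (2 * B ^ 2) ^ k) +
        2 * Cs * B + 1) + Wc * Cr * (3 + Kc + (1 + B))) *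
      (L * S * (η ^ ((n : ℝ) * pE K) * (sd + nΦ)) + L * ec) := by
  set ea := η ^ pA K with headef
  have hea : 0 < ea := rpow_pos_of_pos h0 _
  have hea1 : ea ≤ 1 := eta_rpow_le_one h0 h1 (pA_pos K).le
  set E := η ^ ((n : ℝ) * pE K)
  have hE : 0 ≤ E := rpow_nonneg h0.le _
  have hE1 : E ≤ 1 := eta_order_le_one K n h0 h1
  set Q := L * σ / (b / 2 * (ea * ea))
  have hP₁ := pow_pay h0 h1 hn hB hb hL hS hσ.le hσS hQ hr
  have hP₂ := pow_pay h0 h1 hn hB hb hL hS hσ.le hσS hQ hk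
  have e1 : σ * L / (b / 2 * ea * ea) = Q := by simp only [Q]; ring
  have hy : Cem * (L * σ / (b / 2) + Cs * (σ * L / (b / 2 * ea * ea))) ≤ Cem * (1 + Cs) * Q := by
    have h20 : L * σ / (b / 2) ≤ Q :=
      div_le_div_of_nonneg_left (by positivity) (by positivity)
        (mul_le_of_le_one_right (by positivity) (mul_le_one₀ hea1 hea.le hea1))
    rw [e1]
    calc Cem * (L * σ / (b / 2) + Cs * Q) ≤ Cem * (Q + Cs * Q) := by gcongr
      _ = _ := by ring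
  have hP₂' : b / 2 * (Cem * (L * σ / (b / 2) + Cs * (σ * L / (b / 2 * ea * ea)))) ^ (k + 1) ≤
      (Cem * (1 + Cs)) ^ (k + 1) * (B * (2 * B ^ 2) ^ k) * (L * S * E) := by
    calc _ ≤ b / 2 * ((Cem * (1 + Cs)) ^ (k + 1) * Q ^ (k + 1)) := by
          rw [← mul_pow]
          exact mul_le_mul_of_nonneg_left (pow_le_pow_left₀ (by positivity) hy _) (by linarith)
      _ = (Cem * (1 + Cs)) ^ (k + 1) * (b / 2 * Q ^ (k + 1)) := by ring
      _ ≤ (Cem * (1 + Cs)) ^ (k + 1) * (B * (2 * B ^ 2) ^ k * (L * S * E)) :=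
          mul_le_mul_of_nonneg_left hP₂ (by positivity)
      _ = _ := by ring
  have hs : b / 2 * (Cs * (σ * L / (b / 2)) * (η ^ n + ea ^ (n + 1)) * sd) ≤
      2 * Cs * B * (L * S * E) * sd := by
    have u1 : η ^ n ≤ E := by
      rw [← rpow_natCast]
      exact eta_rpow_le h0 h1 (mul_le_of_le_one_right (Nat.cast_nonneg n) (by linarith [pE_le K]))
    have u2 : ea ^ (n + 1) ≤ E := by
      rw [headef, ← rpow_natCast, ← rpow_mul h0.le]
      refine eta_rpow_le h0 h1 ?_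
      push_cast
      have := mul_le_mul_of_nonneg_left (pE_le_pA K) (Nat.cast_nonneg (α := ℝ) n)
      linarith [pA_pos K]
    calc b / 2 * (Cs * (σ * L / (b / 2)) * (η ^ n + ea ^ (n + 1)) * sd)
        = Cs * (σ * L) * (η ^ n + ea ^ (n + 1)) * sd := by field_simp
      _ ≤ Cs * (B * S * L) * (E + E) * sd := by gcongr
      _ = _ := by ring
  exact level_err hCem hw hWc hCr hL hS hB hSB hσ.le hσK hE hE1 hsd hnΦ hec (by positivity)
    (by positivity) hP₁ hP₂' hs (by positivity)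

end Vale.Agent.P347.Shift.Node
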