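import Vale.Agent.P347.Shift.SyntaxSize

/-!
# P347: the Picard rounds of one emission step of a node, as expressions

One box, one centre sampled at a quarter of the smoothing `σ`. The variables are the point in units
of `σ` and the second Gaussian block. The rounds are kept as their corrections to both variables.
-/

open Finset Real

namespace Vale.Agent.P347.Shift.Node

open Expr (esum)

/-- The constants of one step: smoothing, its part, room, extraction scale, and the two rules. -/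
structure Par (n p : ℕ) where
  /-- the smoothing -/
  σ : ℝ
  /-- the share of the finer smoothing -/
  τ : ℝ
  /-- the room -/
  b : ℝ
  /-- the scale of extraction -/
  lam : ℝ
  /-- weights in time -/
  wq : Fin n → ℝ
  /-- their relative nodes -/
  u : Fin n → ℝ
  /-- the smoothing left at a node -/
  rest : Fin n → ℝ
  /-- weights of extraction -/
  ws : Fin p → ℝ
  /-- their nodes -/
  vs : Fin p → ℝ

variable {n p r m : ℕ}

/-- The mean reads the centre at coefficient `2 / σ`. -/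
noncomputable def Par.C₀ (P : Par n p) : Fin 1 → ℝ := fun _ => 2 / P.σ

/-- The centre of a node of the surrogate. -/
noncomputable def ctrE (P : Par n p) (Y G : Expr Unit 1 m) (j : Fin n) (l : Fin p) :
    Expr Unit 1 (m + 1) :=
  .add (.add (.smul ((1 - P.u j) * P.σ / 2) (.var 0)) (.smul (P.u j) (Y.ren Fin.succ)))
    (.smul (P.σ * P.rest j * (P.lam * P.vs l)) (G.ren Fin.succ))

/-- The surrogate of the transposed gradient at point `Y`, applied to `G`. -/
noncomputable def surE (P : Par n p) (Y G : Expr Unit 1 m) : Expr Unit 1 m :=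
  .smul (P.σ / P.b) (esum fun j => .smul (P.wq j) (.mean P.C₀ (esum fun l =>
    .smul (P.ws l / (P.lam * (P.σ * P.rest j)))
      (.node () (P.σ * P.rest j * √(1 - (P.lam * P.vs l) ^ 2)) (ctrE P Y G j l)))))

/-- The mean itself. -/
noncomputable def meanE (P : Par n p) : Expr Unit 1 m :=
  .mean P.C₀ (.node () (P.σ * √3 / 2) (.smul (P.σ / 2) (.var 0)))

/-- A point from its correction. -/
def yE (P : Par n p) (D : Expr Unit 1 2) : Expr Unit 1 2 := .add (.smul P.σ (.var 0)) D

/-- A second block from its correction. -/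
def gE (G : Expr Unit 1 2) : Expr Unit 1 2 := .add (.var 1) G

/-- The corrections after `k` rounds at the collocation nodes, with weights `A`. -/
noncomputable def roundE (P : Par n p) (A : Fin r → Fin r → ℝ) :
    ℕ → Fin r → Expr Unit 1 2 × Expr Unit 1 2
  | 0, _ => (.zero, .zero)
  | k + 1, i =>
    (esum fun j => .smul (A i j * -(P.σ * √(1 - P.τ)))
        (surE P (yE P (roundE P A k j).1) (gE (roundE P A k j).2)),
      esum fun j => .smul (A i j * P.b⁻¹)
        (.add (.node () (P.σ * √P.τ) (yE P (roundE P A k j).1)) (.smul (-1) (meanE P))))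

/-- The standing assumptions. -/
structure Par.Ok (P : Par n p) (W : ℝ) : Prop where
  hσ : 0 < P.σ
  hτ : 0 < P.τ
  hτ1 : P.τ ≤ 1 / 2
  hb : 0 < P.b
  hlam : 0 < P.lam
  hlam1 : P.lam ≤ 1 / 2
  hW : 1 ≤ W
  hwq : ∑ j, |P.wq j| ≤ W
  hu : ∀ j, |P.u j| ≤ 2
  hrest : ∀ j, √P.τ / 2 ≤ P.rest j ∧ P.rest j ≤ 1
  hws : ∑ l, |P.ws l| ≤ W
  hvs : ∀ l, |P.vs l| ≤ 1

/-- The unit of the size of all corrections. -/
noncomputable def Par.T (P : Par n p) (B W L S : ℝ) : ℝ :=
  8 * W ^ 3 * (1 + B) * (L * S / (P.b * P.lam * √P.τ))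

/-! ### Shapes -/

lemma aff_surE (P : Par n p) (Y G : Expr Unit 1 m) (i : Fin m) : (surE P Y G).aff i = 0 := by
  simp [surE, Expr.aff, Expr.aff_esum]

lemma aff_meanE (P : Par n p) (i : Fin m) : (meanE P : Expr Unit 1 m).aff i = 0 := by
  simp [meanE, Expr.aff]

lemma aff_roundE (P : Par n p) (A : Fin r → Fin r → ℝ) : ∀ (k : ℕ) (i : Fin r) (b : Fin 2),
    (roundE P A k i).1.aff b = 0 ∧ (roundE P A k i).2.aff b = 0
  | 0, _, _ => ⟨rfl, rfl⟩
  | k + 1, i, b => by
    simp only [roundE, Expr.aff_esum, Expr.aff, aff_surE, aff_meanE]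
    simp

lemma fill_surE {P : Par n p} (hσ : 0 < P.σ) {Y G : Expr Unit 1 m}
    (hY : Y.Fill fun _ => P.σ / 4) (hG : G.Fill fun _ => P.σ / 4) :
    (surE P Y G).Fill fun _ => P.σ / 4 := by
  refine Expr.fill_esum fun j => ⟨?_, Expr.fill_esum fun l =>
    ⟨⟨trivial, Expr.fill_ren _ hY⟩, Expr.fill_ren _ hG⟩⟩
  simp only [Fin.sum_univ_one, Par.C₀]
  rw [show 2 / P.σ * (P.σ / 4) = 1 / 2 by field_simp; ring]
  norm_num

lemma fill_roundE {P : Par n p} (hσ : 0 < P.σ) (A : Fin r → Fin r → ℝ) : ∀ (k : ℕ) (i : Fin r),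
    (roundE P A k i).1.Fill (fun _ => P.σ / 4) ∧ (roundE P A k i).2.Fill (fun _ => P.σ / 4)
  | 0, _ => ⟨trivial, trivial⟩
  | k + 1, i =>
    ⟨Expr.fill_esum fun j =>
        fill_surE hσ ⟨trivial, (fill_roundE hσ A k j).1⟩ ⟨trivial, (fill_roundE hσ A k j).2⟩,
      Expr.fill_esum fun j => ⟨⟨trivial, (fill_roundE hσ A k j).1⟩, by
        refine ⟨?_, trivial⟩
        simp only [Fin.sum_univ_one, Par.C₀]
        rw [show 2 / P.σ * (P.σ / 4) = 1 / 2 by field_simp; ring]
        norm_num⟩⟩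

lemma depth_surE (P : Par n p) {Y G : Expr Unit 1 m} {D : ℕ} (hY : Y.depth ≤ D)
    (hG : G.depth ≤ D) : (surE P Y G).depth ≤ D + 2 :=
  Expr.depth_esum_le fun j => Nat.succ_le_succ (Expr.depth_esum_le fun l => by
    simp only [Expr.depth, ctrE, Expr.depth_ren]; omega)

lemma depth_roundE (P : Par n p) (A : Fin r → Fin r → ℝ) : ∀ (k : ℕ) (i : Fin r),
    (roundE P A k i).1.depth ≤ 2 * k ∧ (roundE P A k i).2.depth ≤ 2 * k
  | 0, _ => ⟨le_rfl, le_rfl⟩
  | k + 1, i =>
    ⟨Expr.depth_esum_le fun j => depth_surE P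
        (by simpa [yE, Expr.depth] using (depth_roundE P A k j).1)
        (by simpa [gE, Expr.depth] using (depth_roundE P A k j).2),
      Expr.depth_esum_le fun j => by
        have := (depth_roundE P A k j).1
        simp only [Expr.depth, yE, meanE]
        omega⟩

/-- The growth of one round. -/
def grow (p r : ℕ) : ℕ := 64 * (p + 1) * (r + 1)

lemma size_surE (P : Par n p) {Y G : Expr Unit 1 m} {X : ℕ} (hY : Y.size ≤ X) (hG : G.size ≤ X) :
    (surE P Y G).size ≤ n * (p * (2 * X + 12) + 4) + 3 := by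
  have h1 : ∀ j l, (ctrE P Y G j l).size ≤ 2 * X + 7 := fun j l => by
    simp only [ctrE, Expr.size, Expr.size_ren]; omega
  simp only [surE, Expr.size, Expr.size_esum]
  have h2 : ∀ j, 1 + ∑ l, ((ctrE P Y G j l).size + 1 + 1 + 1) ≤ 1 + p * (2 * X + 12) := fun j => by
    refine Nat.add_le_add le_rfl ((Finset.sum_le_sum (g := fun _ => 2 * X + 12) fun l _ => ?_).trans_eq
      (by simp))
    have := h1 j l
    omega
  have h3 : ∑ j, (1 + ∑ l, ((ctrE P Y G j l).size + 1 + 1 + 1) + 1 + 1 + 1) ≤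
      n * (p * (2 * X + 12) + 4) := by
    refine (Finset.sum_le_sum (g := fun _ => p * (2 * X + 12) + 4) fun j _ => ?_).trans_eq (by simp)
    have := h2 j
    omega
  omega

lemma size_roundE (P : Par n p) (A : Fin r → Fin r → ℝ) : ∀ (k : ℕ) (i : Fin r),
    (roundE P A k i).1.size ≤ (grow p r * (n + 1)) ^ k ∧
      (roundE P A k i).2.size ≤ (grow p r * (n + 1)) ^ k
  | 0, _ => ⟨le_rfl, le_rfl⟩
  | k + 1, i => by
    set X := (grow p r * (n + 1)) ^ k
    have hX : 1 ≤ X := Nat.one_le_pow _ _ (by unfold grow; positivity)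
    have hy : ∀ j, (yE P (roundE P A k j).1).size ≤ X + 3 ∧ (gE (roundE P A k j).2).size ≤ X + 3 :=
      fun j => by
        have := size_roundE P A k j
        simp only [yE, gE, Expr.size]
        omega
    have e : (grow p r * (n + 1)) ^ (k + 1) = 64 * (p + 1) * (r + 1) * (n + 1) * X := by
      simp only [X, grow]; ring
    constructor
    · simp only [roundE, Expr.size, Expr.size_esum]
      refine (Nat.add_le_add le_rfl ((Finset.sum_le_sum (s := Finset.univ)
        (g := fun _ => n * (p * (2 * (X + 3) + 12) + 4) + 5) fun j _ => ?_).trans_eq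
          (c := r * (n * (p * (2 * (X + 3) + 12) + 4) + 5)) (by simp))).trans ?_
      · have := size_surE P (hy j).1 (hy j).2
        omega
      · rw [e]
        have h : n * (p * (2 * (X + 3) + 12) + 4) + 5 ≤ 32 * (p + 1) * (n + 1) * X := by
          nlinarith [Nat.zero_le (n * p * X), Nat.zero_le (n * X), Nat.zero_le (p * X)]
        have h2 := Nat.mul_le_mul_left r h
        have h5 : 1 ≤ (p + 1) * (n + 1) * X := Nat.mul_pos (Nat.mul_pos (by omega) (by omega)) hX
        nlinarith [Nat.zero_le ((p + 1) * (n + 1) * X * r)]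
    · simp only [roundE, meanE, Expr.size, Expr.size_esum]
      refine (Nat.add_le_add le_rfl ((Finset.sum_le_sum (s := Finset.univ)
        (g := fun _ => X + 16) fun j _ => ?_).trans_eq (c := r * (X + 16)) (by simp))).trans ?_
      · have := (hy j).1
        omega
      · rw [e]
        have h : X + 16 ≤ 32 * (p + 1) * (n + 1) * X := by
          have : 1 ≤ (p + 1) * (n + 1) := Nat.mul_pos (by omega) (by omega)
          nlinarith
        have h2 := Nat.mul_le_mul_left r h
        have h5 : 1 ≤ (p + 1) * (n + 1) * X := Nat.mul_pos (Nat.mul_pos (by omega) (by omega)) hX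
        nlinarith [Nat.zero_le ((p + 1) * (n + 1) * X * r)]

/-! ### Sizes -/

variable {η w L S B W B' R : ℝ} {P : Par n p}

/-- The requirements on the constants of the invariant. -/
structure Fits (P : Par n p) (η w L S B W B' R : ℝ) : Prop where
  hη : 0 ≤ η ^ w
  hL : 0 ≤ L
  hσS : P.σ ≤ B * S
  hSB : S ≤ B
  hB0 : 0 < B
  hB : 5 * B ≤ B'
  hR : 20 ≤ R * √P.τ
  hT1 : P.T B W L S ≤ 1
  hT : 12 * P.T B W L S ≤ B' * √P.τ * η ^ w

lemma Fits.hS (hP : P.Ok W) (hF : Fits P η w L S B W B' R) : 0 < S ∧ 0 < B := by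
  have h1 : 0 < B * S := hP.hσ.trans_le hF.hσS
  exact ⟨(pos_iff_pos_of_mul_pos h1).1 hF.hB0, hF.hB0⟩

lemma Par.Ok.rest_pos (hP : P.Ok W) (j : Fin n) : 0 < P.rest j :=
  lt_of_lt_of_le (div_pos (sqrt_pos.2 hP.hτ) two_pos) (hP.hrest j).1

lemma Par.Ok.sqrt_tau_le (hP : P.Ok W) : √P.τ ≤ 1 := sqrt_le_one.2 (by linarith [hP.hτ1])

lemma Par.Ok.rho_le (hP : P.Ok W) (l : Fin p) : |P.lam * P.vs l| ≤ 1 / 2 := by
  rw [abs_mul, abs_of_pos hP.hlam]
  exact (mul_le_of_le_one_right hP.hlam.le (hP.hvs l)).trans hP.hlam1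

/-- The smoothing of a node of the surrogate. -/
lemma Par.Ok.node_scale (hP : P.Ok W) (j : Fin n) (l : Fin p) :
    P.σ * √P.τ ≤ 4 * (P.σ * P.rest j * √(1 - (P.lam * P.vs l) ^ 2)) ∧
      P.σ * P.rest j * √(1 - (P.lam * P.vs l) ^ 2) ≤ P.σ := by
  have hρ := hP.rho_le l
  have h1 : 1 / 2 ≤ √(1 - (P.lam * P.vs l) ^ 2) := le_sqrt_of_sq_le (by
    nlinarith [sq_abs (P.lam * P.vs l), abs_nonneg (P.lam * P.vs l)])
  have h2 : √(1 - (P.lam * P.vs l) ^ 2) ≤ 1 := sqrt_le_one.2 (by nlinarith)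
  have hσ := hP.hσ
  obtain ⟨h3, h4⟩ := hP.hrest j
  have h5 : 0 ≤ P.σ * P.rest j := mul_nonneg hσ.le (hP.rest_pos j).le
  refine ⟨?_, (mul_le_of_le_one_right h5 h2).trans (mul_le_of_le_one_right hσ.le h4)⟩
  calc P.σ * √P.τ ≤ P.σ * (2 * P.rest j) := mul_le_mul_of_nonneg_left (by linarith) hσ.le
    _ = 4 * (P.σ * P.rest j * (1 / 2)) := by ring
    _ ≤ _ := by gcongr

lemma sum_abs_yE (P : Par n p) (hσ : 0 ≤ P.σ) {D : Expr Unit 1 2} (hD : ∀ b, D.aff b = 0) :
    ∑ b, |(yE P D).aff b| = P.σ := by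
  simp [yE, Expr.aff, hD, Fin.sum_univ_two, abs_of_nonneg hσ]

lemma sum_abs_unit {k : ℕ} (a : ℝ) (i : Fin k) :
    ∑ x, |a * if i = x then (1 : ℝ) else 0| = |a| := by
  simp [mul_ite, apply_ite abs]

lemma sum_abs_gE {G : Expr Unit 1 2} (hG : ∀ b, G.aff b = 0) : ∑ b, |(gE G).aff b| = 1 := by
  simp [gE, Expr.aff, hG, Fin.sum_univ_two]

/-- The surrogate at good points. -/
lemma surE_ok (hP : P.Ok W) (hF : Fits P η w L S B W B' R) {Y G : Expr Unit 1 2}
    (hYa : ∑ b, |Y.aff b| ≤ P.σ) (hGa : ∑ b, |G.aff b| ≤ 1)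
    (hY : Y.sm L (fun _ => S) ≤ P.σ * P.T B W L S) (hG : G.sm L (fun _ => S) ≤ P.T B W L S)
    (hYg : Y.Good η L (fun _ => S) B' R w) (hGg : G.Good η L (fun _ => S) B' R w) :
    (surE P Y G).Good η L (fun _ => S) B' R w ∧ (surE P Y G).sm L (fun _ => S) ≤
      P.σ / P.b * (W * (W / (P.lam * (P.σ * (√P.τ / 2))) * (L * ((1 + 3 * B) * S)))) := by
  obtain ⟨hS, hB⟩ := hF.hS hP
  have hσ := hP.hσ
  have hT := hF.hT1
  have hsc : ∀ _ : Unit, (0 : ℝ) ≤ S := fun _ => hS.le
  have hT0 : 0 ≤ P.T B W L S := le_trans (Expr.sm_nonneg hF.hL hsc G) hG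
  have hz : ∀ (j : Fin n), |P.σ * P.rest j| ≤ P.σ := fun j => by
    rw [abs_of_nonneg (mul_nonneg hσ.le (hP.rest_pos j).le)]
    exact mul_le_of_le_one_right hσ.le (hP.hrest j).2
  have hc : ∀ j l, |P.σ * P.rest j * (P.lam * P.vs l)| ≤ P.σ / 2 := fun j l => by
    rw [abs_mul, div_eq_mul_one_div]
    exact mul_le_mul (hz j) (hP.rho_le l) (abs_nonneg _) hσ.le
  have hsm : ∀ j l, (ctrE P Y G j l).sm L (fun _ => S) ≤ 3 * P.σ * P.T B W L S := fun j l => by
    simp only [ctrE, Expr.sm, Expr.sm_ren, mul_zero, zero_add]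
    have h1 := mul_le_mul (hP.hu j) hY (Expr.sm_nonneg hF.hL hsc Y) zero_le_two
    have h2 := mul_le_mul (hc j l) hG (Expr.sm_nonneg hF.hL hsc G) (by linarith)
    nlinarith [mul_nonneg hσ.le hT0]
  have haff : ∀ j l, ∑ b, |(ctrE P Y G j l).aff b| ≤ 5 * P.σ := fun j l => by
    simp only [ctrE, Expr.aff]
    refine (Finset.sum_le_sum fun b _ => (abs_add_le _ _).trans
      (add_le_add (abs_add_le _ _) le_rfl)).trans ?_
    simp only [abs_mul (_ : ℝ) (Expr.aff _ _), Finset.sum_add_distrib, ← Finset.mul_sum]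
    have h1 : |(1 - P.u j) * P.σ / 2| ≤ 3 / 2 * P.σ := by
      rw [abs_div, abs_mul, abs_two, abs_of_pos hσ]
      have := (abs_sub (1 : ℝ) (P.u j)).trans (by linarith [hP.hu j, abs_one (α := ℝ)] : _ ≤ (3 : ℝ))
      nlinarith
    have h2 := mul_le_mul (hP.hu j) ((Expr.sum_abs_aff_ren Y Fin.succ).trans hYa)
      (Finset.sum_nonneg fun b _ => abs_nonneg _) zero_le_two
    have h3 := mul_le_mul (hc j l) ((Expr.sum_abs_aff_ren G Fin.succ).trans hGa)
      (Finset.sum_nonneg fun b _ => abs_nonneg _) (by linarith)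
    rw [sum_abs_unit]
    linarith
  have hnode : ∀ j l, (Expr.node () (P.σ * P.rest j * √(1 - (P.lam * P.vs l) ^ 2))
      (ctrE P Y G j l)).Good η L (fun _ => S) B' R w := fun j l => by
    obtain ⟨hs1, hs2⟩ := hP.node_scale j l
    set σ' := P.σ * P.rest j * √(1 - (P.lam * P.vs l) ^ 2)
    have hτ0 := sqrt_pos.2 hP.hτ
    have hBB : B ≤ B' := by linarith [hF.hB]
    have hσ' : 0 < σ' := by nlinarith
    have hR0 : 0 ≤ R := by nlinarith [hF.hR]
    have hB'0 : 0 ≤ B' * η ^ w := mul_nonneg (by linarith) hF.hη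
    refine ⟨hσ', hs2.trans (hF.hσS.trans (mul_le_mul_of_nonneg_right hBB hS.le)),
      hF.hSB.trans hBB, (haff j l).trans ?_, (haff j l).trans ?_, (hsm j l).trans ?_,
      ⟨⟨trivial, Expr.good_ren _ hYg⟩, Expr.good_ren _ hGg⟩⟩
    · have h1 := mul_le_mul_of_nonneg_left hF.hR hσ.le
      have h2 := mul_le_mul_of_nonneg_left hs1 hR0
      nlinarith
    · calc 5 * P.σ ≤ 5 * (B * S) := by linarith [hF.hσS]
        _ ≤ B' * S := by nlinarith [hF.hB]
    · have h1 := mul_le_mul_of_nonneg_left hF.hT hσ.le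
      have h2 := mul_le_mul_of_nonneg_left hs1 hB'0
      nlinarith
  refine ⟨Expr.good_esum fun j => Expr.good_esum fun l => hnode j l, ?_⟩
  simp only [surE, Expr.sm, Expr.sm_esum, Expr.aff_esum, Expr.aff, mul_zero,
    Finset.sum_const_zero, abs_zero, add_zero]
  rw [abs_of_nonneg (div_nonneg hσ.le hP.hb.le)]
  refine mul_le_mul_of_nonneg_left ?_ (div_nonneg hσ.le hP.hb.le)
  refine (Finset.sum_le_sum fun j _ => mul_le_mul_of_nonneg_left (?_ : _ ≤
    W / (P.lam * (P.σ * (√P.τ / 2))) * (L * ((1 + 3 * B) * S))) (abs_nonneg _)).trans ?_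
  · have hden : 0 < P.lam * (P.σ * (√P.τ / 2)) := by
      have := sqrt_pos.2 hP.hτ; have := hP.hlam; positivity
    have hX : ∀ l, L * (S + (ctrE P Y G j l).sm L (fun _ => S)) ≤ L * ((1 + 3 * B) * S) := fun l => by
      refine mul_le_mul_of_nonneg_left ?_ hF.hL
      have := hsm j l
      have := mul_le_mul_of_nonneg_left hT (mul_nonneg (show (0:ℝ) ≤ 3 by norm_num) hσ.le)
      nlinarith [hF.hσS]
    refine (Finset.sum_le_sum fun l _ => mul_le_mul_of_nonneg_left (hX l) (abs_nonneg _)).trans ?_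
    rw [← Finset.sum_mul]
    refine mul_le_mul_of_nonneg_right ?_ (by have := hF.hL; positivity)
    simp only [abs_div, ← Finset.sum_div]
    rw [abs_of_pos (mul_pos hP.hlam (mul_pos hσ (hP.rest_pos j)))]
    exact div_le_div₀ (by linarith [hP.hW]) hP.hws hden
      (mul_le_mul_of_nonneg_left (mul_le_mul_of_nonneg_left (hP.hrest j).1 hσ.le) hP.hlam.le)
  · rw [← Finset.sum_mul]
    refine mul_le_mul_of_nonneg_right hP.hwq ?_
    have := hF.hL; have := hP.hW; have := hP.hlam; have := sqrt_nonneg P.τ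
    positivity

/-- All corrections are small and good. -/
theorem roundE_ok (hP : P.Ok W) (hF : Fits P η w L S B W B' R) {A : Fin r → Fin r → ℝ}
    (hA : ∀ i, ∑ j, |A i j| ≤ W) : ∀ (k : ℕ) (i : Fin r),
    ((roundE P A k i).1.Good η L (fun _ => S) B' R w ∧
      (roundE P A k i).1.sm L (fun _ => S) ≤ P.σ * P.T B W L S) ∧
    (roundE P A k i).2.Good η L (fun _ => S) B' R w ∧
      (roundE P A k i).2.sm L (fun _ => S) ≤ P.T B W L S := by
  obtain ⟨hS, hB⟩ := hF.hS hP
  have hσ := hP.hσ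
  have hb := hP.hb
  have hl := hP.hlam
  have hτ := sqrt_pos.2 hP.hτ
  have hW := hP.hW
  have hL := hF.hL
  have hT0 : 0 ≤ P.T B W L S := by unfold Par.T; positivity
  intro k
  induction k with
  | zero => exact fun i => ⟨⟨trivial, mul_nonneg hσ.le hT0⟩, trivial, hT0⟩
  | succ k ih =>
    intro i
    have hy : ∀ j, ∑ b, |(yE P (roundE P A k j).1).aff b| = P.σ := fun j =>
      sum_abs_yE P hσ.le fun b => (aff_roundE P A k j b).1
    have hys : ∀ j, (yE P (roundE P A k j).1).sm L (fun _ => S) ≤ P.σ * P.T B W L S := fun j => by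
      simpa [yE, Expr.sm] using (ih j).1.2
    have hsur := fun j => surE_ok hP hF (hy j).le
      (sum_abs_gE fun b => (aff_roundE P A k j b).2).le (hys j)
      (G := gE (roundE P A k j).2) (by simpa [gE, Expr.sm] using (ih j).2.2)
      ⟨trivial, (ih j).1.1⟩ ⟨trivial, (ih j).2.1⟩
    have hR0 : 0 ≤ R := by nlinarith [hF.hR]
    have hBB : B ≤ B' := by linarith [hF.hB]
    have hR20 : 20 ≤ R := hF.hR.trans (mul_le_of_le_one_right hR0 hP.sqrt_tau_le)
    have hme : (meanE P : Expr Unit 1 2).Good η L (fun _ => S) B' R w := by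
      have h3 : (1 : ℝ) ≤ √3 := one_le_sqrt.2 (by norm_num)
      have h4 : √3 ≤ 2 := sqrt_le_iff.2 ⟨by norm_num, by norm_num⟩
      refine ⟨by positivity, ?_, hF.hSB.trans hBB, ?_, ?_, ?_, trivial⟩
      · nlinarith [hF.hσS, hF.hB]
      · simp only [Expr.aff]
        rw [sum_abs_unit, abs_div, abs_two, abs_of_pos hσ]
        nlinarith [mul_le_mul_of_nonneg_left h3 hσ.le, mul_nonneg hR0 hσ.le]
      · simp only [Expr.aff]
        rw [sum_abs_unit, abs_div, abs_two, abs_of_pos hσ]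
        nlinarith [hF.hσS, hF.hB]
      · simp only [Expr.sm, mul_zero]
        have := hF.hη
        have : 0 ≤ B' := by linarith
        positivity
    refine ⟨⟨Expr.good_esum fun j => (hsur j).1, ?_⟩, Expr.good_esum fun j => ⟨⟨?_, ?_, ?_, ?_, ?_, ?_,
      ⟨trivial, (ih j).1.1⟩⟩, hme⟩, ?_⟩
    · simp only [roundE, Expr.sm_esum, Expr.sm]
      refine (Finset.sum_le_sum fun j _ => mul_le_mul_of_nonneg_left (hsur j).2 (abs_nonneg _)).trans ?_
      rw [← Finset.sum_mul]
      have hAi : ∑ j, |A i j * -(P.σ * √(1 - P.τ))| ≤ W * P.σ := by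
        simp only [abs_mul, abs_neg, ← Finset.sum_mul]
        refine mul_le_mul (hA i) ?_ (by positivity) (by linarith)
        rw [abs_of_pos hσ, abs_of_nonneg (sqrt_nonneg _)]
        exact mul_le_of_le_one_right hσ.le (sqrt_le_one.2 (by linarith [hP.hτ]))
      refine (mul_le_mul_of_nonneg_right hAi (by positivity)).trans ?_
      rw [show W * P.σ * (P.σ / P.b * (W * (W / (P.lam * (P.σ * (√P.τ / 2))) *
          (L * ((1 + 3 * B) * S))))) =
        P.σ * (2 * W ^ 3 * (1 + 3 * B) * (L * S / (P.b * P.lam * √P.τ))) by field_simp]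
      refine mul_le_mul_of_nonneg_left (mul_le_mul_of_nonneg_right ?_ (by positivity)) hσ.le
      nlinarith [pow_nonneg (by linarith : (0:ℝ) ≤ W) 3]
    · exact mul_pos hσ hτ
    · exact ((mul_le_of_le_one_right hσ.le hP.sqrt_tau_le).trans hF.hσS).trans
        (mul_le_mul_of_nonneg_right hBB hS.le)
    · exact hF.hSB.trans hBB
    · rw [hy j]
      nlinarith [mul_le_mul_of_nonneg_left hF.hR hσ.le]
    · rw [hy j]
      exact hF.hσS.trans (mul_le_mul_of_nonneg_right hBB hS.le)
    · refine (hys j).trans ?_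
      nlinarith [mul_le_mul_of_nonneg_left hF.hT hσ.le, mul_nonneg hσ.le hT0]
    · simp only [roundE, Expr.sm_esum, Expr.sm, meanE, Expr.aff, abs_neg, abs_one, one_mul,
        abs_zero, add_zero, mul_zero]
      have hj : ∀ j, L * (S + (yE P (roundE P A k j).1).sm L (fun _ => S)) + L * S ≤
          (2 + B) * (L * S) := fun j => by
        have h1 := (hys j).trans (mul_le_of_le_one_right hσ.le hF.hT1)
        nlinarith [mul_le_mul_of_nonneg_left (h1.trans hF.hσS) hL]
      refine (Finset.sum_le_sum fun j _ => mul_le_mul_of_nonneg_left (hj j) (abs_nonneg _)).trans ?_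
      rw [← Finset.sum_mul]
      simp only [abs_mul, ← Finset.sum_mul, abs_inv, abs_of_pos hb]
      refine (mul_le_mul_of_nonneg_right (mul_le_mul_of_nonneg_right (hA i) (by positivity))
        (by positivity)).trans ?_
      have hden : P.b * P.lam * √P.τ ≤ P.b := by
        have h1 : P.lam * √P.τ ≤ 1 := by nlinarith [hP.hlam1, hP.sqrt_tau_le]
        calc P.b * P.lam * √P.τ = P.b * (P.lam * √P.τ) := by ring
          _ ≤ _ := mul_le_of_le_one_right hb.le h1
      have h2 : L * S / P.b ≤ L * S / (P.b * P.lam * √P.τ) :=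
        div_le_div_of_nonneg_left (by positivity) (by positivity) hden
      unfold Par.T
      calc W * P.b⁻¹ * ((2 + B) * (L * S)) = W * (2 + B) * (L * S / P.b) := by ring
        _ ≤ W * (2 + B) * (L * S / (P.b * P.lam * √P.τ)) :=
            mul_le_mul_of_nonneg_left h2 (by positivity)
        _ ≤ _ := by
            refine mul_le_mul_of_nonneg_right ?_ (by positivity)
            have : W ≤ W ^ 3 := le_self_pow₀ hW (by norm_num)
            nlinarith

end Vale.Agent.P347.Shift.Node
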