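import Vale.Agent.P347.Shift.NodeVal
import Vale.Agent.P347.Shift.EmStep
import Vale.Agent.P347.Shift.EmitBase
import Vale.Agent.P347.Shift.PtParts
import Vale.Agent.P347.Shift.NodeArith

/-!
# P347: a smoothed box at a centre known at half of the smoothing

Downward induction on the smoothing. Below `η ^ (n pE)` times the scale the box is read at a sample
of the centre. A level runs one flow step at the ratio `η ^ pA`: the iterates are emitted at the
order `n - pD`, their gain `η ^ (pW K n - 2 pA)` pays for the order, and they feed the level below.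
-/

open MeasureTheory ProbabilityTheory Real Finset
open scoped RealInnerProductSpace ENNReal

namespace Vale.Agent.P347.Shift

open Quarter EmFlow

/-- `NodeSpec` for smoothings below `η ^ (j pA)` times the scale. -/
def NodeAt (K n j : ℕ) : Prop :=
  ∀ B : ℝ, ∃ B' : ℝ, ∀ θ : ℝ, 0 < θ → ∀ Cb : ℝ, 0 ≤ Cb → ∃ C η₀ : ℝ,
    0 < η₀ ∧ ∀ (d : ℕ) (α : Type) [MeasurableSpace α] (η L b σ S : ℝ) (Nb : ℕ)
      (𝒱 : (Sp d → Sp d) → Sp d → Sp d) (q : Emitter d α),
      1 ≤ d → 0 < η → η ≤ η₀ → 0 ≤ L → L ≤ 4 * η → 0 < b → 1 ≤ Nb →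
      0 < σ → σ ≤ B * S → σ ≤ B * S * η ^ ((j : ℝ) * pA K) → 0 ≤ S → S ≤ B →
      L * S * η ^ (-pW K n) ≤ B * b →
      (∀ m ≤ n, IsBox d K η L S m B' Cb Nb 𝒱) →
      ∃ p : Emitter d α, (p.cost : ℝ) ≤ C * η ^ (-θ) * ((Nb : ℝ) + 1 + q.cost) ∧
        ∀ G, Adm η G → ∀ (Φ : α → Sp d) (ec : α → ℝ), Measurable Φ → (∀ a, 0 ≤ ec a) →
          Emits q G Φ (σ / 2) ec →
          Emits p G (fun a => smth 1 σ (𝒱 G) (Φ a)) b fun a =>
            C * (L * S * (η ^ ((n : ℝ) * pE K) * (√d + ‖Φ a‖)) + L * ec a)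

namespace Node

lemma nodeSpec_of_nodeAt {K n : ℕ} (h : NodeAt K n 0) : NodeSpec K n := by
  intro B
  obtain ⟨B', h⟩ := h B
  refine ⟨B', fun θ hθ Cb hCb => ?_⟩
  obtain ⟨C, η₀, hη₀, h⟩ := h θ hθ Cb hCb
  exact ⟨C, η₀, hη₀, fun d α _ η L b σ S Nb 𝒱 q hd hη hη' hL hL' hb hN hσ hσS hS hSB hth hbox =>
    h d α η L b σ S Nb 𝒱 q hd hη hη' hL hL' hb hN hσ hσS (by simpa using hσS) hS hSB hth hbox⟩

/-- Below the target order one box question at a sample of the centre suffices. -/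
theorem nodeAt_base {K n j : ℕ} (hj : (n : ℝ) * pE K ≤ (j : ℝ) * pA K) : NodeAt K n j := by
  intro B
  refine ⟨B, fun θ hθ Cb hCb => ⟨Cb * (1 + B ^ 2 + |B|) + 2 * |B| + 1, 1, one_pos, ?_⟩⟩
  intro d α _ η L b σ S Nb 𝒱 q hd hη hη1 hL hL' hb hN hσ hσS hσS' hS hSB hth hbox
  have hB : 0 < B := (pos_iff_pos_of_mul_pos (hσ.trans_le hσS)).2 (by
    rcases hS.eq_or_lt with h | h
    · rw [← h, mul_zero] at hσS; linarith
    · exact h)
  rw [abs_of_pos hB]
  obtain ⟨hF, hem⟩ := hbox n le_rfl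
  obtain ⟨p₀, hp₀, hp₀e⟩ := hem b hb hth
  obtain ⟨qq, hqq, hqqe⟩ := emits_input (β := α × Sp d) p₀ (u := Prod.snd) measurable_snd
  obtain ⟨m, hm, hme⟩ := emits_bind q qq
  have hC1 : 1 ≤ Cb * (1 + B ^ 2 + B) + 2 * B + 1 := by
    have : 0 ≤ Cb * (1 + B ^ 2 + B) := by positivity
    linarith
  refine ⟨m, ?_, fun G hG Φ ec hΦ hec hq => ?_⟩
  · have h1 : (m.cost : ℝ) ≤ (Nb : ℝ) + 1 + q.cost := by
      have : m.cost ≤ Nb + 1 + q.cost := by omega
      exact_mod_cast this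
    refine h1.trans (le_mul_of_one_le_left (by positivity) ?_)
    exact one_le_mul_of_one_le_of_one_le hC1 (one_le_eta_rpow_neg hη hη1 hθ.le)
  set V := 𝒱 G
  have hV : IsField L V := hF G hG
  set E := η ^ ((n : ℝ) * pE K) with hE
  have hE0 : 0 ≤ E := rpow_nonneg hη.le _
  have hE1 : E ≤ 1 := eta_order_le_one K n hη hη1
  have hd0 : 0 ≤ √(d : ℝ) := sqrt_nonneg _
  have hσE : σ ≤ B * S * E :=
    hσS'.trans (mul_le_mul_of_nonneg_left (eta_rpow_le hη hη1 hj) (by positivity))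
  have hσB : σ ≤ B ^ 2 := hσS.trans ((mul_le_mul_of_nonneg_left hSB hB.le).trans_eq (sq B).symm)
  set g := Cb * L * S * E
  have hg : 0 ≤ g := by positivity
  obtain ⟨ξ, ζ, hξm, hζm, hl, hbd⟩ := hme G hG.measurable Φ (σ / 2) ec (fun t => V t.2) b
    (fun t => g * (√d + ‖t.2‖)) (fun _ => g * √d) g L hq
    (hV.smooth.continuous.measurable.comp measurable_snd)
    (fun a x x' => Adj.norm_field_sub hV.smooth hV.bound x x') (hqqe G V b _ (hp₀e G hG)) hg
    (fun _ => by positivity) (fun a x => le_of_eq (by rw [abs_of_nonneg (by positivity)]; ring)) hL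
  refine ⟨ζ, hζm, fun a => ?_, fun a => ?_⟩
  · have hmeas : AEMeasurable (fun s => (ξ (s, a), ζ (s, a))) m.μ :=
      ((hξm.comp measurable_prodMk_right).prodMk (hζm.comp measurable_prodMk_right)).aemeasurable
    have := congrArg (Measure.map Prod.snd) (hl a)
    rwa [AEMeasurable.map_map_of_aemeasurable measurable_snd.aemeasurable hmeas,
      measurePreserving_snd.map_eq] at this
  · have hξl : m.μ.map (fun s => ξ (s, a)) = gd d := by
      have hmeas : AEMeasurable (fun s => (ξ (s, a), ζ (s, a))) m.μ :=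
        ((hξm.comp measurable_prodMk_right).prodMk (hζm.comp measurable_prodMk_right)).aemeasurable
      have := congrArg (Measure.map Prod.fst) (hl a)
      rwa [AEMeasurable.map_map_of_aemeasurable measurable_fst.aemeasurable hmeas,
        measurePreserving_fst.map_eq] at this
    rw [EmitBase.sq_err_iff]
    have h1 := (EmitBase.sq_err_iff _ _ _).1 (hbd a)
    set X := fun s => Φ a + (σ / 2) • ξ (s, a)
    have hrun : Measurable fun s => m.run G (s, a) :=
      (EmitBase.measurable_run m hG.measurable).comp measurable_prodMk_right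
    have hXm : Measurable X :=
      measurable_const.add ((hξm.comp measurable_prodMk_right).fun_const_smul _)
    have hsm : ‖smth 1 σ V (Φ a) - V (Φ a)‖ ≤ L * σ * √d := by
      have hi := Adj.integrable_shift hV.smooth hV.bound σ (Φ a)
      simp only [smth, one_smul]
      rw [show V (Φ a) = ∫ _w : Sp d, V (Φ a) ∂gd d by simp, ← integral_sub hi (integrable_const _)]
      refine (norm_integral_le_of_norm_le (integrable_norm_gd.const_mul (L * σ))
        (ae_of_all _ fun w => ?_)).trans ?_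
      · refine (Adj.norm_field_sub hV.smooth hV.bound _ _).trans (le_of_eq ?_)
        rw [add_sub_cancel_left, norm_smul, norm_eq_abs, abs_of_pos hσ]; ring
      · rw [integral_const_mul]
        exact mul_le_mul_of_nonneg_left MeanPt.integral_norm_le (by positivity)
    have h2 : eLpNorm (fun s => V (X s) - smth 1 σ V (Φ a)) 2 m.μ ≤
        ENNReal.ofReal (L * (σ / 2) * √d + L * σ * √d) := by
      refine (eLpNorm_mono_real (g := fun s => L * (σ / 2) * ‖ξ (s, a)‖ + L * σ * √d) fun s => ?_).trans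
        ((eLpNorm_add_le (((hξm.comp measurable_prodMk_right).norm.const_mul _).aestronglyMeasurable)
          aestronglyMeasurable_const one_le_two).trans ?_)
      · refine (norm_sub_le_norm_sub_add_norm_sub _ (V (Φ a)) _).trans (add_le_add ?_ ?_)
        · refine (Adj.norm_field_sub hV.smooth hV.bound _ _).trans (le_of_eq ?_)
          simp only [X]
          rw [add_sub_cancel_left, norm_smul, norm_eq_abs, abs_of_pos (half_pos hσ)]; ring
        · rw [norm_sub_rev]; exact hsm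
      · rw [ENNReal.ofReal_add (by positivity) (by positivity)]
        refine add_le_add ?_ (le_of_eq ?_)
        · refine le_trans (le_of_eq (eLpNorm_const_smul (L * (σ / 2)) (fun s => ‖ξ (s, a)‖) 2 m.μ)) ?_
          rw [ eLpNorm_norm, Real.enorm_eq_ofReal (by positivity),
            ENNReal.ofReal_mul (p := L * (σ / 2)) (by positivity)]
          exact mul_le_mul' le_rfl ((eLpNorm_comp_measurePreserving (g := fun z : Sp d => z)
            aestronglyMeasurable_id ⟨hξm.comp measurable_prodMk_right, hξl⟩).trans_le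
              EmitBase.eLpNorm_id_gd_le)
        · rw [eLpNorm_const _ two_ne_zero (IsProbabilityMeasure.ne_zero _), measure_univ,
            ENNReal.one_rpow, mul_one, Real.enorm_eq_ofReal (by positivity)]
    have h3 := (eLpNorm_add_le (μ := m.μ)
      (f := fun s => m.run G (s, a) - (V (X s) + b • ζ (s, a)))
      (g := fun s => V (X s) - smth 1 σ V (Φ a))
      (hrun.sub ((hV.smooth.continuous.measurable.comp hXm).add
        ((hζm.comp measurable_prodMk_right).fun_const_smul b))).aestronglyMeasurable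
      ((hV.smooth.continuous.measurable.comp hXm).sub measurable_const).aestronglyMeasurable
      one_le_two).trans (add_le_add h1 h2)
    rw [← ENNReal.ofReal_add (abs_nonneg _) (by positivity)] at h3
    refine (le_of_eq_of_le (congrArg (eLpNorm · 2 m.μ) (funext fun s => ?_)) h3).trans
      (ENNReal.ofReal_le_ofReal ?_)
    · simp only [Pi.add_apply]
      abel
    · have hnn : 0 ≤ g * √d + g * (‖Φ a‖ + |σ / 2| * √d + |ec a|) + L * |ec a| := by positivity
      rw [abs_of_nonneg hnn, abs_of_pos (half_pos hσ), abs_of_nonneg (hec a)]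
      refine le_trans ?_ (le_abs_self _)
      have e1 : g * (σ / 2 * √d) ≤ Cb * B ^ 2 * (L * S * (E * √d)) := by
        calc g * (σ / 2 * √d) ≤ g * (B ^ 2 * √d) := by gcongr; linarith
          _ = _ := by ring
      have e2 : g * ec a ≤ Cb * B * (L * ec a) := by
        calc Cb * L * S * E * ec a ≤ Cb * L * B * 1 * ec a := by gcongr; exact hec a
          _ = _ := by ring
      have e3 : L * (σ / 2) * √d + L * σ * √d ≤ 2 * B * (L * S * (E * √d)) := by
        have := mul_le_mul_of_nonneg_right (mul_le_mul_of_nonneg_left hσE hL) hd0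
        nlinarith [mul_nonneg (mul_nonneg hL hσ.le) hd0]
      have e5 : 0 ≤ L * S * (E * ‖Φ a‖) := by positivity
      have e6 : 0 ≤ L * ec a := mul_nonneg hL (hec a)
      have e7 : 0 ≤ L * S * (E * √d) := by positivity
      have e8 : g * √d = Cb * (L * S * (E * √d)) := by ring
      have e9 : g * ‖Φ a‖ = Cb * (L * S * (E * ‖Φ a‖)) := by ring
      nlinarith [mul_nonneg (mul_nonneg hCb hB.le) e7, mul_nonneg (mul_nonneg hCb hB.le) e5,
        mul_nonneg (mul_nonneg hCb (sq_nonneg B)) e5, mul_nonneg (mul_nonneg hCb (sq_nonneg B)) e6,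
        mul_nonneg hCb e6, mul_nonneg hB.le e5, mul_nonneg hB.le e6]

variable {η L σ τ b lam B W S T : ℝ}

/-- The iterates into the room of the finer smoothing, added to the known point. -/
theorem exists_iterate_emit {K m d p n r A Nb : ℕ} {α : Type} [MeasurableSpace α] {Cp Cb B'p θ : ℝ}
    {Bpt : ℝ} {P : Par n p} {AA : Fin r → Fin r → ℝ} {k : ℕ} {𝒱 : (Sp d → Sp d) → Sp d → Sp d}
    (h : ∀ (J v : ℕ) (κ β : Type) [MeasurableSpace β] (b : ℝ) (sc : κ → ℝ)
      (𝒱 : κ → (Sp d → Sp d) → Sp d → Sp d) (e : Expr κ J v) (kap : Fin J → ℝ)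
      (X : β → Fin v → Sp d) (q : Fin J → Emitter d β),
      0 < b → (∀ k, 0 ≤ sc k) → (∀ j, 0 < kap j) → Measurable X → e.depth ≤ 2 * k →
      e.Good η L sc Bpt (Bpt * η ^ (-pA K)) (pW K m) → e.Fill kap →
      e.sm L sc * η ^ (-pW K m) ≤ Bpt * b →
      (∀ k, ∀ m' ≤ m, IsBox d K η L (sc k) m' B'p Cb Nb (𝒱 k)) →
      ∃ p : Emitter d β,
        (p.cost : ℝ) ≤ Cp * η ^ (-θ) * (e.size : ℝ) ^ A * ((Nb : ℝ) + 1 + ∑ j, (q j).cost) ∧
        ∀ G, Adm η G → ∀ (c : β → Fin J → Sp d) (ec : Fin J → β → ℝ),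
          (∀ j a, 0 ≤ ec j a) → (∀ j, Measurable fun a => c a j) →
          (∀ j, Emits (q j) G (fun a => c a j) (kap j) (ec j)) →
          Emits p G (fun a => e.eval (fun k => 𝒱 k G) (c a) (X a)) b fun a =>
            Cp * e.sm L sc * (η ^ ((m : ℝ) * pE K) * (√d + e.cen (fun k => 𝒱 k G) (c a) (X a)) +
              ∑ j, ec j a / kap j))
    (hη : 0 < η) (hL : 0 ≤ L) (hS : 0 ≤ S) (hσ : 0 < P.σ) (hτ : 0 < √P.τ)
    (qi : Emitter d (α × (Sp d × Sp d))) (i : Fin r)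
    (hG : (roundE P AA k i).1.Good η L (fun _ => S) Bpt (Bpt * η ^ (-pA K)) (pW K m))
    (hsm : (roundE P AA k i).1.sm L (fun _ => S) ≤ P.σ * T)
    (hth : P.σ * T * η ^ (-pW K m) ≤ Bpt * (P.σ * √P.τ / 2))
    (hbox : ∀ m' ≤ m, IsBox d K η L S m' B'p Cb Nb 𝒱) {Sz : ℝ}
    (hsize : ((roundE P AA k i).1.size : ℝ) ^ A ≤ Sz) :
    ∃ pq : Emitter d (α × (Sp d × Sp d)),
      (pq.cost : ℝ) ≤ |Cp| * η ^ (-θ) * Sz * ((Nb : ℝ) + 1 + qi.cost) ∧
      ∀ G, Adm η G → ∀ (Φ : α → Sp d) (ec : α → ℝ), Measurable Φ → (∀ a, 0 ≤ ec a) →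
        Emits qi G (fun t => Φ t.1) (P.σ / 4) (fun t => ec t.1) →
        Emits pq G (fun t => t.2.1 + (roundE P AA k i).1.eval (fun _ => 𝒱 G) (fun _ => Φ t.1)
            ![P.σ⁻¹ • t.2.1, t.2.2]) (P.σ * √P.τ / 2) fun t => |Cp| * (P.σ * T) *
          (η ^ ((m : ℝ) * pE K) * (√d + (roundE P AA k i).1.cen (fun _ => 𝒱 G) (fun _ => Φ t.1)
            ![P.σ⁻¹ • t.2.1, t.2.2]) + ec t.1 / (P.σ / 4)) := by
  set X : α × (Sp d × Sp d) → Fin 2 → Sp d := fun t => ![P.σ⁻¹ • t.2.1, t.2.2]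
  have hXm : Measurable X := measurable_pi_lambda _ fun i => by
    fin_cases i
    · exact (measurable_fst.comp measurable_snd).const_smul P.σ⁻¹
    · exact measurable_snd.comp measurable_snd
  obtain ⟨p, hp, hpe⟩ := h 1 2 Unit (α × (Sp d × Sp d)) (P.σ * √P.τ / 2) (fun _ => S) (fun _ => 𝒱)
    (roundE P AA k i).1 (fun _ => P.σ / 4) X (fun _ => qi) (by positivity) (fun _ => hS)
    (fun _ => by positivity) hXm (depth_roundE P AA k i).1 hG (fill_roundE hσ AA k i).1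
    ((mul_le_mul_of_nonneg_right hsm (rpow_nonneg hη.le _)).trans hth) (fun _ => hbox)
  obtain ⟨p', hp'c, hp'e⟩ := emits_affine p 1 (f := fun t : α × (Sp d × Sp d) => t.2.1)
    (measurable_fst.comp measurable_snd)
  refine ⟨p', ?_, fun G hG Φ ec hΦ hec hq => ?_⟩
  · refine (Nat.cast_le.2 hp'c).trans (hp.trans ?_)
    rw [Fin.sum_univ_one]
    gcongr
    exact le_abs_self _
  · have h6 := hp'e G _ _ _ (hpe G hG (fun t _ => Φ t.1) (fun _ t => ec t.1) (fun _ t => hec t.1)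
      (fun _ => hΦ.comp measurable_fst) (fun _ => hq))
    simp only [one_smul, one_mul, Fin.sum_univ_one] at h6
    refine EmitBase.emits_mono h6 fun t => ?_
    have h7 : 0 ≤ η ^ ((m : ℝ) * pE K) *
        (√d + (roundE P AA k i).1.cen (fun _ => 𝒱 G) (fun _ => Φ t.1) (X t)) +
          ec t.1 / (P.σ / 4) := by
      have := Expr.cen_nonneg (fun _ : Unit => 𝒱 G) (fun _ => Φ t.1) (roundE P AA k i).1 (X t)
      have := hec t.1
      positivity
    have h8 := Expr.sm_nonneg hL (fun _ : Unit => hS) (roundE P AA k i).1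
    have hT : 0 ≤ P.σ * T := h8.trans hsm
    rw [abs_mul, abs_mul, abs_of_nonneg h7, abs_of_nonneg h8,
      abs_of_nonneg (a := |Cp| * (P.σ * T) * _) (mul_nonneg (mul_nonneg (abs_nonneg _) hT) h7)]
    exact mul_le_mul_of_nonneg_right (mul_le_mul_of_nonneg_left hsm (abs_nonneg _)) h7

lemma measurable_point_eval {d : ℕ} {α : Type} [MeasurableSpace α] {L : ℝ} {V : Sp d → Sp d}
    (hL : 0 ≤ L) (hV : IsField L V) (e : Expr Unit 1 2) (σ : ℝ) {Φ : α → Sp d}
    (hΦ : Measurable Φ) : Measurable fun t : α × (Sp d × Sp d) =>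
      t.2.1 + e.eval (fun _ => V) (fun _ => Φ t.1) ![σ⁻¹ • t.2.1, t.2.2] :=
  (measurable_fst.comp measurable_snd).add
    ((e.continuous_eval_joint (isBoxes_of_isField hL fun _ : Unit => hV)).measurable.comp
      ((measurable_pi_lambda _ fun _ => hΦ.comp measurable_fst).prodMk
        (measurable_pi_lambda _ fun i => by
          fin_cases i
          · exact (measurable_fst.comp measurable_snd).const_smul σ⁻¹
          · exact measurable_snd.comp measurable_snd)))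

lemma measurable_surW {d n p : ℕ} {α : Type} [MeasurableSpace α] {σ τ b lam : ℝ}
    {wq v : Fin n → ℝ} {ws vs : Fin p → ℝ} {V : Sp d → Sp d}
    (hc : Continuous fun z : Sp d × Sp d × Sp d =>
      surP σ τ b lam wq v ws vs V z.1 (z.1 + (σ * √(1 - τ)) • z.2.1) z.2.2)
    {Φ : α → Sp d} (hΦ : Measurable Φ) :
    Measurable fun t : α × (Sp d × Sp d) => surW σ τ b lam wq v ws vs V (Φ t.1) t.2.1 t.2.2 := by
  have hf : Measurable fun t : α × (Sp d × Sp d) => (Φ t.1, t.2.1, t.2.2) :=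
    (hΦ.comp measurable_fst).prodMk measurable_snd
  have h := hc.measurable.comp hf
  simp only [surW]
  exact h

lemma size_roundE_real {n p r : ℕ} (P : Par n p) (AA : Fin r → Fin r → ℝ) (k : ℕ) (i : Fin r) :
    ((roundE P AA k i).1.size : ℝ) ≤ ((grow p r : ℕ) * ((n : ℝ) + 1)) ^ k := by
  exact_mod_cast (size_roundE P AA k i).1

/-- The level below, read at an iterate. -/
theorem below_emit {d n p r : ℕ} {α : Type} [MeasurableSpace α] {σ τ b lam L S B W Kc CT T E Em ρ C₁ Cp : ℝ}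
    {wq v : Fin n → ℝ} {ws vs : Fin p → ℝ} {G : Sp d → Sp d} {V : Sp d → Sp d}
    {R pq : Emitter d (α × (Sp d × Sp d))} {Φ : α → Sp d} {ec : α → ℝ}
    (hOk : (mkPar σ τ b lam wq v ws vs).Ok W) (hV : IsField L V) (hL : 0 ≤ L) (hS : 0 ≤ S)
    (hK1 : 1 ≤ Kc) (hσK : σ ≤ Kc) (hT0 : 0 ≤ T) (hT1 : T ≤ 1) (hE : 0 ≤ E) (hEm : 0 ≤ Em)
    (hCT : 0 ≤ CT) (hB : 0 ≤ B) (hgain : σ * T * Em ≤ CT * B * (S * E))
    (hsmall : 26 * (W ^ 3 * (σ * L / (b * lam * √τ))) ≤ 1)
    (hA : ∀ i, ∑ j, |FlowStep.colw r (Quad.node (r + 1) i) j| ≤ W) (k : ℕ) (i : Fin (r + 1))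
    (hΦ : Measurable Φ) (hec : ∀ a, 0 ≤ ec a)
    (hR : ∀ (Ψ : α × (Sp d × Sp d) → Sp d) (e : α × (Sp d × Sp d) → ℝ), Measurable Ψ →
      (∀ t, 0 ≤ e t) → Emits pq G Ψ (σ * √τ / 2) e →
      Emits R G (fun t => smth 1 (σ * √τ) V (Ψ t)) ρ fun t =>
        C₁ * (L * S * (E * (√d + ‖Ψ t‖)) + L * e t))
    (hpq : Emits pq G (fun t => t.2.1 + (roundE (mkPar σ τ b lam wq v ws vs)
        (fun i j => FlowStep.colw r (Quad.node (r + 1) i) j) k i).1.eval (fun _ => V)
          (fun _ => Φ t.1) ![σ⁻¹ • t.2.1, t.2.2]) (σ * √τ / 2) fun t => |Cp| * (σ * T) *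
        (Em * (√d + (roundE (mkPar σ τ b lam wq v ws vs)
          (fun i j => FlowStep.colw r (Quad.node (r + 1) i) j) k i).1.cen (fun _ => V)
            (fun _ => Φ t.1) ![σ⁻¹ • t.2.1, t.2.2]) + ec t.1 / (σ / 4))) :
    Emits R G
      (fun t => fb σ τ V (iter r k σ τ b V (Φ t.1) (surW σ τ b lam wq v ws vs V (Φ t.1)) i t.2)) ρ
      fun t => |C₁| * (3 * Kc + |Cp| * (10 * Kc * CT * B + 4)) *
        (L * S * E * (√d + ‖Φ t.1‖ + ‖t.2.1‖ + ‖t.2.2‖) + L * ec t.1) := by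
  set P := mkPar σ τ b lam wq v ws vs
  have hσ : 0 < σ := hOk.hσ
  set e := (roundE P (fun i j => FlowStep.colw r (Quad.node (r + 1) i) j) k i).1
  have h15 := hR _ _ (measurable_point_eval hL hV e σ hΦ) (fun t => by
    have := Expr.cen_nonneg (fun _ : Unit => V) (fun _ => Φ t.1) e ![σ⁻¹ • t.2.1, t.2.2]
    have := hec t.1
    positivity) hpq
  have hit : (fun t : α × (Sp d × Sp d) =>
      fb σ τ V (iter r k σ τ b V (Φ t.1) (surW σ τ b lam wq v ws vs V (Φ t.1)) i t.2)) = fun t =>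
      smth 1 (σ * √τ) V (t.2.1 + e.eval (fun _ => V) (fun _ => Φ t.1) ![σ⁻¹ • t.2.1, t.2.2]) :=
    funext fun t => congrArg (fb σ τ V)
      (iter_eq hV hσ (by linarith [show τ ≤ 1 / 2 from hOk.hτ1]) k i t.2.1 t.2.2)
  rw [hit]
  refine EmitBase.emits_mono h15 fun t => ?_
  obtain ⟨⟨hD1, hD2⟩, -, -⟩ := roundE_bound (c := Φ t.1) hOk hV hL hK1 hσK hsmall hA t.2.1 t.2.2 k i
  have hec' := hec t.1
  rw [abs_of_nonneg (a := _ * (L * S * E * _ + _)) (by positivity)]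
  refine below_err hL hS hσ hK1 hT0 hT1 hE hEm hCT hB hgain hec'
    (Expr.cen_nonneg _ _ _ _) hD2 (sqrt_nonneg _) ?_ (norm_nonneg _)
    ((norm_add_le _ _).trans (add_le_add le_rfl hD1)) ?_
  · linarith [norm_nonneg (Φ t.1), norm_nonneg t.2.1, norm_nonneg t.2.2]
  · linarith [norm_nonneg (Φ t.1), sqrt_nonneg (d:ℝ), norm_nonneg t.2.2]

attribute [local irreducible] roundE in
/-- One level. -/
theorem nodeAt_step {K n j : ℕ} (hn : 0 < n) (hpt : PtSpec K (n - pD K))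
    (hnext : NodeAt K n (j + 1)) : NodeAt K n j := by
  intro B₁
  obtain ⟨B, hB, hBB⟩ : ∃ B : ℝ, 1 ≤ B ∧ B₁ ≤ B := ⟨max B₁ 1, le_max_right _ _, le_max_left _ _⟩
  obtain ⟨r, hr⟩ : ∃ r : ℕ, 32 * n + 31 ≤ r := ⟨_, le_rfl⟩
  obtain ⟨k, hk⟩ : ∃ k : ℕ, 32 * n + 31 ≤ k := ⟨_, le_rfl⟩
  obtain ⟨Wc, hWceq⟩ : ∃ Wc, Wc = 1 + ∑ i, |FlowStep.colw r 1 i| := ⟨_, rfl⟩
  have hWc : 1 ≤ Wc := hWceq ▸ le_add_of_nonneg_right (Finset.sum_nonneg fun i _ => abs_nonneg _)
  obtain ⟨B'₁, hB'₁⟩ := hnext (2 * Wc * B)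
  obtain ⟨Bpt, hBpt, hBpt5⟩ : ∃ Bpt : ℝ, 20 ≤ Bpt ∧ 5 * B ≤ Bpt :=
    ⟨20 + 5 * B, by linarith, by linarith⟩
  obtain ⟨B'p, A, hB'p⟩ := hpt (2 * (k + 1)) Bpt
  refine ⟨max (max B'₁ B'p) B₁, fun θ hθ Cb hCb => ?_⟩
  obtain ⟨Cem, hCem, hem⟩ := em_step r (k + 1)
  obtain ⟨C₁, η₁, hη₁, h₁⟩ := hB'₁ (θ / 2) (half_pos hθ) Cb hCb
  obtain ⟨Cp, η₂, hη₂, h₂⟩ := hB'p (θ / 4) (by positivity) Cb hCb
  obtain ⟨Cs, η₃, ws, vs, hCs, hη₃, hη₃1, hws, hvs, hsurr⟩ :=
    node_surr n (θ := θ / (4 * (((k + 1 : ℕ) : ℝ) + 1) * ((A : ℝ) + 1))) (by positivity)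
  obtain ⟨W, hW1, hCsW, hsumW⟩ : ∃ W, 1 ≤ W ∧ Cs ≤ W ∧
      ∀ i, ∑ j, |FlowStep.colw r (Quad.node (r + 1) i) j| ≤ W := by
    refine ⟨Cs + ∑ i, ∑ j, |FlowStep.colw r (Quad.node (r + 1) i) j|, ?_, ?_, fun i => ?_⟩
    · exact hCs.trans (le_add_of_nonneg_right (by positivity))
    · exact le_add_of_nonneg_right (by positivity)
    · have := Finset.single_le_sum (f := fun i => ∑ j, |FlowStep.colw r (Quad.node (r + 1) i) j|)
        (fun _ _ => by positivity) (Finset.mem_univ i)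
      linarith
  obtain ⟨Kc, hK1, hKc⟩ : ∃ Kc : ℝ, 1 ≤ Kc ∧ B * B ≤ Kc :=
    ⟨max 1 (B * B), le_max_left _ _, le_max_right _ _⟩
  obtain ⟨CT, hCT, hCTeq⟩ : ∃ CT : ℝ, 0 ≤ CT ∧ 8 * W ^ 3 * (1 + B) * (2 * B) ≤ CT :=
    ⟨_, by positivity, le_rfl⟩
  obtain ⟨Cbig, hC2, hC12, hC52, hCz⟩ : ∃ Cbig, 2 ≤ Cbig ∧ 12 * CT ≤ Cbig ∧
      52 * W ^ 3 * B ^ 2 ≤ Cbig ∧ Cem * (1 + Cs) * (2 * B ^ 2) ≤ Cbig := by
    have h1 : 0 ≤ 52 * W ^ 3 * B ^ 2 := by positivity
    have h2 : 0 ≤ Cem * (1 + Cs) * (2 * B ^ 2) :=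
      mul_nonneg (mul_nonneg (zero_le_one.trans hCem) (add_nonneg zero_le_one (zero_le_one.trans hCs)))
        (by positivity)
    exact ⟨2 + 12 * CT + 52 * W ^ 3 * B ^ 2 + Cem * (1 + Cs) * (2 * B ^ 2),
      by linarith only [h1, h2, hCT], by linarith only [h1, h2], by linarith only [h2, hCT],
      by linarith only [h1, hCT]⟩
  obtain ⟨η₄, hη₄, hη₄1, hsmall⟩ := exists_small Cbig (pA_pos K)
  obtain ⟨Cr, hCreq⟩ : ∃ Cr, Cr = |C₁| * (3 * Kc + |Cp| * (10 * Kc * CT * B + 4)) := ⟨_, rfl⟩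
  obtain ⟨G₀, hG₀⟩ : ∃ G₀ : ℕ, G₀ = grow (n + 2) (r + 1) := ⟨_, rfl⟩
  obtain ⟨Cp', hCp'⟩ : ∃ Cp', Cp' = |Cp| * ((G₀ : ℝ) * (Cs + 1)) ^ ((k + 1) * A) := ⟨_, rfl⟩
  refine ⟨max (Cem * (B * (2 * B ^ 2) ^ (r + 1) + (Cem * (1 + Cs)) ^ (k + 1) * (B * (2 * B ^ 2) ^ k) +
      2 * Cs * B + 1) + Wc * Cr * (3 + Kc + (1 + B)))
    (1 + (Fintype.card (Fin (r + 1)) : ℝ) * (|C₁| * (1 + 4 * Cp'))), min η₁ (min η₂ (min η₃ η₄)),
    lt_min hη₁ (lt_min hη₂ (lt_min hη₃ hη₄)), ?_⟩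
  intro d α _ η L b σ S Nb 𝒱 q hd hη hη' hL hL' hb hN hσ hσS₁ hσSj₁ hS hSB₁ hth₁ hbox
  simp only [le_min_iff] at hη'
  obtain ⟨hle₁, hle₂, hle₃, hle₄⟩ := hη'
  have h1 : η ≤ 1 := hle₄.trans hη₄1
  have hσS : σ ≤ B * S := hσS₁.trans (mul_le_mul_of_nonneg_right hBB hS)
  have hσSj : σ ≤ B * S * η ^ ((j : ℝ) * pA K) := hσSj₁.trans (by gcongr)
  have hSB : S ≤ B := hSB₁.trans hBB
  have hth : L * S * η ^ (-pW K n) ≤ B * b := hth₁.trans (mul_le_mul_of_nonneg_right hBB hb.le)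
  have hB0 : (0:ℝ) ≤ B := by linarith
  set ea := η ^ pA K with headef
  have hea : 0 < ea := rpow_pos_of_pos hη _
  have hea1 : ea ≤ 1 := eta_rpow_le_one hη h1 (pA_pos K).le
  have hsm : ∀ c, c ≤ Cbig → c * ea ≤ 1 := fun c hc =>
    (mul_le_mul_of_nonneg_right hc hea.le).trans (hsmall η hη hle₄)
  set τ := ea * ea with hτdef
  have hst : √τ = ea := sqrt_mul_self hea.le
  have hlam : ea ≤ 1 / 2 := by linarith only [hsm 2 hC2]
  have hτ1 : τ ≤ 1 / 2 := (mul_le_of_le_one_left hea.le hea1).trans hlam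
  have hητ : η ≤ τ := by
    rw [hτdef, headef, ← rpow_add hη]
    exact le_of_eq_of_le (rpow_one η).symm (eta_rpow_le hη h1 (by linarith [pA_le K]))
  set Z := η ^ (pW K n - 2 * pA K)
  have hZ : 0 ≤ Z := rpow_nonneg hη.le _
  have hZa : Z ≤ ea := eta_rpow_le hη h1 (by linarith [gain_ge K hn, pA_le K])
  obtain ⟨hx, hxσ⟩ := level_ratios (σ := σ) hη hB0 hb hL hσS hth
  have hσK : σ ≤ Kc := hσS.trans ((mul_le_mul_of_nonneg_left hSB hB0).trans hKc)
  obtain ⟨nq, wq, v, hnq, hwq, hv, hsur⟩ := hsurr η τ hη hle₃ hητ hτ1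
  set P := mkPar σ τ (b / 2) ea wq v ws vs with hPdef
  have hOk : P.Ok W :=
    { hσ := hσ, hτ := mul_pos hea hea, hτ1 := hτ1, hb := half_pos hb, hlam := hea, hlam1 := hlam,
      hW := hW1, hwq := hwq.trans hCsW, hu := fun j => (hv j).1, hrest := fun j => (hv j).2,
      hws := hws.trans hCsW, hvs := hvs }
  have hTeq : P.T B W L S = 8 * W ^ 3 * (1 + B) * (L * S / (b / 2 * ea * ea)) := by
    simp only [Par.T, P, mkPar, hst]
  have hT : P.T B W L S ≤ CT * Z := by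
    rw [hTeq]
    calc 8 * W ^ 3 * (1 + B) * (L * S / (b / 2 * ea * ea)) ≤ 8 * W ^ 3 * (1 + B) * (2 * B * Z) :=
          mul_le_mul_of_nonneg_left hx (by positivity)
      _ = 8 * W ^ 3 * (1 + B) * (2 * B) * Z := by ring
      _ ≤ _ := mul_le_mul_of_nonneg_right hCTeq hZ
  have hT0 : 0 ≤ P.T B W L S :=
    hTeq ▸ mul_nonneg (by positivity) (div_nonneg (mul_nonneg hL hS) (by positivity))
  obtain ⟨hTa, hT1⟩ := unit_small hη h1 hn hT (hsm _ hC12)
  set m := n - pD K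
  set T := P.T B W L S
  have hFits : Fits P η (pW K m) L S B W Bpt (Bpt * η ^ (-pA K)) :=
    { hη := rpow_nonneg hη.le _, hL := hL, hσS := hσS, hSB := hSB, hB0 := by linarith,
      hB := hBpt5,
      hR := by
        rw [show √P.τ = η ^ pA K from hst, mul_assoc, ← rpow_add hη, neg_add_cancel, rpow_zero,
          mul_one]
        exact hBpt,
      hT1 := hT1,
      hT := by
        rw [show √P.τ = ea from hst]
        calc 12 * T ≤ 1 * (ea * η ^ pW K m) := by rw [one_mul]; exact hTa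
          _ ≤ Bpt * (ea * η ^ pW K m) :=
            mul_le_mul_of_nonneg_right (le_trans (by norm_num) hBpt)
              (mul_nonneg hea.le (rpow_nonneg hη.le _))
          _ = _ := by ring }
  set AA := fun i j => FlowStep.colw r (Quad.node (r + 1) i) j
  have hok := fun i => roundE_ok hOk hFits (A := AA) hsumW (k + 1) i
  obtain ⟨q₄, hq₄, hq₄e⟩ := emits_avg q (k := 4) (by norm_num)
  obtain ⟨qi, hqi, hqie⟩ := emits_input (β := α × (Sp d × Sp d)) q₄ (u := Prod.fst) measurable_fst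
  have hp' := fun i => exists_iterate_emit (T := T) (Sz := ((G₀ : ℝ) * (Cs + 1)) ^ ((k + 1) * A) *
      η ^ (-(θ / 4))) (A := A) (fun J v κ β {_} b' sc 𝒱' e kap X q' h0 =>
        h₂ d J v κ β η L b' Nb sc 𝒱' e kap X q' hd hη hle₂ hL hL' h0 hN) hη hL hS
      (P := P) (AA := AA) hσ (by rw [show √P.τ = ea from hst]; exact hea) qi i (hok i).1.1 (hok i).1.2
      (by
        rw [show √P.τ = ea from hst]
        calc P.σ * T * η ^ (-pW K m) ≤ P.σ * (ea * η ^ pW K m) * η ^ (-pW K m) :=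
              mul_le_mul_of_nonneg_right (mul_le_mul_of_nonneg_left
                ((le_mul_of_one_le_left hT0 (by norm_num : (1:ℝ) ≤ 12)).trans hTa) hσ.le)
                (rpow_nonneg hη.le _)
          _ = P.σ * ea := by
              rw [mul_assoc, mul_assoc ea, ← rpow_add hη, add_neg_cancel, rpow_zero, mul_one]
          _ ≤ Bpt * (P.σ * ea / 2) := by
              have h0 : 0 < P.σ * ea := mul_pos hσ hea
              calc P.σ * ea = 2 * (P.σ * ea / 2) := by ring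
                _ ≤ _ := mul_le_mul_of_nonneg_right (le_trans (by norm_num) hBpt) (half_pos h0).le)
      (fun m' hm' => (hbox m' (hm'.trans (Nat.sub_le _ _))).mono hη.le hL hS hCb
        ((le_max_right _ _).trans (le_max_left _ _)) le_rfl le_rfl)
      (size_pow hη h1 hθ (Nat.cast_nonneg _) (by linarith) (Nat.cast_nonneg _)
        (le_of_le_of_eq (size_roundE_real P AA (k + 1) i) (by rw [hG₀])) (Nat.cast_nonneg _) hnq)
  choose pq hpq hpqe using hp'
  set ρ := b / (2 * Wc) with hρdef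
  have hR' : ∀ i, ∃ R : Emitter d (α × (Sp d × Sp d)),
      (R.cost : ℝ) ≤ C₁ * η ^ (-(θ / 2)) * ((Nb : ℝ) + 1 + (pq i).cost) ∧
      ∀ G, Adm η G → ∀ (Ψ : α × (Sp d × Sp d) → Sp d) (e : α × (Sp d × Sp d) → ℝ),
        Measurable Ψ → (∀ t, 0 ≤ e t) → Emits (pq i) G Ψ (σ * √τ / 2) e →
        Emits R G (fun t => smth 1 (σ * √τ) (𝒱 G) (Ψ t)) ρ fun t =>
          C₁ * (L * S * (η ^ ((n : ℝ) * pE K) * (√d + ‖Ψ t‖)) + L * e t) := fun i => by
    have h2B : B ≤ 2 * Wc * B := le_mul_of_one_le_left hB0 (by linarith only [hWc])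
    refine h₁ d (α × (Sp d × Sp d)) η L ρ (σ * √τ) S Nb 𝒱 (pq i) hd hη hle₁ hL hL'
      (by positivity) hN (by rw [hst]; positivity) ?_ ?_ hS (hSB.trans h2B) ?_
      fun m' hm' => (hbox m' hm').mono hη.le hL hS hCb ((le_max_left _ _).trans (le_max_left _ _))
        le_rfl le_rfl
    · rw [hst]
      exact ((mul_le_of_le_one_right hσ.le hea1).trans hσS).trans
        (mul_le_mul_of_nonneg_right h2B hS)
    · rw [hst]
      calc σ * ea ≤ B * S * η ^ ((j : ℝ) * pA K) * ea := mul_le_mul_of_nonneg_right hσSj hea.le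
        _ = B * S * η ^ (((j + 1 : ℕ) : ℝ) * pA K) := by
            rw [mul_assoc, headef, ← rpow_add hη]; push_cast; ring_nf
        _ ≤ _ := mul_le_mul_of_nonneg_right (mul_le_mul_of_nonneg_right h2B hS)
            (rpow_nonneg hη.le _)
    · refine hth.trans_eq ?_
      rw [hρdef]
      field_simp
  choose R hR hRe using hR'
  obtain ⟨p, hp, hpe⟩ := hem q R σ τ (b / 2) L (Cs * (σ * L / (b / 2 * ea * ea))) (fun _ => ρ) hσ
    (mul_pos hea hea) hτ1 (half_pos hb) hL (by positivity) (by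
      have h9 : L * σ / (b / 2) ≤ σ * L / (b / 2 * ea * ea) := by
        rw [mul_comm L σ]
        refine div_le_div_of_nonneg_left (by positivity) (by positivity) ?_
        exact mul_le_of_le_one_right (by positivity) hea1 |>.trans
          (mul_le_of_le_one_right (by positivity) hea1)
      calc Cem * (L * σ / (b / 2) + Cs * (σ * L / (b / 2 * ea * ea)))
          ≤ Cem * ((1 + Cs) * (2 * B ^ 2 * ea)) := by
            refine mul_le_mul_of_nonneg_left ?_ (zero_le_one.trans hCem)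
            have := mul_le_mul_of_nonneg_left (hxσ.trans
              (mul_le_mul_of_nonneg_left hZa (by positivity)))
              (add_nonneg zero_le_one (zero_le_one.trans hCs))
            linarith only [this, h9]
        _ = Cem * (1 + Cs) * (2 * B ^ 2) * ea := by ring
        _ ≤ 1 := hsm _ hCz)
  obtain ⟨p', hp', hp'e⟩ := emits_pad p
    (ρ := √((b / 2) ^ 2 + ∑ i, (FlowStep.colw r 1 i * ρ) ^ 2)) (ρ' := b) (sqrt_nonneg _)
    (by rw [hρdef, hWceq]; exact level_room _ hb)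
  refine ⟨p', ?_, fun G hG Φ ec hΦ hec hq => ?_⟩
  · have hCp0 : 0 ≤ Cp' := by rw [hCp']; positivity
    have hq4 : (qi.cost : ℝ) ≤ 4 * q.cost := by exact_mod_cast hqi.trans hq₄
    have hc := level_cost (rc := fun i => ((R i).cost : ℝ)) (pc := fun i => ((pq i).cost : ℝ))
      (C₁ := C₁) (Cp' := Cp') (θ := θ) (Nb := (Nb : ℝ)) (qc := (q.cost : ℝ)) hη h1 hθ
      (Nat.cast_nonneg _) (Nat.cast_nonneg _) (fun _ => Nat.cast_nonneg _) hR (fun i => by
        refine (hpq i).trans ?_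
        rw [hCp', show -(θ / 2) = -(θ / 4) + -(θ / 4) by ring, rpow_add hη]
        calc |Cp| * η ^ (-(θ / 4)) * (((G₀ : ℝ) * (Cs + 1)) ^ ((k + 1) * A) * η ^ (-(θ / 4))) *
              ((Nb : ℝ) + 1 + qi.cost)
            = |Cp| * ((G₀ : ℝ) * (Cs + 1)) ^ ((k + 1) * A) * (η ^ (-(θ / 4)) * η ^ (-(θ / 4))) *
              ((Nb : ℝ) + 1 + qi.cost) := by ring
          _ ≤ _ := by
              refine mul_le_mul_of_nonneg_left ?_ (by positivity)
              linarith only [hq4, Nat.cast_nonneg (α := ℝ) Nb])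
    calc (p'.cost : ℝ) ≤ (q.cost : ℝ) + ∑ i, ((R i).cost : ℝ) := by exact_mod_cast hp'.trans hp
      _ ≤ _ := hc
      _ ≤ _ := by gcongr; exact le_max_right _ _
  have hV : IsField L (𝒱 G) := (hbox n le_rfl).1 G hG
  have hs' := fun z : Sp d => hsur d (𝒱 G) L σ (b / 2) ea z hV hL hσ (half_pos hb) hea hlam
  have hlip := fun z => (hs' z).1
  have herr := fun z => (hs' z).2.1
  have hcont := (hs' 0).2.2
  have hqi4 : Emits qi G (fun t : α × (Sp d × Sp d) => Φ t.1) (σ / 4) (fun t => ec t.1) := by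
    have h := hq₄e G hG.measurable Φ _ ec hq
    have e : |σ / 2| / √((4 : ℕ) : ℝ) = σ / 4 := by
      rw [abs_of_pos (half_pos hσ), Nat.cast_ofNat, show (4 : ℝ) = 2 ^ 2 by norm_num,
        sqrt_sq (by norm_num : (0:ℝ) ≤ 2)]
      ring
    rw [e] at h
    exact hqie G _ _ _ h
  set surf : α → Sp d → Sp d → Sp d := fun x => surW σ τ (b / 2) ea wq v ws vs (𝒱 G) (Φ x)
  set E := η ^ ((n : ℝ) * pE K) with hEdef
  have hE : 0 ≤ E := rpow_nonneg hη.le _
  have hE1 : E ≤ 1 := eta_order_le_one K n hη h1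
  set N₀ : α × (Sp d × Sp d) → ℝ := fun t => √d + ‖Φ t.1‖ + ‖t.2.1‖ + ‖t.2.2‖ with hN₀def
  have hCr : 0 ≤ Cr := by rw [hCreq]; positivity
  have hRE : ∀ i, Emits (R i) G
      (fun t => fb σ τ (𝒱 G) (iter r (k + 1) σ τ (b / 2) (𝒱 G) (Φ t.1) (surf t.1) i t.2)) ρ
      fun t => Cr * (L * S * E * N₀ t + L * ec t.1) := fun i => by
    rw [hCreq]
    refine below_emit hOk hV hL hS hK1 hσK hT0 hT1 (E := E) (Em := η ^ ((m : ℝ) * pE K)) hE
      (rpow_nonneg hη.le _) hCT hB0 ?_ ?_ hsumW (Nat.succ k) i hΦ hec (hRe i G hG)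
      (hpqe i G hG Φ ec hΦ hec hqi4)
    · calc σ * T * η ^ ((m : ℝ) * pE K) ≤ B * S * (CT * Z) * η ^ ((m : ℝ) * pE K) := by gcongr
        _ = CT * B * (S * (Z * η ^ ((m : ℝ) * pE K))) := by ring
        _ ≤ _ := by
            gcongr
            exact eta_order_gain K n hη h1 (gain_ge K hn)
    · rw [hst]
      calc 26 * (W ^ 3 * (σ * L / (b / 2 * ea * ea))) ≤ 26 * (W ^ 3 * (2 * B ^ 2 * ea)) := by
            gcongr
            exact hxσ.trans (mul_le_mul_of_nonneg_left hZa (by positivity))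
        _ = 52 * W ^ 3 * B ^ 2 * ea := by ring
        _ ≤ 1 := hsm _ hC52
  have k1 := hpe G hG.measurable (fun _ => 𝒱 G) Φ surf ec
    (fun _ => Cs * (σ * L / (b / 2)) * (η ^ n + ea ^ (n + 1)) * √(d : ℝ))
    (fun i t => Cr * (L * S * E * N₀ t + L * ec t.1))
    (fun _ x => Cr * (L * S * E * (√d + 2 * ‖Φ x‖) + L * ec x))
    (fun _ _ => Cr * (L * S * E))
  have hm₁ : Measurable fun t : α × Sp d => 𝒱 G t.2 :=
    hV.smooth.continuous.measurable.comp measurable_snd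
  have hm₂ : Measurable fun t : α × (Sp d × Sp d) => surf t.1 t.2.1 t.2.2 :=
    measurable_surW hcont hΦ
  have hl₂ : ∀ x w g w' g', ‖surf x w g - surf x w' g'‖ ≤
      Cs * (σ * L / (b / 2 * ea * ea)) * (‖w - w'‖ + ‖g - g'‖) := fun x w g w' g' => by
    have := hlip (Φ x) w g w' g'
    rwa [hst] at this
  have hed : ∀ (i : Fin (r + 1)) (x : α) (y g : Sp d),
      |Cr * (L * S * E * N₀ (x, (y, g)) + L * ec x)| ≤
        Cr * (L * S * E * (√d + 2 * ‖Φ x‖) + L * ec x) + Cr * (L * S * E) * (‖y - Φ x‖ + ‖g‖) := by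
    intro i x y g
    have hN0 : (0:ℝ) ≤ N₀ (x, (y, g)) := by simp only [N₀]; positivity
    rw [abs_of_nonneg (by have := hec x; positivity)]
    simp only [N₀]
    have h18 := norm_add_le (y - Φ x) (Φ x)
    rw [sub_add_cancel] at h18
    have := mul_le_mul_of_nonneg_left h18 (show 0 ≤ Cr * (L * S * E) by positivity)
    linarith
  have k2 := k1 hm₁ hΦ hm₂ (fun _ => hV.smooth) (fun _ => hV.bound) hl₂
    (fun _ => by positivity) (fun x => herr (Φ x)) hq hRE
    (fun _ x => ⟨by have := hec x; positivity, by positivity⟩) hed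
  have k3 := hp'e G hG.measurable _ _ k2
  refine EmitBase.emits_mono k3 fun x => ?_
  -- the total
  have hec' := hec x
  have htot := level_total (w := FlowStep.colw r 1) (Cem := Cem) (Wc := Wc) (Cr := Cr) (Kc := Kc)
    (nΦ := ‖Φ x‖) (ec := ec x) (sd := √(d : ℝ)) hη h1 hn hB0 hb hL hS hSB hσ hσS hσK hxσ
    (show 32 * n + 31 ≤ r + 1 by omega) hk (zero_le_one.trans hCem) (zero_le_one.trans hCs) hCr
    (by rw [hWceq]; linarith) (zero_le_one.trans hWc) (sqrt_nonneg _) (norm_nonneg _) hec'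
  rw [abs_of_nonneg (by positivity)]
  refine le_trans ?_ (le_abs_self _)
  refine htot.trans (mul_le_mul_of_nonneg_right (le_max_left _ _) ?_)
  positivity

/-- **A smoothed box at a centre, to order `n`.** -/
theorem nodeSpec_step {K n : ℕ} (h : ∀ m < n, PtSpec K m) : NodeSpec K n := by
  refine nodeSpec_of_nodeAt ?_
  rcases Nat.eq_zero_or_pos n with rfl | hn
  · exact nodeAt_base (by simp)
  refine Nat.decreasingInduction (motive := fun j _ => NodeAt K n j) (fun j _ hj =>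
    nodeAt_step hn (h _ (Nat.sub_lt hn (pD_pos K))) hj) (nodeAt_base ?_) (Nat.zero_le n)
  exact mul_le_mul_of_nonneg_left (pE_le_pA K) (Nat.cast_nonneg n)

end Node

end Vale.Agent.P347.Shift
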