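import Vale.Agent.P347.Quarter.Defs

/-!
# P347: expressions of the lifted flows and their linear operators

`Expr κ J n` denotes a map of `n` vector variables into `Sp d`, built from boxes `k : κ` (fields with
symmetric bounded derivative), evaluated at Gaussian smoothed points, and Gaussian means. `Op κ J n`
denotes the operators occurring in derivatives and transposes of expressions.
-/

open MeasureTheory ProbabilityTheory

namespace Vale.Agent.P347.Shift

open Quarter

/-- Expressions with `n` free vector variables. -/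
inductive Expr (κ : Type) (J : ℕ) : ℕ → Type
  | var {n : ℕ} (i : Fin n) : Expr κ J n
  | zero {n : ℕ} : Expr κ J n
  | add {n : ℕ} (e f : Expr κ J n) : Expr κ J n
  | smul {n : ℕ} (c : ℝ) (e : Expr κ J n) : Expr κ J n
  | node {n : ℕ} (k : κ) (σ : ℝ) (e : Expr κ J n) : Expr κ J n
  | mean {n : ℕ} (C : Fin J → ℝ) (e : Expr κ J (n + 1)) : Expr κ J n

/-- Operators: products, sums and means of smoothed derivatives of boxes. -/
inductive Op (κ : Type) (J : ℕ) : ℕ → Type
  | scal {n : ℕ} (c : ℝ) : Op κ J n
  | hess {n : ℕ} (k : κ) (σ : ℝ) (e : Expr κ J n) : Op κ J n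
  | add {n : ℕ} (P Q : Op κ J n) : Op κ J n
  | mul {n : ℕ} (P Q : Op κ J n) : Op κ J n
  | mean {n : ℕ} (C : Fin J → ℝ) (P : Op κ J (n + 1)) : Op κ J n

variable {κ : Type} {d J : ℕ}

namespace Expr

/-- The value of an expression. -/
noncomputable def eval (V : κ → Sp d → Sp d) (c : Fin J → Sp d) :
    {n : ℕ} → Expr κ J n → (Fin n → Sp d) → Sp d
  | _, var i, x => x i
  | _, zero, _ => 0
  | _, add e f, x => e.eval V c x + f.eval V c x
  | _, smul t e, x => t • e.eval V c x
  | _, node k σ e, x => smth 1 σ (V k) (e.eval V c x)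
  | _, mean C e, x => ∫ z, e.eval V c (Fin.cons (z + ∑ j, C j • c j) x) ∂gd d

/-- Renaming of variables. -/
def ren : {n m : ℕ} → Expr κ J n → (Fin n → Fin m) → Expr κ J m
  | _, _, var i, r => var (r i)
  | _, _, zero, _ => zero
  | _, _, add e f, r => add (e.ren r) (f.ren r)
  | _, _, smul c e, r => smul c (e.ren r)
  | _, _, node k σ e, r => node k σ (e.ren r)
  | _, _, mean C e, r => mean C (e.ren (Fin.cons 0 (Fin.succ ∘ r)))

/-- Substitutions under a binder. -/
def lift {n m : ℕ} (s : Fin n → Expr κ J m) : Fin (n + 1) → Expr κ J (m + 1) :=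
  Fin.cons (var 0) fun i => (s i).ren Fin.succ

/-- Substitution. -/
def subst : {n m : ℕ} → Expr κ J n → (Fin n → Expr κ J m) → Expr κ J m
  | _, _, var i, s => s i
  | _, _, zero, _ => zero
  | _, _, add e f, s => add (e.subst s) (f.subst s)
  | _, _, smul c e, s => smul c (e.subst s)
  | _, _, node k σ e, s => node k σ (e.subst s)
  | _, _, mean C e, s => mean C (e.subst (lift s))

lemma eval_ren (V : κ → Sp d → Sp d) (c : Fin J → Sp d) {n : ℕ} (e : Expr κ J n) :
    ∀ {m : ℕ} (r : Fin n → Fin m) (x : Fin m → Sp d),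
      (e.ren r).eval V c x = e.eval V c (x ∘ r) := by
  induction e with
  | var i => intro m r x; rfl
  | zero => intro m r x; rfl
  | add e f he hf => intro m r x; simp [ren, eval, he, hf]
  | smul t e he => intro m r x; simp [ren, eval, he]
  | node k σ e he => intro m r x; simp [ren, eval, he]
  | mean C e he =>
    intro m r x
    simp only [ren, eval, he]
    congr 1; funext z; congr 1; funext i
    refine Fin.cases ?_ (fun j => ?_) i <;> simp

lemma eval_subst (V : κ → Sp d → Sp d) (c : Fin J → Sp d) {n : ℕ} (e : Expr κ J n) :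
    ∀ {m : ℕ} (s : Fin n → Expr κ J m) (x : Fin m → Sp d),
      (e.subst s).eval V c x = e.eval V c fun i => (s i).eval V c x := by
  induction e with
  | var i => intro m s x; rfl
  | zero => intro m s x; rfl
  | add e f he hf => intro m s x; simp [subst, eval, he, hf]
  | smul t e he => intro m s x; simp [subst, eval, he]
  | node k σ e he => intro m s x; simp [subst, eval, he]
  | mean C e he =>
    intro m s x
    simp only [subst, eval, he]
    congr 1; funext z; congr 1; funext i
    refine Fin.cases ?_ (fun j => ?_) i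
    · simp [lift, eval]
    · simp [lift, eval_ren, Function.comp_def]

/-- The derivative in variable `i`. -/
def deriv : {n : ℕ} → Expr κ J n → Fin n → Op κ J n
  | _, var j, i => .scal (if j = i then 1 else 0)
  | _, zero, _ => .scal 0
  | _, add e f, i => .add (e.deriv i) (f.deriv i)
  | _, smul c e, i => .mul (.scal c) (e.deriv i)
  | _, node k σ e, i => .mul (.hess k σ e) (e.deriv i)
  | _, mean C e, i => .mean C (e.deriv i.succ)

end Expr

namespace Op

/-- The value of an operator. -/
noncomputable def eval (V : κ → Sp d → Sp d) (DV : κ → Sp d → Sp d →L[ℝ] Sp d)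
    (c : Fin J → Sp d) :
    {n : ℕ} → Op κ J n → (Fin n → Sp d) → Sp d →L[ℝ] Sp d
  | _, scal t, _ => t • ContinuousLinearMap.id ℝ (Sp d)
  | _, hess k σ e, x => smth 1 σ (DV k) (e.eval V c x)
  | _, add P Q, x => P.eval V DV c x + Q.eval V DV c x
  | _, mul P Q, x => (P.eval V DV c x).comp (Q.eval V DV c x)
  | _, mean C P, x => ∫ z, P.eval V DV c (Fin.cons (z + ∑ j, C j • c j) x) ∂gd d

/-- Substitution. -/
def subst : {n m : ℕ} → Op κ J n → (Fin n → Expr κ J m) → Op κ J m
  | _, _, scal c, _ => scal c
  | _, _, hess k σ e, s => hess k σ (e.subst s)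
  | _, _, add P Q, s => add (P.subst s) (Q.subst s)
  | _, _, mul P Q, s => mul (P.subst s) (Q.subst s)
  | _, _, mean C P, s => mean C (P.subst (Expr.lift s))

/-- The transpose. -/
def tr : {n : ℕ} → Op κ J n → Op κ J n
  | _, scal c => scal c
  | _, hess k σ e => hess k σ e
  | _, add P Q => add P.tr Q.tr
  | _, mul P Q => mul Q.tr P.tr
  | _, mean C P => mean C P.tr

/-- The syntactic bound on the norm, from bounds `η k` on the boxes. -/
noncomputable def wt (η : κ → ℝ) : {n : ℕ} → Op κ J n → ℝ
  | _, scal c => |c|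
  | _, hess k _ _ => η k
  | _, add P Q => P.wt η + Q.wt η
  | _, mul P Q => P.wt η * Q.wt η
  | _, mean _ P => P.wt η

lemma eval_subst (V : κ → Sp d → Sp d) (DV : κ → Sp d → Sp d →L[ℝ] Sp d)
    (c : Fin J → Sp d) {n : ℕ} (P : Op κ J n) :
    ∀ {m : ℕ} (s : Fin n → Expr κ J m) (x : Fin m → Sp d),
      (P.subst s).eval V DV c x = P.eval V DV c fun i => (s i).eval V c x := by
  induction P with
  | scal c => intro m s x; rfl
  | hess k σ e => intro m s x; simp [subst, eval, Expr.eval_subst]
  | add P Q hP hQ => intro m s x; simp [subst, eval, hP, hQ]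
  | mul P Q hP hQ => intro m s x; simp [subst, eval, hP, hQ]
  | mean C P hP =>
    intro m s x
    simp only [subst, eval, hP]
    congr 1; funext z; congr 1; funext i
    refine Fin.cases ?_ (fun j => ?_) i
    · simp [Expr.lift, Expr.eval]
    · simp [Expr.lift, Expr.eval_ren, Function.comp_def]

lemma wt_subst (η : κ → ℝ) {n : ℕ} (P : Op κ J n) :
    ∀ {m : ℕ} (s : Fin n → Expr κ J m), (P.subst s).wt η = P.wt η := by
  induction P with
  | scal c => intro m s; rfl
  | hess k σ e => intro m s; rfl
  | add P Q hP hQ => intro m s; simp [subst, wt, hP, hQ]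
  | mul P Q hP hQ => intro m s; simp [subst, wt, hP, hQ]
  | mean C P hP => intro m s; simp [subst, wt, hP]

lemma wt_tr (η : κ → ℝ) {n : ℕ} (P : Op κ J n) : P.tr.wt η = P.wt η := by
  induction P with
  | scal c => rfl
  | hess k σ e => rfl
  | add P Q hP hQ => simp [tr, wt, hP, hQ]
  | mul P Q hP hQ => simp [tr, wt, hP, hQ, mul_comm]
  | mean C P hP => simp [tr, wt, hP]

end Op

namespace Expr

/-- The syntactic Lipschitz constant in variable `i`. -/
noncomputable def lip (η : κ → ℝ) {n : ℕ} (e : Expr κ J n) (i : Fin n) : ℝ := (e.deriv i).wt η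

/-- The fluctuation weight: bound variables and node noise. -/
noncomputable def fl (η : κ → ℝ) : {n : ℕ} → Expr κ J n → ℝ
  | _, var _ => 0
  | _, zero => 0
  | _, add e f => e.fl η + f.fl η
  | _, smul t e => |t| * e.fl η
  | _, node k σ e => η k * (e.fl η + |σ|)
  | _, mean _ e => e.fl η + e.lip η 0

end Expr

/-- Boxes: fields with symmetric derivative bounded by `η`. -/
structure IsBoxes (V : κ → Sp d → Sp d) (DV : κ → Sp d → Sp d →L[ℝ] Sp d) (η : κ → ℝ) : Prop where
  nonneg : ∀ k, 0 ≤ η k
  hasDeriv : ∀ k x, HasFDerivAt (V k) (DV k x) x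
  cont : ∀ k, Continuous (DV k)
  symm : ∀ k x u v, inner ℝ (DV k x u) v = inner ℝ u (DV k x v)
  bound : ∀ k x, ‖DV k x‖ ≤ η k

/-- Operators of a single potential form boxes. -/
lemma isBoxes_of_isPot {W : κ → Sp d → ℝ} {G : κ → Sp d → Sp d}
    {H : κ → Sp d → Sp d →L[ℝ] Sp d} {η : κ → ℝ} (hη : ∀ k, 0 ≤ η k)
    (hW : ∀ k, IsPot (W k) (G k) (H k) 0 (η k)) (hb : ∀ k x, ‖H k x‖ ≤ η k) :
    IsBoxes G H η :=
  ⟨hη, fun k => (hW k).hasHess, fun k => (hW k).contHess, fun k => (hW k).symHess, hb⟩

namespace IsBoxes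

variable {V : κ → Sp d → Sp d} {DV : κ → Sp d → Sp d →L[ℝ] Sp d} {η : κ → ℝ}

lemma cont_field (hB : IsBoxes V DV η) (k : κ) : Continuous (V k) :=
  continuous_iff_continuousAt.2 fun x => (hB.hasDeriv k x).continuousAt

lemma lipschitz (hB : IsBoxes V DV η) (k : κ) (x y : Sp d) :
    ‖V k x - V k y‖ ≤ η k * ‖x - y‖ :=
  Convex.norm_image_sub_le_of_norm_hasFDerivWithin_le
    (fun z _ => (hB.hasDeriv k z).hasFDerivWithinAt) (fun z _ => hB.bound k z) convex_univ
    (Set.mem_univ y) (Set.mem_univ x)

end IsBoxes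

namespace Expr

variable {η : κ → ℝ}

lemma lip_nonneg (hη : ∀ k, 0 ≤ η k) {n : ℕ} (e : Expr κ J n) (i : Fin n) : 0 ≤ e.lip η i := by
  unfold lip
  induction e with
  | var j => simp [deriv, Op.wt]
  | zero => simp [deriv, Op.wt]
  | add e f he hf => simpa [deriv, Op.wt] using add_nonneg (he i) (hf i)
  | smul t e he => simpa [deriv, Op.wt] using mul_nonneg (abs_nonneg t) (he i)
  | node k σ e he => simpa [deriv, Op.wt] using mul_nonneg (hη k) (he i)
  | mean C e he => simpa [deriv, Op.wt] using he i.succ

lemma fl_nonneg (hη : ∀ k, 0 ≤ η k) {n : ℕ} (e : Expr κ J n) : 0 ≤ e.fl η := by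
  induction e with
  | var j => simp [fl]
  | zero => simp [fl]
  | add e f he hf => exact add_nonneg he hf
  | smul t e he => exact mul_nonneg (abs_nonneg t) he
  | node k σ e he => exact mul_nonneg (hη k) (add_nonneg he (abs_nonneg σ))
  | mean C e he => exact add_nonneg he (e.lip_nonneg hη 0)

lemma lip_var {n : ℕ} (i j : Fin n) :
    (var j : Expr κ J n).lip η i = if j = i then 1 else 0 := by
  by_cases h : j = i <;> simp [lip, deriv, Op.wt, h]

lemma lip_add {n : ℕ} (e f : Expr κ J n) (j : Fin n) :
    (add e f).lip η j = e.lip η j + f.lip η j := rfl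

lemma lip_smul {n : ℕ} (t : ℝ) (e : Expr κ J n) (j : Fin n) :
    (smul t e).lip η j = |t| * e.lip η j := rfl

lemma lip_node {n : ℕ} (k : κ) (σ : ℝ) (e : Expr κ J n) (j : Fin n) :
    (node k σ e).lip η j = η k * e.lip η j := rfl

lemma lip_mean {n : ℕ} (C : Fin J → ℝ) (e : Expr κ J (n + 1)) (j : Fin n) :
    (mean C e).lip η j = e.lip η j.succ := rfl

/-- The Lipschitz constants of a renamed expression. -/
lemma lip_ren {n : ℕ} (e : Expr κ J n) : ∀ {m : ℕ} (r : Fin n → Fin m) (i : Fin m),
    (e.ren r).lip η i = ∑ j, if r j = i then e.lip η j else 0 := by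
  unfold lip
  induction e with
  | var j =>
    intro m r i
    rw [Finset.sum_eq_single j (fun b _ hb => by simp [deriv, Op.wt, Ne.symm hb]) (by simp)]
    by_cases h : r j = i <;> simp [ren, deriv, Op.wt, h]
  | zero => intro m r i; simp [ren, deriv, Op.wt]
  | add e f he hf =>
    intro m r i
    simp only [ren, deriv, Op.wt, he, hf, ← Finset.sum_add_distrib]
    exact Finset.sum_congr rfl fun j _ => by split <;> simp
  | smul t e he =>
    intro m r i
    simp only [ren, deriv, Op.wt, he, Finset.mul_sum]
    exact Finset.sum_congr rfl fun j _ => by split <;> simp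
  | node k σ e he =>
    intro m r i
    simp only [ren, deriv, Op.wt, he, Finset.mul_sum]
    exact Finset.sum_congr rfl fun j _ => by split <;> simp
  | mean C e he =>
    intro m r i
    simp only [ren, deriv, Op.wt, he, Fin.sum_univ_succ, Fin.cons_zero, Fin.cons_succ,
      Function.comp_apply, Fin.succ_inj]
    simp [(Fin.succ_ne_zero i).symm]

lemma fl_ren {n : ℕ} (e : Expr κ J n) :
    ∀ {m : ℕ} (r : Fin n → Fin m), (e.ren r).fl η = e.fl η := by
  induction e with
  | var j => intro m r; rfl
  | zero => intro m r; rfl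
  | add e f he hf => intro m r; simp [ren, fl, he, hf]
  | smul t e he => intro m r; simp [ren, fl, he]
  | node k σ e he => intro m r; simp [ren, fl, he]
  | mean C e he =>
    intro m r
    simp only [ren, fl, he, lip_ren, Fin.sum_univ_succ, Fin.cons_zero, Fin.cons_succ,
      Function.comp_apply]
    simp [Fin.succ_ne_zero]

lemma lip_lift_zero {n m : ℕ} (s : Fin n → Expr κ J m) (j : Fin n) :
    (lift s j.succ).lip η 0 = 0 := by
  simp [lift, lip_ren, Fin.succ_ne_zero]

lemma lip_lift_succ {n m : ℕ} (s : Fin n → Expr κ J m) (j : Fin n) (i : Fin m) :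
    (lift s j.succ).lip η i.succ = (s j).lip η i := by
  simp [lift, lip_ren]

/-- The Lipschitz constants of a substituted expression. -/
lemma lip_subst {n : ℕ} (e : Expr κ J n) : ∀ {m : ℕ} (s : Fin n → Expr κ J m) (i : Fin m),
    (e.subst s).lip η i = ∑ j, e.lip η j * (s j).lip η i := by
  induction e with
  | var j =>
    intro m s i
    rw [Finset.sum_eq_single j (fun b _ hb => by simp [lip_var, Ne.symm hb]) (by simp)]
    simp [subst, lip_var]
  | zero => intro m s i; simp [subst, lip, deriv, Op.wt]
  | add e f he hf =>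
    intro m s i
    calc ((add e f).subst s).lip η i = (e.subst s).lip η i + (f.subst s).lip η i := rfl
      _ = _ := by simp only [he, hf, lip_add, add_mul, Finset.sum_add_distrib]
  | smul t e he =>
    intro m s i
    calc ((smul t e).subst s).lip η i = |t| * (e.subst s).lip η i := rfl
      _ = _ := by simp only [he, lip_smul, mul_assoc, Finset.mul_sum]
  | node k σ e he =>
    intro m s i
    calc ((node k σ e).subst s).lip η i = η k * (e.subst s).lip η i := rfl
      _ = _ := by simp only [he, lip_node, mul_assoc, Finset.mul_sum]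
  | mean C e he =>
    intro m s i
    calc ((mean C e).subst s).lip η i = (e.subst (lift s)).lip η i.succ := rfl
      _ = ∑ j, e.lip η (Fin.succ j) * (s j).lip η i := by
        rw [he, Fin.sum_univ_succ]
        simp [lip_var, lift, (Fin.succ_ne_zero i).symm, lip_ren]
      _ = _ := rfl

/-- The fluctuation of a substituted expression. -/
lemma fl_subst (hη : ∀ k, 0 ≤ η k) {n : ℕ} (e : Expr κ J n) :
    ∀ {m : ℕ} (s : Fin n → Expr κ J m),
      (e.subst s).fl η ≤ e.fl η + ∑ j, e.lip η j * (s j).fl η := by
  induction e with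
  | var j =>
    intro m s
    rw [Finset.sum_eq_single j (fun b _ hb => by simp [lip_var, Ne.symm hb]) (by simp)]
    simp [subst, fl, lip_var]
  | zero => intro m s; simp [subst, fl, lip, deriv, Op.wt]
  | add e f he hf =>
    intro m s
    simp only [subst, fl, lip_add, add_mul, Finset.sum_add_distrib]
    linarith [he s, hf s]
  | smul t e he =>
    intro m s
    simp only [subst, fl, lip_smul, mul_assoc, ← Finset.mul_sum]
    exact (mul_le_mul_of_nonneg_left (he s) (abs_nonneg t)).trans_eq (mul_add _ _ _)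
  | node k σ e he =>
    intro m s
    simp only [subst, fl, lip_node, mul_assoc, ← Finset.mul_sum]
    linarith [mul_le_mul_of_nonneg_left (he s) (hη k)]
  | mean C e he =>
    intro m s
    have h1 := he (lift s)
    rw [Fin.sum_univ_succ] at h1
    simp only [lift, Fin.cons_zero, Fin.cons_succ, fl, fl_ren, mul_zero, zero_add] at h1
    have h2 : (e.subst (lift s)).lip η 0 = e.lip η 0 := by
      rw [lip_subst, Fin.sum_univ_succ]
      simp [lip_lift_zero, lip_var, show lift s 0 = var 0 from rfl]
    simp only [subst, fl, lip_mean]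
    rw [h2]
    simp only [lift]
    linarith

end Expr

end Vale.Agent.P347.Shift
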