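import Vale.Agent.P347.Quarter.Oracle
import Vale.Agent.P347.Shift.Syntax
import Mathlib.Analysis.SpecialFunctions.Pow.Real

/-!
# P347, all orders: the frozen statements

* An emitter is an oracle program with a seed law. It *emits* `Φ` at room `ρ` when for every input
  its output is, in mean square over the seed, close to `Φ a + ρ • ξ`, `ξ` standard Gaussian for
  every input. Targets are translates of one law, so programs need not be Lipschitz.
* One small parameter `η`: an order `n` means an error `η ^ (n * pE K)` in units of the size `sm` of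
  what is emitted, and needs a room above `sm * η ^ (-pW K n)`.
* A box is a field functional of the queried gradient with emitters at known points. The boxes of an
  expression are padded to one order, with scales `sc`.
* `Expr.mean C e` averages over a Gaussian vector centred at `∑ j, C j • c j`; the centres `c` are
  known through emitters of rooms `kap` only.
-/

open MeasureTheory ProbabilityTheory Real
open scoped RealInnerProductSpace ENNReal

namespace Vale.Agent.P347.Shift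

open Quarter

/-- A program with gradient questions, fed by a seed and an input. -/
structure Emitter (d : ℕ) (α : Type) [MeasurableSpace α] where
  /-- the space of seeds -/
  S : Type
  meas : MeasurableSpace S
  /-- the law of the seed -/
  μ : @Measure S meas
  prob : @IsProbabilityMeasure S meas μ
  /-- the output -/
  run : (Sp d → Sp d) → S × α → Sp d
  /-- the number of questions -/
  cost : ℕ
  calc_run : Calc cost run

attribute [instance] Emitter.meas Emitter.prob

/-- `p` is within `err` of `Φ a + ρ • ξ`, `ξ` standard Gaussian for every input. -/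
def Emits {d : ℕ} {α : Type} [MeasurableSpace α] (p : Emitter d α) (G : Sp d → Sp d)
    (Φ : α → Sp d) (ρ : ℝ) (err : α → ℝ) : Prop :=
  ∃ ξ : p.S × α → Sp d, Measurable ξ ∧ (∀ a, p.μ.map (fun s => ξ (s, a)) = gd d) ∧
    ∀ a, ∫⁻ s, ENNReal.ofReal (‖p.run G (s, a) - (Φ a + ρ • ξ (s, a))‖ ^ 2) ∂p.μ ≤
      ENNReal.ofReal (err a ^ 2)

/-- The gradients that are queried, in whitened coordinates. -/
def Adm {d : ℕ} (η : ℝ) (G : Sp d → Sp d) : Prop :=
  ‖G 0‖ ≤ η * √d ∧
    ∃ (W : Sp d → ℝ) (H : Sp d → Sp d →L[ℝ] Sp d), IsPot W G H 0 η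

/-- A gradient field: continuously differentiable, symmetric derivative of norm at most `L`, small
at the origin. -/
structure IsField {d : ℕ} (L : ℝ) (V : Sp d → Sp d) : Prop where
  smooth : ContDiff ℝ 1 V
  sym : ∀ x u v, ⟪fderiv ℝ V x u, v⟫ = ⟪u, fderiv ℝ V x v⟫
  bound : ∀ x, ‖fderiv ℝ V x‖ ≤ L
  zero : ‖V 0‖ ≤ L * √d

/-! ### Parameters -/

/-- The loss of one derivative product. -/
noncomputable def pA (K : ℕ) : ℝ := 1 / (600 * ((K : ℝ) + 1))

/-- The gain of one order. -/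
noncomputable def pE (K : ℕ) : ℝ := pA K / (8 * ((K : ℝ) + 1))

/-- The orders dropped by one injection. -/
noncomputable def pD (K : ℕ) : ℕ := ⌊1 / (16 * pE K)⌋₊

/-- The threshold at order `n`. -/
noncomputable def pW (K n : ℕ) : ℝ := 1 / 16 + 4 * pA K * (((n + pD K - 1) / pD K : ℕ) : ℝ)

/-- The largest order that is needed. -/
noncomputable def pTop (K : ℕ) : ℕ := ⌈((K : ℝ) + 2) / pE K⌉₊

/-- A box of order `m` at scale `S`: emitted at known points at every room above its threshold,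
relaxed by the constant `B`. -/
def IsBox (d K : ℕ) (η L S : ℝ) (m : ℕ) (B C : ℝ) (N : ℕ)
    (𝒱 : (Sp d → Sp d) → Sp d → Sp d) : Prop :=
  (∀ G, Adm η G → IsField L (𝒱 G)) ∧
    ∀ ρ, 0 < ρ → L * S * η ^ (-pW K m) ≤ B * ρ → ∃ p : Emitter d (Sp d), p.cost ≤ N ∧
      ∀ G, Adm η G →
        Emits p G (𝒱 G) ρ fun y => C * L * S * η ^ ((m : ℝ) * pE K) * (√d + ‖y‖)

/-! ### Sizes of expressions -/

namespace Expr

variable {κ : Type} {J : ℕ}

/-- The linear coefficient outside the nodes. -/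
def aff : {n : ℕ} → Expr κ J n → Fin n → ℝ
  | _, var j, i => if j = i then 1 else 0
  | _, zero, _ => 0
  | _, add e f, i => e.aff i + f.aff i
  | _, smul t e, i => t * e.aff i
  | _, node _ _ _, _ => 0
  | _, mean _ e, i => e.aff i.succ

/-- The size: nodes at their scales, means of linear parts. -/
noncomputable def sm (L : ℝ) (sc : κ → ℝ) : {n : ℕ} → Expr κ J n → ℝ
  | _, var _ => 0
  | _, zero => 0
  | _, add e f => e.sm L sc + f.sm L sc
  | _, smul t e => |t| * e.sm L sc
  | _, node k _ e => L * (sc k + e.sm L sc)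
  | _, mean _ e => e.sm L sc + |e.aff 0|

/-- Every node: smoothing positive and at most `B` times the scale, linear motion at most `R` times
the smoothing and `B` times the scale, the rest small against the smoothing by `η ^ w`. -/
def Good (η L : ℝ) (sc : κ → ℝ) (B R w : ℝ) : {n : ℕ} → Expr κ J n → Prop
  | _, var _ => True
  | _, zero => True
  | _, add e f => e.Good η L sc B R w ∧ f.Good η L sc B R w
  | _, smul _ e => e.Good η L sc B R w
  | _, node k σ e => 0 < σ ∧ σ ≤ B * sc k ∧ sc k ≤ B ∧ ∑ i, |e.aff i| ≤ R * σ ∧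
      ∑ i, |e.aff i| ≤ B * sc k ∧ e.sm L sc ≤ B * σ * η ^ w ∧ e.Good η L sc B R w
  | _, mean _ e => e.Good η L sc B R w

/-- The rooms of the centres fit under every mean. -/
def Fill (kap : Fin J → ℝ) : {n : ℕ} → Expr κ J n → Prop
  | _, var _ => True
  | _, zero => True
  | _, add e f => e.Fill kap ∧ f.Fill kap
  | _, smul _ e => e.Fill kap
  | _, node _ _ e => e.Fill kap
  | _, mean C e => ∑ j, (C j * kap j) ^ 2 ≤ 1 / 4 ∧ e.Fill kap

/-- The nesting depth of nodes and means. -/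
def depth : {n : ℕ} → Expr κ J n → ℕ
  | _, var _ => 0
  | _, zero => 0
  | _, add e f => max e.depth f.depth
  | _, smul _ e => e.depth
  | _, node _ _ e => e.depth + 1
  | _, mean _ e => e.depth + 1

/-- The number of constructors; only the cost sees it. -/
def size : {n : ℕ} → Expr κ J n → ℕ
  | _, var _ => 1
  | _, zero => 1
  | _, add e f => e.size + f.size + 1
  | _, smul _ e => e.size + 1
  | _, node _ _ e => e.size + 1
  | _, mean _ e => e.size + 1

/-- The norms of the node centres, the bound variables read at their means. -/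
noncomputable def cen {d : ℕ} (V : κ → Sp d → Sp d) (c : Fin J → Sp d) :
    {n : ℕ} → Expr κ J n → (Fin n → Sp d) → ℝ
  | _, var _, _ => 0
  | _, zero, _ => 0
  | _, add e f, x => max (e.cen V c x) (f.cen V c x)
  | _, smul _ e, x => e.cen V c x
  | _, node _ _ e, x => max ‖e.eval V c x‖ (e.cen V c x)
  | _, mean C e, x => e.cen V c (Fin.cons (∑ j, C j • c j) x)

end Expr

/-! ### The statements -/

/-- Products with transposed derivatives are expressions, correct to every order `η ^ N`. The new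
variable is the first one. -/
def MVSpec (K : ℕ) : Prop :=
  ∀ (D N : ℕ) (B : ℝ), ∃ (D' A : ℕ) (B' : ℝ), ∀ θ : ℝ, 0 < θ → ∃ C η₀ : ℝ, 0 < η₀ ∧
    ∀ (d J n : ℕ) (κ : Type) (η L : ℝ) (sc : κ → ℝ) (e : Expr κ J n) (i : Fin n) (w : ℝ),
      1 ≤ d → 0 < η → η ≤ η₀ → 0 ≤ L → L ≤ 4 * η → (∀ k, 0 ≤ sc k) → 1 / 16 ≤ w → w ≤ 1 / 2 →
      e.depth ≤ D → e.Good η L sc B (B * η ^ (-pA K)) w →
      ∃ e' : Expr κ J (n + 1), e'.depth ≤ D' ∧
        (e'.size : ℝ) ≤ C * η ^ (-θ) * (e.size : ℝ) ^ A ∧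
        e'.Good η L sc B' (B' * η ^ (-pA K)) (w - 4 * pA K) ∧
        (∀ kap, e.Fill kap → e'.Fill kap) ∧
        e'.aff = Fin.cons (e.aff i) 0 ∧
        e'.sm L sc ≤ C * η ^ (-(2 * pA K)) * e.sm L sc ∧
        ∀ (V : κ → Sp d → Sp d), (∀ k, IsField L (V k)) →
          ∀ (c : Fin J → Sp d) (x : Fin n → Sp d),
            (∫⁻ g, ENNReal.ofReal (‖e'.eval V c (Fin.cons g x) - ContinuousLinearMap.adjoint
                (fderiv ℝ (fun y => e.eval V c (Function.update x i y)) (x i)) g‖ ^ 2) ∂gd d ≤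
              ENNReal.ofReal ((C * η ^ N * e.sm L sc * √d) ^ 2)) ∧
            ∀ g, e'.cen V c (Fin.cons g x) ≤ C * η ^ (-pA K) * (√d + ‖g‖ + e.cen V c x)

/-- Expressions are emitted to order `n`: known variables `X a`, centres known through `q`. -/
def PtSpec (K n : ℕ) : Prop :=
  ∀ (D : ℕ) (B : ℝ), ∃ (B' : ℝ) (A : ℕ), ∀ θ : ℝ, 0 < θ → ∀ Cb : ℝ, 0 ≤ Cb → ∃ C η₀ : ℝ,
    0 < η₀ ∧ ∀ (d J v : ℕ) (κ α : Type) [MeasurableSpace α] (η L b : ℝ) (Nb : ℕ) (sc : κ → ℝ)
      (𝒱 : κ → (Sp d → Sp d) → Sp d → Sp d) (e : Expr κ J v) (kap : Fin J → ℝ)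
      (X : α → Fin v → Sp d) (q : Fin J → Emitter d α),
      1 ≤ d → 0 < η → η ≤ η₀ → 0 ≤ L → L ≤ 4 * η → 0 < b → 1 ≤ Nb →
      (∀ k, 0 ≤ sc k) → (∀ j, 0 < kap j) → Measurable X → e.depth ≤ D →
      e.Good η L sc B (B * η ^ (-pA K)) (pW K n) → e.Fill kap →
      e.sm L sc * η ^ (-pW K n) ≤ B * b →
      (∀ k, ∀ m ≤ n, IsBox d K η L (sc k) m B' Cb Nb (𝒱 k)) →
      ∃ p : Emitter d α,
        (p.cost : ℝ) ≤ C * η ^ (-θ) * (e.size : ℝ) ^ A * ((Nb : ℝ) + 1 + ∑ j, (q j).cost) ∧
        ∀ G, Adm η G → ∀ (c : α → Fin J → Sp d) (ec : Fin J → α → ℝ),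
          (∀ j a, 0 ≤ ec j a) → (∀ j, Measurable fun a => c a j) →
          (∀ j, Emits (q j) G (fun a => c a j) (kap j) (ec j)) →
          Emits p G (fun a => e.eval (fun k => 𝒱 k G) (c a) (X a)) b fun a =>
            C * e.sm L sc *
              (η ^ ((n : ℝ) * pE K) * (√d + e.cen (fun k => 𝒱 k G) (c a) (X a)) +
                ∑ j, ec j a / kap j)

/-- The potential with gradient `G`, zero at the origin. -/
noncomputable def pot {d : ℕ} (G : Sp d → Sp d) (x : Sp d) : ℝ :=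
  ∫ t in (0:ℝ)..1, ⟪G (t • x), x⟫

/-- The tilted velocity at observation `u`: the mean of `G (a u + b z)` for `z` of density
proportional to `exp (-W (a u + b z))` against the Gaussian law. -/
noncomputable def tiltField {d : ℕ} (a b : ℝ) (G : Sp d → Sp d) (u : Sp d) : Sp d :=
  ∫ z, G (a • u + b • z) ∂gibbs fun z => pot G (a • u + b • z)

/-- The tilted velocity is a box of order `m`, at its own scale. -/
def TiltBox (K m : ℕ) : Prop :=
  ∀ B : ℝ, ∀ θ : ℝ, 0 < θ → ∃ C η₀ : ℝ, 0 ≤ C ∧ 0 < η₀ ∧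
    ∀ (d : ℕ) (η a b : ℝ), 1 ≤ d → 0 < η → η ≤ η₀ → 0 ≤ a → a ≤ 1 → 0 < b → b ≤ 1 →
      ∃ N : ℕ, (N : ℝ) ≤ C * η ^ (-θ) ∧ IsBox d K η (3 * η) b m B C N (tiltField a b)

/-- The whitened half law to order `K`: what the top level consumes. -/
def WhiteSpec (K : ℕ) : Prop :=
  ∀ β : ℝ, 0 < β → ∃ C η₀ : ℝ, 0 ≤ C ∧ 0 < η₀ ∧
    ∀ (d : ℕ) (η : ℝ), 1 ≤ d → 0 < η → η ≤ η₀ →
      ∃ p : Emitter d Unit, (p.cost : ℝ) ≤ C * η ^ (-β) ∧
        ∀ (W : Sp d → ℝ) (G : Sp d → Sp d) (H : Sp d → Sp d →L[ℝ] Sp d),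
          IsPot W G H 0 η → ‖G 0‖ ≤ η * √d →
          ∃ Z : p.S → Sp d, Measurable Z ∧
            p.μ.map Z = ((gibbs W).prod (gd d)).map (fun t => t.1 + √(1 / 2) • t.2) ∧
            ∫⁻ s, ENNReal.ofReal (‖p.run G (s, ()) - Z s‖ ^ 2) ∂p.μ ≤
              ENNReal.ofReal ((C * η ^ K * √d) ^ 2)

end Vale.Agent.P347.Shift
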