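import Vale.Agent.P347.Shift.AdjNode
import Vale.Agent.P347.Shift.Spec
import Vale.Agent.P347.Shift.Level.Surr

/-!
# P347: the surrogate of a node in one emission step

The centre `c` is sampled at half the smoothing, so it is averaged with weight `(1 - u) σ / 2`. The
rest of the Mehler noise smooths the node, where the operator is read off by extraction. With the
rule for the time average this is close to `EmFlow.grad` in mean square over the state.
-/

open MeasureTheory ProbabilityTheory Real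
open ContinuousLinearMap (adjoint)
open scoped RealInnerProductSpace ENNReal NNReal

namespace Vale.Agent.P347.Shift.Node

open Quarter

/-- The coefficient of the point. -/
noncomputable def uu (τ v : ℝ) : ℝ := v / √(1 - τ)

/-- The smoothing left to the node. -/
noncomputable def rest (τ v : ℝ) : ℝ := √(1 - v ^ 2 - ((1 - uu τ v) / 2) ^ 2)

/-- The surrogate of the first block of a step around a node. -/
noncomputable def surP {d n p : ℕ} (σ τ b lam : ℝ) (wq v : Fin n → ℝ) (ws vs : Fin p → ℝ)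
    (V : Sp d → Sp d) (c y g : Sp d) : Sp d :=
  (σ / b) • ∑ j, wq j • ∫ z, Adj.surr V (σ * rest τ (v j)) ws (fun m => lam * vs m) lam
    (((1 - uu τ (v j)) * σ / 2) • z + (1 - uu τ (v j)) • c + uu τ (v j) • y) g ∂gd d

variable {d : ℕ}

/-- The smoothing left to a node is of size at least `√τ`. -/
lemma rest_bounds {τ v : ℝ} (hτ : 0 < τ) (hτ2 : τ ≤ 1 / 2) (hv : 0 ≤ v) (hv2 : v ≤ √√(1 - τ)) :
    |uu τ v| ≤ 2 ∧ √τ / 2 ≤ rest τ v ∧ rest τ v ≤ 1 ∧
      rest τ v ^ 2 + ((1 - uu τ v) / 2) ^ 2 = 1 - v ^ 2 := by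
  set q := √(1 - τ) with hq
  have hq2 : q ^ 2 = 1 - τ := Real.sq_sqrt (by linarith)
  have hq0 : 0 < q := Real.sqrt_pos.2 (by linarith)
  have hq1 : 1 / 2 ≤ q := by nlinarith
  have hqτ : q ≤ 1 - τ / 2 := by nlinarith
  set u := uu τ v with hu
  have hu0 : 0 ≤ u := div_nonneg hv hq0.le
  have hvu : v = u * q := by rw [hu, uu, ← hq, div_mul_cancel₀ _ hq0.ne']
  have hv2' : v ^ 2 ≤ q := by
    calc v ^ 2 ≤ √q ^ 2 := pow_le_pow_left₀ hv hv2 2
      _ = q := Real.sq_sqrt hq0.le
  have hu4 : u ^ 2 * q ≤ 1 := by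
    rw [hvu, mul_pow, sq q, ← mul_assoc] at hv2'
    exact le_of_mul_le_mul_right (hv2'.trans_eq (one_mul q).symm) hq0
  have hu2 : u ≤ 2 := by nlinarith [mul_le_mul_of_nonneg_left hq1 (sq_nonneg u)]
  have key : τ / 4 ≤ 1 - v ^ 2 - ((1 - u) / 2) ^ 2 := by
    rcases le_or_gt u 1 with h1 | h1
    · rw [hvu, mul_pow, hq2]
      nlinarith [mul_nonneg hu0 (sub_nonneg.2 h1)]
    · have h4' : u - 1 ≤ τ / 2 := by
        have h5 : u ^ 4 * (1 - τ) ≤ 1 := by
          rw [← hq2, show u ^ 4 * q ^ 2 = (u ^ 2 * q) ^ 2 by ring]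
          exact pow_le_one₀ (by positivity) hu4
        nlinarith [sq_nonneg (u - 1), sq_nonneg u]
      nlinarith
  have h0 : 0 ≤ 1 - v ^ 2 - ((1 - u) / 2) ^ 2 := le_trans (by linarith) key
  refine ⟨by rw [abs_of_nonneg hu0]; exact hu2, ?_, ?_, ?_⟩
  · rw [rest, ← hu, show √τ / 2 = √(τ / 4) by
      rw [Real.sqrt_div hτ.le, show (4 : ℝ) = 2 ^ 2 by norm_num, Real.sqrt_sq two_pos.le]]
    exact Real.sqrt_le_sqrt key
  · rw [rest, Real.sqrt_le_one]
    nlinarith [sq_nonneg v, sq_nonneg ((1 - u) / 2)]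
  · rw [rest, ← hu, Real.sq_sqrt h0]
    ring

section Field

variable {V : Sp d → Sp d} {L : ℝ} (hV : ContDiff ℝ 1 V) (hb : ∀ x, ‖fderiv ℝ V x‖ ≤ L)

include hV hb

lemma continuous_nodeJ (s : ℝ) : Continuous (Adj.nodeJ V s) :=
  continuous_of_dominated (fun e => (Adj.integrable_hess hV hb s e).aestronglyMeasurable)
    (fun _ => ae_of_all _ fun _ => hb _) (integrable_const L)
    (ae_of_all _ fun _ => (hV.continuous_fderiv one_ne_zero).comp (by fun_prop))

lemma continuous_surr₂ {μ : Type} [Fintype μ] (s : ℝ) (ws ρ : μ → ℝ) (lam : ℝ) :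
    Continuous fun p : Sp d × Sp d => Adj.surr V s ws ρ lam p.1 p.2 := by
  have h : ∀ t, Continuous (smth 1 t V) := fun t =>
    (LipschitzWith.of_dist_le_mul (K := L.toNNReal) fun x y => by
      rw [dist_eq_norm, dist_eq_norm]
      exact (Adj.norm_smth_sub hV hb t x y).trans
        (mul_le_mul_of_nonneg_right (le_coe_toNNReal L) (norm_nonneg _))).continuous
  refine continuous_finsetSum (ι := μ) _ fun m _ => Continuous.const_smul ?_ (ws m / (lam * s))
  exact (h (s * √(1 - ρ m ^ 2))).comp (f := fun p : Sp d × Sp d => p.1 + (s * ρ m) • p.2)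
    (by fun_prop)

lemma integrable_surr {μ : Type} [Fintype μ] {s : ℝ} (hs : 0 < s) (ws ρ : μ → ℝ) (lam a : ℝ)
    (e g : Sp d) : Integrable (fun z => Adj.surr V s ws ρ lam (a • z + e) g) (gd d) := by
  refine ((integrable_const ‖Adj.surr V s ws ρ lam e g‖).add
    (integrable_norm_gd.const_mul (L * ((∑ m, |ws m|) / |lam| / s * |a|)))).mono'
    ((continuous_surr₂ hV hb s ws ρ lam).comp (f := fun z : Sp d => (a • z + e, g))
      (by fun_prop)).aestronglyMeasurable (ae_of_all _ fun z => ?_)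
  have h := Adj.norm_surr_sub hV hb (lam := lam) hs ws ρ (a • z + e) e g g
  rw [add_sub_cancel_right, norm_smul, Real.norm_eq_abs, sub_self, norm_zero, mul_zero,
    add_zero] at h
  simp only [Pi.add_apply]
  nlinarith [norm_le_insert' (Adj.surr V s ws ρ lam (a • z + e) g) (Adj.surr V s ws ρ lam e g)]

/-- A node averaged over an independent shift is a node of the combined smoothing. -/
lemma integral_nodeJ (a s : ℝ) (p g : Sp d) :
    ∫ z, Adj.nodeJ V s (a • z + p) g ∂gd d =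
      ∫ x, fderiv ℝ V (p + √(a ^ 2 + s ^ 2) • x) g ∂gd d := by
  have hD := hV.continuous_fderiv one_ne_zero
  have hi : Integrable (fun q : Sp d × Sp d => fderiv ℝ V (p + (a • q.1 + s • q.2)) g)
      ((gd d).prod (gd d)) :=
    (integrable_const (L * ‖g‖)).mono'
      (((hD.comp (f := fun q : Sp d × Sp d => p + (a • q.1 + s • q.2)) (by fun_prop)).clm_apply
        continuous_const).aestronglyMeasurable)
      (ae_of_all _ fun q => ((fderiv ℝ V _).le_opNorm g).trans
        (mul_le_mul_of_nonneg_right (hb _) (norm_nonneg _)))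
  have hh : Continuous fun u : Sp d => fderiv ℝ V (p + u) g :=
    (hD.comp (f := fun u : Sp d => p + u) (by fun_prop)).clm_apply continuous_const
  calc ∫ z, Adj.nodeJ V s (a • z + p) g ∂gd d
      = ∫ z, ∫ w, fderiv ℝ V (p + (a • z + s • w)) g ∂gd d ∂gd d := by
        refine integral_congr_ae (ae_of_all _ fun z => ?_)
        simp only [Adj.nodeJ]
        rw [ContinuousLinearMap.integral_apply (Adj.integrable_hess hV hb s _)]
        simp only [show ∀ w : Sp d, a • z + p + s • w = p + (a • z + s • w) from fun w => by abel]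
    _ = ∫ q, fderiv ℝ V (p + (a • q.1 + s • q.2)) g ∂(gd d).prod (gd d) :=
        (integral_prod _ hi).symm
    _ = ∫ u, fderiv ℝ V (p + u) g
          ∂((gd d).prod (gd d)).map fun q : Sp d × Sp d => a • q.1 + s • q.2 :=
        (integral_map (φ := fun q : Sp d × Sp d => a • q.1 + s • q.2) (by fun_prop)
          hh.aestronglyMeasurable).symm
    _ = _ := by
        rw [gauss_combine, integral_map (φ := fun u : Sp d => √(a ^ 2 + s ^ 2) • u)
          (by fun_prop) hh.aestronglyMeasurable]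

/-- The error of one node of the rule. -/
lemma node_err {μ : Type} [Fintype μ] {σ r a v lam : ℝ} (hσ : 0 < σ) (hr : 0 < r)
    (hlam : lam ≠ 0) {ws ρ : μ → ℝ} (hρ : ∀ m, |ρ m| ≤ 1 / 2) (R : ℕ)
    (hw : ∀ k < R + 2, ∑ m, ws m * ρ m ^ k = if k = 1 then lam else 0) {ε : ℝ}
    (hε : (∑ m, |ws m| * (2 * |ρ m|) ^ (R + 2)) / |lam| * √((R + 1).factorial) * L * √d ≤ ε)
    (hra : r ^ 2 + a ^ 2 = 1 - v ^ 2) (c : Sp d) :
    AEStronglyMeasurable (fun t : Sp d × Sp d =>
        (∫ z, Adj.surr V (σ * r) ws ρ lam ((σ * a) • z + (c + (σ * v) • t.1)) t.2 ∂gd d) -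
          pv v (fun z => fderiv ℝ V (c + σ • z) t.2) t.1) ((gd d).prod (gd d)) ∧
      eLpNorm (fun t : Sp d × Sp d =>
        (∫ z, Adj.surr V (σ * r) ws ρ lam ((σ * a) • z + (c + (σ * v) • t.1)) t.2 ∂gd d) -
          pv v (fun z => fderiv ℝ V (c + σ • z) t.2) t.1) 2 ((gd d).prod (gd d)) ≤
        ENNReal.ofReal ε := by
  set e : Sp d → Sp d → Sp d := fun z W => (σ * a) • z + (c + (σ * v) • W)
  set F : Sp d × (Sp d × Sp d) → Sp d := fun p =>
    Adj.surr V (σ * r) ws ρ lam (e p.1 p.2.1) p.2.2 - Adj.nodeJ V (σ * r) (e p.1 p.2.1) p.2.2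
  have hF : Continuous F :=
    ((continuous_surr₂ hV hb (σ * r) ws ρ lam).comp
      (f := fun p : Sp d × (Sp d × Sp d) => (e p.1 p.2.1, p.2.2)) (by fun_prop)).sub
    (((continuous_nodeJ hV hb (σ * r)).comp (f := fun p : Sp d × (Sp d × Sp d) => e p.1 p.2.1)
      (by fun_prop)).clm_apply (continuous_snd.comp continuous_snd))
  have hs := hF.stronglyMeasurable
  have heq : (fun t : Sp d × Sp d =>
      (∫ z, Adj.surr V (σ * r) ws ρ lam ((σ * a) • z + (c + (σ * v) • t.1)) t.2 ∂gd d) -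
        pv v (fun z => fderiv ℝ V (c + σ • z) t.2) t.1) = fun t => ∫ z, F (z, t) ∂gd d := by
    funext t
    have hJ : Integrable (fun z => Adj.nodeJ V (σ * r) (e z t.1) t.2) (gd d) :=
      (integrable_const (L * ‖t.2‖)).mono'
        (((continuous_nodeJ hV hb (σ * r)).comp (f := fun z : Sp d => e z t.1)
          (by fun_prop)).clm_apply continuous_const).aestronglyMeasurable
        (ae_of_all _ fun z => ((Adj.nodeJ V (σ * r) _).le_opNorm _).trans
          (mul_le_mul_of_nonneg_right (Adj.norm_nodeJ_le hb _ _) (norm_nonneg _)))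
    simp only [F]
    rw [integral_sub (integrable_surr hV hb (mul_pos hσ hr) ws ρ lam _ _ _) hJ]
    congr 1
    simp only [e]
    rw [integral_nodeJ hV hb, pv, smth]
    refine integral_congr_ae (ae_of_all _ fun x => ?_)
    simp only
    congr 2
    rw [show (σ * a) ^ 2 + (σ * r) ^ 2 = σ ^ 2 * (1 - v ^ 2) by rw [← hra]; ring,
      Real.sqrt_mul (sq_nonneg _), Real.sqrt_sq hσ.le, smul_add, smul_smul, smul_smul, add_assoc]
  rw [heq]
  refine ⟨(hs.integral_prod_left' (μ := gd d)).aestronglyMeasurable,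
    (Adj.eLpNorm_integral_le (h := F) hs).trans (Adj.eLpNorm_prod_le hs fun z => ?_)⟩
  refine Adj.eLpNorm_prod_le (hF.comp (f := fun t : Sp d × Sp d => (z, t))
    (by fun_prop)).stronglyMeasurable fun W => ?_
  exact (Adj.eLpNorm_surr_sub hV hb (mul_pos hσ hr) hlam hρ R hw (e z W)).trans
    (ENNReal.ofReal_le_ofReal hε)

end Field

lemma surP_eq {n p : ℕ} {σ τ b lam : ℝ} (hτ : τ < 1) (wq v : Fin n → ℝ) (ws vs : Fin p → ℝ)
    (V : Sp d → Sp d) (c W g : Sp d) :
    surP σ τ b lam wq v ws vs V c (c + (σ * √(1 - τ)) • W) g =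
      (σ / b) • ∑ j, wq j • ∫ z, Adj.surr V (σ * rest τ (v j)) ws (fun m => lam * vs m) lam
        ((σ * ((1 - uu τ (v j)) / 2)) • z + (c + (σ * v j) • W)) g ∂gd d := by
  simp only [surP]
  congr 1
  refine Finset.sum_congr rfl fun j _ => ?_
  congr 1
  refine integral_congr_ae (ae_of_all _ fun z => ?_)
  simp only
  congr 1
  have h : uu τ (v j) * √(1 - τ) = v j :=
    div_mul_cancel₀ _ (Real.sqrt_ne_zero'.2 (by linarith))
  rw [show σ * v j = uu τ (v j) * (σ * √(1 - τ)) by rw [mul_left_comm, h]]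
  module

/-- The surrogate moves linearly with the centre, the point and the vector. -/
lemma norm_surP_sub_le {n p : ℕ} {σ τ b lam L : ℝ} {wq v : Fin n → ℝ} {ws vs : Fin p → ℝ}
    {V : Sp d → Sp d} (hV : IsField L V) (hL : 0 ≤ L) (hσ : 0 < σ) (hb : 0 < b) (hlam : 0 < lam)
    (hlam1 : lam ≤ 1) (hτ : 0 < τ) (hτ1 : τ < 1) (hvs : ∀ m, |vs m| ≤ 1)
    (hv : ∀ j, |v j| ≤ 1) (hr : ∀ j, √τ / 2 ≤ rest τ (v j)) (c W g c' W' g' : Sp d) :
    ‖surP σ τ b lam wq v ws vs V c (c + (σ * √(1 - τ)) • W) g -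
        surP σ τ b lam wq v ws vs V c' (c' + (σ * √(1 - τ)) • W') g'‖ ≤
      2 * (∑ j, |wq j|) * (∑ m, |ws m|) * (σ * L / (b * lam * √τ)) *
        (‖c - c'‖ / σ + ‖W - W'‖ + ‖g - g'‖) := by
  have hst : 0 < √τ := Real.sqrt_pos.2 hτ
  set Wm := ∑ m, |ws m|
  have hWm : 0 ≤ Wm := Finset.sum_nonneg fun _ _ => abs_nonneg _
  rw [surP_eq hτ1, surP_eq hτ1, ← smul_sub, ← Finset.sum_sub_distrib, norm_smul, Real.norm_eq_abs,
    abs_of_pos (div_pos hσ hb)]
  have hj : ∀ j, ‖wq j • (∫ z, Adj.surr V (σ * rest τ (v j)) ws (fun m => lam * vs m) lam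
        ((σ * ((1 - uu τ (v j)) / 2)) • z + (c + (σ * v j) • W)) g ∂gd d) -
      wq j • ∫ z, Adj.surr V (σ * rest τ (v j)) ws (fun m => lam * vs m) lam
        ((σ * ((1 - uu τ (v j)) / 2)) • z + (c' + (σ * v j) • W')) g' ∂gd d‖ ≤
      |wq j| * (2 * L * Wm / (lam * √τ) * (‖c - c'‖ / σ + ‖W - W'‖ + ‖g - g'‖)) := fun j => by
    have hr' : 0 < σ * rest τ (v j) := mul_pos hσ (lt_of_lt_of_le (by positivity) (hr j))
    rw [← smul_sub, norm_smul, Real.norm_eq_abs,
      ← integral_sub (integrable_surr hV.smooth hV.bound hr' _ _ _ _ _ _)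
        (integrable_surr hV.smooth hV.bound hr' _ _ _ _ _ _)]
    refine mul_le_mul_of_nonneg_left ((norm_integral_le_of_norm_le_const (C := L *
      (Wm / lam / (σ * rest τ (v j)) * ‖c + (σ * v j) • W - (c' + (σ * v j) • W')‖ +
        (∑ m, |ws m| * |lam * vs m|) / lam * ‖g - g'‖)) (ae_of_all _ fun z => ?_)).trans ?_)
      (abs_nonneg _)
    · have hn := Adj.norm_surr_sub hV.smooth hV.bound (lam := lam) hr' ws (fun m => lam * vs m)
        ((σ * ((1 - uu τ (v j)) / 2)) • z + (c + (σ * v j) • W))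
        ((σ * ((1 - uu τ (v j)) / 2)) • z + (c' + (σ * v j) • W')) g g'
      simpa only [abs_of_pos hlam, add_sub_add_left_eq_sub] using hn
    rw [probReal_univ, mul_one]
    have e : c + (σ * v j) • W - (c' + (σ * v j) • W') = c - c' + (σ * v j) • (W - W') := by module
    have h1 : ‖c + (σ * v j) • W - (c' + (σ * v j) • W')‖ ≤ σ * (‖c - c'‖ / σ + ‖W - W'‖) := by
      rw [e, mul_add, mul_div_cancel₀ _ hσ.ne']
      refine (norm_add_le _ _).trans (add_le_add le_rfl ?_)
      rw [norm_smul, Real.norm_eq_abs, abs_mul, abs_of_pos hσ]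
      exact mul_le_mul_of_nonneg_right (mul_le_of_le_one_right hσ.le (hv j)) (norm_nonneg _)
    have h2 : Wm / lam / (σ * rest τ (v j)) ≤ Wm / lam / (σ * (√τ / 2)) :=
      div_le_div_of_nonneg_left (by positivity) (by positivity)
        (mul_le_mul_of_nonneg_left (hr j) hσ.le)
    have h3 : (∑ m, |ws m| * |lam * vs m|) / lam ≤ Wm := by
      rw [div_le_iff₀ hlam, Finset.sum_mul]
      refine Finset.sum_le_sum fun m _ => mul_le_mul_of_nonneg_left ?_ (abs_nonneg _)
      rw [abs_mul, abs_of_pos hlam]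
      exact mul_le_of_le_one_right hlam.le (hvs m)
    have h4 : Wm ≤ 2 * Wm / (lam * √τ) := by
      rw [le_div_iff₀ (by positivity)]
      have h5 : lam * √τ ≤ 1 := mul_le_one₀ hlam1 hst.le (Real.sqrt_le_one.2 (by linarith))
      nlinarith
    calc L * (Wm / lam / (σ * rest τ (v j)) * ‖c + (σ * v j) • W - (c' + (σ * v j) • W')‖ +
          (∑ m, |ws m| * |lam * vs m|) / lam * ‖g - g'‖)
        ≤ L * (Wm / lam / (σ * (√τ / 2)) * (σ * (‖c - c'‖ / σ + ‖W - W'‖)) +
            2 * Wm / (lam * √τ) * ‖g - g'‖) := by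
          refine mul_le_mul_of_nonneg_left (add_le_add (mul_le_mul h2 h1 (norm_nonneg _)
            (by positivity)) (mul_le_mul_of_nonneg_right (h3.trans h4) (norm_nonneg _))) hL
      _ = _ := by field_simp
  refine (mul_le_mul_of_nonneg_left ((norm_sum_le _ _).trans (Finset.sum_le_sum fun j _ => hj j))
    (div_pos hσ hb).le).trans_eq ?_
  rw [← Finset.sum_mul]
  field_simp

/-- **The surrogate of a node.** -/
theorem node_surr (N : ℕ) {θ : ℝ} (hθ : 0 < θ) :
    ∃ (C η₀ : ℝ) (ws vs : Fin (N + 2) → ℝ), 1 ≤ C ∧ 0 < η₀ ∧ η₀ ≤ 1 ∧ ∑ m, |ws m| ≤ C ∧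
      (∀ m, |vs m| ≤ 1) ∧ ∀ η τ : ℝ, 0 < η → η ≤ η₀ → η ≤ τ → τ ≤ 1 / 2 →
      ∃ (n : ℕ) (wq v : Fin n → ℝ), (n : ℝ) ≤ C * η ^ (-θ) ∧ ∑ j, |wq j| ≤ C ∧
        (∀ j, |uu τ (v j)| ≤ 2 ∧ √τ / 2 ≤ rest τ (v j) ∧ rest τ (v j) ≤ 1) ∧
        ∀ (d : ℕ) (V : Sp d → Sp d) (L σ b lam : ℝ) (c : Sp d), IsField L V → 0 ≤ L → 0 < σ →
          0 < b → 0 < lam → lam ≤ 1 / 2 →
          (∀ w g w' g' : Sp d,
            ‖surP σ τ b lam wq v ws vs V c (c + (σ * √(1 - τ)) • w) g -
              surP σ τ b lam wq v ws vs V c (c + (σ * √(1 - τ)) • w') g'‖ ≤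
              C * (σ * L / (b * lam * √τ)) * (‖w - w'‖ + ‖g - g'‖)) ∧
          eLpNorm (fun t : Sp d × Sp d =>
              surP σ τ b lam wq v ws vs V c (c + (σ * √(1 - τ)) • t.1) t.2 -
                EmFlow.grad σ τ b V c t.1 t.2) 2 ((gd d).prod (gd d)) ≤
            ENNReal.ofReal (C * (σ * L / b) * (η ^ N + lam ^ (N + 1)) * √d) ∧
          Continuous fun p : Sp d × Sp d × Sp d =>
            surP σ τ b lam wq v ws vs V p.1 (p.1 + (σ * √(1 - τ)) • p.2.1) p.2.2 := by
  obtain ⟨ws, vs, Cs, hCs, hws, hvs, hwts⟩ := Adj.exists_surr_weights N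
  obtain ⟨Cm, η₁, hCm, hη₁, hrule⟩ := mehler_rule N 2 hθ
  set C := 1 + Cm + Cs + 2 * Cm * Cs + Cm * Cs * √((N + 1).factorial)
  have hf : 0 ≤ Cm * Cs * √((N + 1).factorial : ℝ) := by positivity
  have hCC : 0 ≤ 2 * Cm * Cs := by positivity
  refine ⟨C, min η₁ (1 / 2), ws, vs, by simp only [C]; linarith, lt_min hη₁ (by norm_num),
    (min_le_right _ _).trans (by norm_num), hws.trans (by simp only [C]; linarith), hvs,
    fun η τ hη hη0 hητ hτ2 => ?_⟩
  have hτ : 0 < τ := hη.trans_le hητ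
  set ρ := √(1 - τ) with hρ
  have hρ2 : ρ ^ 2 = 1 - τ := Real.sq_sqrt (by linarith)
  have hρ0 : 0 ≤ ρ := Real.sqrt_nonneg _
  have hρh : 1 / 2 ≤ ρ := by nlinarith
  have hρ1 : ρ < 1 := by nlinarith
  have hρτ : η ^ 2 ≤ 1 - ρ := by nlinarith [hη0.trans (min_le_right _ _)]
  obtain ⟨n, wq, v, hn, hwq, hv, hquad⟩ :=
    hrule η ρ hη (hη0.trans (min_le_left _ _)) hρh hρ1 hρτ
  have hb' := fun j => rest_bounds hτ hτ2 (hv j).1 (hv j).2
  have hv1 : ∀ j, |v j| ≤ 1 := fun j => by
    rw [abs_of_nonneg (hv j).1]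
    exact (hv j).2.trans (Real.sqrt_le_one.2 hρ1.le)
  refine ⟨n, wq, v, hn.trans (mul_le_mul_of_nonneg_right (by simp only [C]; linarith)
    (rpow_nonneg hη.le _)), hwq.trans (by simp only [C]; linarith),
    fun j => ⟨(hb' j).1, (hb' j).2.1, (hb' j).2.2.1⟩, ?_⟩
  intro d V L σ b lam c hV hL hσ hb hlam hlam2
  obtain ⟨hρm, hmom, herr, -⟩ := hwts lam hlam hlam2
  have hlip := fun c' W g c'' W' g' => norm_surP_sub_le (wq := wq) (v := v) (ws := ws) (vs := vs)
    hV hL hσ hb hlam (by linarith) hτ (by linarith) hvs hv1 (fun j => (hb' j).2.1)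
    c' W g c'' W' g'
  have hK : 0 ≤ σ * L / (b * lam * √τ) := by positivity
  have hsum : 2 * (∑ j, |wq j|) * (∑ m, |ws m|) ≤ C := by
    refine le_trans (mul_le_mul (mul_le_mul_of_nonneg_left hwq zero_le_two) hws
      (Finset.sum_nonneg fun _ _ => abs_nonneg _) (by positivity)) (by simp only [C]; linarith)
  refine ⟨fun w g w' g' => (hlip c w g c w' g').trans ?_, ?_, ?_⟩
  · rw [sub_self, norm_zero, zero_div, zero_add]
    exact mul_le_mul_of_nonneg_right (mul_le_mul_of_nonneg_right hsum hK) (by positivity)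
  · set εs := (∑ m, |ws m| * (2 * |lam * vs m|) ^ (N + 2)) / |lam| * √((N + 1).factorial) * L * √d
      with hεs
    set T : Sp d → Sp d → Sp d := fun g z => fderiv ℝ V (c + σ • z) g
    have hTc : Continuous fun p : Sp d × Sp d => T p.1 p.2 :=
      ((hV.smooth.continuous_fderiv one_ne_zero).comp (f := fun p : Sp d × Sp d => c + σ • p.2)
        (by fun_prop)).clm_apply continuous_fst
    obtain ⟨hQm, hQ⟩ := Level.rule_err hTc hL (εq := Cm * η ^ N) (by positivity)
      (fun g z => ((fderiv ℝ V _).le_opNorm g).trans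
        (mul_le_mul_of_nonneg_right (hV.bound _) (norm_nonneg _)))
      (w := wq) (u := v) hρ0 (fun k hk M hM => hquad d k hk M hM)
    have hD := fun j => node_err hV.smooth hV.bound hσ
      (lt_of_lt_of_le (by positivity) (hb' j).2.1) hlam.ne' hρm N hmom (ε := εs) le_rfl
      (hb' j).2.2.2 c
    set D : Fin n → Sp d × Sp d → Sp d := fun j t =>
      (∫ z, Adj.surr V (σ * rest τ (v j)) ws (fun m => lam * vs m) lam
        ((σ * ((1 - uu τ (v j)) / 2)) • z + (c + (σ * v j) • t.1)) t.2 ∂gd d) -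
        pv (v j) (fun z => fderiv ℝ V (c + σ • z) t.2) t.1
    set Q : Sp d × Sp d → Sp d := fun t => qflow wq v (T t.2) t.1 - Quarter.flow ρ (T t.2) t.1
    have hadj : ∀ y, adjoint (fderiv ℝ V y) = fderiv ℝ V y := fun y =>
      ContinuousLinearMap.ext fun u => ext_inner_right ℝ fun x => by
        rw [ContinuousLinearMap.adjoint_inner_left, hV.sym]
    have e : (fun t : Sp d × Sp d => surP σ τ b lam wq v ws vs V c (c + (σ * ρ) • t.1) t.2 -
        EmFlow.grad σ τ b V c t.1 t.2) = (σ / b) • ((fun t => ∑ j, wq j • D j t) + Q) := by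
      funext t
      rw [hρ, surP_eq (by linarith)]
      simp only [EmFlow.grad, hadj, Pi.smul_apply, Pi.add_apply, D, Q, T, qflow, ← hρ,
        ← smul_sub]
      congr 1
      simp only [smul_sub, Finset.sum_sub_distrib]
      abel
    have hs : AEStronglyMeasurable (fun t => ∑ j, wq j • D j t) ((gd d).prod (gd d)) :=
      Finset.aestronglyMeasurable_fun_sum Finset.univ fun j _ => (hD j).1.const_smul (wq j)
    rw [e, eLpNorm_const_smul, Adj.ofReal_abs, abs_of_pos (div_pos hσ hb)]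
    refine (mul_le_mul' le_rfl ((eLpNorm_add_le hs hQm one_le_two).trans
      (add_le_add (Adj.eLpNorm_sum_smul_le wq (fun j => (hD j).1) fun j => (hD j).2) hQ))).trans ?_
    rw [← ENNReal.ofReal_add (by positivity) (by positivity),
      ← ENNReal.ofReal_mul (div_pos hσ hb).le]
    refine ENNReal.ofReal_le_ofReal ?_
    have h1 : (∑ j, |wq j|) * εs ≤ C * lam ^ (N + 1) * L * √d := by
      rw [hεs]
      calc (∑ j, |wq j|) * ((∑ m, |ws m| * (2 * |lam * vs m|) ^ (N + 2)) / |lam| *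
            √((N + 1).factorial) * L * √d)
          ≤ Cm * (Cs * lam ^ (N + 1) * √((N + 1).factorial) * L * √d) := by
            gcongr
        _ = Cm * Cs * √((N + 1).factorial) * (lam ^ (N + 1) * L * √d) := by ring
        _ ≤ C * (lam ^ (N + 1) * L * √d) :=
            mul_le_mul_of_nonneg_right (by simp only [C]; linarith) (by positivity)
        _ = _ := by ring
    have h2 : Cm * η ^ N * L * √d ≤ C * η ^ N * L * √d := by
      have : Cm ≤ C := by simp only [C]; linarith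
      gcongr
    refine (mul_le_mul_of_nonneg_left (add_le_add h1 h2) (div_pos hσ hb).le).trans_eq ?_
    ring
  · set K := 2 * (∑ j, |wq j|) * (∑ m, |ws m|) * (σ * L / (b * lam * √τ)) with hK'
    refine (LipschitzWith.of_dist_le_mul (K := (K * (σ⁻¹ + 2)).toNNReal) fun p q => ?_).continuous
    rw [dist_eq_norm, Real.coe_toNNReal _ (by positivity), dist_eq_norm, mul_assoc]
    refine (hlip p.1 p.2.1 p.2.2 q.1 q.2.1 q.2.2).trans
      (mul_le_mul_of_nonneg_left ?_ (by positivity))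
    have h1 : ‖p.1 - q.1‖ ≤ ‖p - q‖ := norm_fst_le (p - q)
    have h2 : ‖p.2.1 - q.2.1‖ ≤ ‖p - q‖ := (norm_fst_le (p - q).2).trans (norm_snd_le (p - q))
    have h3 : ‖p.2.2 - q.2.2‖ ≤ ‖p - q‖ := (norm_snd_le (p - q).2).trans (norm_snd_le (p - q))
    rw [div_eq_inv_mul]
    nlinarith [mul_le_mul_of_nonneg_left h1 (inv_pos.2 hσ).le]

/-- A smoothing split between a half-scale shift and the rest. -/
theorem smth_split {L σ : ℝ} {V : Sp d → Sp d} (hV : IsField L V) (hσ : 0 < σ) (c : Sp d) :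
    smth 1 σ V c =
      ∫ z, smth 1 (σ * √3 / 2) V ((σ / 2) • (z + (2 / σ) • c)) ∂gd d := by
  set a := σ / 2 with ha
  set s := σ * √3 / 2 with hs
  have has : √(a ^ 2 + s ^ 2) = σ := by
    rw [show a ^ 2 + s ^ 2 = σ ^ 2 by
      simp only [ha, hs, div_pow, mul_pow, Real.sq_sqrt (show (0 : ℝ) ≤ 3 by norm_num)]; ring]
    exact Real.sqrt_sq hσ.le
  have hh : Continuous fun u : Sp d => V (c + u) := hV.smooth.continuous.comp (by fun_prop)
  have hi : Integrable (fun q : Sp d × Sp d => V (c + (a • q.1 + s • q.2)))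
      ((gd d).prod (gd d)) := by
    refine ((integrable_const ‖V c‖).add
      (((integrable_norm_gd.comp_fst (gd d)).const_mul (L * |a|)).add
        ((integrable_norm_gd.comp_snd (gd d)).const_mul (L * |s|)))).mono'
      (hh.comp (f := fun q : Sp d × Sp d => a • q.1 + s • q.2)
        (by fun_prop)).aestronglyMeasurable (ae_of_all _ fun q => ?_)
    have h := Adj.norm_field_sub hV.smooth hV.bound (c + (a • q.1 + s • q.2)) c
    rw [add_sub_cancel_left] at h
    have h2 := norm_add_le (a • q.1) (s • q.2)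
    rw [norm_smul, norm_smul, Real.norm_eq_abs, Real.norm_eq_abs] at h2
    simp only [Pi.add_apply]
    nlinarith [norm_le_insert' (V (c + (a • q.1 + s • q.2))) (V c),
      mul_le_mul_of_nonneg_left h2 ((norm_nonneg _).trans (hV.bound 0))]
  symm
  calc ∫ z, smth 1 s V (a • (z + (2 / σ) • c)) ∂gd d
      = ∫ z, ∫ w, V (c + (a • z + s • w)) ∂gd d ∂gd d := by
        have h2 : a * (2 / σ) = 1 := by rw [ha]; field_simp
        simp only [smth, one_smul, smul_add, smul_smul, h2, one_mul]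
        simp only [show ∀ z w : Sp d, a • z + c + s • w = c + (a • z + s • w) from
          fun z w => by abel]
    _ = ∫ q, V (c + (a • q.1 + s • q.2)) ∂(gd d).prod (gd d) := (integral_prod _ hi).symm
    _ = ∫ u, V (c + u) ∂((gd d).prod (gd d)).map fun q : Sp d × Sp d => a • q.1 + s • q.2 :=
        (integral_map (φ := fun q : Sp d × Sp d => a • q.1 + s • q.2) (by fun_prop)
          hh.aestronglyMeasurable).symm
    _ = smth 1 σ V c := by
        rw [gauss_combine, has, integral_map (φ := fun u : Sp d => σ • u)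
          (by fun_prop) hh.aestronglyMeasurable]
        simp only [smth, one_smul]

end Vale.Agent.P347.Shift.Node
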