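import Vale.Agent.P347.Shift.NodeExpr
import Vale.Agent.P347.Shift.SyntaxCen
import Vale.Agent.P347.Shift.NodeSurr

/-!
# P347: values and node centres of the rounds of one emission step of a node

The rounds as expressions are the Picard rounds of `EmFlow`, and their values and centres are at
most a constant times the point, the centre and the second block.
-/

open MeasureTheory ProbabilityTheory Real Finset
open scoped RealInnerProductSpace

namespace Vale.Agent.P347.Shift.Node

open Quarter
open Expr (esum)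

/-- The parameters of a step, from the nodes in time. -/
noncomputable def mkPar {n p : ℕ} (σ τ b lam : ℝ) (wq v : Fin n → ℝ) (ws vs : Fin p → ℝ) :
    Par n p :=
  ⟨σ, τ, b, lam, wq, fun j => uu τ (v j), fun j => rest τ (v j), ws, vs⟩

variable {d n p r m : ℕ} {σ τ b lam : ℝ} {wq v : Fin n → ℝ} {ws vs : Fin p → ℝ}
  {V : Sp d → Sp d} {c : Sp d}

lemma eval_surE (hσ : σ ≠ 0) (Y G : Expr Unit 1 m) (x : Fin m → Sp d) :
    (surE (mkPar σ τ b lam wq v ws vs) Y G).eval (fun _ => V) (fun _ => c) x =
      surP σ τ b lam wq v ws vs V c (Y.eval (fun _ => V) (fun _ => c) x)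
        (G.eval (fun _ => V) (fun _ => c) x) := by
  have h : ∀ (u : ℝ) (z : Sp d),
      ((1 - u) * σ / 2) • (z + (2 / σ) • c) = ((1 - u) * σ / 2) • z + (1 - u) • c := fun u z => by
    rw [smul_add, smul_smul]
    congr 2
    field_simp
  simp only [surE, surP, mkPar, Expr.eval, Expr.eval_esum, ctrE, Expr.eval_ren, Par.C₀,
    Fin.sum_univ_one, Fin.cons_zero, Function.comp_def, Fin.cons_succ, Adj.surr, h]

lemma eval_meanE {L : ℝ} (hV : IsField L V) (hσ : 0 < σ) (x : Fin m → Sp d) :
    (meanE (mkPar σ τ b lam wq v ws vs)).eval (fun _ => V) (fun _ => c) x = smth 1 σ V c := by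
  simp only [meanE, mkPar, Expr.eval, Par.C₀, Fin.sum_univ_one, Fin.cons_zero]
  exact (smth_split hV hσ c).symm

lemma fstB_jn (w g : Sp d) : fstB (EmFlow.jn w g) = w := by
  ext a; simp [EmFlow.jn, fstB_apply]

lemma sndB_jn (w g : Sp d) : sndB (EmFlow.jn w g) = g := by
  ext a; simp [EmFlow.jn, sndB_apply]

lemma jn_add (w g w' g' : Sp d) :
    EmFlow.jn (w + w') (g + g') = EmFlow.jn w g + EmFlow.jn w' g' := by
  ext i; rcases i with a | a <;> simp [EmFlow.jn]

lemma jn_smul (t : ℝ) (w g : Sp d) : t • EmFlow.jn w g = EmFlow.jn (t • w) (t • g) := by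
  ext i; rcases i with a | a <;> simp [EmFlow.jn]

lemma jn_sum {ι : Type} (s : Finset ι) (w g : ι → Sp d) :
    ∑ i ∈ s, EmFlow.jn (w i) (g i) = EmFlow.jn (∑ i ∈ s, w i) (∑ i ∈ s, g i) := by
  classical
  induction s using Finset.induction_on with
  | empty => ext i; rcases i with a | a <;> simp [EmFlow.jn]
  | insert a s ha ih => rw [sum_insert ha, sum_insert ha, sum_insert ha, ih, jn_add]

/-- The surrogate at the point `c + σ √(1 - τ) w`. -/
noncomputable def surW (σ τ b lam : ℝ) (wq v : Fin n → ℝ) (ws vs : Fin p → ℝ)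
    (V : Sp d → Sp d) (c w g : Sp d) : Sp d :=
  surP σ τ b lam wq v ws vs V c (c + (σ * √(1 - τ)) • w) g

/-- The rounds as expressions are those of the flow. -/
theorem eval_roundE {L : ℝ} (hV : IsField L V) (hσ : 0 < σ) (hτ : τ < 1) (y g : Sp d) :
    ∀ (k : ℕ) (i : Fin (r + 1)),
      EmFlow.pic r (EmFlow.sur σ τ b V c (surW σ τ b lam wq v ws vs V c)) k
          (EmFlow.jn ((σ * √(1 - τ))⁻¹ • (y - c)) g) i =
        EmFlow.jn ((σ * √(1 - τ))⁻¹ • (y - c + (roundE (mkPar σ τ b lam wq v ws vs)
            (fun i j => FlowStep.colw r (Quad.node (r + 1) i) j) k i).1.eval (fun _ => V)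
              (fun _ => c) ![σ⁻¹ • y, g]))
          (g + (roundE (mkPar σ τ b lam wq v ws vs)
            (fun i j => FlowStep.colw r (Quad.node (r + 1) i) j) k i).2.eval (fun _ => V)
              (fun _ => c) ![σ⁻¹ • y, g]) := by
  set a := σ * √(1 - τ) with ha
  have ha0 : a ≠ 0 := (mul_pos hσ (sqrt_pos.2 (by linarith))).ne'
  intro k
  induction k with
  | zero => intro i; simp [EmFlow.pic, roundE, Expr.eval]
  | succ k ih =>
    intro i
    have e : ∀ j, EmFlow.sur σ τ b V c (surW σ τ b lam wq v ws vs V c)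
        (EmFlow.pic r (EmFlow.sur σ τ b V c (surW σ τ b lam wq v ws vs V c)) k
          (EmFlow.jn (a⁻¹ • (y - c)) g) j) = EmFlow.jn
        (-((surE (mkPar σ τ b lam wq v ws vs)
          (yE (mkPar σ τ b lam wq v ws vs) (roundE (mkPar σ τ b lam wq v ws vs)
            (fun i j => FlowStep.colw r (Quad.node (r + 1) i) j) k j).1)
          (gE (roundE (mkPar σ τ b lam wq v ws vs)
            (fun i j => FlowStep.colw r (Quad.node (r + 1) i) j) k j).2)).eval (fun _ => V)
              (fun _ => c) ![σ⁻¹ • y, g]))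
        ((Expr.smul b⁻¹ (.add (.node () (σ * √τ) (yE (mkPar σ τ b lam wq v ws vs)
          (roundE (mkPar σ τ b lam wq v ws vs)
            (fun i j => FlowStep.colw r (Quad.node (r + 1) i) j) k j).1))
          (.smul (-1) (meanE (mkPar σ τ b lam wq v ws vs))))).eval (fun _ => V)
            (fun _ => c) ![σ⁻¹ • y, g]) := fun j => by
      rw [ih j, eval_surE hσ.ne']
      have hc : ∀ D : Sp d, c + a • (a⁻¹ • (y - c + D)) = σ • (σ⁻¹ • y) + D := fun D => by
        rw [smul_smul, smul_smul, mul_inv_cancel₀ ha0, mul_inv_cancel₀ hσ.ne', one_smul, one_smul]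
        abel
      simp only [EmFlow.sur, fstB_jn, sndB_jn, surW]
      rw [← ha, hc]
      simp only [Expr.eval, eval_meanE hV hσ, EmFlow.fb, yE,
        gE, Matrix.cons_val_zero, Matrix.cons_val_one, Matrix.head_cons, ← ha,
        show (mkPar σ τ b lam wq v ws vs).σ = σ from rfl, neg_smul, one_smul, sub_eq_add_neg]
    simp only [EmFlow.pic, e, jn_smul, jn_sum, ← jn_add, roundE, Expr.eval_esum, Expr.eval,
      smul_sum, smul_add, smul_smul, smul_neg]
    simp only [show (mkPar σ τ b lam wq v ws vs).σ = σ from rfl,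
      show (mkPar σ τ b lam wq v ws vs).τ = τ from rfl,
      show (mkPar σ τ b lam wq v ws vs).b = b from rfl, ← ha]
    congr 2
    · refine Finset.sum_congr rfl fun j _ => ?_
      rw [← neg_smul]
      congr 1
      field_simp
    · simp only [mul_assoc]

/-- The first variable of an iterate. -/
theorem iter_eq {L : ℝ} (hV : IsField L V) (hσ : 0 < σ) (hτ : τ < 1) (k : ℕ) (i : Fin (r + 1))
    (y g : Sp d) :
    EmFlow.iter r k σ τ b V c (surW σ τ b lam wq v ws vs V c) i (y, g) =
      y + (roundE (mkPar σ τ b lam wq v ws vs)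
        (fun i j => FlowStep.colw r (Quad.node (r + 1) i) j) k i).1.eval (fun _ => V)
          (fun _ => c) ![σ⁻¹ • y, g] := by
  rw [EmFlow.iter, eval_roundE hV hσ hτ y g k i, fstB_jn, smul_smul, mul_inv_cancel₀
    (mul_pos hσ (sqrt_pos.2 (by linarith))).ne', one_smul]
  abel

/-! ### Bounds -/

variable {L W K : ℝ}

/-- The values of a smoothed field. -/
lemma norm_smth_le (hV : IsField L V) (hL : 0 ≤ L) (s : ℝ) (x : Sp d) :
    ‖smth 1 s V x‖ ≤ L * ((1 + |s|) * √d + ‖x‖) := by
  simp only [smth, one_smul]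
  have hw : Integrable (fun w : Sp d => L * (√d + ‖x‖) + L * |s| * ‖w‖) (gd d) :=
    (integrable_const _).add (integrable_norm_gd.const_mul _)
  refine (norm_integral_le_of_norm_le hw (ae_of_all _ fun w => ?_)).trans ?_
  · have h1 := Adj.norm_field_sub hV.smooth hV.bound (x + s • w) 0
    have h2 := norm_le_norm_add_norm_sub' (V (x + s • w)) (V 0)
    have h3 : ‖x + s • w‖ ≤ ‖x‖ + |s| * ‖w‖ :=
      (norm_add_le _ _).trans_eq (by rw [norm_smul, norm_eq_abs])
    rw [sub_zero] at h1
    have := mul_le_mul_of_nonneg_left h3 hL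
    linarith [hV.zero]
  · rw [integral_add (integrable_const _) (integrable_norm_gd.const_mul _), integral_const,
      integral_const_mul, probReal_univ, one_smul]
    have := mul_le_mul_of_nonneg_left (MeanPt.integral_norm_le (d := d)) (mul_nonneg hL (abs_nonneg s))
    linarith

lemma cen_esum_le {κ : Type} {J k : ℕ} (U : κ → Sp d → Sp d) (c' : Fin J → Sp d)
    (x : Fin k → Sp d) {M : ℝ} (hM : 0 ≤ M) : ∀ {q : ℕ} {f : Fin q → Expr κ J k},
      (∀ j, (f j).cen U c' x ≤ M) → (esum f).cen U c' x ≤ M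
  | 0, _, _ => hM
  | _ + 1, _, h => max_le (h 0) (cen_esum_le U c' x hM fun j => h j.succ)

/-- One surrogate at bounded points: node centres and value. -/
lemma surE_bound (hP : (mkPar σ τ b lam wq v ws vs).Ok W) (hV : IsField L V) (hL : 0 ≤ L)
    (hK : 1 ≤ K) (hσK : σ ≤ K) {Y G : Expr Unit 1 2} {x : Fin 2 → Sp d} {M : ℝ}
    (hM : √d + ‖c‖ ≤ M)
    (hY : ‖Y.eval (fun _ => V) (fun _ => c) x‖ ≤ 2 * K * M)
    (hG : σ * ‖G.eval (fun _ => V) (fun _ => c) x‖ ≤ 2 * K * M)
    (hYc : Y.cen (fun _ => V) (fun _ => c) x ≤ 9 * K * M)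
    (hGc : G.cen (fun _ => V) (fun _ => c) x ≤ 9 * K * M) :
    (surE (mkPar σ τ b lam wq v ws vs) Y G).cen (fun _ => V) (fun _ => c) x ≤ 9 * K * M ∧
      ‖(surE (mkPar σ τ b lam wq v ws vs) Y G).eval (fun _ => V) (fun _ => c) x‖ ≤
        26 * (W ^ 2 * (L / (b * lam * √τ))) * (K * M) := by
  set P := mkPar σ τ b lam wq v ws vs
  have hσ : 0 < σ := hP.hσ
  have hd : 0 ≤ √(d : ℝ) := sqrt_nonneg _
  have hM0 : 0 ≤ M := le_trans (by positivity) hM
  have hKM : M ≤ K * M := le_mul_of_one_le_left hM0 hK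
  have hcoef : ∀ j l, |σ * P.rest j * (P.lam * P.vs l)| ≤ σ / 2 := fun j l => by
    rw [abs_mul, div_eq_mul_one_div]
    refine mul_le_mul ?_ (hP.rho_le l) (abs_nonneg _) hσ.le
    rw [abs_of_nonneg (mul_nonneg hσ.le (hP.rest_pos j).le)]
    exact mul_le_of_le_one_right hσ.le (hP.hrest j).2
  have h1u : ∀ j, |1 - P.u j| ≤ 3 := fun j => by
    have h := hP.hu j
    rw [abs_le] at h ⊢
    constructor <;> linarith
  have hpt : ∀ j l z, ‖(ctrE P Y G j l).eval (fun _ => V) (fun _ => c)
      (Fin.cons (z + ∑ i, P.C₀ i • c) x)‖ ≤ 8 * K * M + 2 * σ * ‖z‖ := fun j l z => by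
    simp only [ctrE, Expr.eval, Expr.eval_ren, Par.C₀, Fin.sum_univ_one, Fin.cons_zero,
      Function.comp_def, Fin.cons_succ]
    rw [show P.σ = σ from rfl, smul_add, smul_smul,
      show (1 - P.u j) * σ / 2 * (2 / σ) = 1 - P.u j by field_simp]
    refine (norm_add₃_le ..).trans ?_
    refine (add_le_add (add_le_add (norm_add_le _ _) le_rfl) le_rfl).trans ?_
    simp only [norm_smul, norm_eq_abs]
    have t1 : |(1 - P.u j) * σ / 2| ≤ 2 * σ := by
      rw [abs_div, abs_mul, abs_two, abs_of_pos hσ]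
      nlinarith [h1u j]
    have t2 := mul_le_mul (h1u j) (le_add_of_nonneg_left hd |>.trans hM) (norm_nonneg c) (by norm_num)
    have t3 := mul_le_mul (hP.hu j) hY (norm_nonneg _) (by norm_num)
    have t4 := mul_le_mul_of_nonneg_right (hcoef j l) (norm_nonneg (G.eval (fun _ => V) (fun _ => c) x))
    have t5 := mul_le_mul_of_nonneg_right t1 (norm_nonneg z)
    nlinarith
  refine ⟨?_, ?_⟩
  · refine cen_esum_le _ _ _ (by positivity) fun j => cen_esum_le _ _ _ (by positivity) fun l => ?_
    refine max_le ?_ (max_le (max_le (by simp only [Expr.cen]; positivity) ?_) ?_)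
    · have h := hpt j l 0
      rw [zero_add, norm_zero, mul_zero, add_zero] at h
      exact h.trans (by nlinarith)
    · simpa [Expr.cen, Expr.cen_ren, Function.comp_def] using hYc
    · simpa [Expr.cen, Expr.cen_ren, Function.comp_def] using hGc
  · simp only [surE, Expr.eval, Expr.eval_esum]
    have hb := hP.hb
    have hl := hP.hlam
    have hτ := sqrt_pos.2 hP.hτ
    have hW := hP.hW
    have hden : 0 < P.lam * (P.σ * (√P.τ / 2)) := by positivity
    have hin : ∀ j, ‖∫ z, ∑ l, (P.ws l / (P.lam * (P.σ * P.rest j))) •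
        smth 1 (P.σ * P.rest j * √(1 - (P.lam * P.vs l) ^ 2)) V
          ((ctrE P Y G j l).eval (fun _ => V) (fun _ => c) (Fin.cons (z + ∑ i, P.C₀ i • c) x))
          ∂gd d‖ ≤ W / (P.lam * (P.σ * (√P.τ / 2))) * (L * (13 * K * M)) := fun j => by
      have hw : Integrable (fun z : Sp d => W / (P.lam * (P.σ * (√P.τ / 2))) *
          (L * (10 * K * M) + L * (2 * σ) * ‖z‖)) (gd d) :=
        ((integrable_const _).add (integrable_norm_gd.const_mul _)).const_mul _
      refine (norm_integral_le_of_norm_le hw (ae_of_all _ fun z => ?_)).trans ?_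
      · refine (norm_sum_le _ _).trans ((Finset.sum_le_sum (g := fun l =>
          |P.ws l| / (P.lam * (P.σ * (√P.τ / 2))) * (L * (10 * K * M) + L * (2 * σ) * ‖z‖))
          fun l _ => ?_).trans ?_)
        · rw [norm_smul, norm_eq_abs, abs_div,
            abs_of_pos (mul_pos hl (mul_pos hP.hσ (hP.rest_pos j)))]
          refine mul_le_mul (div_le_div_of_nonneg_left (abs_nonneg _) hden
            (mul_le_mul_of_nonneg_left (mul_le_mul_of_nonneg_left (hP.hrest j).1 hP.hσ.le) hl.le))
            ((norm_smth_le hV hL _ _).trans ?_) (norm_nonneg _) (by positivity)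
          have h1 := (hP.node_scale j l).2
          have h2 := hpt j l z
          have h3 : 0 ≤ P.σ * P.rest j * √(1 - (P.lam * P.vs l) ^ 2) := by
            have := hP.rest_pos j; positivity
          rw [abs_of_nonneg h3]
          have h1' : (1 + P.σ * P.rest j * √(1 - (P.lam * P.vs l) ^ 2)) * √d ≤ (2 * K) * M :=
            mul_le_mul (by linarith [show P.σ = σ from rfl])
              (le_add_of_nonneg_right (norm_nonneg c) |>.trans hM) hd (by linarith)
          have := mul_le_mul_of_nonneg_left (add_le_add h1' h2) hL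
          linarith
        · rw [← Finset.sum_mul, ← Finset.sum_div]
          exact mul_le_mul_of_nonneg_right (div_le_div_of_nonneg_right hP.hws hden.le) (by positivity)
      · rw [integral_const_mul, integral_add (integrable_const _)
          (integrable_norm_gd.const_mul _), integral_const, integral_const_mul, probReal_univ,
          one_smul]
        refine mul_le_mul_of_nonneg_left ?_ (by positivity)
        have := mul_le_mul_of_nonneg_left (MeanPt.integral_norm_le (d := d))
          (show 0 ≤ L * (2 * σ) by positivity)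
        have := mul_le_mul_of_nonneg_left (mul_le_mul hσK (le_add_of_nonneg_right (norm_nonneg c) |>.trans hM) hd (by linarith)) hL
        nlinarith
    rw [norm_smul, norm_eq_abs, abs_of_nonneg (div_nonneg hP.hσ.le hb.le)]
    refine (mul_le_mul_of_nonneg_left ((norm_sum_le _ _).trans ((Finset.sum_le_sum fun j _ => ?_).trans
      ((Finset.sum_mul ..).symm.trans_le (mul_le_mul_of_nonneg_right hP.hwq ?_))))
      (div_nonneg hP.hσ.le hb.le)).trans (le_of_eq
        (a := P.σ / P.b * (W * (W / (P.lam * (P.σ * (√P.τ / 2))) * (L * (13 * K * M))))) ?_)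
    · rw [norm_smul, norm_eq_abs]
      exact mul_le_mul_of_nonneg_left (hin j) (abs_nonneg _)
    · positivity
    · simp only [show P.σ = σ from rfl, show P.b = b from rfl, show P.lam = lam from rfl,
        show P.τ = τ from rfl]
      field_simp
      ring

/-- The rounds stay bounded by the data. -/
theorem roundE_bound (hP : (mkPar σ τ b lam wq v ws vs).Ok W) (hV : IsField L V) (hL : 0 ≤ L)
    (hK : 1 ≤ K) (hσK : σ ≤ K) (hsmall : 26 * (W ^ 3 * (σ * L / (b * lam * √τ))) ≤ 1)
    {A : Fin r → Fin r → ℝ} (hA : ∀ i, ∑ j, |A i j| ≤ W) (y g : Sp d) :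
    ∀ (k : ℕ) (i : Fin r),
      (‖(roundE (mkPar σ τ b lam wq v ws vs) A k i).1.eval (fun _ => V) (fun _ => c) ![σ⁻¹ • y, g]‖ ≤
          K * (√d + ‖c‖ + ‖y‖ + ‖g‖) ∧
        (roundE (mkPar σ τ b lam wq v ws vs) A k i).1.cen (fun _ => V) (fun _ => c) ![σ⁻¹ • y, g] ≤
          9 * K * (√d + ‖c‖ + ‖y‖ + ‖g‖)) ∧
      σ * ‖(roundE (mkPar σ τ b lam wq v ws vs) A k i).2.eval (fun _ => V) (fun _ => c) ![σ⁻¹ • y, g]‖ ≤
          K * (√d + ‖c‖ + ‖y‖ + ‖g‖) ∧
        (roundE (mkPar σ τ b lam wq v ws vs) A k i).2.cen (fun _ => V) (fun _ => c) ![σ⁻¹ • y, g] ≤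
          9 * K * (√d + ‖c‖ + ‖y‖ + ‖g‖) := by
  set P := mkPar σ τ b lam wq v ws vs
  have hσ : 0 < σ := hP.hσ
  have hb : 0 < b := hP.hb
  have hl : 0 < lam := hP.hlam
  have hτ : 0 < √τ := sqrt_pos.2 hP.hτ
  have hW := hP.hW
  set M := √d + ‖c‖ + ‖y‖ + ‖g‖ with hM
  have hd : 0 ≤ √(d : ℝ) := sqrt_nonneg _
  have hM0 : 0 ≤ M := by positivity
  have hKM : M ≤ K * M := le_mul_of_one_le_left hM0 hK
  have hcM : √d + ‖c‖ ≤ M := by linarith [norm_nonneg y, norm_nonneg g]
  intro k
  induction k with
  | zero =>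
    intro i
    simp only [roundE, Expr.eval, Expr.cen, norm_zero, mul_zero]
    exact ⟨⟨by positivity, by positivity⟩, by positivity, by positivity⟩
  | succ k ih =>
    intro i
    have hy : ∀ j, ‖(yE P (roundE P A k j).1).eval (fun _ => V) (fun _ => c) ![σ⁻¹ • y, g]‖ ≤
        2 * K * M := fun j => by
      simp only [yE, Expr.eval, Matrix.cons_val_zero, show P.σ = σ from rfl, smul_smul,
        mul_inv_cancel₀ hσ.ne', one_smul]
      refine (norm_add_le _ _).trans ?_
      linarith [(ih j).1.1, norm_nonneg c, norm_nonneg g]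
    have hg : ∀ j, σ * ‖(gE (roundE P A k j).2).eval (fun _ => V) (fun _ => c) ![σ⁻¹ • y, g]‖ ≤
        2 * K * M := fun j => by
      simp only [gE, Expr.eval, Matrix.cons_val_one, Matrix.cons_val_zero]
      refine (mul_le_mul_of_nonneg_left (norm_add_le _ _) hσ.le).trans ?_
      have := mul_le_mul hσK (show ‖g‖ ≤ M by linarith [norm_nonneg c, norm_nonneg y])
        (norm_nonneg _) (by linarith)
      linarith [(ih j).2.1]
    have hs := fun j => surE_bound hP hV hL hK hσK (x := ![σ⁻¹ • y, g]) hcM (hy j) (hg j)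
      (max_le (by simp only [Expr.cen]; positivity) (ih j).1.2)
      (max_le (by simp only [Expr.cen]; positivity) (ih j).2.2)
    set ε := W ^ 3 * (σ * L / (b * lam * √τ)) with hε
    refine ⟨⟨?_, cen_esum_le _ _ _ (by positivity) fun j => (hs j).1⟩, ?_,
      cen_esum_le _ _ _ (by positivity) fun j => ?_⟩
    · simp only [roundE, Expr.eval, Expr.eval_esum]
      refine (norm_sum_le _ _).trans ((Finset.sum_le_sum fun j _ => (norm_smul_le _ _).trans
        (mul_le_mul_of_nonneg_left (hs j).2 (norm_nonneg _))).trans ?_)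
      rw [← Finset.sum_mul]
      have hAs : ∑ j, ‖A i j * -(P.σ * √(1 - P.τ))‖ ≤ W * σ := by
        simp only [norm_eq_abs, abs_mul, abs_neg, ← Finset.sum_mul]
        refine mul_le_mul (hA i) ?_ (by positivity) (by linarith)
        rw [show P.σ = σ from rfl, show P.τ = τ from rfl, abs_of_pos hσ, abs_of_nonneg (sqrt_nonneg _)]
        exact mul_le_of_le_one_right hσ.le (sqrt_le_one.2 (by linarith [hP.hτ, show P.τ = τ from rfl]))
      refine (mul_le_mul_of_nonneg_right hAs (by positivity)).trans ?_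
      calc W * σ * (26 * (W ^ 2 * (L / (b * lam * √τ))) * (K * M)) = 26 * ε * (K * M) := by
              rw [hε]; field_simp
          _ ≤ 1 * (K * M) := mul_le_mul_of_nonneg_right hsmall (by positivity)
          _ = K * M := one_mul _
    · simp only [roundE, Expr.eval, Expr.eval_esum]
      have hj : ∀ j, ‖smth 1 (P.σ * √P.τ) V ((yE P (roundE P A k j).1).eval (fun _ => V) (fun _ => c)
          ![σ⁻¹ • y, g]) + (-1 : ℝ) • (meanE P).eval (fun _ => V) (fun _ => c) ![σ⁻¹ • y, g]‖ ≤
          L * (7 * K * M) := fun j => by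
        rw [eval_meanE hV hσ, show P.σ = σ from rfl, show P.τ = τ from rfl]
        refine (norm_add_le _ _).trans ?_
        rw [norm_smul, norm_neg, norm_one, one_mul]
        refine (add_le_add (norm_smth_le hV hL _ _) (norm_smth_le hV hL _ _)).trans ?_
        have hsq : √τ ≤ 1 := hP.sqrt_tau_le
        rw [abs_of_pos hσ, abs_of_pos (mul_pos hσ hτ), ← mul_add]
        refine mul_le_mul_of_nonneg_left ?_ hL
        have h1 : (1 + σ) * √d ≤ 2 * K * M :=
          mul_le_mul (by linarith) (by linarith [norm_nonneg c]) hd (by linarith)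
        have h2 : (1 + σ * √τ) * √d ≤ 2 * K * M :=
          le_trans (mul_le_mul_of_nonneg_right (by nlinarith) hd) h1
        linarith [hy j, norm_nonneg y, norm_nonneg g]
      refine (mul_le_mul_of_nonneg_left ((norm_sum_le _ _).trans ((Finset.sum_le_sum fun j _ =>
        (norm_smul_le _ _).trans (mul_le_mul_of_nonneg_left (hj j) (norm_nonneg _))).trans_eq
          (Finset.sum_mul ..).symm)) hσ.le).trans ?_
      simp only [norm_eq_abs, abs_mul, abs_inv, show P.b = b from rfl, abs_of_pos hb,
        ← Finset.sum_mul]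
      calc σ * ((∑ j, |A i j|) * b⁻¹ * (L * (7 * K * M))) ≤ σ * (W * b⁻¹ * (L * (7 * K * M))) :=
            mul_le_mul_of_nonneg_left (mul_le_mul_of_nonneg_right
              (mul_le_mul_of_nonneg_right (hA i) (by positivity)) (by positivity)) hσ.le
        _ = 7 * (W * (σ * L / b)) * (K * M) := by field_simp
        _ ≤ 26 * ε * (K * M) := by
            refine mul_le_mul_of_nonneg_right (mul_le_mul (by norm_num) ?_ (by positivity)
              (by norm_num)) (by positivity)
            refine mul_le_mul (le_self_pow₀ hW (by norm_num)) ?_ (by positivity) (by positivity)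
            refine div_le_div_of_nonneg_left (by positivity) (by positivity) ?_
            have h1 : lam * √τ ≤ 1 :=
              mul_le_one₀ (le_trans hP.hlam1 (by norm_num)) hτ.le hP.sqrt_tau_le
            calc b * lam * √τ = b * (lam * √τ) := by ring
              _ ≤ _ := mul_le_of_le_one_right hb.le h1
        _ ≤ 1 * (K * M) := mul_le_mul_of_nonneg_right hsmall (by positivity)
        _ = K * M := one_mul _
    · refine max_le (max_le ((hy j).trans (by nlinarith)) ?_) ?_
      · exact max_le (by simp only [Expr.cen]; positivity) (ih j).1.2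
      · simp only [meanE, Expr.cen, Expr.eval, Par.C₀, Fin.sum_univ_one, Fin.cons_zero,
          show P.σ = σ from rfl, smul_smul, show σ / 2 * (2 / σ) = 1 by field_simp, one_smul]
        exact max_le (by nlinarith [norm_nonneg y, norm_nonneg g]) (by positivity)

end Vale.Agent.P347.Shift.Node
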