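import Vale.Agent.P347.Shift.PtParts
import Vale.Agent.P347.Shift.EmitBase
import Vale.Agent.P347.Quarter.Flow.Deriv

/-!
# P347: the order zero halves of the emission of expressions

At order zero the error allows deviations of the size of one smoothing, so one sample stands for
every Gaussian mean: a node is one box read at a sample of its centre, and a mean is its body read
at one sample of the bound variable.
-/

open MeasureTheory ProbabilityTheory Real Finset
open scoped RealInnerProductSpace ENNReal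

namespace Vale.Agent.P347.Shift

open Vale.Agent.P347.Quarter EmitBase

namespace PtZero

variable {d J : ℕ} {κ : Type} {V : κ → Sp d → Sp d} {η L B R w : ℝ} {sc : κ → ℝ}

lemma norm_field_sub_le {F : Sp d → Sp d} (h : IsField L F) (x y : Sp d) :
    ‖F x - F y‖ ≤ L * ‖x - y‖ :=
  Convex.norm_image_sub_le_of_norm_fderiv_le
    (fun _ _ => (h.smooth.differentiable one_ne_zero).differentiableAt)
    (fun z _ => h.bound z) convex_univ (Set.mem_univ y) (Set.mem_univ x)

lemma integrable_lip {F : Sp d → Sp d} {l : ℝ} (hl : ∀ u v, ‖F u - F v‖ ≤ l * ‖u - v‖) :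
    Integrable F (gd d) := by
  have hc : Continuous F := (LipschitzWith.of_dist_le_mul (K := l.toNNReal) fun u v => by
    rw [dist_eq_norm, dist_eq_norm]
    exact (hl u v).trans (mul_le_mul_of_nonneg_right (le_coe_toNNReal l) (norm_nonneg _))).continuous
  refine ((integrable_const ‖F 0‖).add (integrable_norm_gd.const_mul l)).mono'
    hc.aestronglyMeasurable (ae_of_all _ fun u => ?_)
  have h1 := hl u 0
  rw [sub_zero] at h1
  simp only [Pi.add_apply]
  linarith [norm_le_insert' (F u) (F 0)]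

lemma continuous_smth {F : Sp d → Sp d} (h : IsField L F) (σ : ℝ) (x y : Sp d) :
    ‖smth 1 σ F x - smth 1 σ F y‖ ≤ L * ‖x - y‖ := by
  have hl : ∀ z u v : Sp d, ‖F ((1:ℝ) • z + σ • u) - F ((1:ℝ) • z + σ • v)‖ ≤
      L * |σ| * ‖u - v‖ := fun z u v => by
    refine (norm_field_sub_le h _ _).trans_eq ?_
    rw [add_sub_add_left_eq_sub, ← smul_sub, norm_smul, Real.norm_eq_abs, mul_assoc]
  simp only [smth]
  rw [← integral_sub (integrable_lip (hl x)) (integrable_lip (hl y))]
  refine (norm_integral_le_of_norm_le_const (C := L * ‖x - y‖) (ae_of_all _ fun z => ?_)).trans_eq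
    (by simp)
  refine (norm_field_sub_le h _ _).trans_eq ?_
  simp

lemma sm_nonneg (hL : 0 ≤ L) (hsc : ∀ k, 0 ≤ sc k) :
    ∀ {v : ℕ} (e : Expr κ J v), 0 ≤ e.sm L sc
  | _, .var _ => le_rfl
  | _, .zero => le_rfl
  | _, .add e f => add_nonneg (sm_nonneg hL hsc e) (sm_nonneg hL hsc f)
  | _, .smul _ e => mul_nonneg (abs_nonneg _) (sm_nonneg hL hsc e)
  | _, .node k _ e => mul_nonneg hL (add_nonneg (hsc k) (sm_nonneg hL hsc e))
  | _, .mean _ e => add_nonneg (sm_nonneg hL hsc e) (abs_nonneg _)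

/-- An expression moves with its linear part, up to its size. -/
lemma eval_sub_aff_le (hV : ∀ k, IsField L (V k)) (hL : 0 ≤ L) (hsc : ∀ k, 0 ≤ sc k)
    (c : Fin J → Sp d) : ∀ {v : ℕ} (e : Expr κ J v), e.Good η L sc B R w →
      ∀ x x' : Fin v → Sp d,
        ‖e.eval V c x - e.eval V c x' - ∑ i, e.aff i • (x i - x' i)‖ ≤
          max B 1 * e.sm L sc * ∑ i, ‖x i - x' i‖
  | _, .var j, _, x, x' => by simp [Expr.aff, Expr.eval, Expr.sm, ite_smul]
  | _, .zero, _, x, x' => by simp [Expr.aff, Expr.eval, Expr.sm]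
  | _, .add e f, h, x, x' => by
      simp only [Expr.eval, Expr.aff, Expr.sm, add_smul, sum_add_distrib]
      rw [add_sub_add_comm, add_sub_add_comm, mul_add, add_mul]
      exact (norm_add_le _ _).trans (add_le_add (eval_sub_aff_le hV hL hsc c e h.1 x x')
        (eval_sub_aff_le hV hL hsc c f h.2 x x'))
  | _, .smul t e, h, x, x' => by
      simp only [Expr.eval, Expr.aff, Expr.sm, mul_smul, ← smul_sum, ← smul_sub]
      rw [norm_smul, Real.norm_eq_abs]
      exact (mul_le_mul_of_nonneg_left (eval_sub_aff_le hV hL hsc c e h x x')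
        (abs_nonneg t)).trans_eq (by ring)
  | _, .node k σ e, h, x, x' => by
      obtain ⟨-, -, -, -, haff, -, hg⟩ := h
      simp only [Expr.eval, Expr.aff, Expr.sm, zero_smul, sum_const_zero, sub_zero]
      have h1 := eval_sub_aff_le hV hL hsc c e hg x x'
      have h2 : ‖∑ i, e.aff i • (x i - x' i)‖ ≤ (∑ i, |e.aff i|) * ∑ i, ‖x i - x' i‖ := by
        rw [sum_mul]
        refine (norm_sum_le _ _).trans (sum_le_sum fun i _ => ?_)
        rw [norm_smul, Real.norm_eq_abs]
        exact mul_le_mul_of_nonneg_left (single_le_sum (f := fun j => ‖x j - x' j‖)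
          (fun _ _ => norm_nonneg _) (mem_univ i)) (abs_nonneg _)
      have h3 := norm_le_norm_sub_add (e.eval V c x - e.eval V c x')
        (∑ i, e.aff i • (x i - x' i))
      have h4 := haff.trans (mul_le_mul_of_nonneg_right (le_max_left B 1) (hsc k))
      have hS : 0 ≤ ∑ i, ‖x i - x' i‖ := sum_nonneg fun _ _ => norm_nonneg _
      refine (continuous_smth (hV k) σ _ _).trans ((mul_le_mul_of_nonneg_left
        (h3.trans (add_le_add h1 (h2.trans (mul_le_mul_of_nonneg_right h4 hS)))) hL).trans_eq ?_)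
      ring
  | _, .mean C e, h, x, x' => by
      simp only [Expr.eval, Expr.aff, Expr.sm]
      set m := ∑ j, C j • c j
      have hl : ∀ (y : Fin _ → Sp d) (u u' : Sp d),
          ‖e.eval V c (Fin.cons (u + m) y) - e.eval V c (Fin.cons (u' + m) y)‖ ≤
            (|e.aff 0| + max B 1 * e.sm L sc) * ‖u - u'‖ := fun y u u' => by
        have h1 := eval_sub_aff_le hV hL hsc c e h (Fin.cons (u + m) y) (Fin.cons (u' + m) y)
        simp [Fin.sum_univ_succ] at h1
        refine (norm_le_norm_sub_add _ (e.aff 0 • (u - u'))).trans ?_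
        rw [norm_smul, Real.norm_eq_abs]
        linarith
      rw [← integral_sub (integrable_lip (hl x)) (integrable_lip (hl x')),
        show (∑ i, e.aff i.succ • (x i - x' i)) =
          ∫ _, (∑ i, e.aff i.succ • (x i - x' i)) ∂gd d by simp,
        ← integral_sub (f := fun z => e.eval V c (Fin.cons (z + m) x) -
          e.eval V c (Fin.cons (z + m) x')) ((integrable_lip (hl x)).sub (integrable_lip (hl x')))
          (integrable_const _)]
      refine (norm_integral_le_of_norm_le_const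
        (C := max B 1 * e.sm L sc * ∑ i, ‖x i - x' i‖) (ae_of_all _ fun z => ?_)).trans ?_
      · simpa [Fin.sum_univ_succ] using
          eval_sub_aff_le hV hL hsc c e h (Fin.cons (z + m) x) (Fin.cons (z + m) x')
      · rw [probReal_univ, mul_one]
        exact mul_le_mul_of_nonneg_right (mul_le_mul_of_nonneg_left
          (le_add_of_nonneg_right (abs_nonneg _)) (le_max_of_le_right zero_le_one))
            (sum_nonneg fun _ _ => norm_nonneg _)

/-- An expression is Lipschitz in its variables. -/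
lemma eval_lip (hV : ∀ k, IsField L (V k)) (hL : 0 ≤ L) (hsc : ∀ k, 0 ≤ sc k)
    (c : Fin J → Sp d) {v : ℕ} (e : Expr κ J v) (h : e.Good η L sc B R w) (x x' : Fin v → Sp d) :
    ‖e.eval V c x - e.eval V c x'‖ ≤
      (∑ i, |e.aff i| + max B 1 * e.sm L sc) * ∑ i, ‖x i - x' i‖ := by
  refine (norm_le_norm_sub_add _ (∑ i, e.aff i • (x i - x' i))).trans ?_
  rw [add_comm (∑ i, |e.aff i|), add_mul]
  refine add_le_add (eval_sub_aff_le hV hL hsc c e h x x') ?_
  rw [sum_mul]
  refine (norm_sum_le _ _).trans (sum_le_sum fun i _ => ?_)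
  rw [norm_smul, Real.norm_eq_abs]
  exact mul_le_mul_of_nonneg_left (single_le_sum (f := fun j => ‖x j - x' j‖)
    (fun _ _ => norm_nonneg _) (mem_univ i)) (abs_nonneg _)

lemma cen_nonneg (c : Fin J → Sp d) :
    ∀ {v : ℕ} (e : Expr κ J v) (x : Fin v → Sp d), 0 ≤ e.cen V c x
  | _, .var _, _ => le_rfl
  | _, .zero, _ => le_rfl
  | _, .add e _, x => le_max_of_le_left (cen_nonneg c e x)
  | _, .smul _ e, x => cen_nonneg c e x
  | _, .node _ _ _, _ => le_max_of_le_left (norm_nonneg _)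
  | _, .mean _ e, _ => cen_nonneg c e _

/-- The size of the centres moves at a bounded rate with the variables. -/
lemma cen_lip (hV : ∀ k, IsField L (V k)) (hη : 0 ≤ η) (hη1 : η ≤ 1) (hw : 0 ≤ w) (hL : 0 ≤ L)
    (hsc : ∀ k, 0 ≤ sc k) (c : Fin J → Sp d) :
    ∀ {v : ℕ} (e : Expr κ J v), e.Good η L sc B R w → ∀ x x' : Fin v → Sp d,
      e.cen V c x ≤ e.cen V c x' + 2 * max B 1 ^ 4 * ∑ i, ‖x i - x' i‖
  | _, .var _, _, x, x' => by simp only [Expr.cen, zero_add]; positivity
  | _, .zero, _, x, x' => by simp only [Expr.cen, zero_add]; positivity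
  | _, .add e f, h, x, x' => by
      simp only [Expr.cen]
      exact max_le
        ((cen_lip hV hη hη1 hw hL hsc c e h.1 x x').trans (add_le_add (le_max_left _ _) le_rfl))
        ((cen_lip hV hη hη1 hw hL hsc c f h.2 x x').trans (add_le_add (le_max_right _ _) le_rfl))
  | _, .smul _ e, h, x, x' => by
      simp only [Expr.cen]
      exact cen_lip hV hη hη1 hw hL hsc c e h x x'
  | _, .node k σ e, h, x, x' => by
      obtain ⟨hσ, hσB, hscB, -, haff, hsm, hg⟩ := h
      simp only [Expr.cen]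
      refine max_le ?_
        ((cen_lip hV hη hη1 hw hL hsc c e hg x x').trans (add_le_add (le_max_right _ _) le_rfl))
      set M := max B 1
      have hM : 1 ≤ M := le_max_right _ _
      have hM0 : 0 ≤ M := zero_le_one.trans hM
      have h1 : ∑ i, |e.aff i| ≤ M ^ 2 := by
        rw [pow_two]
        exact haff.trans (mul_le_mul (le_max_left _ _) (hscB.trans (le_max_left _ _)) (hsc k) hM0)
      have h2 : σ ≤ M ^ 2 := by
        rw [pow_two]
        exact hσB.trans (mul_le_mul (le_max_left _ _) (hscB.trans (le_max_left _ _)) (hsc k) hM0)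
      have h3 : e.sm L sc ≤ M ^ 3 := by
        refine hsm.trans ?_
        calc B * σ * η ^ w ≤ M * M ^ 2 * 1 := mul_le_mul
              (mul_le_mul (le_max_left _ _) h2 hσ.le hM0) (rpow_le_one hη hη1 hw)
              (rpow_nonneg hη _) (by positivity)
          _ = M ^ 3 := by ring
      have h4 : ∑ i, |e.aff i| + M * e.sm L sc ≤ 2 * M ^ 4 := by
        have := pow_le_pow_right₀ hM (show 2 ≤ 4 by norm_num)
        have := mul_le_mul_of_nonneg_left h3 hM0
        rw [← pow_succ' M 3, show 3 + 1 = 4 from rfl] at this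
        linarith
      calc ‖e.eval V c x‖ ≤ ‖e.eval V c x'‖ + ‖e.eval V c x - e.eval V c x'‖ :=
            norm_le_insert' _ _
        _ ≤ _ := add_le_add (le_max_left _ _) ((eval_lip hV hL hsc c e hg x x').trans
            (mul_le_mul_of_nonneg_right h4 (sum_nonneg fun _ _ => norm_nonneg _)))
  | _, .mean C e, h, x, x' => by
      simp only [Expr.cen]
      simpa [Fin.sum_univ_succ] using cen_lip hV hη hη1 hw hL hsc c e h
        (Fin.cons (∑ j, C j • c j) x) (Fin.cons (∑ j, C j • c j) x')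

/-- A bind at a sample, with the deviation of the mean charged to the error. -/
theorem emits_bind_mean {α : Type} [MeasurableSpace α] (p : Emitter d α)
    (q : Emitter d (α × Sp d)) :
    ∃ m : Emitter d α, m.cost ≤ p.cost + q.cost ∧
      ∀ G, Measurable G → ∀ (Φ : α → Sp d) (ρ : ℝ) (ep : α → ℝ) (Ψ : α × Sp d → Sp d) (r : ℝ)
        (eq : α × Sp d → ℝ) (e : α → ℝ) (o : α → Sp d) (g Λ : ℝ) (Φ' : α → Sp d) (u : α → ℝ)
        (v : ℝ),
        Emits p G Φ ρ ep → (∀ a, Measurable fun x => Ψ (a, x)) →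
        (∀ a x x', ‖Ψ (a, x) - Ψ (a, x')‖ ≤ Λ * ‖x - x'‖) →
        Emits q G Ψ r eq → 0 ≤ g → (∀ a, 0 ≤ e a) → (∀ a x, |eq (a, x)| ≤ e a + g * ‖x - o a‖) →
        0 ≤ Λ → (∀ a z, ‖Ψ (a, Φ a + ρ • z) - Φ' a‖ ≤ u a + v * ‖z‖) → (∀ a, 0 ≤ u a) → 0 ≤ v →
        Emits m G Φ' r fun a =>
          e a + g * (‖Φ a - o a‖ + |ρ| * √d + |ep a|) + Λ * |ep a| + (u a + v * √d) := by
  obtain ⟨m, hm, h⟩ := emits_bind_at p q
  refine ⟨m, hm, fun G hG Φ ρ ep Ψ r eq e o g Λ Φ' u v hp hΨm hΨ hq hg he hgr hΛ hdev hu hv => ?_⟩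
  obtain ⟨ξ, ζ, hξ, hζ, hl, hb⟩ := h G hG Φ ρ ep Ψ r eq e o g Λ hp hΨm hΨ hq hg he hgr hΛ
  have hpair : ∀ a, MeasurePreserving (fun s => (ξ (s, a), ζ (s, a))) m.μ ((gd d).prod (gd d)) :=
    fun a => ⟨(hξ.comp measurable_prodMk_right).prodMk (hζ.comp measurable_prodMk_right), hl a⟩
  refine ⟨ζ, hζ, fun a => (measurePreserving_snd.comp (hpair a)).map_eq, fun a => ?_⟩
  have hξa : MeasurePreserving (fun s => ξ (s, a)) m.μ (gd d) :=
    measurePreserving_fst.comp (hpair a)
  set E := e a + g * (‖Φ a - o a‖ + |ρ| * √d + |ep a|) + Λ * |ep a|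
  have hE : 0 ≤ E := add_nonneg (add_nonneg (he a) (by positivity)) (by positivity)
  have hw : 0 ≤ u a + v * √d := add_nonneg (hu a) (by positivity)
  set f := fun s => m.run G (s, a) - (Ψ (a, Φ a + ρ • ξ (s, a)) + r • ζ (s, a))
  set g' := fun s => Ψ (a, Φ a + ρ • ξ (s, a)) - Φ' a
  have hfm : AEStronglyMeasurable f m.μ :=
    (((measurable_run m hG).comp measurable_prodMk_right).sub
      (((hΨm a).comp (measurable_const.add (hξa.measurable.fun_const_smul ρ))).add
        ((hζ.comp measurable_prodMk_right).fun_const_smul r))).aestronglyMeasurable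
  have hgm : AEStronglyMeasurable g' m.μ := (((hΨm a).comp
    (measurable_const.add (hξa.measurable.fun_const_smul ρ))).sub_const _).aestronglyMeasurable
  have h1 : eLpNorm f 2 m.μ ≤ ENNReal.ofReal E := by
    have := (sq_err_iff m.μ f _).1 (hb a)
    rwa [abs_of_nonneg hE] at this
  have h2 : eLpNorm g' 2 m.μ ≤ ENNReal.ofReal (u a + v * √d) := by
    refine (eLpNorm_mono_real (g := fun s => u a + v * ‖ξ (s, a)‖) fun s => hdev a _).trans ?_
    refine (eLpNorm_add_le aestronglyMeasurable_const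
      (hξa.measurable.norm.const_mul v).aestronglyMeasurable one_le_two).trans ?_
    rw [ENNReal.ofReal_add (hu a) (by positivity)]
    refine add_le_add ?_ ?_
    · rw [eLpNorm_const _ two_ne_zero (IsProbabilityMeasure.ne_zero _), measure_univ,
        ENNReal.one_rpow, mul_one, Real.enorm_eq_ofReal (hu a)]
    · rw [show (fun s => v * ‖ξ (s, a)‖) = v • fun s => ‖ξ (s, a)‖ from rfl,
        eLpNorm_const_smul, eLpNorm_norm, Real.enorm_eq_ofReal hv, ENNReal.ofReal_mul hv]
      refine mul_le_mul' le_rfl (le_of_eq_of_le ?_ eLpNorm_id_gd_le)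
      exact eLpNorm_comp_measurePreserving (g := fun z : Sp d => z) aestronglyMeasurable_id hξa
  rw [sq_err_iff, abs_of_nonneg (add_nonneg hE hw), ENNReal.ofReal_add hE hw]
  refine le_trans (le_of_eq_of_le ?_ (eLpNorm_add_le hfm hgm one_le_two)) (add_le_add h1 h2)
  congr 1
  funext s
  simp only [f, g', Pi.add_apply]
  abel

lemma cost_le {n v : ℕ} {ι : Type} [Fintype ι] {α : Type} [MeasurableSpace α]
    {q : ι → Emitter d α} {β : Type} [MeasurableSpace β] {q' : ι → Emitter d β} {Nb A : ℕ}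
    {C₀ C θ : ℝ} (hη : 0 < η) (hη1 : η ≤ 1) (hθ : 0 ≤ θ) (hC : |C₀| + 1 ≤ C)
    {m qs p₀ : ℕ} (hm : m ≤ qs + p₀) (hqs : qs ≤ ∑ j, (q j).cost)
    (hq' : ∀ j, (q' j).cost ≤ (q j).cost) (hnv : n ≤ v) (hv : 1 ≤ v)
    (hp : (p₀ : ℝ) ≤ C₀ * η ^ (-θ) * (n : ℝ) ^ A * ((Nb : ℝ) + 1 + ∑ j, (q' j).cost)) :
    (m : ℝ) ≤ C * η ^ (-θ) * (v : ℝ) ^ A * ((Nb : ℝ) + 1 + ∑ j, (q j).cost) := by
  push_cast at hp ⊢
  set S : ℝ := ∑ j, ((q j).cost : ℝ)
  have hS : (qs : ℝ) ≤ S := by simp only [S]; exact_mod_cast hqs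
  have hmr : (m : ℝ) ≤ qs + p₀ := by exact_mod_cast hm
  set N : ℝ := (Nb : ℝ) + 1 + S
  set T : ℝ := η ^ (-θ) * (v : ℝ) ^ A
  have hT : 1 ≤ T := one_le_mul_of_one_le_of_one_le
    (one_le_rpow_of_pos_of_le_one_of_nonpos hη hη1 (by linarith))
    (one_le_pow₀ (by exact_mod_cast hv))
  have hN : 0 ≤ N := by positivity
  have h1 : (p₀ : ℝ) ≤ |C₀| * T * N := by
    refine hp.trans ?_
    simp only [T, ← mul_assoc]
    exact mul_le_mul (mul_le_mul (mul_le_mul_of_nonneg_right (le_abs_self _)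
      (rpow_nonneg hη.le _)) (pow_le_pow_left₀ (by positivity) (Nat.cast_le.2 hnv) A)
        (by positivity) (by positivity))
      (add_le_add le_rfl (sum_le_sum fun j _ => Nat.cast_le.2 (hq' j))) (by positivity)
      (by positivity)
  have h2 : S ≤ 1 * T * N := by
    refine le_trans ?_ (mul_le_mul_of_nonneg_right (le_of_le_of_eq hT (one_mul T).symm) hN)
    simp only [N, one_mul, le_add_iff_nonneg_left]
    positivity
  calc (m : ℝ) ≤ (1 + |C₀|) * T * N := by linarith
    _ ≤ C * T * N := by gcongr; linarith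
    _ = _ := by simp only [T]; ring

lemma body_err_le (hV : ∀ k, IsField L (V k)) (hη : 0 ≤ η) (hη1 : η ≤ 1) (hw : 0 ≤ w)
    (hL : 0 ≤ L) (hsc : ∀ k, 0 ≤ sc k) (c : Fin J → Sp d) {v : ℕ} (e : Expr κ J (v + 1))
    (h : e.Good η L sc B R w) (C₀ : ℝ) (o x : Sp d) (y : Fin v → Sp d) {E : ℝ} (hE : 0 ≤ E) :
    |C₀ * e.sm L sc * (√d + e.cen V c (Fin.cons x y) + E)| ≤
      |C₀| * e.sm L sc * (√d + e.cen V c (Fin.cons o y) + E) +
        |C₀| * e.sm L sc * (2 * max B 1 ^ 4) * ‖x - o‖ := by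
  have h1 := cen_nonneg (V := V) c e (Fin.cons x y)
  have hs := sm_nonneg hL hsc e
  have h2 := cen_lip hV hη hη1 hw hL hsc c e h (Fin.cons x y) (Fin.cons o y)
  simp [Fin.sum_univ_succ] at h2
  rw [abs_mul, abs_of_nonneg (add_nonneg (add_nonneg (sqrt_nonneg _) h1) hE), mul_assoc _ (2 * _),
    ← mul_add, abs_mul, abs_of_nonneg hs]
  exact mul_le_mul_of_nonneg_left (by linarith) (by positivity)

lemma mean_dev_le {F : Sp d → Sp d} {Λ r : ℝ} (hF : ∀ u u', ‖F u - F u'‖ ≤ Λ * ‖u - u'‖)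
    (hΛ : 0 ≤ Λ) (hr : 0 ≤ r) (o z : Sp d) :
    ‖F (o + r • z) - ∫ u, F (u + o) ∂gd d‖ ≤ Λ * √d + Λ * r * ‖z‖ := by
  rw [show F (o + r • z) = ∫ _, F (o + r • z) ∂gd d by simp,
    ← integral_sub (integrable_const _) (integrable_lip (l := Λ) fun u u' => by
      simpa using hF (u + o) (u' + o))]
  refine (norm_integral_le_of_norm_le ((integrable_const (Λ * r * ‖z‖)).add
    (integrable_norm_gd.const_mul Λ)) (ae_of_all _ fun u => ?_)).trans ?_
  · refine (hF _ _).trans ?_
    simp only [Pi.add_apply, mul_assoc, ← mul_add]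
    refine mul_le_mul_of_nonneg_left (le_trans (le_of_eq ?_) ((norm_sub_le (r • z) u).trans_eq
      (by rw [norm_smul, Real.norm_eq_abs, abs_of_nonneg hr]))) hΛ
    congr 1
    abel
  · rw [Pi.add_def, integral_add (integrable_const _) (integrable_norm_gd.const_mul _),
      integral_const, probReal_univ, one_smul, integral_const_mul, add_comm]
    exact add_le_add (mul_le_mul_of_nonneg_left integral_norm_le hΛ) le_rfl

lemma total_err_le {C₁ M s a₀ t cm E Ep r : ℝ} (hC : 0 ≤ C₁) (hM : 1 ≤ M) (hs : 0 ≤ s)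
    (ht : 0 ≤ t) (hcm : 0 ≤ cm) (hE : 0 ≤ E) (hEp : 0 ≤ Ep) (hEE : Ep ≤ E) (hr : 0 ≤ r)
    (hr1 : r ≤ 1) :
    C₁ * s * (t + cm + E) + C₁ * s * (2 * M ^ 4) * (r * t + Ep) + (|a₀| + M * s) * Ep +
        ((|a₀| + M * s) * t + (|a₀| + M * s) * r * t) ≤
      (C₁ * (1 + 2 * M ^ 4) + 2 * M) * (s + |a₀|) * (t + cm + E) := by
  set P := t + cm + E with hP
  set Λ := |a₀| + M * s with hL
  have hM0 : 0 ≤ M := zero_le_one.trans hM
  have i1 : r * t + Ep ≤ P := by
    have := mul_le_of_le_one_left ht hr1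
    linarith
  have i2 : Λ ≤ M * (s + |a₀|) := by
    have := le_mul_of_one_le_left (abs_nonneg a₀) hM
    linarith
  calc _ = C₁ * s * P + C₁ * s * (2 * M ^ 4) * (r * t + Ep) + Λ * (r * t + Ep + t) := by ring
    _ ≤ C₁ * (s + |a₀|) * P + C₁ * (s + |a₀|) * (2 * M ^ 4) * P + M * (s + |a₀|) * (P + P) := by
        have := abs_nonneg a₀
        refine add_le_add (add_le_add ?_ ?_) ?_
        · gcongr; linarith
        · refine mul_le_mul ?_ i1 (by positivity) (by positivity)
          gcongr; linarith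
        · exact mul_le_mul i2 (by linarith) (by positivity) (by positivity)
    _ = _ := by ring

lemma sample_err_le {Cm kap e : Fin J → ℝ} (he : ∀ j, 0 ≤ e j) (hk : ∀ j, 0 < kap j)
    (hf : ∑ j, (Cm j * kap j) ^ 2 ≤ 1 / 4) : abs (∑ j, |Cm j * e j|) ≤ ∑ j, e j / kap j := by
  rw [abs_of_nonneg (sum_nonneg fun j _ => abs_nonneg _)]
  refine sum_le_sum fun j _ => ?_
  rw [abs_mul, abs_of_nonneg (he j), le_div_iff₀ (hk j)]
  have h1 : |Cm j * kap j| ≤ 1 := (sq_le_one_iff_abs_le_one _).1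
    ((single_le_sum (f := fun i => (Cm i * kap i) ^ 2) (fun i _ => sq_nonneg _)
      (mem_univ j)).trans (hf.trans (by norm_num)))
  rw [abs_mul, abs_of_pos (hk j)] at h1
  calc |Cm j| * e j * kap j = |Cm j| * kap j * e j := by ring
    _ ≤ e j := mul_le_of_le_one_left (he j) h1

end PtZero

open PtZero

/-- One box read at a sample of the centre. -/
theorem nodeSpec_zero (K : ℕ) : NodeSpec K 0 := by
  intro B
  refine ⟨max B 1, fun θ hθ Cb hCb => ⟨3 * max B 1 ^ 2 * (Cb + 1) + 1, 1, one_pos, ?_⟩⟩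
  intro d α _ η L b σ S Nb 𝒱 q hd hη hη1 hL hL4 hb hNb hσ hσS hS hSB hthr hbox
  set M := max B 1
  obtain ⟨hfield, hemit⟩ := hbox 0 le_rfl
  obtain ⟨pb, hpb, hpbe⟩ :=
    hemit b hb (hthr.trans (mul_le_mul_of_nonneg_right (le_max_left _ _) hb.le))
  obtain ⟨q2, hq2, hq2e⟩ := emits_input (β := α × Sp d) pb measurable_snd
  obtain ⟨m, hm, hme⟩ := emits_bind_mean q q2
  have hC : 1 ≤ 3 * M ^ 2 * (Cb + 1) + 1 := le_add_of_nonneg_left (by positivity)
  refine ⟨m, ?_, fun G hG Φ ec hΦ hec hq => ?_⟩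
  · have h1 : (m.cost : ℝ) ≤ (Nb : ℝ) + 1 + q.cost := by
      have : m.cost ≤ Nb + q.cost := by omega
      have : (m.cost : ℝ) ≤ (Nb : ℝ) + q.cost := by exact_mod_cast this
      linarith
    refine h1.trans (le_mul_of_one_le_left (by positivity) (one_le_mul_of_one_le_of_one_le hC ?_))
    exact one_le_rpow_of_pos_of_le_one_of_nonpos hη hη1 (by linarith)
  have hF := hfield G hG
  have hFl := norm_field_sub_le hF
  have hFc : Continuous (𝒱 G) := hF.smooth.continuous
  refine emits_mono (hme G hG.measurable Φ (σ / 2) ec (fun t => 𝒱 G t.2) b _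
    (fun _ => Cb * L * S * √d) 0 (Cb * L * S) L (fun a => smth 1 σ (𝒱 G) (Φ a))
    (fun _ => L * σ * √d) (L * (σ / 2)) hq (fun _ => hFc.measurable)
    (fun _ x x' => hFl x x') (hq2e G _ _ _ (hpbe G hG)) (by positivity) (fun _ => by positivity)
    (fun a x => ?_) hL (fun a z => ?_) (fun _ => by positivity) (by positivity)) fun a => ?_
  · simp only [Pi.zero_apply, sub_zero, Nat.cast_zero, zero_mul, rpow_zero, mul_one]
    rw [abs_of_nonneg (by positivity), ← mul_add]
  · simp only [smth]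
    have hl : ∀ u u' : Sp d, ‖𝒱 G ((1:ℝ) • Φ a + σ • u) - 𝒱 G ((1:ℝ) • Φ a + σ • u')‖ ≤
        L * |σ| * ‖u - u'‖ := fun u u' => by
      refine (hFl _ _).trans_eq ?_
      rw [add_sub_add_left_eq_sub, ← smul_sub, norm_smul, Real.norm_eq_abs, mul_assoc]
    rw [show 𝒱 G (Φ a + (σ / 2) • z) = ∫ _, 𝒱 G (Φ a + (σ / 2) • z) ∂gd d by simp,
      ← integral_sub (integrable_const _) (integrable_lip hl)]
    refine (norm_integral_le_of_norm_le ((integrable_const (L * (σ / 2) * ‖z‖)).add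
      (integrable_norm_gd.const_mul (L * σ))) (ae_of_all _ fun u => ?_)).trans ?_
    · refine (hFl _ _).trans ?_
      simp only [one_smul, add_sub_add_left_eq_sub, Pi.add_apply, mul_assoc, ← mul_add]
      refine mul_le_mul_of_nonneg_left ((norm_sub_le _ _).trans_eq ?_) hL
      rw [norm_smul, norm_smul, Real.norm_eq_abs, Real.norm_eq_abs, abs_of_pos hσ,
        abs_of_pos (by positivity : 0 < σ / 2)]
    · rw [Pi.add_def, integral_add (integrable_const _) (integrable_norm_gd.const_mul _),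
        integral_const, probReal_univ, one_smul, integral_const_mul, add_comm]
      exact add_le_add (mul_le_mul_of_nonneg_left integral_norm_le (by positivity)) le_rfl
  · simp only [Pi.zero_apply, sub_zero, Nat.cast_zero, zero_mul, rpow_zero, one_mul]
    have h0 := hec a
    rw [abs_of_pos (by positivity : 0 < σ / 2), abs_of_nonneg h0, abs_of_nonneg (by positivity),
      abs_of_nonneg (by positivity)]
    have hσ1 : σ ≤ M * S := hσS.trans (mul_le_mul_of_nonneg_right (le_max_left _ _) hS)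
    have hS1 : S ≤ M := hSB.trans (le_max_left _ _)
    have hM : 1 ≤ M := le_max_right _ _
    have i1 : L * σ * √d ≤ M * (L * S * √d) := by
      calc L * σ * √d ≤ L * (M * S) * √d := by gcongr
        _ = _ := by ring
    have i2 : Cb * L * S * (σ / 2 * √d) ≤ Cb * M ^ 2 * (L * S * √d) := by
      calc Cb * L * S * (σ / 2 * √d) ≤ Cb * L * S * (M * M * √d) := by
            gcongr
            calc σ / 2 ≤ M * S := by linarith
              _ ≤ M * M := by gcongr
        _ = _ := by ring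
    have i3 : Cb * L * S * ec a ≤ Cb * M * (L * ec a) := by
      calc Cb * L * S * ec a ≤ Cb * L * M * ec a := by gcongr
        _ = _ := by ring
    have hM2 : M ≤ M ^ 2 := by nlinarith
    have hA := mul_nonneg (mul_nonneg hL hS) (sqrt_nonneg (d : ℝ))
    have hB := mul_nonneg (mul_nonneg hL hS) (norm_nonneg (Φ a))
    have hE := mul_nonneg hL h0
    have hc : ∀ r, r ≤ Cb + Cb * M ^ 2 + 2 * M + 1 → r ≤ 3 * M ^ 2 * (Cb + 1) + 1 := fun r hr =>
      hr.trans (by
        have := mul_nonneg hCb (sq_nonneg M)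
        have := mul_le_mul_of_nonneg_left (hM.trans hM2) hCb
        linarith)
    have k1 := mul_le_mul_of_nonneg_right (hc _ le_rfl) hA
    have k2 := mul_le_mul_of_nonneg_right (hc Cb (by nlinarith)) hB
    have k3 := mul_le_mul_of_nonneg_right (hc (Cb * M + 1) (by nlinarith)) hE
    have k4 := mul_nonneg (zero_le_one.trans hM) hA
    linarith

/-- The body read at one sample of the bound variable. -/
theorem meanSpec_zero (K : ℕ) : MeanSpec K 0 := by
  intro D hD B
  obtain ⟨B', A, h⟩ := hD B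
  refine ⟨B', A, fun θ hθ Cb hCb => ?_⟩
  obtain ⟨C₀, η₀, hη₀, h⟩ := h θ hθ Cb hCb
  refine ⟨|C₀| * (1 + 2 * max B 1 ^ 4) + 2 * max B 1, min η₀ 1, lt_min hη₀ one_pos, ?_⟩
  intro d J v κ α _ η L b Nb sc 𝒱 e kap X q hd hη hηle hL hL4 hb hNb hsc hkap hX hP hgood hfill
    hthr hbox
  obtain ⟨Cm, e₀, rfl, hdep⟩ := hP
  have hη1 : η ≤ 1 := hηle.trans (min_le_right _ _)
  set M := max B 1
  have hM : 1 ≤ M := le_max_right _ _
  set C₁ := |C₀|
  have hC₁ : 0 ≤ C₁ := abs_nonneg _
  have hsm₀ : 0 ≤ e₀.sm L sc := sm_nonneg hL hsc e₀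
  choose q' hq' hq'e using fun j => emits_input (β := α × Sp d) (q j) measurable_fst
  set X' : α × Sp d → Fin (v + 1) → Sp d := fun t => Fin.cons t.2 (X t.1)
  have hX' : Measurable X' := measurable_pi_iff.2 (Fin.cases (by simpa [X'] using measurable_snd)
    fun i => by simpa [X', Function.comp_def] using (measurable_pi_iff.1 hX i).comp measurable_fst)
  have hthr₀ : e₀.sm L sc * η ^ (-pW K 0) ≤ B * b := le_trans (mul_le_mul_of_nonneg_right
    (le_add_of_nonneg_right (abs_nonneg _)) (rpow_nonneg hη.le _)) hthr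
  obtain ⟨p₀, hp₀, hp₀e⟩ := h d J (v + 1) κ (α × Sp d) η L b Nb sc 𝒱 e₀ kap X' q' hd hη
    (hηle.trans (min_le_left _ _)) hL hL4 hb hNb hsc hkap hX' hdep hgood hfill.2 hthr₀ hbox
  obtain ⟨qs, hqs, hqse⟩ := emits_sum q Cm
  obtain ⟨m, hm, hme⟩ := emits_bind_mean qs p₀
  have hC : |C₀| + 1 ≤ C₁ * (1 + 2 * M ^ 4) + 2 * M := by
    have := mul_nonneg hC₁ (pow_nonneg (zero_le_one.trans hM) 4)
    simp only [C₁] at this ⊢
    linarith
  have hsz : e₀.size ≤ (Expr.mean Cm e₀).size ∧ 1 ≤ (Expr.mean Cm e₀).size :=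
    ⟨Nat.le_add_right _ _, Nat.le_add_left _ _⟩
  have hcost := cost_le (q := q) (q' := q') (Nb := Nb) (A := A) (n := e₀.size) hη hη1 hθ.le hC hm
    hqs hq' hsz.1 hsz.2 hp₀
  refine ⟨m, hcost, fun G hG c ec hec hc hq => ?_⟩
  set V : κ → Sp d → Sp d := fun k => 𝒱 k G
  have hV : ∀ k, IsField L (V k) := fun k => (hbox k 0 le_rfl).1 G hG
  set a₀ := e₀.aff 0
  set Λ := |a₀| + M * e₀.sm L sc
  have hΛ : 0 ≤ Λ := by positivity
  have hlip : ∀ a (u u' : Sp d), ‖e₀.eval V (c a) (Fin.cons u (X a)) -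
      e₀.eval V (c a) (Fin.cons u' (X a))‖ ≤ Λ * ‖u - u'‖ := fun a u u' => by
    have h1 := eval_sub_aff_le hV hL hsc (c a) e₀ hgood (Fin.cons u (X a)) (Fin.cons u' (X a))
    simp [Fin.sum_univ_succ] at h1
    refine (norm_le_norm_sub_add _ (a₀ • (u - u'))).trans ?_
    rw [norm_smul, Real.norm_eq_abs]
    linarith
  set r := √(∑ j, (Cm j * kap j) ^ 2)
  have hr0 : 0 ≤ r := sqrt_nonneg _
  have hr1 : r ≤ 1 := sqrt_le_one.2 (hfill.1.trans (by norm_num))
  set Φ₀ : α → Sp d := fun a => ∑ j, Cm j • c a j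
  set E : α → ℝ := fun a => ∑ j, ec j a / kap j
  have hE : ∀ a, 0 ≤ E a := fun a => sum_nonneg fun j _ => div_nonneg (hec j a) (hkap j).le
  have hcm : ∀ a, 0 ≤ e₀.cen V (c a) (Fin.cons (Φ₀ a) (X a)) := fun a => cen_nonneg _ _ _
  have hep : ∀ a, abs (∑ j, |Cm j * ec j a|) ≤ E a := fun a =>
    sample_err_le (fun j => hec j a) hkap hfill.1
  have hq₀ : ∀ j, Emits (q' j) G (fun t => c t.1 j) (kap j) (fun t => ec j t.1) := fun j =>
    hq'e j G (fun a => c a j) (kap j) (ec j) (hq j)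
  have hbody : Emits p₀ G (fun t => e₀.eval V (c t.1) (X' t)) b fun t => C₀ * e₀.sm L sc *
      (η ^ (((0 : ℕ) : ℝ) * pE K) * (√d + e₀.cen V (c t.1) (X' t)) + ∑ j, ec j t.1 / kap j) :=
    hp₀e G hG (fun t => c t.1) (fun j t => ec j t.1) (fun j t => hec j t.1)
      (fun j => (hc j).comp measurable_fst) hq₀
  refine emits_mono (hme G hG.measurable Φ₀ r (fun a => ∑ j, |Cm j * ec j a|)
    (fun t => e₀.eval V (c t.1) (Fin.cons t.2 (X t.1))) b _
    (fun a => C₁ * e₀.sm L sc *
      (√d + e₀.cen V (c a) (Fin.cons (Φ₀ a) (X a)) + E a)) Φ₀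
    (C₁ * e₀.sm L sc * (2 * M ^ 4)) Λ _ (fun _ => Λ * √d) (Λ * r)
    (hqse G hG.measurable _ _ _ hq)
    (fun a => ((LipschitzWith.of_dist_le_mul (K := Λ.toNNReal) fun u u' => by
      rw [dist_eq_norm, dist_eq_norm]
      exact (hlip a u u').trans (mul_le_mul_of_nonneg_right (le_coe_toNNReal _)
        (norm_nonneg _))).continuous).measurable)
    hlip hbody (by positivity) (fun a => by have := hE a; have := hcm a; positivity)
    (fun a x => ?_) hΛ (fun a z => ?_) (fun _ => by positivity) (by positivity)) fun a => ?_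
  · simpa [X'] using body_err_le hV hη.le hη1 (by simp only [pW]; unfold pA; positivity) hL hsc
      (c a) e₀ hgood C₀ (Φ₀ a) x (X a) (hE a)
  · simpa [Expr.eval] using mean_dev_le (hlip a) hΛ hr0 (Φ₀ a) z
  · simp only [sub_self, norm_zero, zero_add, Nat.cast_zero, zero_mul, rpow_zero, one_mul,
      Expr.sm, Expr.cen]
    have hcm := hcm a
    have hEa := hE a
    have hEp : 0 ≤ ∑ j, |Cm j * ec j a| := sum_nonneg fun j _ => abs_nonneg _
    rw [abs_of_nonneg hr0, abs_of_nonneg hEp, abs_of_nonneg (by positivity),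
      abs_of_nonneg (by positivity)]
    exact total_err_le (a₀ := a₀) hC₁ hM hsm₀ (sqrt_nonneg _) hcm hEa hEp
      ((le_abs_self _).trans (hep a)) hr0 hr1

end Vale.Agent.P347.Shift
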