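import Vale.Agent.P347.Shift.Pt
import Vale.Agent.P347.Shift.PtZeroParts

/-!
# P347: expressions are emitted to order zero
-/

namespace Vale.Agent.P347.Shift

/-- Emission of expressions to order zero. -/
theorem pt_zero (K : ℕ) : PtSpec K 0 := pt_of (nodeSpec_zero K) (meanSpec_zero K)

end Vale.Agent.P347.Shift
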