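import Vale.Agent.P347.Shift.TiltField

/-!
# P347: the tilted velocity is a box of order zero

One question at `a u` with fresh noise: under the tilt the gradient moves by `η b (√d + ‖u‖)`.
-/

open MeasureTheory ProbabilityTheory Real
open scoped RealInnerProductSpace ENNReal

namespace Vale.Agent.P347.Shift

open Quarter

variable {d : ℕ} {η a b : ℝ} {G : Sp d → Sp d}

/-- The mean of the gradient under the tilt against its value at the observation. -/
theorem norm_tiltField_sub_le (hG : Adm η G) (hη : 0 ≤ η) (hη1 : η ≤ 1 / 8) (ha : |a| ≤ 1)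
    (hb : 0 < b) (hb1 : b ≤ 1) (u : Sp d) :
    ‖tiltField a b G u - G (a • u)‖ ≤ 9 * η * b * (√d + ‖u‖) := by
  obtain ⟨h0, W, H, hW⟩ := hG
  have hS : IsPot (fun z => W (a • u + b • z)) (fun z => b • G (a • u + b • z))
      (fun z => b ^ 2 • H (a • u + b • z)) 0 (b ^ 2 * η) :=
    { hW.slice (κ := a) hb.le hb1 u with
      hiHess := fun z v => by
        simp only [smul_apply, real_inner_smul_left, mul_assoc]
        exact mul_le_mul_of_nonneg_left (hW.hiHess _ v) (sq_nonneg b) }
  have h := hS.tilt_norm ((mul_le_of_le_one_left hη (pow_le_one₀ hb.le hb1)).trans (by linarith))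
  rw [integral_smul, integral_smul, ← smul_sub, norm_smul, norm_eq_abs, abs_of_pos hb, smul_zero,
    add_zero, norm_smul, norm_eq_abs, abs_of_pos hb] at h
  have hu : ‖G (a • u)‖ ≤ η * (√d + ‖u‖) := by
    refine ((hW.grad_le le_rfl _).trans (add_le_add h0 ?_)).trans_eq (mul_add _ _ _).symm
    rw [norm_smul, norm_eq_abs]
    exact mul_le_mul_of_nonneg_left (mul_le_of_le_one_left (norm_nonneg u) ha) hη
  have hY : ‖(∫ z, G (a • u + b • z) ∂gd d) - G (a • u)‖ ≤ η * b * √d := by
    have hi : Integrable (fun z => G (a • u + b • z)) (gd d) := by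
      refine ((integrable_const (‖G 0‖ + η * ‖a • u‖)).add (integrable_norm_gd.const_mul (η * b))).mono'
        (hW.continuous_grad.comp (by fun_prop)).aestronglyMeasurable (ae_of_all _ fun z => ?_)
      refine ((hW.grad_le le_rfl _).trans (add_le_add le_rfl
        (mul_le_mul_of_nonneg_left (norm_add_le _ _) hη))).trans_eq ?_
      simp only [Pi.add_apply, norm_smul, norm_eq_abs, abs_of_pos hb]
      ring
    rw [show G (a • u) = ∫ _, G (a • u) ∂gd d by simp, ← integral_sub hi (integrable_const _)]
    refine (norm_integral_le_integral_norm _).trans ((integral_mono_of_nonneg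
      (ae_of_all _ fun _ => norm_nonneg _) (integrable_norm_gd.const_mul (η * b))
      (ae_of_all _ fun z => ?_)).trans ?_)
    · refine (hW.grad_lip le_rfl _ _).trans_eq ?_
      rw [add_sub_cancel_left, norm_smul, norm_eq_abs, abs_of_pos hb]
      exact (mul_assoc _ _ _).symm
    · rw [integral_const_mul]
      exact mul_le_mul_of_nonneg_left MeanPt.integral_norm_le (by positivity)
  have e : tiltField a b G u = ∫ z, G (a • u + b • z) ∂gibbs fun z => W (a • u + b • z) := by
    rw [tiltField_eq hW]
    simp [rawTilt]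
  rw [e]
  set X := ∫ z, G (a • u + b • z) ∂gibbs fun z => W (a • u + b • z)
  set Y := ∫ z, G (a • u + b • z) ∂gd d
  set M := √(d : ℝ) + ‖u‖ with hM
  have hdM : √(d : ℝ) ≤ M := le_add_of_nonneg_right (norm_nonneg u)
  have hX : ‖X - Y‖ ≤ 8 * η * b * M := by
    refine le_of_mul_le_mul_left (h.trans ?_) hb
    have h1 : b ^ 2 * η * √d ≤ b * M := by
      refine (mul_le_mul_of_nonneg_left hdM (by positivity)).trans
        (mul_le_mul_of_nonneg_right ?_ (by positivity))
      nlinarith [mul_le_one₀ hb1 hη (hη1.trans (by norm_num))]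
    calc 4 * (b ^ 2 * η) * (b * ‖G (a • u)‖ + b ^ 2 * η * √d)
        ≤ 4 * (b ^ 2 * η) * (b * M + b * M) := by
          gcongr
          exact hu.trans (mul_le_of_le_one_left (by positivity) (hη1.trans (by norm_num)))
      _ = b * (8 * η * b * M) * b := by ring
      _ ≤ b * (8 * η * b * M) := mul_le_of_le_one_right (by positivity) hb1
  calc ‖X - G (a • u)‖ = ‖(X - Y) + (Y - G (a • u))‖ := by rw [sub_add_sub_cancel]
    _ ≤ ‖X - Y‖ + ‖Y - G (a • u)‖ := norm_add_le _ _
    _ ≤ 8 * η * b * M + η * b * M :=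
        add_le_add hX (hY.trans (mul_le_mul_of_nonneg_left hdM (by positivity)))
    _ = _ := by ring

/-- The queried gradient at the observation. -/
theorem tiltBox_zero (K : ℕ) : TiltBox K 0 := by
  intro B θ hθ
  refine ⟨3, 1 / 8, by norm_num, by norm_num, fun d η a b _ hη hη1 ha ha1 hb hb1 =>
    ⟨1, ?_, fun G hG => ?_, fun ρ _ _ => ?_⟩⟩
  · rw [Nat.cast_one]
    have := one_le_rpow_of_pos_of_le_one_of_nonpos hη (hη1.trans (by norm_num)) (neg_nonpos.2 hθ.le)
    linarith
  · exact isField_tiltField hG hη.le hη1 (abs_le.2 ⟨by linarith, ha1⟩) hb hb1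
  · refine ⟨{ S := Sp d, meas := inferInstance, μ := gd d, prob := inferInstance
              run := fun G t => G (a • t.2) + ρ • t.1, cost := 1
              calc_run := Calc.ask (u := fun t : Sp d × Sp d => a • t.2) (by fun_prop)
                (g := fun t v => v + ρ • t.1) (by fun_prop) }, le_rfl, fun G hG => ?_⟩
    refine ⟨fun t => t.1, measurable_fst, fun _ => Measure.map_id, fun u => ?_⟩
    simp only [add_sub_add_right_eq_sub, lintegral_const, measure_univ, mul_one, Nat.cast_zero,
      zero_mul, rpow_zero]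
    refine ENNReal.ofReal_le_ofReal (pow_le_pow_left₀ (norm_nonneg _) ?_ 2)
    rw [norm_sub_rev]
    exact (norm_tiltField_sub_le hG hη.le hη1 (abs_le.2 ⟨by linarith, ha1⟩) hb hb1 u).trans_eq
      (by ring)

end Vale.Agent.P347.Shift
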