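import Vale.Agent.P347.Quarter.Tilt
import Vale.Agent.P347.Shift.Spec

/-!
# P347: from an emission along the probability flow to a whitened step

The tilt plus half a unit of noise is the law of `√(1 + r) x + √(1/2 - r) ξ` with `x` from the
smoothed target at correlation `(√(1 + r))⁻¹`.  So an emitter at standard input `S` of the flow map
at room `√(1/2 - r)` is a whitened step, with the mean square error as the error of the coupling.
-/

open MeasureTheory ProbabilityTheory Real
open scoped RealInnerProductSpace ENNReal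

namespace Vale.Agent.P347.Shift

open Quarter

variable {d : ℕ}

/-- Two independent noises add in quadrature. -/
theorem map_noise_twice (μ : Measure (Sp d)) [IsProbabilityMeasure μ] (a b : ℝ) :
    (((μ.prod (gd d)).map fun p => p.1 + a • p.2).prod (gd d)).map (fun p => p.1 + b • p.2) =
      (μ.prod (gd d)).map fun p => p.1 + √(a ^ 2 + b ^ 2) • p.2 := by
  rw [← Measure.map_id (μ := gd d), Measure.map_prod_map _ _ (by fun_prop) measurable_id,
    Measure.map_id, Measure.map_map (by fun_prop) (by fun_prop)]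
  calc ((μ.prod (gd d)).prod (gd d)).map
        ((fun p : Sp d × Sp d => p.1 + b • p.2) ∘ Prod.map (fun p => p.1 + a • p.2) id)
      = (μ.prod (((gd d).prod (gd d)).map fun q => a • q.1 + b • q.2)).map
          (fun p => p.1 + p.2) := by
        rw [← Measure.map_id (μ := μ), Measure.map_prod_map _ _ measurable_id (by fun_prop),
          Measure.map_id, Measure.map_map (by fun_prop) (by fun_prop),
          ← (measurePreserving_prodAssoc μ (gd d) (gd d)).map_eq,
          Measure.map_map (by fun_prop) (by fun_prop)]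
        congr 1
        funext p
        obtain ⟨⟨x, y⟩, z⟩ := p
        show x + a • y + b • z = x + (a • y + b • z)
        rw [add_assoc]
    _ = (μ.prod ((gd d).map fun x => √(a ^ 2 + b ^ 2) • x)).map (fun p => p.1 + p.2) := by
        rw [gauss_combine]
    _ = _ := by
        rw [← Measure.map_id (μ := μ), Measure.map_prod_map _ _ measurable_id (by fun_prop),
          Measure.map_id, Measure.map_map (by fun_prop) (by fun_prop)]
        rfl

/-- A map of the first factor. -/
lemma map_prod_left (T : Sp d → Sp d) (hT : Measurable T) {f : Sp d × Sp d → Sp d}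
    (hf : Measurable f) :
    (((gd d).map T).prod (gd d)).map f =
      ((gd d).prod (gd d)).map fun p => f (T p.1, p.2) := by
  conv_lhs => arg 2; arg 2; rw [← Measure.map_id (μ := gd d)]
  rw [Measure.map_prod_map _ _ hT measurable_id,
    Measure.map_map hf (hT.prodMap measurable_id)]
  rfl

/-- The correlation after noise of variance `r`. -/
noncomputable def mixKap (r : ℝ) : ℝ := (√(1 + r))⁻¹

lemma mixKap_spec {r : ℝ} (hr : 0 ≤ r) : 0 < mixKap r ∧ mixKap r ≤ 1 ∧ √(1 + r) * mixKap r = 1 ∧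
    √(1 - mixKap r ^ 2) = √r * mixKap r := by
  have h1 : 1 ≤ √(1 + r) := one_le_sqrt.2 (by linarith)
  refine ⟨inv_pos.2 (by linarith), inv_le_one_of_one_le₀ h1, mul_inv_cancel₀ (by linarith), ?_⟩
  have e : 1 - mixKap r ^ 2 = r * mixKap r ^ 2 := by
    rw [mixKap, inv_pow, sq_sqrt (by linarith)]
    field_simp
    ring
  rw [e, sqrt_mul hr, mixKap, sqrt_sq (inv_nonneg.2 (sqrt_nonneg _))]

/-- **The whitened target through the smoothed one.** -/
theorem white_eq_smPot {W : Sp d → ℝ} {G : Sp d → Sp d} {H : Sp d → Sp d →L[ℝ] Sp d} {η : ℝ}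
    (hW : IsPot W G H 0 η) (hη : η ≤ 1 / 2) {r : ℝ} (hr : 0 ≤ r) (hr2 : r ≤ 1 / 2) :
    ((gibbs W).prod (gd d)).map (fun p => p.1 + √(1 / 2) • p.2) = ((gibbs (smPot (mixKap r) W)).prod (gd d)).map
      fun p => √(1 + r) • p.1 + √(1 / 2 - r) • p.2 := by
  obtain ⟨hk, hk1, hkc, hks⟩ := mixKap_spec hr
  obtain ⟨-, -, -, -, h⟩ := smPot_spec hW hη hk hk1
  have := isProb_gibbs hW le_rfl
  have e := map_noise_twice (gibbs W) √r √(1 / 2 - r)
  rw [show √(√r ^ 2 + √(1 / 2 - r) ^ 2) = √(1 / 2) by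
    rw [sq_sqrt hr, sq_sqrt (by linarith)]; ring_nf] at e
  rw [← e, ← h]
  conv_lhs => rw [← Measure.map_id (μ := gd d), Measure.map_prod_map _ _ (by fun_prop) measurable_id,
    Measure.map_id, Measure.map_map (by fun_prop) (by fun_prop)]
  conv_rhs => rw [← Measure.map_id (μ := gd d), Measure.map_prod_map _ _ (by fun_prop) measurable_id,
    Measure.map_id, Measure.map_map (by fun_prop) (by fun_prop)]
  congr 1
  funext p
  simp only [Function.comp_apply, Prod.map, id, smul_add, smul_smul]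
  rw [hkc, hks, one_smul, show √(1 + r) * (√r * mixKap r) = √r by rw [mul_left_comm, hkc, mul_one]]

/-- An output coupled at every input to `Φ + ρ ξ` is coupled to `T + ρ ξ` on a random standard
input. -/
theorem exists_coupling {S : Type} [MeasurableSpace S] {μ : Measure S} [IsProbabilityMeasure μ]
    (run : S × Sp d → Sp d) {Φ T : Sp d → Sp d} (hT : Measurable T) {ρ : ℝ}
    {ξ : S × Sp d → Sp d} (hξ : Measurable ξ) (hlaw : ∀ a, μ.map (fun s => ξ (s, a)) = gd d)
    {err : Sp d → ℝ}
    (herr : ∀ a, ∫⁻ s, ENNReal.ofReal (‖run (s, a) - (Φ a + ρ • ξ (s, a))‖ ^ 2) ∂μ ≤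
      ENNReal.ofReal (err a ^ 2)) :
    ∃ Z : Sp d × S → Sp d, Measurable Z ∧
      ((gd d).prod μ).map Z = (((gd d).map T).prod (gd d)).map (fun p => p.1 + ρ • p.2) ∧
      ∫⁻ q, ENNReal.ofReal (‖run (q.2, q.1) - Z q‖ ^ 2) ∂(gd d).prod μ ≤
        ∫⁻ a, ENNReal.ofReal (2 * (err a ^ 2 + ‖Φ a - T a‖ ^ 2)) ∂gd d := by
  have hξ' : Measurable fun q : Sp d × S => ξ (q.2, q.1) := hξ.comp measurable_swap
  have hsk : MeasurePreserving (fun q : Sp d × S => (q.1, ξ (q.2, q.1)))
      ((gd d).prod μ) ((gd d).prod (gd d)) :=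
    (MeasurePreserving.id (gd d)).skew_product (g := fun a s => ξ (s, a)) hξ' (ae_of_all _ hlaw)
  refine ⟨fun q => T q.1 + ρ • ξ (q.2, q.1), by fun_prop, ?_, ?_⟩
  · rw [map_prod_left T hT (by fun_prop), ← hsk.map_eq,
      Measure.map_map (by fun_prop) hsk.measurable]
    rfl
  refine (lintegral_prod_le _).trans (lintegral_mono fun a => ?_)
  refine (lintegral_mono (g := fun s => ENNReal.ofReal 2 *
      ENNReal.ofReal (‖run (s, a) - (Φ a + ρ • ξ (s, a))‖ ^ 2) +
        ENNReal.ofReal (2 * ‖Φ a - T a‖ ^ 2)) fun s => ?_).trans ?_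
  · dsimp only
    rw [← ENNReal.ofReal_mul zero_le_two, ← ENNReal.ofReal_add (by positivity) (by positivity)]
    refine ENNReal.ofReal_le_ofReal ?_
    have h := norm_add_le (run (s, a) - (Φ a + ρ • ξ (s, a))) (Φ a - T a)
    rw [show run (s, a) - (Φ a + ρ • ξ (s, a)) + (Φ a - T a) =
      run (s, a) - (T a + ρ • ξ (s, a)) by abel] at h
    nlinarith [pow_le_pow_left₀ (norm_nonneg _) h 2,
      sq_nonneg (‖run (s, a) - (Φ a + ρ • ξ (s, a))‖ - ‖Φ a - T a‖)]
  rw [lintegral_add_right _ measurable_const, lintegral_const_mul' _ _ ENNReal.ofReal_ne_top,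
    lintegral_const, measure_univ, mul_one, mul_add 2 (err a ^ 2),
    ENNReal.ofReal_add (by positivity) (by positivity), ENNReal.ofReal_mul zero_le_two (q := err a ^ 2)]
  exact add_le_add (mul_le_mul' le_rfl (herr a)) le_rfl

/-- **An emitter of the flow map is a whitened step.** At a standard input the emitter follows an
approximation `Φ` of `√(1 + r) T`, with mean square error small, `T` being a map to the smoothed
target. -/
theorem whiteSpec_of_emit {K : ℕ}
    (hyp : ∀ β : ℝ, 0 < β → ∃ C η₀ : ℝ, 0 ≤ C ∧ 0 < η₀ ∧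
      ∀ (d : ℕ) (η : ℝ), 1 ≤ d → 0 < η → η ≤ η₀ →
        ∃ p : Emitter d (Sp d), (p.cost : ℝ) ≤ C * η ^ (-β) ∧
          ∀ (W : Sp d → ℝ) (G : Sp d → Sp d) (H : Sp d → Sp d →L[ℝ] Sp d),
            IsPot W G H 0 η → ‖G 0‖ ≤ η * √d →
            ∃ (r : ℝ) (Φ T : Sp d → Sp d) (err : Sp d → ℝ), 0 ≤ r ∧ r ≤ 1 / 2 ∧ Measurable T ∧
              (gd d).map T = gibbs (smPot (mixKap r) W) ∧ Emits p G Φ √(1 / 2 - r) err ∧
              ∫⁻ a, ENNReal.ofReal (err a ^ 2 + ‖Φ a - √(1 + r) • T a‖ ^ 2) ∂gd d ≤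
                ENNReal.ofReal ((C * η ^ K * √d) ^ 2)) :
    WhiteSpec K := by
  intro β hβ
  obtain ⟨C, η₀, hC, hη₀, hp⟩ := hyp β hβ
  refine ⟨2 * C, min η₀ (1 / 2), by linarith, lt_min hη₀ (by norm_num), fun d η hd hη hu => ?_⟩
  obtain ⟨p, hpc, hps⟩ := hp d η hd hη (hu.trans (min_le_left _ _))
  refine ⟨{ S := Sp d × p.S
            meas := inferInstance
            μ := (gd d).prod p.μ
            prob := inferInstance
            run := fun G t => p.run G (t.1.2, t.1.1)
            cost := p.cost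
            calc_run := ((Calc.pure (d := d) (f := fun t : (Sp d × p.S) × Unit => (t.1.2, t.1.1))
              (by fun_prop)).comp p.calc_run).mono (zero_add _).le },
    hpc.trans (mul_le_mul_of_nonneg_right (by linarith) (rpow_nonneg hη.le _)),
    fun W G H hW hG0 => ?_⟩
  obtain ⟨r, Φ, T, err, hr, hr2, hT, hlawT, ⟨ξ, hξ, hξl, herr⟩, hbd⟩ := hps W G H hW hG0
  obtain ⟨Z, hZ, hZl, hZe⟩ := exists_coupling (p.run G)
    (hT.const_smul (√(1 + r) : ℝ)) hξ hξl herr
  refine ⟨Z, hZ, hZl.trans ?_, hZe.trans ?_⟩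
  · rw [white_eq_smPot hW (hu.trans (min_le_right _ _)) hr hr2, ← hlawT,
      map_prod_left T hT (by fun_prop),
      map_prod_left (√(1 + r) • T) (hT.const_smul (√(1 + r) : ℝ)) (by fun_prop)]
    rfl
  · simp only [ENNReal.ofReal_mul zero_le_two, Pi.smul_apply]
    rw [lintegral_const_mul' _ _ ENNReal.ofReal_ne_top]
    refine (mul_le_mul' le_rfl hbd).trans ?_
    rw [← ENNReal.ofReal_mul zero_le_two]
    refine ENNReal.ofReal_le_ofReal ?_
    nlinarith [sq_nonneg (C * η ^ K * √d)]

end Vale.Agent.P347.Shift
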