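import Vale.Agent.P347.Quarter.Tilt

/-!
# P347: the tower identity of the tilt

The tilt `rgo W s u` has density proportional to `exp (-W x - |x - u|² / (2 s))`.  If `X` follows
it and `U = X + √r ξ`, then given `U = w` the law of `X` is the tilt of scale `s r / (s + r)`
centred at `(r u + s w) / (s + r)`.  So every mean under the tilt is the mean over `U` of the means
under the finer tilt.  The law of `U` is an affine image of the smoothed target.
-/

open MeasureTheory ProbabilityTheory Real
open scoped RealInnerProductSpace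

namespace Vale.Agent.P347.Shift

open Quarter

variable {d : ℕ} {W : Sp d → ℝ}
variable {E : Type*} [NormedAddCommGroup E] [NormedSpace ℝ E]

/-- The law of a tilt sample moved by Gaussian noise of variance `r`. -/
noncomputable def tiltNoise (W : Sp d → ℝ) (s r : ℝ) (u : Sp d) : Measure (Sp d) :=
  ((rgo W s u).prod (gd d)).map fun p => p.1 + √r • p.2

/-- The unnormalised mean of the tilt. -/
noncomputable def tiltInt (W : Sp d → ℝ) (s : ℝ) (p : Sp d) (f : Sp d → E) : E :=
  ∫ t, exp (-W (p + √s • t)) • f (p + √s • t) ∂gd d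

lemma weight_le {A B : ℝ} (hA : ∀ x, exp (-W x) ≤ A * exp (B * ‖x‖)) (p : Sp d) (σ : ℝ)
    (t : Sp d) : exp (-W (p + σ • t)) ≤
      A * exp (|B| * ‖p‖) * exp (|B| * |σ| * ‖t‖) := by
  have hA0 : 0 ≤ A := by simpa using ((exp_pos _).le.trans (hA 0))
  refine (hA _).trans ?_
  rw [mul_assoc, ← exp_add]
  refine mul_le_mul_of_nonneg_left (exp_le_exp.2 ?_) hA0
  have h := norm_add_le p (σ • t)
  rw [norm_smul, norm_eq_abs] at h
  nlinarith [mul_le_mul_of_nonneg_left h (abs_nonneg B),
    mul_le_mul_of_nonneg_right (le_abs_self B) (norm_nonneg (p + σ • t))]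

lemma integrable_weight (hW : Continuous W) {A B : ℝ} (hA : ∀ x, exp (-W x) ≤ A * exp (B * ‖x‖))
    (p : Sp d) (σ : ℝ) : Integrable (fun t => exp (-W (p + σ • t))) (gd d) :=
  integrable_gam_of_le (by fun_prop) fun t => by
    rw [norm_eq_abs, abs_exp]; exact weight_le hA p σ t

lemma isProb_rgo_of (hW : Continuous W) {A B : ℝ} (hA : ∀ x, exp (-W x) ≤ A * exp (B * ‖x‖))
    (s : ℝ) (u : Sp d) : IsProbabilityMeasure (rgo W s u) := by
  have hi := integrable_weight hW hA u √s
  have : IsProbabilityMeasure (gibbs fun z => W (u + √s • z)) := isProbabilityMeasure_tilted hi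
  exact Measure.isProbabilityMeasure_map (by fun_prop : Continuous _).aemeasurable

/-- The mean under the tilt. -/
lemma integral_tilt (s : ℝ) (u : Sp d) {f : Sp d → E} (hf : Continuous f) [SecondCountableTopology E] :
    ∫ x, f x ∂rgo W s u = (∫ t, exp (-W (u + √s • t)) ∂gd d)⁻¹ • tiltInt W s u f := by
  rw [rgo, integral_map (by fun_prop : Continuous _).aemeasurable hf.aestronglyMeasurable, gibbs,
    integral_tilted, tiltInt, ← integral_smul]
  simp only [smul_smul, div_eq_inv_mul]

section Pair

variable {s r : ℝ}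

/-- The scale of the finer tilt. -/
noncomputable def sfine (s r : ℝ) : ℝ := s * r / (s + r)

/-- The centre of the finer tilt. -/
noncomputable def cfine (s r : ℝ) (u w : Sp d) : Sp d := (r / (s + r)) • u + (s / (s + r)) • w

/-- The pair `(X, U)` in unnormalised form. -/
noncomputable def pairLeft (W : Sp d → ℝ) (s r : ℝ) (u : Sp d) (φ : Sp d → Sp d → E)
    (p : Sp d × Sp d) : E :=
  exp (-W (u + √s • p.1)) • φ (u + √s • p.1) (u + √s • p.1 + √r • p.2)

/-- The same pair, `U` first. -/
noncomputable def pairRight (W : Sp d → ℝ) (s r : ℝ) (u : Sp d) (φ : Sp d → Sp d → E)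
    (p : Sp d × Sp d) : E :=
  exp (-W (cfine s r u (u + √(s + r) • p.1) + √(sfine s r) • p.2)) •
    φ (cfine s r u (u + √(s + r) • p.1) + √(sfine s r) • p.2) (u + √(s + r) • p.1)

/-- **Disintegration.** -/
lemma pair_rotate (hW : Continuous W) (hs : 0 < s) (hr : 0 < r) (u : Sp d)
    {φ : Sp d → Sp d → E} (hφ : StronglyMeasurable (Function.uncurry φ)) :
    (Integrable (pairLeft W s r u φ) ((gd d).prod (gd d)) ↔
      Integrable (pairRight W s r u φ) ((gd d).prod (gd d))) ∧
    ∫ p, pairLeft W s r u φ p ∂(gd d).prod (gd d) =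
      ∫ p, pairRight W s r u φ p ∂(gd d).prod (gd d) := by
  set c := √s / √(s + r) with hc
  set e := √r / √(s + r) with he
  have hsr : 0 < s + r := by linarith
  have hq : √(s + r) ≠ 0 := (sqrt_pos.2 hsr).ne'
  have hce : c ^ 2 + e ^ 2 = 1 := by
    simp only [c, e, div_pow, sq_sqrt hs.le, sq_sqrt hr.le, sq_sqrt hsr.le]
    field_simp
  have hrot := gauss_rotate (ι := Fin d) hce
  have e1 : √s * e = √(sfine s r) := by
    rw [sfine, sqrt_div' _ hsr.le, sqrt_mul hs.le, he]; ring
  have e2 : √(sfine s r) = √r * c := by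
    rw [sfine, sqrt_div' _ hsr.le, sqrt_mul hs.le, hc]; ring
  have e3 : √s * c = s / (s + r) * √(s + r) := by
    rw [hc]; field_simp; rw [sq_sqrt hs.le, sq_sqrt hsr.le]
  have e4 : √r * e = r / (s + r) * √(s + r) := by
    rw [he]; field_simp; rw [sq_sqrt hr.le, sq_sqrt hsr.le]
  have h0 : √(s + r) = √s * c + √r * e := by rw [e3, e4]; field_simp
  have h0' : r / (s + r) + s / (s + r) = 1 := by field_simp; ring
  have hFR : pairLeft W s r u φ ∘ (fun p : Sp d × Sp d => (c • p.1 + e • p.2, e • p.1 - c • p.2)) =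
      pairRight W s r u φ := by
    funext p
    have h1 : u + √s • (c • p.1 + e • p.2) =
        cfine s r u (u + √(s + r) • p.1) + √(sfine s r) • p.2 := by
      rw [cfine, smul_add (s / (s + r)) u, ← add_assoc (a := (r / (s + r)) • u), ← add_smul, h0',
        one_smul, smul_smul, ← e3, ← e1, smul_add, smul_smul, smul_smul, add_assoc]
    have h2 : u + √s • (c • p.1 + e • p.2) + √r • (e • p.1 - c • p.2) = u + √(s + r) • p.1 := by
      rw [h0, smul_add, smul_sub, smul_smul, smul_smul, smul_smul, smul_smul, e1, ← e2, add_smul]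
      abel
    simp only [pairLeft, pairRight, Function.comp_apply]
    rw [h2, h1]
  have hm : AEStronglyMeasurable (pairLeft W s r u φ) ((gd d).prod (gd d)) :=
    (((by fun_prop : Continuous fun p : Sp d × Sp d => exp (-W (u + √s • p.1))).stronglyMeasurable).smul
      (hφ.comp_measurable (g := fun p : Sp d × Sp d => (u + √s • p.1, u + √s • p.1 + √r • p.2))
        (by fun_prop))).aestronglyMeasurable
  have hR := hrot.measurable
  constructor
  · rw [← hFR, ← integrable_map_measure (by rw [hrot.map_eq]; exact hm) hR.aemeasurable,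
      hrot.map_eq]
  · rw [← hFR]
    conv_lhs => rw [← hrot.map_eq]
    rw [integral_map hR.aemeasurable (by rw [hrot.map_eq]; exact hm)]
    rfl

variable [SecondCountableTopology E]

lemma integrable_pair (hW : Continuous W) {A B : ℝ} (hA : ∀ x, exp (-W x) ≤ A * exp (B * ‖x‖))
    (u : Sp d) {h : Sp d → E} (hc : Continuous h) {C K : ℝ} (hh : ∀ x, ‖h x‖ ≤ C * exp (K * ‖x‖))
    (a b : ℝ) : Integrable (fun p : Sp d × Sp d =>
      exp (-W (u + √s • p.1)) • h (u + a • p.1 + b • p.2)) ((gd d).prod (gd d)) := by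
  have hC : 0 ≤ C := by simpa using (norm_nonneg (h 0)).trans (hh 0)
  have hA0 : 0 ≤ A := by simpa using ((exp_pos _).le.trans (hA 0))
  refine ((((integrable_exp_norm_gam (ι := Fin d) (|B| * |√s| + |K| * |a|)).mul_prod
    (integrable_exp_norm_gam (ι := Fin d) (|K| * |b|))).const_mul
      (A * exp (|B| * ‖u‖) * (C * exp (|K| * ‖u‖))))).mono'
    (by fun_prop : Continuous _).aestronglyMeasurable (ae_of_all _ fun p => ?_)
  rw [norm_smul, norm_eq_abs, abs_exp]
  refine (mul_le_mul (weight_le hA u √s p.1)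
    ((hh _).trans (mul_le_mul_of_nonneg_left (exp_le_exp.2 (show K * ‖u + a • p.1 + b • p.2‖ ≤
      |K| * ‖u‖ + |K| * |a| * ‖p.1‖ + |K| * |b| * ‖p.2‖ from ?_)) hC))
    (norm_nonneg _) (by positivity)).trans_eq ?_
  · have hn := (norm_add_le (u + a • p.1) (b • p.2)).trans
      (add_le_add (norm_add_le u (a • p.1)) le_rfl)
    rw [norm_smul, norm_smul, norm_eq_abs, norm_eq_abs] at hn
    nlinarith [mul_le_mul_of_nonneg_left hn (abs_nonneg K),
      mul_le_mul_of_nonneg_right (le_abs_self K) (norm_nonneg (u + a • p.1 + b • p.2))]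
  · simp only [exp_add, add_mul]
    ring

omit [SecondCountableTopology E] in
/-- The unnormalised law of `U`. -/
lemma integral_tiltNoise (hW : Continuous W) {A B : ℝ}
    (hA : ∀ x, exp (-W x) ≤ A * exp (B * ‖x‖)) (u : Sp d) {h : Sp d → E}
    (hc : StronglyMeasurable h) :
    (∫ w, h w ∂tiltNoise W s r u = (∫ t, exp (-W (u + √s • t)) ∂gd d)⁻¹ •
      ∫ p, pairLeft W s r u (fun _ w => h w) p ∂(gd d).prod (gd d)) ∧
    (Integrable (pairLeft W s r u fun _ w => h w) ((gd d).prod (gd d)) →
      Integrable h (tiltNoise W s r u)) := by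
  have hi := integrable_weight hW hA u √s
  have hZ : (∫ t, exp (-W (u + √s • t)) ∂gd d) =
      ∫ p : Sp d × Sp d, exp (-W (u + √s • p.1)) ∂(gd d).prod (gd d) := by
    rw [integral_prod _ (hi.comp_fst (gd d))]; simp
  have e : tiltNoise W s r u = (((gd d).prod (gd d)).tilted fun p => -W (u + √s • p.1)).map
      fun p => u + √s • p.1 + √r • p.2 := by
    have hp : IsProbabilityMeasure (gibbs fun z => W (u + √s • z)) :=
      isProbabilityMeasure_tilted hi
    have h1 : ((gibbs fun z => W (u + √s • z)).map fun z => u + √s • z).prod (gd d) =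
        ((gibbs fun z => W (u + √s • z)).prod (gd d)).map
          (Prod.map (fun z => u + √s • z) id) := by
      rw [← Measure.map_prod_map _ _ (by fun_prop) measurable_id, Measure.map_id]
    rw [tiltNoise, rgo, h1, Measure.map_map (by fun_prop) (by fun_prop)]
    congr 1
    rw [gibbs, Measure.tilted, Measure.tilted, prod_withDensity_left (by fun_prop), ← hZ]
  refine ⟨?_, fun hint => ?_⟩
  · rw [e, integral_map (by fun_prop : Continuous _).aemeasurable hc.aestronglyMeasurable,
      integral_tilted, ← integral_smul, ← hZ]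
    simp only [pairLeft, smul_smul, div_eq_inv_mul]
  · rw [e, integrable_map_measure hc.aestronglyMeasurable (by fun_prop : Continuous _).aemeasurable,
      integrable_tilted_iff (hi.comp_fst (gd d))]
    exact hint

omit [SecondCountableTopology E] in
/-- The mean over `U` of a ratio `N / P`, `U` first. -/
lemma integral_pairRight_snd [CompleteSpace E] (hW : Continuous W) {A B : ℝ}
    (hA : ∀ x, exp (-W x) ≤ A * exp (B * ‖x‖)) (u : Sp d) {h N : Sp d → E}
    (hhm : StronglyMeasurable h)
    (hdiv : ∀ w, (∫ t, exp (-W (cfine s r u w + √(sfine s r) • t)) ∂gd d) • h w = N w)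
    (hN : Integrable (fun y => N (u + √(s + r) • y)) (gd d)) :
    Integrable (pairRight W s r u fun _ w => h w) ((gd d).prod (gd d)) ∧
      ∫ p, pairRight W s r u (fun _ w => h w) p ∂(gd d).prod (gd d) =
        ∫ y, N (u + √(s + r) • y) ∂gd d := by
  have hw : Continuous fun p : Sp d × Sp d =>
      exp (-W (cfine s r u (u + √(s + r) • p.1) + √(sfine s r) • p.2)) := by
    unfold cfine; fun_prop
  have hy : Measurable fun p : Sp d × Sp d => u + √(s + r) • p.1 := by fun_prop
  have h1 : StronglyMeasurable fun p : Sp d × Sp d =>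
      exp (-W (cfine s r u (u + √(s + r) • p.1) + √(sfine s r) • p.2)) := hw.stronglyMeasurable
  have h2 : StronglyMeasurable fun p : Sp d × Sp d => h (u + √(s + r) • p.1) :=
    hhm.comp_measurable hy
  have hm : AEStronglyMeasurable (pairRight W s r u fun _ w => h w) ((gd d).prod (gd d)) := by
    unfold pairRight
    exact h1.aestronglyMeasurable.smul h2.aestronglyMeasurable
  have hr2 : Integrable (pairRight W s r u fun _ w => h w) ((gd d).prod (gd d)) := by
    unfold pairRight at hm ⊢
    refine (integrable_prod_iff hm).2 ⟨ae_of_all _ fun y => ?_,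
      hN.norm.congr (ae_of_all _ fun y => ?_)⟩
    · exact (integrable_weight hW hA (cfine s r u (u + √(s + r) • y)) √(sfine s r)).smul_const
        (h (u + √(s + r) • y))
    simp only [norm_smul, norm_eq_abs, abs_exp, ← hdiv, integral_mul_const,
      abs_of_pos (integral_exp_pos (integrable_weight hW hA _ _))]
  refine ⟨hr2, ?_⟩
  rw [integral_prod _ hr2]
  simp only [pairRight, integral_smul_const, hdiv]

end Pair

/-- **The tower identity.** -/
theorem tilt_tower [SecondCountableTopology E] [CompleteSpace E] (hW : Continuous W) {A B : ℝ}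
    (hA : ∀ x, exp (-W x) ≤ A * exp (B * ‖x‖)) {s r : ℝ} (hs : 0 < s) (hr : 0 < r) (u : Sp d)
    {f : Sp d → E} (hf : Continuous f) {C K : ℝ} (hfb : ∀ x, ‖f x‖ ≤ C * exp (K * ‖x‖)) :
    Integrable (fun w => ∫ x, f x ∂rgo W (sfine s r) (cfine s r u w)) (tiltNoise W s r u) ∧
      ∫ x, f x ∂rgo W s u =
        ∫ w, (∫ x, f x ∂rgo W (sfine s r) (cfine s r u w)) ∂tiltNoise W s r u := by
  set h : Sp d → E := fun w => ∫ x, f x ∂rgo W (sfine s r) (cfine s r u w)
  set N : Sp d → E := fun w => tiltInt W (sfine s r) (cfine s r u w) f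
  set P : Sp d → ℝ := fun w => ∫ t, exp (-W (cfine s r u w + √(sfine s r) • t)) ∂gd d
  have hPpos : ∀ w, 0 < P w := fun w => integral_exp_pos (integrable_weight hW hA _ _)
  have hhe : ∀ w, h w = (P w)⁻¹ • N w := fun w => integral_tilt _ _ hf
  have hNm : StronglyMeasurable N := by
    refine StronglyMeasurable.integral_prod_right' (ν := gd d) (f := fun p : Sp d × Sp d =>
      exp (-W (cfine s r u p.1 + √(sfine s r) • p.2)) • f (cfine s r u p.1 + √(sfine s r) • p.2)) ?_
    exact (by unfold cfine; fun_prop : Continuous _).stronglyMeasurable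
  have hPm : StronglyMeasurable P := by
    refine StronglyMeasurable.integral_prod_right' (ν := gd d) (f := fun p : Sp d × Sp d =>
      exp (-W (cfine s r u p.1 + √(sfine s r) • p.2))) ?_
    exact (by unfold cfine; fun_prop : Continuous _).stronglyMeasurable
  have hPi : StronglyMeasurable fun w => (P w)⁻¹ := hPm.measurable.inv.stronglyMeasurable
  have hhm : StronglyMeasurable h := by
    rw [funext hhe]; exact hPi.smul hNm
  obtain ⟨eU, hUi⟩ := integral_tiltNoise (s := s) (r := r) hW hA u hhm
  have hi1 : Integrable (pairLeft W s r u fun x _ => f x) ((gd d).prod (gd d)) := by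
    unfold pairLeft
    simpa using integrable_pair (s := s) hW hA u hf hfb √s 0
  have e1 : tiltInt W s u f = ∫ p, pairLeft W s r u (fun x _ => f x) p ∂(gd d).prod (gd d) := by
    rw [integral_prod _ hi1]; simp [tiltInt, pairLeft]
  obtain ⟨hif, ef⟩ := pair_rotate hW hs hr u (φ := fun x _ => f x)
    (hf.comp continuous_fst).stronglyMeasurable
  obtain ⟨hig, eg⟩ := pair_rotate hW hs hr u (φ := fun _ w => h w)
    (hhm.comp_measurable measurable_snd)
  have hdiv : ∀ w, P w • h w = N w := fun w => by
    rw [hhe, smul_smul, mul_inv_cancel₀ (hPpos _).ne', one_smul]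
  have hr1 := hif.1 hi1
  obtain ⟨hr2, eN⟩ := integral_pairRight_snd hW hA u hhm hdiv hr1.integral_prod_left
  refine ⟨hUi (hig.2 hr2), ?_⟩
  rw [integral_tilt s u hf, eU, e1, ef, eg, eN, integral_prod _ hr1]
  rfl

/-- Two halves of the noise. -/
theorem tiltNoise_split {s r : ℝ} (hr : 0 ≤ r) (u : Sp d) [IsProbabilityMeasure (rgo W s u)] :
    tiltNoise W s r u =
      ((tiltNoise W s (r / 2) u).prod (gd d)).map fun p => p.1 + √(r / 2) • p.2 := by
  rw [tiltNoise, tiltNoise, ← Measure.map_id (μ := gd d), Measure.map_prod_map _ _ (by fun_prop)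
    measurable_id, Measure.map_id, Measure.map_map (by fun_prop) (by fun_prop)]
  have h := gauss_combine (ι := Fin d) √(r / 2) √(r / 2)
  rw [show √(√(r / 2) ^ 2 + √(r / 2) ^ 2) = √r by rw [sq_sqrt (by linarith)]; ring_nf] at h
  calc ((rgo W s u).prod (gd d)).map (fun p => p.1 + √r • p.2)
      = ((rgo W s u).prod ((gd d).map fun x => √r • x)).map (fun p => p.1 + p.2) := by
        rw [← Measure.map_id (μ := rgo W s u), Measure.map_prod_map _ _ measurable_id (by fun_prop),
          Measure.map_id, Measure.map_map (by fun_prop) (by fun_prop)]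
        rfl
    _ = ((rgo W s u).prod (((gd d).prod (gd d)).map fun q => √(r / 2) • q.1 + √(r / 2) • q.2)).map
        (fun p => p.1 + p.2) := by rw [h]
    _ = _ := by
        rw [← Measure.map_id (μ := rgo W s u), Measure.map_prod_map _ _ measurable_id (by fun_prop),
          Measure.map_id, Measure.map_map (by fun_prop) (by fun_prop),
          ← (measurePreserving_prodAssoc (rgo W s u) (gd d) (gd d)).map_eq,
          Measure.map_map (by fun_prop) (by fun_prop)]
        congr 1
        funext p
        obtain ⟨⟨a, b⟩, c⟩ := p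
        show a + (√(r / 2) • b + √(r / 2) • c) = a + √(r / 2) • b + √(r / 2) • c
        rw [add_assoc]

/-- The mean of the gradient under the tilt. -/
noncomputable def rgoField (W : Sp d → ℝ) (G : Sp d → Sp d) (s : ℝ) (u : Sp d) : Sp d :=
  ∫ x, G x ∂rgo W s u

/-- **The tower of the tilted velocity**: the velocity at scale `s` is the mean velocity at scale
`sfine s r`, at centres carrying the Gaussian room `r / 2`. -/
theorem rgoField_tower {G : Sp d → Sp d} {H : Sp d → Sp d →L[ℝ] Sp d} {lo η : ℝ}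
    (hW : IsPot W G H lo η) (hlo : 0 ≤ lo) {s r : ℝ} (hs : 0 < s) (hr : 0 < r) (u : Sp d) :
    Integrable (fun p : Sp d × Sp d =>
        rgoField W G (sfine s r) (cfine s r u (p.1 + √(r / 2) • p.2)))
      ((tiltNoise W s (r / 2) u).prod (gd d)) ∧
    rgoField W G s u = ∫ p : Sp d × Sp d,
      rgoField W G (sfine s r) (cfine s r u (p.1 + √(r / 2) • p.2))
        ∂(tiltNoise W s (r / 2) u).prod (gd d) := by
  have hWc := hW.contDiff.continuous
  have hA := hW.exp_neg_le hlo
  have := isProb_rgo_of hWc hA s u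
  have hG : ∀ x, ‖G x‖ ≤ (‖G 0‖ + |η|) * exp (1 * ‖x‖) := fun x => by
    rw [one_mul]
    refine (hW.grad_le hlo x).trans ?_
    nlinarith [add_one_le_exp ‖x‖, abs_nonneg η, norm_nonneg (G 0), norm_nonneg x,
      mul_le_mul_of_nonneg_right (le_abs_self η) (norm_nonneg x)]
  obtain ⟨hi, he⟩ := tilt_tower hWc hA hs hr u hW.continuous_grad hG
  rw [tiltNoise_split hr.le] at hi he
  refine ⟨(integrable_map_measure hi.1 (by fun_prop : Continuous _).aemeasurable).1 hi, ?_⟩
  rw [rgoField, he, integral_map (by fun_prop : Continuous _).aemeasurable hi.1]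
  rfl

/-- The law of `U` is an affine image of the smoothed target of the whitened potential. -/
theorem tiltNoise_smPot {G : Sp d → Sp d} {H : Sp d → Sp d →L[ℝ] Sp d} {η : ℝ} {s κ : ℝ}
    (hs : 0 ≤ s) (u : Sp d) (hWu : IsPot (fun z => W (u + √s • z)) G H 0 η) (hη : η ≤ 1 / 2)
    (hκ : 0 < κ) (hκ1 : κ ≤ 1) :
    tiltNoise W s (s * (1 - κ ^ 2) / κ ^ 2) u =
      (gibbs (smPot κ fun z => W (u + √s • z))).map fun x => u + (√s / κ) • x := by
  obtain ⟨-, -, -, -, h⟩ := smPot_spec hWu hη hκ hκ1
  have := isProb_gibbs hWu le_rfl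
  have e : √(s * (1 - κ ^ 2) / κ ^ 2) = √s / κ * √(1 - κ ^ 2) := by
    rw [sqrt_div' _ (sq_nonneg κ), sqrt_mul hs, sqrt_sq hκ.le]; ring
  rw [← h, tiltNoise, rgo, ← Measure.map_id (μ := gd d),
    Measure.map_prod_map _ _ (by fun_prop) measurable_id, Measure.map_id,
    Measure.map_map (by fun_prop) (by fun_prop), Measure.map_map (by fun_prop) (by fun_prop)]
  congr 1
  funext p
  simp only [Function.comp_apply, Prod.map, id, e, smul_add, smul_smul,
    div_mul_cancel₀ _ hκ.ne', add_assoc]

/-- The potential with gradient `G`, zero at the origin, is the line integral of `G`. -/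
lemma line_integral_grad {G : Sp d → Sp d} {H : Sp d → Sp d →L[ℝ] Sp d} {lo η : ℝ}
    (hW : IsPot W G H lo η) (x : Sp d) :
    ∫ t in (0:ℝ)..1, ⟪G (t • x), x⟫ = W x - W 0 := by
  have hd : ∀ t : ℝ, HasDerivAt (fun t : ℝ => W (t • x)) ⟪G (t • x), x⟫ t := fun t => by
    have h := (hW.hasGrad (t • x)).comp_hasDerivAt t ((hasDerivAt_id' t).smul_const x)
    simp only [innerSL_apply_apply, one_smul] at h
    exact h
  rw [intervalIntegral.integral_eq_sub_of_hasDerivAt (fun t _ => hd t)
    (((hW.continuous_grad.comp (continuous_id.smul continuous_const)).inner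
      continuous_const).intervalIntegrable 0 1)]
  simp

/-- A constant does not change the tilt. -/
lemma gibbs_sub_const (W : Sp d → ℝ) (c : ℝ) : gibbs (fun z => W z - c) = gibbs W := by
  simp only [gibbs, Measure.tilted]
  congr 1
  funext x
  simp only [neg_sub, sub_eq_add_neg c, exp_add, integral_const_mul]
  rw [mul_div_mul_left _ _ (exp_pos c).ne']

/-- The tower of the tilted velocity in whitened coordinates `x = a u + b z`. -/
theorem gibbs_tower {G : Sp d → Sp d} {H : Sp d → Sp d →L[ℝ] Sp d} {η : ℝ}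
    (hW : IsPot W G H 0 η) {a b r : ℝ} (hb : 0 < b) (hr : 0 < r) (u : Sp d) :
    ∫ z, G (a • u + b • z) ∂gibbs (fun z => W (a • u + b • z)) =
      ∫ p : Sp d × Sp d, (∫ z, G (((r / (b ^ 2 + r)) • (a • u) + (b ^ 2 / (b ^ 2 + r)) •
            (a • u + b • p.1 + √r • p.2)) + (b * √r / √(b ^ 2 + r)) • z)
          ∂gibbs fun z => W (((r / (b ^ 2 + r)) • (a • u) + (b ^ 2 / (b ^ 2 + r)) •
            (a • u + b • p.1 + √r • p.2)) + (b * √r / √(b ^ 2 + r)) • z))
        ∂(gibbs fun z => W (a • u + b • z)).prod (gd d) := by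
  have hWc := hW.contDiff.continuous
  have hA := hW.exp_neg_le le_rfl
  have hGc := hW.continuous_grad
  have hG : ∀ x, ‖G x‖ ≤ (‖G 0‖ + |η|) * exp (1 * ‖x‖) := fun x => by
    rw [one_mul]
    refine (hW.grad_le le_rfl x).trans ?_
    nlinarith [add_one_le_exp ‖x‖, abs_nonneg η, norm_nonneg (G 0), norm_nonneg x,
      mul_le_mul_of_nonneg_right (le_abs_self η) (norm_nonneg x)]
  have hb2 : √(b ^ 2) = b := sqrt_sq hb.le
  obtain ⟨hi, he⟩ := tilt_tower hWc hA (pow_pos hb 2) hr (a • u) hGc hG
  have hf : √(sfine (b ^ 2) r) = b * √r / √(b ^ 2 + r) := by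
    rw [sfine, sqrt_div (by positivity), sqrt_mul (by positivity), hb2]
  have hx : ∀ (σ : ℝ) (v : Sp d), ∫ x, G x ∂rgo W (σ ^ 2) v =
      ∫ z, G (v + √(σ ^ 2) • z) ∂gibbs (fun z => W (v + √(σ ^ 2) • z)) := fun σ v => by
    rw [rgo, integral_map (by fun_prop : Continuous _).aemeasurable hGc.aestronglyMeasurable]
  have hfine : ∀ v, ∫ x, G x ∂rgo W (sfine (b ^ 2) r) v =
      ∫ z, G (v + (b * √r / √(b ^ 2 + r)) • z)
        ∂gibbs (fun z => W (v + (b * √r / √(b ^ 2 + r)) • z)) := fun v => by
    rw [rgo, integral_map (by fun_prop : Continuous _).aemeasurable hGc.aestronglyMeasurable, hf]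
  have : IsProbabilityMeasure (gibbs fun z => W (a • u + b • z)) :=
    isProbabilityMeasure_tilted (integrable_weight hWc hA _ _)
  have hmap : tiltNoise W (b ^ 2) r (a • u) =
      ((gibbs fun z => W (a • u + b • z)).prod (gd d)).map
        fun p => a • u + b • p.1 + √r • p.2 := by
    rw [tiltNoise, rgo, hb2, ← Measure.map_id (μ := gd d),
      Measure.map_prod_map _ _ (by fun_prop) measurable_id, Measure.map_id,
      Measure.map_map (by fun_prop) (by fun_prop)]
    rfl
  rw [hmap] at hi he
  rw [hx, hb2] at he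
  rw [he, integral_map (by fun_prop : Continuous _).aemeasurable hi.1]
  simp only [hfine, cfine]

end Vale.Agent.P347.Shift
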