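import Vale.Agent.P347.Quarter.Absorb.Shift
import Vale.Agent.P347.Quarter.Mean.Basic
import Vale.Agent.P347.Shift.Appell
import Vale.Agent.P347.Shift.Spec
import Vale.Agent.P347.Shift.Tower

/-!
# P347: the tilted velocity is a gradient field

`u ↦ E G (a u + b Z)`, `Z` of density proportional to `exp (-W (a u + b z))` against the Gaussian
law, is the tilted mean of `z ↦ G (b z)` under the potential `W (b z)` at the linear tilt
`(a / b) u`. So it is smooth, its derivative has norm at most `|a| η` by the first Appell bound,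
and it is symmetric since, after an integration by parts, it is a covariance.
-/

open MeasureTheory ProbabilityTheory Real Finset
open scoped RealInnerProductSpace ContDiff

namespace Vale.Agent.P347.Shift

open Quarter Appell

/-- The tilted velocity of the potential `W` with gradient `G`. -/
noncomputable def rawTilt {d : ℕ} (W : Sp d → ℝ) (G : Sp d → Sp d) (a b : ℝ) (u : Sp d) : Sp d :=
  ∫ z, G (a • u + b • z) ∂gibbs fun z => W (a • u + b • z)

variable {d : ℕ} {W : Sp d → ℝ} {G : Sp d → Sp d} {H : Sp d → Sp d →L[ℝ] Sp d} {η a b : ℝ}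

/-- A shift of the Gaussian law, for integrals. -/
lemma integral_gd_shift (u : Sp d) {f : Sp d → ℝ} (hf : Continuous f) :
    ∫ g, f (g + u) ∂gd d = exp (-(‖u‖ ^ 2 / 2)) * ∫ g, exp ⟪u, g⟫ * f g ∂gd d := by
  rw [← integral_map (φ := fun g => g + u) (by fun_prop) hf.aestronglyMeasurable, gauss_translate,
    integral_tilted, integral_gd_exp_inner, exp_neg, ← integral_const_mul]
  refine integral_congr_ae (ae_of_all _ fun g => ?_)
  simp only [smul_eq_mul, div_eq_inv_mul]
  ring

/-- The potential seen by the tilted variable at the origin. -/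
lemma isPot_scale (hW : IsPot W G H 0 η) (hb : 0 ≤ b) (hb1 : b ≤ 1) :
    IsPot (fun z => W (b • z)) (fun z => b • G (b • z)) (fun z => b ^ 2 • H (b • z)) 0 η := by
  simpa using hW.slice (κ := 0) hb hb1 0

lemma contDiff_pair (hW : IsPot W G H 0 η) (b : ℝ) (w : Sp d) :
    ContDiff ℝ 1 fun z => ⟪w, G (b • z)⟫ :=
  contDiff_const.inner ℝ (hW.contDiff_grad.comp (contDiff_id.const_smul b))

lemma fderiv_pair_le (hW : IsPot W G H 0 η) (hb : 0 ≤ b) (w z : Sp d) :
    ‖fderiv ℝ (fun z => ⟪w, G (b • z)⟫) z‖ ≤ b * η * ‖w‖ := by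
  have h := (innerSL ℝ w).hasFDerivAt.comp z
    ((hW.hasHess (b • z)).comp z ((hasFDerivAt_id z).const_smul b))
  rcases eq_or_ne d 0 with rfl | hd
  · have : fderiv ℝ (fun z => ⟪w, G (b • z)⟫) z = 0 :=
      ContinuousLinearMap.ext fun v => by simp [Subsingleton.elim v 0]
    simp [Subsingleton.elim w 0]
  have hη : 0 ≤ η := by
    have h1 := (hW.loHess 0 (EuclideanSpace.single ⟨0, Nat.pos_of_ne_zero hd⟩ (1:ℝ))).trans
      (hW.hiHess 0 (EuclideanSpace.single ⟨0, Nat.pos_of_ne_zero hd⟩ (1:ℝ)))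
    simpa using h1
  rw [show (fun z => ⟪w, G (b • z)⟫) = innerSL ℝ w ∘ G ∘ HSMul.hSMul b from rfl, h.fderiv]
  refine ContinuousLinearMap.opNorm_le_bound _ (by positivity) fun v => ?_
  simp only [ContinuousLinearMap.coe_comp, Function.comp_apply, smul_apply,
    ContinuousLinearMap.coe_id', id_eq, map_smul, smul_eq_mul, innerSL_apply_apply, norm_mul,
    norm_eq_abs, abs_of_nonneg hb, mul_assoc]
  refine mul_le_mul_of_nonneg_left ((abs_real_inner_le_norm _ _).trans ?_) hb
  rw [mul_left_comm]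
  exact mul_le_mul_of_nonneg_left (hW.hess_apply_le le_rfl _ _) (norm_nonneg _)

/-- The tilted velocity is a tilted mean at the linear tilt `(a / b) u`. -/
theorem inner_rawTilt (hW : IsPot W G H 0 η) (hb : 0 < b) (hb1 : b ≤ 1) (u w : Sp d) :
    ⟪w, rawTilt W G a b u⟫ =
      tiltMean (fun z => W (b • z)) (fun z => ⟪w, G (b • z)⟫) ((a / b) • u) := by
  set θ := (a / b) • u with hθ
  have hpos : ∀ z, a • u + b • z = b • (z + θ) := fun z => by
    rw [hθ, smul_add, smul_smul, mul_div_cancel₀ _ hb.ne', add_comm]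
  have hWc := hW.contDiff.continuous
  have hGc := hW.continuous_grad
  have hS := isPot_scale hW hb.le hb1
  have hA := hW.exp_neg_le le_rfl
  have hi : Integrable (fun z => G (a • u + b • z)) (gibbs fun z => W (a • u + b • z)) := by
    rw [gibbs, integrable_tilted_iff (integrable_weight hWc hA _ _)]
    refine integrable_gam_of_le (by fun_prop)
      (C := exp (-W 0) * exp (‖G 0‖ * ‖a • u‖) * (‖G 0‖ + |η| * (‖a • u‖ + 1)))
      (K := ‖G 0‖ + 1) fun z => ?_
    have h1 := hW.exp_neg_comp_le (κ := 1) (b := b) zero_le_one le_rfl hb.le hb1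
      (x := a • u) (w := z) le_rfl
    have h2 := hW.grad_comp_le (κ := 1) (b := b) zero_le_one le_rfl hb.le hb1
      (x := a • u) (w := z) le_rfl
    rw [one_smul] at h1 h2
    rw [norm_smul, norm_eq_abs, abs_exp, add_mul ‖G 0‖ 1, one_mul, exp_add]
    refine (mul_le_mul h1 h2 (norm_nonneg _) (by positivity)).trans_eq ?_
    ring
  rw [rawTilt, ← integral_inner hi, tiltMean, Appell.integral_tilt, IsPot.integral_gibbs, Zt, Zt]
  simp only [hpos, mul_one]
  have e1 := integral_gd_shift θ (f := fun g => exp (-W (b • g)) * ⟪w, G (b • g)⟫) (by fun_prop)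
  have e2 := integral_gd_shift θ (f := fun g => exp (-W (b • g))) (by fun_prop)
  beta_reduce at e1 e2
  rw [e1, e2, mul_div_mul_left _ _ (exp_pos _).ne']
  congr 1 <;>
    exact integral_congr_ae (ae_of_all _ fun g => by simp [sub_eq_add_neg, exp_add, mul_assoc])

lemma tilt_smooth (hW : IsPot W G H 0 η) (hb : 0 < b) (hb1 : b ≤ 1) (w : Sp d) :
    ContDiff ℝ ∞ (tiltMean (fun z => W (b • z)) fun z => ⟪w, G (b • z)⟫) := by
  obtain ⟨hc, C, K, hbd⟩ := expB_lip (contDiff_pair hW b w) (fderiv_pair_le hW hb.le w)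
  exact tiltMean_contDiff (isPot_scale hW hb.le hb1) hc hbd

/-- The tilted velocity is smooth. -/
theorem rawTilt_contDiff (hW : IsPot W G H 0 η) (hb : 0 < b) (hb1 : b ≤ 1) :
    ContDiff ℝ ∞ (rawTilt W G a b) := by
  rw [contDiff_euclidean]
  intro i
  have e : (fun u => rawTilt W G a b u i) = fun u =>
      tiltMean (fun z => W (b • z)) (fun z => ⟪ei i, G (b • z)⟫) ((a / b) • u) := funext fun u => by
    rw [← inner_rawTilt hW hb hb1]
    simp [ei, EuclideanSpace.inner_single_left]
  rw [e]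
  exact (tilt_smooth hW hb hb1 _).comp (contDiff_id.const_smul (a / b))

lemma inner_fderiv_rawTilt (hW : IsPot W G H 0 η) (hb : 0 < b) (hb1 : b ≤ 1) (u v w : Sp d) :
    ⟪w, fderiv ℝ (rawTilt W G a b) u v⟫ =
      fderiv ℝ (tiltMean (fun z => W (b • z)) fun z => ⟪w, G (b • z)⟫) ((a / b) • u)
        ((a / b) • v) := by
  have h1 := (innerSL ℝ w).hasFDerivAt.comp u
    ((rawTilt_contDiff (a := a) hW hb hb1).differentiable (by simp) u).hasFDerivAt
  have h2 := ((tilt_smooth hW hb hb1 w).differentiable (by simp)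
    ((a / b) • u)).hasFDerivAt.comp u ((hasFDerivAt_id u).const_smul (a / b))
  have e : innerSL ℝ w ∘ rawTilt W G a b =
      tiltMean (fun z => W (b • z)) (fun z => ⟪w, G (b • z)⟫) ∘ fun x => (a / b) • id x :=
    funext fun x => inner_rawTilt hW hb hb1 x w
  rw [e] at h1
  simpa using DFunLike.congr_fun (h1.unique h2) v

/-- The tilted velocity has Lipschitz constant `|a| η`. -/
theorem norm_fderiv_rawTilt_le (hW : IsPot W G H 0 η) (hη : 0 ≤ η) (hb : 0 < b) (hb1 : b ≤ 1)
    (u : Sp d) : ‖fderiv ℝ (rawTilt W G a b) u‖ ≤ |a| * η := by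
  refine ContinuousLinearMap.opNorm_le_bound _ (by positivity) fun v => ?_
  set y := fderiv ℝ (rawTilt W G a b) u v
  set θ := (a / b) • u
  set f := fun z => ⟪y, G (b • z)⟫
  have h := appell (isPot_scale hW hb.le hb1) le_rfl (contDiff_pair hW b y)
    (fderiv_pair_le hW hb.le y) 0 θ
  have hs : ‖fderiv ℝ (tiltMean (fun z => W (b • z)) f) θ‖ ^ 2 ≤ (b * η * ‖y‖) ^ 2 := by
    refine le_trans (le_of_eq ?_) (h.trans_eq (by simp))
    rw [norm_sq_clm, ← (Equiv.funUnique (Fin 1) (Fin d)).sum_comp]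
    refine sum_congr rfl fun p _ => ?_
    rw [iteratedFDeriv_one_apply]
    simp [ei, f, Fin.default_eq_zero]
  have hs' := (pow_le_pow_iff_left₀ (norm_nonneg _) (by positivity) two_ne_zero).1 hs
  have key : ‖y‖ * ‖y‖ ≤ ‖y‖ * (|a| * η * ‖v‖) := by
    rw [← real_inner_self_eq_norm_mul_norm]
    have hy : ⟪y, y⟫ = fderiv ℝ (tiltMean (fun z => W (b • z)) f) θ ((a / b) • v) :=
      inner_fderiv_rawTilt hW hb hb1 u v y
    rw [hy]
    refine ((le_abs_self _).trans ((ContinuousLinearMap.le_opNorm _ _).trans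
      (mul_le_mul_of_nonneg_right hs' (norm_nonneg _)))).trans_eq ?_
    rw [norm_smul, norm_eq_abs, abs_div, abs_of_pos hb]
    field_simp
  rcases (norm_nonneg y).eq_or_lt with h0 | h0
  · rw [← h0]; positivity
  · exact le_of_mul_le_mul_left key h0

lemma fderiv_Zt {η' : ℝ} {W' : Sp d → ℝ} {G' : Sp d → Sp d} {H' : Sp d → Sp d →L[ℝ] Sp d}
    (hW : IsPot W' G' H' 0 η') {f : Sp d → ℝ} (hf : ExpB f) (θ v : Sp d) :
    fderiv ℝ (Zt W' f) θ v = Zt W' (fun z => f z * ⟪v, z⟫) θ := by
  rw [(hasFDerivAt_Zt hW hf θ).fderiv]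
  simp only [_root_.sum_apply, smul_apply, PiLp.proj_apply, smul_eq_mul, ← Zt_mul_const]
  simp only [Zt, PiLp.inner_apply, mul_sum]
  rw [← integral_finsetSum]
  · refine integral_congr_ae (ae_of_all _ fun z => sum_congr rfl fun i _ => ?_)
    simp
    ring
  · exact fun i _ => Zt_integrable hW ((hf.mul (expB_coord i)).mul (expB_const _)) θ

lemma expB_inner (v : Sp d) : ExpB fun z : Sp d => ⟪v, z⟫ :=
  ⟨by fun_prop, ‖v‖, 1, fun z => (abs_real_inner_le_norm v z).trans
    (mul_le_mul_of_nonneg_left (by rw [one_mul]; linarith [add_one_le_exp ‖z‖])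
      (norm_nonneg v))⟩

/-- The derivative of the tilted velocity is symmetric. -/
theorem fderiv_rawTilt_sym (hW : IsPot W G H 0 η) (hb : 0 < b) (hb1 : b ≤ 1) (u v w : Sp d) :
    ⟪fderiv ℝ (rawTilt W G a b) u v, w⟫ = ⟪v, fderiv ℝ (rawTilt W G a b) u w⟫ := by
  set W' := fun z => W (b • z)
  have hS := isPot_scale hW hb.le hb1
  set θ := (a / b) • u
  -- the tilted mean of `⟨w, G (b z)⟩` is affine in the tilted mean of `⟨w, z⟩`
  have main : ∀ w, tiltMean W' (fun z => ⟪w, G (b • z)⟫) =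
      fun θ => b⁻¹ * (⟪w, θ⟫ - Zt W' (fun z => ⟪w, z⟫) θ * (Zt W' (fun _ => 1) θ)⁻¹) := by
    intro w
    funext θ
    have hT := isPot_tilt hS θ
    have := hT.isProb le_rfl
    have e := congrArg (fun x => ⟪w, x⟫) (gibbs_mean hT le_rfl)
    have i1 : Integrable (fun z : Sp d => z) (gibbs fun z => W' z - ⟪θ, z⟫) :=
      hT.integrable_gibbs_of_le le_rfl continuous_id (C := 1) (K := 1) fun z => by
        rw [one_mul, one_mul]; linarith [add_one_le_exp ‖z‖]
    have i2 : Integrable (fun z => b • G (b • z)) (gibbs fun z => W' z - ⟪θ, z⟫) :=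
      hT.integrable_gibbs_of_le le_rfl hS.continuous_grad
        (C := ‖b • G (b • (0 : Sp d))‖ + |η|) (K := 1) fun z => by
        rw [one_mul]
        refine (hS.grad_le le_rfl z).trans ?_
        nlinarith [add_one_le_exp ‖z‖, norm_nonneg (b • G (b • (0 : Sp d))), abs_nonneg η,
          norm_nonneg z, mul_le_mul_of_nonneg_right (le_abs_self η) (norm_nonneg z)]
    have i3 : Integrable (fun z => ⟪w, b • G (b • z)⟫) (gibbs fun z => W' z - ⟪θ, z⟫) :=
      i2.const_inner w
    have e' := (integral_inner (𝕜 := ℝ) (i2.sub (integrable_const θ)) w).symm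
    simp only [Pi.sub_apply] at e'
    rw [← integral_inner i1, inner_neg_right, e'] at e
    simp only [inner_sub_right] at e
    rw [integral_sub i3 (integrable_const _), integral_const, probReal_univ, one_smul] at e
    simp only [inner_smul_right, integral_const_mul] at e
    rw [← div_eq_mul_inv, ← Appell.integral_tilt, e, tiltMean]
    field_simp
    ring
  have hd : ∀ v w, fderiv ℝ (tiltMean W' fun z => ⟪w, G (b • z)⟫) θ v = b⁻¹ * (⟪w, v⟫ -
      (Zt W' (fun z => ⟪w, z⟫ * ⟪v, z⟫) θ * (Zt W' (fun _ => 1) θ)⁻¹ -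
        Zt W' (fun z => ⟪w, z⟫) θ * Zt W' (fun z => ⟪v, z⟫) θ /
          Zt W' (fun _ => 1) θ ^ 2)) := fun v w => by
    have hK := (Zt_one_pos hS θ).ne'
    have h1 := ((contDiff_Zt_top hS (expB_inner w)).differentiable (by simp) θ).hasFDerivAt
    have h2 := (hasDerivAt_inv hK).comp_hasFDerivAt θ
      ((contDiff_Zt_top hS (expB_const 1)).differentiable (by simp) θ).hasFDerivAt
    have h : HasFDerivAt (fun θ => b⁻¹ * (⟪w, θ⟫ -
        Zt W' (fun z => ⟪w, z⟫) θ * (Zt W' (fun _ => 1) θ)⁻¹)) _ θ :=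
      (((innerSL ℝ w).hasFDerivAt).sub (h1.mul h2)).const_mul b⁻¹
    rw [main w, h.fderiv]
    simp only [smul_apply, sub_apply, add_apply, smul_eq_mul, innerSL_apply_apply,
      fderiv_Zt hS (expB_inner w), fderiv_Zt hS (expB_const 1), one_mul, Function.comp_apply]
    ring
  rw [real_inner_comm, inner_fderiv_rawTilt hW hb hb1, inner_fderiv_rawTilt hW hb hb1, map_smul,
    map_smul, hd v w, hd w v, real_inner_comm v w]
  simp only [mul_comm (⟪w, _⟫ : ℝ), mul_comm (Zt W' (fun z => ⟪w, z⟫) θ)]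

/-- The tilted velocity at the origin. -/
theorem norm_rawTilt_zero_le (hW : IsPot W G H 0 η) (hη : 0 ≤ η) (hη1 : η ≤ 1 / 8) (hb : 0 < b)
    (hb1 : b ≤ 1) (h0 : ‖G 0‖ ≤ η * √d) : ‖rawTilt W G a b 0‖ ≤ 3 * η * √d := by
  have hS : IsPot (fun z => W (b • z)) (fun z => b • G (b • z)) (fun z => b ^ 2 • H (b • z))
      0 (b ^ 2 * η) :=
    { isPot_scale hW hb.le hb1 with
      hiHess := fun z v => by
        simp only [smul_apply, real_inner_smul_left, mul_assoc]
        exact mul_le_mul_of_nonneg_left (hW.hiHess _ v) (sq_nonneg b) }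
  have h := hS.tilt_norm ((mul_le_of_le_one_left hη (pow_le_one₀ hb.le hb1)).trans (by linarith))
  rw [integral_smul, integral_smul, ← smul_sub, norm_smul, norm_eq_abs, abs_of_pos hb, smul_zero,
    norm_smul, norm_eq_abs, abs_of_pos hb] at h
  have hm : ‖∫ z, G (b • z) ∂gd d‖ ≤ 2 * η * √d := by
    refine (norm_integral_le_integral_norm _).trans ?_
    have hle : ∀ z, ‖G (b • z)‖ ≤ η * √d + η * ‖z‖ := fun z => by
      refine (hW.grad_le le_rfl _).trans (add_le_add h0 (mul_le_mul_of_nonneg_left ?_ hη))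
      rw [norm_smul, norm_eq_abs, abs_of_pos hb]
      exact mul_le_of_le_one_left (norm_nonneg z) hb1
    refine (integral_mono_of_nonneg (ae_of_all _ fun _ => norm_nonneg _)
      ((integrable_const _).add (integrable_norm_gd.const_mul η)) (ae_of_all _ hle)).trans ?_
    simp only [Pi.add_apply]
    rw [integral_add (integrable_const _) (integrable_norm_gd.const_mul η),
      integral_const, probReal_univ, one_smul, integral_const_mul]
    linarith [mul_le_mul_of_nonneg_left (MeanPt.integral_norm_le (d := d)) hη]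
  have e : rawTilt W G a b 0 = ∫ z, G (b • z) ∂gibbs fun z => W (b • z) := by simp [rawTilt]
  rw [e]
  set X := ∫ z, G (b • z) ∂gibbs fun z => W (b • z)
  set Y := ∫ z, G (b • z) ∂gd d
  have hX : ‖X - Y‖ ≤ η * √d := by
    refine le_of_mul_le_mul_left (h.trans ?_) hb
    have h1 : b * η ≤ 1 / 8 := (mul_le_of_le_one_left hη hb1).trans hη1
    calc 4 * (b ^ 2 * η) * (b * ‖G 0‖ + b ^ 2 * η * √d)
        ≤ 4 * (b ^ 2 * η) * (b * (η * √d) + b * η * √d) := by
          gcongr
          exact (sq b).trans_le (mul_le_of_le_one_left hb.le hb1)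
      _ = b * (η * √d) * (8 * (b * (b * η))) := by ring
      _ ≤ b * (η * √d) := mul_le_of_le_one_right (by positivity)
          (by nlinarith [mul_nonneg hb.le hη])
  calc ‖X‖ = ‖(X - Y) + Y‖ := by rw [sub_add_cancel]
    _ ≤ ‖X - Y‖ + ‖Y‖ := norm_add_le _ _
    _ ≤ _ := by linarith

/-- The line integral of an admissible gradient is its potential, zero at the origin. -/
theorem pot_eq (hW : IsPot W G H 0 η) (x : Sp d) : pot G x = W x - W 0 :=
  line_integral_grad hW x

/-- For an admissible gradient the tilted velocity is that of its potential. -/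
theorem tiltField_eq (hW : IsPot W G H 0 η) (a b : ℝ) :
    tiltField a b G = rawTilt W G a b := funext fun u => by
  simp only [tiltField, rawTilt, pot_eq hW, gibbs_sub_const]

/-- **The tilted velocity of an admissible gradient is a field.** -/
theorem isField_tiltField (hG : Adm η G) (hη : 0 ≤ η) (hη1 : η ≤ 1 / 8) (ha : |a| ≤ 1)
    (hb : 0 < b) (hb1 : b ≤ 1) : IsField (3 * η) (tiltField a b G) := by
  obtain ⟨h0, W, H, hW⟩ := hG
  rw [tiltField_eq hW]
  exact ⟨(rawTilt_contDiff hW hb hb1).of_le (WithTop.coe_le_coe.2 le_top),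
    fun x u v => fderiv_rawTilt_sym hW hb hb1 x u v,
    fun x => (norm_fderiv_rawTilt_le hW hη hb hb1 x).trans
      ((mul_le_of_le_one_left hη ha).trans (by linarith)),
    norm_rawTilt_zero_le hW hη hη1 hb hb1 h0⟩

/-- The tilted velocity is smooth to every order. -/
theorem contDiff_tiltField (hG : Adm η G) (hb : 0 < b) (hb1 : b ≤ 1) :
    ContDiff ℝ ∞ (tiltField a b G) := by
  obtain ⟨-, W, H, hW⟩ := hG
  rw [tiltField_eq hW]
  exact rawTilt_contDiff hW hb hb1

end Vale.Agent.P347.Shift
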