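import Vale.Agent.P347.Shift.EmitBase
import Vale.Agent.P347.Shift.SpecArith
import Vale.Agent.P347.Shift.StepGlue
import Vale.Agent.P347.Shift.TiltField

/-!
# P347: the whitened step from an expression of the flow map

An expression of one variable that follows the flow map to the smoothed target at correlation
`√(4/5)` is emitted at a standard input to the top order, into half a unit of noise.
-/

open MeasureTheory ProbabilityTheory Real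
open scoped RealInnerProductSpace ENNReal

namespace Vale.Agent.P347.Shift

open Quarter

variable {d : ℕ} {κ : Type}

/-- The boxes of the top expression: the gradient, or tilted velocities below the padded scales. -/
def Padded (sc : κ → ℝ) (𝒱 : κ → (Sp d → Sp d) → Sp d → Sp d) : Prop :=
  ∀ k, 0 ≤ sc k ∧ ((𝒱 k = fun G => G) ∨
    ∃ a b : ℝ, 0 ≤ a ∧ a ≤ 1 ∧ 0 < b ∧ b ≤ 1 ∧ b ≤ sc k ∧ 𝒱 k = tiltField a b)

/-- A box at a smaller constant and scale is a box. -/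
theorem IsBox.grow {K m : ℕ} {η L L' S S' B C : ℝ} {N : ℕ}
    {𝒱 : (Sp d → Sp d) → Sp d → Sp d} (h : IsBox d K η L S m B C N 𝒱) (hη : 0 ≤ η)
    (hL : 0 ≤ L) (hS : 0 ≤ S) (hC : 0 ≤ C) (hL' : L ≤ L') (hS' : S ≤ S') :
    IsBox d K η L' S' m B C N 𝒱 := by
  have hS0 : 0 ≤ S' := hS.trans hS'
  have hL0 : 0 ≤ L' := hL.trans hL'
  refine ⟨fun G hG => ?_, fun ρ hρ hle => ?_⟩
  · have hF := h.1 G hG
    exact ⟨hF.smooth, hF.sym, fun x => (hF.bound x).trans hL',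
      hF.zero.trans (mul_le_mul_of_nonneg_right hL' (sqrt_nonneg _))⟩
  · have h2 : 0 ≤ η ^ (-pW K m) := rpow_nonneg hη _
    obtain ⟨p, hp, hpe⟩ := h.2 ρ hρ (le_trans (by gcongr) hle)
    refine ⟨p, hp, fun G hG => EmitBase.emits_mono (hpe G hG) fun y => ?_⟩
    have h3 : 0 ≤ η ^ ((m : ℝ) * pE K) := rpow_nonneg hη _
    rw [abs_of_nonneg (by positivity), abs_of_nonneg (by positivity)]
    gcongr

/-- One constant and one number of queries for the tilted boxes of all orders up to `n`. -/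
lemma exists_tilt_boxes {K : ℕ} (B : ℝ) {θ : ℝ} (hθ : 0 < θ) :
    ∀ n, (∀ m ≤ n, TiltBox K m) → ∃ C η₀ : ℝ, 0 ≤ C ∧ 0 < η₀ ∧
      ∀ (d : ℕ) (η a b : ℝ), 1 ≤ d → 0 < η → η ≤ η₀ → 0 ≤ a → a ≤ 1 → 0 < b → b ≤ 1 →
        ∃ N : ℕ, (N : ℝ) ≤ C * η ^ (-θ) ∧
          ∀ m ≤ n, IsBox d K η (3 * η) b m B C N (tiltField a b)
  | 0, hb => by
    obtain ⟨C, η₀, hC, hη₀, h⟩ := hb 0 le_rfl B θ hθ
    refine ⟨C, η₀, hC, hη₀, fun d η a b hd hη hu ha ha1 hb0 hb1 => ?_⟩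
    obtain ⟨N, hN, hN'⟩ := h d η a b hd hη hu ha ha1 hb0 hb1
    exact ⟨N, hN, fun m hm => (Nat.le_zero.1 hm).symm ▸ hN'⟩
  | n + 1, hb => by
    obtain ⟨C, η₀, hC, hη₀, h⟩ := exists_tilt_boxes B hθ n fun m hm => hb m (hm.trans n.le_succ)
    obtain ⟨C', η₁, hC', hη₁, h'⟩ := hb (n + 1) le_rfl B θ hθ
    refine ⟨C + C', min η₀ η₁, by positivity, lt_min hη₀ hη₁,
      fun d η a b hd hη hu ha ha1 hb0 hb1 => ?_⟩
    obtain ⟨N, hN, hN'⟩ := h d η a b hd hη (hu.trans (min_le_left _ _)) ha ha1 hb0 hb1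
    obtain ⟨M, hM, hM'⟩ := h' d η a b hd hη (hu.trans (min_le_right _ _)) ha ha1 hb0 hb1
    refine ⟨N + M, by push_cast; linarith, fun m hm => ?_⟩
    rcases Nat.le_succ_iff.1 hm with h | rfl
    · exact (hN' m h).mono hη.le (by positivity) hb0.le hC le_rfl (by linarith) (by omega)
    · exact hM'.mono hη.le (by positivity) hb0.le hC' le_rfl (by linarith) (by omega)

/-- The boxes of a padded family. -/
theorem exists_boxes {K n : ℕ} (hb : ∀ m ≤ n, TiltBox K m) (B : ℝ) {θ : ℝ} (hθ : 0 < θ) :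
    ∃ C η₀ : ℝ, 0 ≤ C ∧ 0 < η₀ ∧ ∀ (d : ℕ) (η : ℝ), 1 ≤ d → 0 < η → η ≤ η₀ →
      ∃ N : ℕ, 1 ≤ N ∧ (N : ℝ) ≤ C * η ^ (-θ) ∧ ∀ (κ : Type) (sc : κ → ℝ)
        (𝒱 : κ → (Sp d → Sp d) → Sp d → Sp d), Padded sc 𝒱 →
        ∀ k, ∀ m ≤ n, IsBox d K η (3 * η) (sc k) m B C N (𝒱 k) := by
  obtain ⟨C, η₀, hC, hη₀, h⟩ := exists_tilt_boxes B hθ n hb
  refine ⟨C + 1, min η₀ 1, by positivity, lt_min hη₀ one_pos, fun d η hd hη hu => ?_⟩
  have hp : 1 ≤ η ^ (-θ) :=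
    one_le_rpow_of_pos_of_le_one_of_nonpos hη (hu.trans (min_le_right _ _)) (by linarith)
  refine ⟨⌊C * η ^ (-θ)⌋₊ + 1, by omega, ?_, fun κ sc 𝒱 h𝒱 k m hm => ?_⟩
  · push_cast
    linarith [Nat.floor_le (show 0 ≤ C * η ^ (-θ) by positivity)]
  obtain ⟨hsc, hk | ⟨a, b, ha, ha1, hb0, hb1, hbs, hk⟩⟩ := h𝒱 k
  · rw [hk]
    exact ((isBox_id K m hη.le (sc k) B).grow hη.le hη.le hsc le_rfl (by linarith) le_rfl).mono
      hη.le (by positivity) hsc le_rfl le_rfl (by linarith) (by omega)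
  · obtain ⟨N, hN, hN'⟩ := h d η a b hd hη (hu.trans (min_le_left _ _)) ha ha1 hb0 hb1
    rw [hk]
    exact ((hN' m hm).grow hη.le (by positivity) hb0.le hC le_rfl hbs).mono hη.le (by positivity)
      hsc hC le_rfl (by linarith) ((Nat.le_floor hN).trans (Nat.le_succ _))

namespace Expr

/-- Without centres every mean is filled. -/
lemma fill_elim0 : ∀ {v : ℕ} (e : Expr κ 0 v) (kap : Fin 0 → ℝ), e.Fill kap
  | _, var _, _ => trivial
  | _, zero, _ => trivial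
  | _, add e f, kap => ⟨e.fill_elim0 kap, f.fill_elim0 kap⟩
  | _, smul _ e, kap => e.fill_elim0 kap
  | _, node _ _ e, kap => e.fill_elim0 kap
  | _, mean _ e, kap => ⟨by simp, e.fill_elim0 kap⟩

lemma white_sm_nonneg {J : ℕ} {L : ℝ} {sc : κ → ℝ} (hL : 0 ≤ L) (hsc : ∀ k, 0 ≤ sc k) :
    ∀ {v : ℕ} (e : Expr κ J v), 0 ≤ e.sm L sc
  | _, var _ => le_rfl
  | _, zero => le_rfl
  | _, add e f => add_nonneg (e.white_sm_nonneg hL hsc) (f.white_sm_nonneg hL hsc)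
  | _, smul t e => mul_nonneg (abs_nonneg t) (e.white_sm_nonneg hL hsc)
  | _, node k _ e => mul_nonneg hL (add_nonneg (hsc k) (e.white_sm_nonneg hL hsc))
  | _, mean _ e => add_nonneg (e.white_sm_nonneg hL hsc) (abs_nonneg _)

lemma white_cen_nonneg {J : ℕ} (V : κ → Sp d → Sp d) (c : Fin J → Sp d) :
    ∀ {v : ℕ} (e : Expr κ J v) (x : Fin v → Sp d), 0 ≤ e.cen V c x
  | _, var _, _ => le_rfl
  | _, zero, _ => le_rfl
  | _, add e _, x => (e.white_cen_nonneg V c x).trans (le_max_left _ _)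
  | _, smul _ e, x => e.white_cen_nonneg V c x
  | _, node _ _ _, _ => (norm_nonneg _).trans (le_max_left _ _)
  | _, mean _ e, _ => e.white_cen_nonneg V c _

end Expr

/-- The square of the growth has mean at most `4 d`. -/
lemma lintegral_growth_sq : ∫⁻ x : Sp d, ENNReal.ofReal ((√d + ‖x‖) ^ 2) ∂gd d ≤
    ENNReal.ofReal (4 * d) := by
  obtain ⟨hi, he⟩ := integral_norm_sq (ι := Fin d)
  rw [Fintype.card_fin] at he
  have hg : Integrable (fun x : Sp d => 2 * (d : ℝ) + 2 * ‖x‖ ^ 2) (gd d) :=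
    (integrable_const _).add (hi.const_mul 2)
  refine (lintegral_mono fun x : Sp d => ENNReal.ofReal_le_ofReal
    (show (√d + ‖x‖) ^ 2 ≤ 2 * (d : ℝ) + 2 * ‖x‖ ^ 2 by
      nlinarith [sq_sqrt (Nat.cast_nonneg (α := ℝ) d), sq_nonneg (√d - ‖x‖)])).trans ?_
  rw [← ofReal_integral_eq_lintegral_ofReal hg (ae_of_all _ fun x => by positivity),
    integral_add (integrable_const _) (hi.const_mul 2), integral_const, probReal_univ, one_smul,
    integral_const_mul, he]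
  exact ENNReal.ofReal_le_ofReal (by linarith)

/-- The square of an error with growth plus another error. -/
lemma lintegral_err_sq {e : Sp d → ℝ} {f : Sp d → Sp d} {M M' : ℝ}
    (he : ∀ x, e x ^ 2 ≤ (M * (√d + ‖x‖)) ^ 2)
    (hf : ∫⁻ x, ENNReal.ofReal (‖f x‖ ^ 2) ∂gd d ≤ ENNReal.ofReal ((M' * √d) ^ 2)) :
    ∫⁻ x, ENNReal.ofReal (e x ^ 2 + 2 * ‖f x‖ ^ 2) ∂gd d ≤
      ENNReal.ofReal ((4 * M ^ 2 + 2 * M' ^ 2) * d) := by
  refine (lintegral_mono (g := fun x => ENNReal.ofReal (M ^ 2) *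
    ENNReal.ofReal ((√d + ‖x‖) ^ 2) + ENNReal.ofReal 2 * ENNReal.ofReal (‖f x‖ ^ 2))
    fun x => ?_).trans ?_
  · dsimp only
    rw [← ENNReal.ofReal_mul (sq_nonneg M), ← ENNReal.ofReal_mul zero_le_two,
      ← ENNReal.ofReal_add (by positivity) (by positivity), ← mul_pow]
    exact ENNReal.ofReal_le_ofReal (by linarith [he x])
  rw [lintegral_add_left (by fun_prop), lintegral_const_mul' _ _ ENNReal.ofReal_ne_top,
    lintegral_const_mul' _ _ ENNReal.ofReal_ne_top]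
  refine (add_le_add (mul_le_mul' le_rfl lintegral_growth_sq) (mul_le_mul' le_rfl hf)).trans ?_
  rw [← ENNReal.ofReal_mul (sq_nonneg M), ← ENNReal.ofReal_mul zero_le_two,
    ← ENNReal.ofReal_add (by positivity) (by positivity), mul_pow, sq_sqrt (Nat.cast_nonneg d)]
  exact ENNReal.ofReal_le_ofReal (le_of_eq (by ring))

/-- The room is large enough. -/
lemma room_arith {η sm C B b w : ℝ} (hη : 0 < η) (hη1 : η ≤ 1) (hC : 0 ≤ C) (hb : 0 ≤ b)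
    (hB : 1 ≤ B) (hw : w ≤ 1 / 2) (hη' : η ≤ (b / (C + 1)) ^ 4) (hsm : sm ≤ C * η ^ (3 / 4 : ℝ)) :
    sm * η ^ (-w) ≤ B * b := by
  have h1 : η ^ (-w) ≤ η ^ (-(1 / 2 : ℝ)) :=
    rpow_le_rpow_of_exponent_ge hη hη1 (by linarith)
  have h2 : η ^ (1 / 4 : ℝ) ≤ b / (C + 1) := by
    refine (rpow_le_rpow hη.le hη' (by norm_num)).trans_eq ?_
    rw [← rpow_natCast, ← rpow_mul (by positivity)]
    norm_num
  calc sm * η ^ (-w) ≤ C * η ^ (3 / 4 : ℝ) * η ^ (-(1 / 2 : ℝ)) :=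
        mul_le_mul hsm h1 (rpow_nonneg hη.le _) (by positivity)
    _ = C * η ^ (1 / 4 : ℝ) := by rw [mul_assoc, ← rpow_add hη]; norm_num
    _ ≤ (C + 1) * (b / (C + 1)) := by gcongr; linarith
    _ ≤ B * b := by
        rw [mul_div_cancel₀ _ (by positivity)]
        exact le_mul_of_one_le_left hb hB

/-- The number of questions. -/
lemma cost_arith {η θ β C C₂ Cb sz N : ℝ} {A : ℕ} (hη : 0 < η) (hη1 : η ≤ 1) (hC : 0 ≤ C)
    (hθ : θ = β / (A + 2)) (hθ0 : 0 ≤ θ) (hsz0 : 0 ≤ sz) (hsz : sz ≤ C * η ^ (-θ)) (hN0 : 0 ≤ N)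
    (hCb : 0 ≤ Cb) (hN : N ≤ Cb * η ^ (-θ)) :
    C₂ * η ^ (-θ) * sz ^ A * (N + 1) ≤ |C₂| * C ^ A * (Cb + 1) * η ^ (-β) := by
  have hηθ : 1 ≤ η ^ (-θ) := one_le_rpow_of_pos_of_le_one_of_nonpos hη hη1 (by linarith)
  have hA2 : (A : ℝ) + 2 ≠ 0 := by positivity
  calc C₂ * η ^ (-θ) * sz ^ A * (N + 1)
      ≤ |C₂| * η ^ (-θ) * (C * η ^ (-θ)) ^ A * ((Cb + 1) * η ^ (-θ)) := by
        gcongr
        · exact le_abs_self _
        · linarith
    _ = |C₂| * C ^ A * (Cb + 1) * η ^ (-β) := by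
        rw [show -β = -θ * ((A + 2 : ℕ) : ℝ) by rw [hθ]; push_cast; field_simp,
          rpow_mul hη.le, rpow_natCast, mul_pow]
        ring

/-- The error at the top order. -/
lemma err_arith {η s C C₂ sm c t g : ℝ} {K : ℕ} (hη : 0 < η) (hη1 : η ≤ 1) (hs : 0 ≤ s)
    (hs2 : s ≤ 2) (hC : 0 ≤ C) (hsm0 : 0 ≤ sm) (hsm : sm ≤ C * η ^ (3 / 4 : ℝ)) (hc0 : 0 ≤ c)
    (ht : 0 ≤ t) (hg : 0 ≤ g) (hc : c ≤ C * η⁻¹ * (t + g)) :
    (s * (C₂ * sm * (η ^ (K + 2) * (t + c)))) ^ 2 ≤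
      (2 * |C₂| * C * (1 + C) * η ^ K * (t + g)) ^ 2 := by
  rw [sq_le_sq, abs_of_nonneg (a := 2 * |C₂| * C * (1 + C) * η ^ K * (t + g)) (by positivity),
    abs_mul, abs_mul, abs_mul, abs_of_nonneg hs, abs_of_nonneg hsm0,
    abs_of_nonneg (a := η ^ (K + 2) * (t + c)) (by positivity)]
  have h1 : t + c ≤ (1 + C) * η⁻¹ * (t + g) := by
    have h0 := (one_le_inv₀ hη).2 hη1
    nlinarith
  have h2 : η ^ (3 / 4 : ℝ) ≤ 1 := rpow_le_one hη.le hη1 (by norm_num)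
  calc s * (|C₂| * sm * (η ^ (K + 2) * (t + c)))
      ≤ 2 * (|C₂| * (C * 1) * (η ^ (K + 2) * ((1 + C) * η⁻¹ * (t + g)))) := by
        gcongr
        exact hsm.trans (mul_le_mul_of_nonneg_left h2 hC)
    _ = 2 * |C₂| * C * (1 + C) * η ^ K * η * (t + g) := by
        rw [pow_add]; field_simp
    _ ≤ 2 * |C₂| * C * (1 + C) * η ^ K * (t + g) := by
        exact mul_le_mul_of_nonneg_right (mul_le_of_le_one_right (by positivity) hη1) (by positivity)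

/-- The final constant. -/
lemma total_arith {η C C₂ Cb d : ℝ} {A K : ℕ} (hC : 0 ≤ C) (hCb : 0 ≤ Cb) (hd : 0 ≤ d) :
    (4 * (2 * |C₂| * C * (1 + C) * η ^ K) ^ 2 + 2 * (C * η ^ K) ^ 2) * d ≤
      ((|C₂| * C ^ A * (Cb + 1) + 4 * |C₂| * C * (1 + C) + 2 * C) * η ^ K * √d) ^ 2 := by
  rw [mul_pow _ √d, sq_sqrt hd, mul_pow _ (η ^ K), mul_pow _ (η ^ K), mul_pow _ (η ^ K),
    ← mul_assoc, ← mul_assoc, ← add_mul]
  refine mul_le_mul_of_nonneg_right (mul_le_mul_of_nonneg_right ?_ (sq_nonneg _)) hd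
  have h1 : 0 ≤ |C₂| * C * (1 + C) := by positivity
  have h2 : 0 ≤ |C₂| * C ^ A * (Cb + 1) := by positivity
  nlinarith [mul_nonneg h1 hC, mul_nonneg h2 h1, mul_nonneg h2 hC, sq_nonneg C]

/-- **The whitened step from an expression of the flow map.** -/
theorem whiteSpec_of_expr {K : ℕ} (hp : PtSpec K (pTop K)) (hb : ∀ m ≤ pTop K, TiltBox K m)
    (hyp : ∃ (D : ℕ) (B : ℝ), 1 ≤ B ∧ ∀ θ : ℝ, 0 < θ → ∃ C η₀ : ℝ, 0 ≤ C ∧ 0 < η₀ ∧
      ∀ (d : ℕ) (η : ℝ), 1 ≤ d → 0 < η → η ≤ η₀ →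
        ∃ (κ : Type) (sc : κ → ℝ) (𝒱 : κ → (Sp d → Sp d) → Sp d → Sp d) (e : Expr κ 0 1),
          Padded sc 𝒱 ∧ e.depth ≤ D ∧
          e.Good η (3 * η) sc B (B * η ^ (-pA K)) (pW K (pTop K)) ∧
          (e.size : ℝ) ≤ C * η ^ (-θ) ∧ e.sm (3 * η) sc ≤ C * η ^ (3 / 4 : ℝ) ∧
          ∀ (W : Sp d → ℝ) (G : Sp d → Sp d) (H : Sp d → Sp d →L[ℝ] Sp d),
            IsPot W G H 0 η → ‖G 0‖ ≤ η * √d →
            (∀ x, e.cen (fun k => 𝒱 k G) Fin.elim0 (fun _ => x) ≤ C * η⁻¹ * (√d + ‖x‖)) ∧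
            ∃ T : Sp d → Sp d, Measurable T ∧ (gd d).map T = gibbs (smPot (mixKap (1 / 4)) W) ∧
              ∫⁻ x, ENNReal.ofReal
                  (‖e.eval (fun k => 𝒱 k G) Fin.elim0 (fun _ => x) - T x‖ ^ 2) ∂gd d ≤
                ENNReal.ofReal ((C * η ^ K * √d) ^ 2)) :
    WhiteSpec K := by
  obtain ⟨D, B, hB, hyp⟩ := hyp
  obtain ⟨B', A, hPt⟩ := hp D B
  refine whiteSpec_of_emit fun β hβ => ?_
  set θ : ℝ := β / (A + 2) with hθdef
  have hA2 : (0 : ℝ) < A + 2 := by positivity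
  have hθ : 0 < θ := div_pos hβ hA2
  obtain ⟨C, η₁, hC, hη₁, hyp⟩ := hyp θ hθ
  obtain ⟨Cb, η₂, hCb, hη₂, hbox⟩ := exists_boxes hb B' hθ
  obtain ⟨C₂, η₃, hη₃, hPt⟩ := hPt θ hθ Cb hCb
  set s : ℝ := √(1 + 1 / 4) with hs
  have hs0 : 0 < s := sqrt_pos.2 (by norm_num)
  have hs2 : s ≤ 2 := sqrt_le_iff.2 ⟨by norm_num, by norm_num⟩
  set b : ℝ := √(1 / 2 - 1 / 4) / s with hbdef
  have hb0 : 0 < b := div_pos (sqrt_pos.2 (by norm_num)) hs0
  set Cf : ℝ := |C₂| * C ^ A * (Cb + 1) + 4 * |C₂| * C * (1 + C) + 2 * C with hCf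
  refine ⟨Cf, min (min η₁ η₂) (min η₃ (min 1 ((b / (C + 1)) ^ 4))), by positivity,
    lt_min (lt_min hη₁ hη₂) (lt_min hη₃ (lt_min one_pos (by positivity))),
    fun d η hd hη hu => ?_⟩
  simp only [le_min_iff] at hu
  obtain ⟨⟨hu1, hu2⟩, hu3, hu4, hu5⟩ := hu
  obtain ⟨κ, sc, 𝒱, e, hpad, hD, hgood, hsize, hsm, hW'⟩ := hyp d η hd hη hu1
  obtain ⟨N, hN1, hN, hN'⟩ := hbox d η hd hη hu2
  have hsc : ∀ k, 0 ≤ sc k := fun k => (hpad k).1
  have hsm0 : 0 ≤ e.sm (3 * η) sc := e.white_sm_nonneg (by positivity) hsc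
  have hroom : e.sm (3 * η) sc * η ^ (-pW K (pTop K)) ≤ B * b :=
    room_arith hη hu4 hC hb0.le hB (pW_le_half K le_rfl) hu5 hsm
  obtain ⟨p, hpc, hpe⟩ := hPt d 0 1 κ (Sp d) η (3 * η) b N sc 𝒱 e Fin.elim0 (fun x _ => x)
    Fin.elim0 hd hη hu3 (by positivity) (by linarith) hb0 hN1 hsc (fun j => j.elim0)
    (by fun_prop) hD hgood (e.fill_elim0 _) hroom (hN' κ sc 𝒱 hpad)
  obtain ⟨q, hqc, hqe⟩ := emits_affine p s (f := fun _ => (0 : Sp d)) measurable_const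
  have hηθ : 1 ≤ η ^ (-θ) := one_le_rpow_of_pos_of_le_one_of_nonpos hη hu4 (by linarith)
  refine ⟨q, ?_, fun W G H hW hG0 => ?_⟩
  · refine ((Nat.cast_le.2 hqc).trans hpc).trans ?_
    simp only [Finset.univ_eq_empty, Finset.sum_empty, Nat.cast_zero, add_zero]
    refine (cost_arith hη hu4 hC hθdef hθ.le (Nat.cast_nonneg _) hsize (Nat.cast_nonneg _) hCb
      hN).trans (mul_le_mul_of_nonneg_right ?_ (rpow_nonneg hη.le _))
    have : 0 ≤ |C₂| * C * (1 + C) := by positivity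
    linarith
  obtain ⟨hcen, T, hT, hlaw, hTe⟩ := hW' W G H hW hG0
  have hG : Adm η G := ⟨hG0, W, H, hW⟩
  have he := hqe G _ b _ (hpe G hG (fun _ => Fin.elim0) (fun j => j.elim0)
    (fun j => j.elim0) (fun j => j.elim0) fun j => j.elim0)
  simp only [zero_add, Finset.univ_eq_empty, Finset.sum_empty, add_zero] at he
  rw [show s * b = √(1 / 2 - 1 / 4) by rw [hbdef]; field_simp] at he
  refine ⟨1 / 4, _, T, _, by norm_num, by norm_num, hT, hlaw, he, ?_⟩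
  set V := fun k => 𝒱 k G
  refine le_trans (lintegral_mono fun x => ENNReal.ofReal_le_ofReal
    (show _ ≤ (s * (C₂ * e.sm (3 * η) sc * (η ^ ((pTop K : ℝ) * pE K) *
        (√d + e.cen V Fin.elim0 fun _ => x)))) ^ 2 +
        2 * ‖e.eval V Fin.elim0 (fun _ => x) - T x‖ ^ 2 from ?_)) ?_
  · rw [← hs, ← smul_sub, norm_smul, mul_pow ‖s‖, norm_eq_abs, abs_of_nonneg hs0.le, hs,
      sq_sqrt (by norm_num : (0 : ℝ) ≤ 1 + 1 / 4)]
    gcongr
    norm_num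
  refine (lintegral_err_sq (M := 2 * |C₂| * C * (1 + C) * η ^ K) (M' := C * η ^ K)
    (fun x => ?_) hTe).trans (ENNReal.ofReal_le_ofReal (total_arith hC hCb (Nat.cast_nonneg d)))
  rw [eta_top]
  exact err_arith hη hu4 hs0.le hs2 hC hsm0 hsm (e.white_cen_nonneg V _ _) (sqrt_nonneg _)
    (norm_nonneg x) (hcen x)

end Vale.Agent.P347.Shift
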