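import Vale.Agent.P347.Shift.SF
import Vale.Agent.P347.Shift.EmitBase
import Vale.Agent.P347.Shift.TiltBoxZero
import Vale.Agent.P347.Shift.WhiteAsm

/-!
# P347: the tilted velocity is a box of every order

The expression `SF.sf` of index `2 (K + 3)` follows the tilted velocity to `η ^ (K + 3)`. Its boxes sit
at scales at most `η ^ pE` times the scale of the target, so boxes of one order less, padded to that
scale, are enough to emit it to order `m`.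
-/

open MeasureTheory ProbabilityTheory Real
open scoped RealInnerProductSpace ENNReal

namespace Vale.Agent.P347.Shift

open Quarter

variable {d : ℕ}

/-- The ratio of the tower. -/
noncomputable def qq (K : ℕ) (η : ℝ) : ℝ := η ^ (2 * pE K)

/-- The boxes below a scale: `none` and the scales out of range are the gradient. -/
noncomputable def boxV (T : ℝ) : Option ℝ → (Sp d → Sp d) → Sp d → Sp d
  | none => fun G => G
  | some t => if 0 < t ∧ t ≤ T then tiltField 1 t else fun G => G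

/-- What the quadrature owes: grids on which `SF.sfv` follows the tilted velocity. -/
def SFApprox (K : ℕ) : Prop :=
  ∀ θ : ℝ, 0 < θ → ∃ C η₀ : ℝ, 0 ≤ C ∧ 0 < η₀ ∧
    ∀ (d : ℕ) (η : ℝ), 1 ≤ d → 0 < η → η ≤ η₀ →
      ∃ (grid : ℝ → List (ℝ × ℝ)) (W : ℝ) (N : ℕ), SF.GridOK (qq K η) grid W N ∧ 0 ≤ W ∧
        W ≤ C * η ^ (-(1 / 8 : ℝ)) ∧ (N : ℝ) ≤ C * η ^ (-θ) ∧
        ∀ G : Sp d → Sp d, Adm η G → ∀ s : ℝ, 0 < s → s ≤ 1 →
          ∀ V : Option ℝ → Sp d → Sp d, V none = G →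
          (∀ t, 0 < t → t ≤ η ^ pE K * s → V (some t) = tiltField 1 t G) → ∀ u,
            ‖SF.sfv (qq K η) grid V (2 * (K + 3)) s u - tiltField 1 s G u‖ ≤
              C * η * s * η ^ (K + 2) * (√d + ‖u‖)

/-- An emission of `Φ` emits every `Ψ` near it. -/
lemma Emits.move {α : Type} [MeasurableSpace α] {p : Emitter d α} {G : Sp d → Sp d}
    {Φ Ψ : α → Sp d} {ρ : ℝ} {err δ : α → ℝ} (h : Emits p G Φ ρ err)
    (hδ : ∀ a, ‖Φ a - Ψ a‖ ≤ δ a) : Emits p G Ψ ρ fun a => 2 * (|err a| + δ a) := by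
  obtain ⟨ξ, hm, hl, hb⟩ := h
  refine ⟨ξ, hm, hl, fun a => ?_⟩
  have hδ0 : 0 ≤ δ a := (norm_nonneg _).trans (hδ a)
  refine (lintegral_mono (g := fun s => ENNReal.ofReal 2 * ENNReal.ofReal (‖p.run G (s, a) -
    (Φ a + ρ • ξ (s, a))‖ ^ 2) + ENNReal.ofReal (2 * δ a ^ 2)) fun s => ?_).trans ?_
  · dsimp only
    rw [← ENNReal.ofReal_mul zero_le_two,
      ← ENNReal.ofReal_add (by positivity) (by positivity)]
    refine ENNReal.ofReal_le_ofReal ?_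
    have e : p.run G (s, a) - (Ψ a + ρ • ξ (s, a)) =
        (p.run G (s, a) - (Φ a + ρ • ξ (s, a))) + (Φ a - Ψ a) := by abel
    rw [e]
    have h1 := norm_add_le (p.run G (s, a) - (Φ a + ρ • ξ (s, a))) (Φ a - Ψ a)
    nlinarith [hδ a, norm_nonneg (p.run G (s, a) - (Φ a + ρ • ξ (s, a))),
      norm_nonneg (Φ a - Ψ a), norm_nonneg ((p.run G (s, a) - (Φ a + ρ • ξ (s, a))) + (Φ a - Ψ a)),
      sq_nonneg (‖p.run G (s, a) - (Φ a + ρ • ξ (s, a))‖ - δ a)]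
  · rw [lintegral_add_right _ measurable_const, lintegral_const_mul' _ _ ENNReal.ofReal_ne_top, lintegral_const,
      measure_univ, mul_one]
    refine (add_le_add (mul_le_mul' le_rfl (hb a)) le_rfl).trans ?_
    rw [← ENNReal.ofReal_mul zero_le_two,
      ← ENNReal.ofReal_add (by positivity) (by positivity)]
    refine ENNReal.ofReal_le_ofReal ?_
    nlinarith [sq_abs (err a), abs_nonneg (err a), mul_nonneg (abs_nonneg (err a)) hδ0]

/-- A box at a finer scale, padded to a coarser one, gains an order. -/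
lemma IsBox.pad {K m : ℕ} {η L s S B C : ℝ} {N : ℕ} {𝒱 : (Sp d → Sp d) → Sp d → Sp d}
    (h : IsBox d K η L s (m - 1) B C N 𝒱) (hη : 0 < η) (hη1 : η ≤ 1) (hL : 0 ≤ L) (hs : 0 ≤ s)
    (hC : 0 ≤ C) (hgap : s ≤ S * η ^ pE K) : IsBox d K η L S m B C N 𝒱 := by
  have hpe := pE_pos K
  have hS : 0 ≤ S := by
    by_contra hS
    nlinarith [rpow_pos_of_pos hη (pE K)]
  have hsS : s ≤ S := hgap.trans (mul_le_of_le_one_right hS (rpow_le_one hη.le hη1 hpe.le))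
  refine ⟨h.1, fun ρ hρ hle => ?_⟩
  have h1 : 0 ≤ η ^ (-pW K (m - 1)) := rpow_nonneg hη.le _
  have h2 : η ^ (-pW K (m - 1)) ≤ η ^ (-pW K m) :=
    rpow_le_rpow_of_exponent_ge hη hη1 (by linarith [pW_mono K (Nat.sub_le m 1)])
  obtain ⟨p, hp, hpe'⟩ := h.2 ρ hρ (le_trans (by gcongr) hle)
  refine ⟨p, hp, fun G hG => EmitBase.emits_mono (hpe' G hG) fun y => ?_⟩
  have hy : 0 ≤ √(d : ℝ) + ‖y‖ := by positivity
  have h3 : 0 ≤ η ^ (((m - 1 : ℕ) : ℝ) * pE K) := rpow_nonneg hη.le _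
  have h4 : 0 ≤ η ^ ((m : ℝ) * pE K) := rpow_nonneg hη.le _
  rw [abs_of_nonneg (by positivity), abs_of_nonneg (by positivity)]
  refine mul_le_mul_of_nonneg_right ?_ hy
  rw [mul_assoc (C * L) s, mul_assoc (C * L) S]
  refine mul_le_mul_of_nonneg_left ?_ (by positivity)
  refine (mul_le_mul_of_nonneg_right hgap h3).trans ?_
  rw [mul_assoc, ← rpow_add hη]
  refine mul_le_mul_of_nonneg_left (rpow_le_rpow_of_exponent_ge hη hη1 ?_) hS
  rcases Nat.eq_zero_or_pos m with rfl | hm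
  · simpa using hpe.le
  · rw [Nat.cast_sub hm, Nat.cast_one]
    linarith

/-- The boxes below the scale of a target. -/
lemma exists_boxV {K m : ℕ} (hm : 1 ≤ m) (h : ∀ i < m, TiltBox K i) (B : ℝ) {θ : ℝ}
    (hθ : 0 < θ) : ∃ C η₀ : ℝ, 0 ≤ C ∧ 0 < η₀ ∧ ∀ (d : ℕ) (η b : ℝ), 1 ≤ d → 0 < η → η ≤ η₀ →
      0 < b → b ≤ 1 → ∃ N : ℕ, 1 ≤ N ∧ (N : ℝ) ≤ C * η ^ (-θ) ∧
        ∀ k : Option ℝ, ∀ i ≤ m,
          IsBox d K η (3 * η) b i B C N (boxV (η ^ pE K * b) k) := by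
  obtain ⟨C, η₀, hC, hη₀, hb⟩ := exists_tilt_boxes B hθ (m - 1) fun i hi => h i (by omega)
  refine ⟨C + 1, min η₀ 1, by positivity, lt_min hη₀ one_pos, fun d η b hd hη hu hb0 hb1 => ?_⟩
  have hη1 : η ≤ 1 := hu.trans (min_le_right _ _)
  have hp : 1 ≤ η ^ (-θ) := one_le_rpow_of_pos_of_le_one_of_nonpos hη hη1 (by linarith)
  refine ⟨⌊C * η ^ (-θ)⌋₊ + 1, by omega, ?_, fun k i hi => ?_⟩
  · push_cast
    linarith [Nat.floor_le (show 0 ≤ C * η ^ (-θ) by positivity)]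
  have hid : IsBox d K η (3 * η) b i B (C + 1) (⌊C * η ^ (-θ)⌋₊ + 1) fun G => G :=
    ((isBox_id K i hη.le b B).grow hη.le hη.le hb0.le le_rfl (by linarith) le_rfl).mono
      hη.le (by positivity) hb0.le le_rfl le_rfl (by linarith) (by omega)
  rcases k with _ | t
  · exact hid
  simp only [boxV]
  split
  next ht =>
    have ht1 : t ≤ 1 :=
      ht.2.trans (mul_le_one₀ (rpow_le_one hη.le hη1 (pE_pos K).le) hb0.le hb1)
    obtain ⟨N, hN, hN'⟩ := hb d η 1 t hd hη (hu.trans (min_le_left _ _)) zero_le_one le_rfl ht.1 ht1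
    exact ((hN' (i - 1) (by omega)).pad hη hη1 (by positivity) ht.1.le hC
      (ht.2.trans_eq (mul_comm _ _))).mono hη.le (by positivity) hb0.le hC le_rfl (by linarith)
        ((Nat.le_floor hN).trans (Nat.le_succ _))
  next => exact hid

lemma qq_facts (K : ℕ) {η : ℝ} (hη : 0 < η) (h : η ^ pE K ≤ 1 / 2) :
    0 < qq K η ∧ qq K η ≤ 1 / 4 ∧ √(qq K η) = η ^ pE K ∧ SF.mu (qq K η) = η ^ pE K / 2 := by
  have h0 : 0 < η ^ pE K := rpow_pos_of_pos hη _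
  have e : qq K η = (η ^ pE K) ^ 2 := by
    rw [qq, ← rpow_natCast (η ^ pE K), ← rpow_mul hη.le]; ring_nf
  refine ⟨e ▸ pow_pos h0 2, e ▸ by nlinarith, ?_, ?_⟩
  · rw [e, sqrt_sq h0.le]
  · rw [SF.mu, e, sqrt_sq h0.le]

/-- A positive power of a small number is small. -/
lemma small_rpow {e : ℝ} (he : 0 < e) {M : ℝ} (hM : 0 < M) {η : ℝ} (hη : 0 < η)
    (h : η ≤ M ^ (-(1 / e))) : M * η ^ e ≤ 1 := by
  refine (mul_le_mul_of_nonneg_left (rpow_le_rpow hη.le h he.le) hM.le).trans_eq ?_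
  rw [← rpow_mul hM.le, show -(1 / e) * e = (-1 : ℝ) by field_simp, rpow_neg_one,
    mul_inv_cancel₀ hM.ne']

/-- The centre `b • x` fits at depth `2 K + 7`. -/
lemma fits_top {K m : ℕ} {η b B W : ℝ} (hη : 0 < η) (hη1 : η ≤ 1) (hm : m ≤ pTop K)
    (hb : 0 < b) (hB : (2 * (K : ℝ) + 8) * 2 ^ (2 * K + 7) ≤ B) 
    (hμ : SF.mu (qq K η) = η ^ pE K / 2)
    (hsmall : 6 * (2 * (K : ℝ) + 7) * W * η ^ (1 / 4 : ℝ) ≤ 1) :
    SF.Fits η (3 * η) b B (B * η ^ (-pA K)) (pW K m) W (qq K η) (2 * (K + 3) + 1) b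
      (Expr.smul b (Expr.var 0) : Expr (Option ℝ) 0 1) := by
  have hK : (0 : ℝ) ≤ K := Nat.cast_nonneg K
  have h2 : (1 : ℝ) ≤ 2 ^ (2 * K + 7) := one_le_pow₀ one_le_two
  have hBK : 2 * (K : ℝ) + 8 ≤ B := (le_mul_of_one_le_right (by linarith) h2).trans hB
  have hk : (2 * (K : ℝ) + 7) * pE K ≤ pA K := by
    have e : pA K = 8 * ((K : ℝ) + 1) * pE K := by unfold pE; field_simp
    rw [e]
    nlinarith [pE_pos K]
  have hk2 : (2 * (K : ℝ) + 7) * pE K + pW K m ≤ 3 / 4 := by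
    linarith [pW_le_half K hm, pA_le K]
  set Y := η ^ ((2 * (K : ℝ) + 7) * pE K)
  have hY : (η ^ pE K) ^ (2 * K + 7) = Y := by
    rw [← rpow_natCast, ← rpow_mul hη.le]
    congr 1
    push_cast
    ring
  have hsm : (Expr.smul b (Expr.var 0) : Expr (Option ℝ) 0 1).sm (3 * η) (fun _ => b) = 0 := by
    simp [Expr.sm]
  have hA : ∑ i, |(Expr.smul b (Expr.var 0) : Expr (Option ℝ) 0 1).aff i| = b := by
    simp [Expr.aff, abs_of_pos hb]
  have hU : ((2 * (K + 3) + 1 : ℕ) : ℝ) * (2 * (3 * η) * W * b) ≤ b * η ^ (3 / 4 : ℝ) := by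
    have e : η = η ^ (1 / 4 : ℝ) * η ^ (3 / 4 : ℝ) := by rw [← rpow_add hη]; norm_num
    push_cast
    calc (2 * ((K : ℝ) + 3) + 1) * (2 * (3 * η) * W * b)
        = 6 * (2 * (K : ℝ) + 7) * W * η ^ (1 / 4 : ℝ) * (b * η ^ (3 / 4 : ℝ)) := by
          conv_lhs => rw [e]
          ring
      _ ≤ _ := mul_le_of_le_one_left (by positivity) hsmall
  refine ⟨trivial, hb, le_rfl, ?_, ?_, ?_, ?_⟩
  · rw [hA]
    push_cast
    nlinarith
  · rw [hA, hμ, div_pow, show 2 * (K + 3) + 1 = 2 * K + 7 by omega, hY]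
    push_cast
    have h1 : 1 ≤ η ^ (-pA K) * Y := by
      rw [← rpow_add hη]
      exact one_le_rpow_of_pos_of_le_one_of_nonpos hη hη1 (by linarith)
    have h3 : 2 * (K : ℝ) + 8 ≤ B / 2 ^ (2 * K + 7) := (le_div_iff₀ (by positivity)).2 hB
    calc b + (2 * (K : ℝ) + 7) * b = (2 * (K : ℝ) + 8) * b := by ring
      _ ≤ B / 2 ^ (2 * K + 7) * b * (η ^ (-pA K) * Y) := by
          nlinarith [mul_le_mul_of_nonneg_right h3 hb.le, mul_nonneg
            (mul_nonneg ((by linarith : (0:ℝ) ≤ B / 2 ^ (2 * K + 7))) hb.le)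
            (sub_nonneg.2 h1)]
      _ = _ := by ring
  · rw [hsm, zero_add]
    refine hU.trans ?_
    rw [hμ, div_pow, show 2 * (K + 3) + 1 = 2 * K + 7 by omega, hY]
    have h1 : η ^ (3 / 4 : ℝ) ≤ Y * η ^ pW K m := by
      rw [← rpow_add hη]
      exact rpow_le_rpow_of_exponent_ge hη hη1 hk2
    have h3 : 1 ≤ B / 2 ^ (2 * K + 7) :=
      (one_le_div (by positivity)).2 ((le_mul_of_one_le_left (by positivity) (by linarith)).trans hB)
    calc b * η ^ (3 / 4 : ℝ) ≤ b * (1 * (Y * η ^ pW K m)) := by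
          rw [one_mul]; exact mul_le_mul_of_nonneg_left h1 hb.le
      _ ≤ b * (B / 2 ^ (2 * K + 7) * (Y * η ^ pW K m)) := by gcongr
      _ = _ := by ring
  · rw [hsm, zero_add]
    exact hU.trans (mul_le_of_le_one_right hb.le (rpow_le_one hη.le hη1 (by norm_num)))

/-- The number of questions. -/
lemma tilt_cost {η θ θ' C₁ C₂ Cb sz Nb Ng : ℝ} {D A : ℕ} (hη : 0 < η) (hη1 : η ≤ 1)
    (hθ' : 0 ≤ θ') (hθ : θ = θ' * (D * A + 2 : ℕ)) (hC₁ : 0 ≤ C₁)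
    (hsz0 : 0 ≤ sz) (hsz : sz ≤ 3 * (Ng + 6) ^ D) (hNg0 : 0 ≤ Ng) (hNg : Ng ≤ C₁ * η ^ (-θ'))
    (hNb0 : 0 ≤ Nb) (hNb : Nb ≤ Cb * η ^ (-θ')) :
    C₂ * η ^ (-θ') * sz ^ A * (Nb + 1) ≤
      |C₂| * (3 * (C₁ + 6) ^ D) ^ A * (Cb + 1) * η ^ (-θ) := by
  have hp : 1 ≤ η ^ (-θ') := one_le_rpow_of_pos_of_le_one_of_nonpos hη hη1 (by linarith)
  calc C₂ * η ^ (-θ') * sz ^ A * (Nb + 1)
      ≤ |C₂| * η ^ (-θ') * (3 * ((C₁ + 6) * η ^ (-θ')) ^ D) ^ A * ((Cb + 1) * η ^ (-θ')) := by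
        gcongr
        · exact le_abs_self _
        · refine hsz.trans ?_
          gcongr
          linarith
        · linarith
    _ = |C₂| * (3 * (C₁ + 6) ^ D) ^ A * (Cb + 1) * η ^ (-θ) := by
        rw [show -θ = -θ' * ((D * A + 2 : ℕ) : ℝ) by rw [hθ]; ring, rpow_mul hη.le, rpow_natCast]
        simp only [mul_pow, ← pow_mul, pow_succ]
        ring

/-- The error of the emission and of the approximation. -/
lemma tilt_err {η b c C₁ C₂ X sm g nd s : ℝ} {D : ℕ} {Y : ℝ} (hη : 0 ≤ η) (hb : 0 ≤ b)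
    (hC₁ : 0 ≤ C₁) (hY : 0 ≤ Y) (hXY : X ≤ Y) (hsm0 : 0 ≤ sm)
    (hsm : sm ≤ 2 * (3 * η) * b) (hg0 : 0 ≤ g) (hs : 0 ≤ s) (hn : 0 ≤ nd)
    (hg : g ≤ D * (s + nd)) (hc : 0 ≤ c) (hc2 : c ≤ C₁ * η * b * X * (s + nd)) :
    2 * (|C₂ * sm * (Y * (s + g))| + c) ≤
      (4 * |C₂| * (D + 1) + 2 * C₁) * (3 * η) * b * Y * (s + nd) := by
  rw [abs_mul, abs_mul, abs_of_nonneg hsm0, abs_of_nonneg (a := Y * (s + g)) (by positivity)]
  have h1 : |C₂| * sm * (Y * (s + g)) ≤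
      |C₂| * (2 * (3 * η) * b) * (Y * (((D:ℝ) + 1) * (s + nd))) := by
    gcongr
    nlinarith
  have h2 : C₁ * η * b * X * (s + nd) ≤ C₁ * η * b * Y * (s + nd) := by gcongr
  have h3 : 0 ≤ C₁ * η * b * Y * (s + nd) := by positivity
  linarith

/-- **One more order.** -/
theorem tiltBox_step_of {K m : ℕ} (hm : m ≤ pTop K) (hp : PtSpec K m)
    (h : ∀ i < m, TiltBox K i) (hsf : SFApprox K) : TiltBox K m := by
  rcases Nat.eq_zero_or_pos m with rfl | hm0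
  · exact tiltBox_zero K
  intro B θ hθ
  set B₁ : ℝ := (2 * (K : ℝ) + 8) * 2 ^ (2 * K + 7) + 2 * |B| with hB₁
  obtain ⟨I, hI⟩ : ∃ I, 2 * (K + 3) = I := ⟨_, rfl⟩
  set D := SF.dep I
  obtain ⟨B', A, hPt⟩ := hp D B₁
  set θ' : ℝ := θ / (D * A + 2 : ℕ) with hθ'def
  have hθ' : 0 < θ' := div_pos hθ (Nat.cast_pos.2 (by omega))
  have hθ'e : θ = θ' * (D * A + 2 : ℕ) := by
    rw [hθ'def, div_mul_cancel₀ _ (Nat.cast_ne_zero.2 (by omega))]
  obtain ⟨C₁, η₁, hC₁, hη₁, hsf⟩ := hsf θ' hθ'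
  obtain ⟨Cb, η₂, hCb, hη₂, hbox⟩ := exists_boxV hm0 h B' hθ'
  obtain ⟨C₂, η₃, hη₃, hPt⟩ := hPt θ' hθ' Cb hCb
  set M₁ : ℝ := 6 * (2 * (K : ℝ) + 7) * (C₁ + 1) with hM₁
  set M₂ : ℝ := 40 * (C₁ + 1) with hM₂
  set Cf : ℝ := |C₂| * (3 * (C₁ + 6) ^ D) ^ A * (Cb + 1) + (4 * |C₂| * (D + 1) + 2 * C₁)
  refine ⟨Cf, min (min (min η₁ η₂) (min η₃ (1 / 8)))
      (min (M₁ ^ (-(1 / (1 / 8 : ℝ)))) (min (M₂ ^ (-(1 / (1 / 8 : ℝ)))) (2 ^ (-(1 / pE K))))),
    by positivity, lt_min (lt_min (lt_min hη₁ hη₂) (lt_min hη₃ (by norm_num)))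
      (lt_min (rpow_pos_of_pos (by positivity) _)
        (lt_min (rpow_pos_of_pos (by positivity) _) (rpow_pos_of_pos two_pos _))),
    fun d η a b hd hη hu ha ha1 hb0 hb1 => ?_⟩
  simp only [le_min_iff] at hu
  obtain ⟨⟨⟨hu1, hu2⟩, hu3, hu4⟩, hu5, hu6, hu7⟩ := hu
  have hη1 : η ≤ 1 := hu4.trans (by norm_num)
  have hhalf : η ^ pE K ≤ 1 / 2 := by
    have := small_rpow (pE_pos K) two_pos hη hu7
    linarith
  obtain ⟨hq, hq1, hqs, hμ⟩ := qq_facts K hη hhalf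
  obtain ⟨grid, W, Ng, hgrid, hW, hWle, hNg, hsfe⟩ := hsf d η hd hη hu1
  rw [hI] at hsfe
  obtain ⟨Nb, hNb1, hNb, hboxes⟩ := hbox d η b hd hη hu2 hb0 hb1
  have hWsmall : W * η ^ (1 / 4 : ℝ) ≤ C₁ * η ^ (1 / 8 : ℝ) := by
    refine (mul_le_mul_of_nonneg_right hWle (rpow_nonneg hη.le _)).trans_eq ?_
    rw [mul_assoc, ← rpow_add hη]
    norm_num
  have hs1 : 6 * (2 * (K : ℝ) + 7) * W * η ^ (1 / 4 : ℝ) ≤ 1 := by
    refine le_trans ?_ (small_rpow (by norm_num) (by positivity) hη hu5)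
    rw [hM₁, mul_assoc (6 * (2 * (K:ℝ) + 7)) W, mul_assoc (6 * (2 * (K:ℝ) + 7)) (C₁ + 1)]
    refine mul_le_mul_of_nonneg_left (hWsmall.trans ?_) (by positivity)
    exact mul_le_mul_of_nonneg_right (by linarith) (rpow_nonneg hη.le _)
  have hWL : 10 * (3 * η) * W ≤ 1 := by
    refine le_trans ?_ (small_rpow (by norm_num : (0:ℝ) < 1 / 8) (by positivity) hη hu6)
    rw [hM₂]
    have h1 : η ≤ η ^ (1 / 4 : ℝ) := by
      conv_lhs => rw [← rpow_one η]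
      exact rpow_le_rpow_of_exponent_ge hη hη1 (by norm_num)
    calc 10 * (3 * η) * W = 30 * (W * η) := by ring
      _ ≤ 30 * (W * η ^ (1 / 4 : ℝ)) := by gcongr
      _ ≤ 30 * (C₁ * η ^ (1 / 8 : ℝ)) := by gcongr
      _ ≤ _ := by
          have : 0 ≤ η ^ (1 / 8 : ℝ) := rpow_nonneg hη.le _
          nlinarith
  set c : Expr (Option ℝ) 0 1 := Expr.smul b (Expr.var 0) with hc
  set e := SF.sf (qq K η) grid I b c
  set R := B₁ * η ^ (-pA K)
  set w := pW K m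
  have hK5 : 0 ≤ 2 * |B| := by positivity
  have hfit : SF.Fits η (3 * η) b B₁ R w W (qq K η) (I + 1) b c := hI ▸
    fits_top hη hη1 hm hb0 (by linarith) hμ hs1
  have hB1 : 1 ≤ B₁ := by
    have h2 : (1 : ℝ) ≤ 2 ^ (2 * K + 7) := one_le_pow₀ one_le_two
    nlinarith [Nat.cast_nonneg (α := ℝ) K]
  obtain ⟨⟨hgood, hsm, -⟩, hdep, hsize⟩ :=
    (SF.spec (η := η) (L := 3 * η) (w := w) hη (by positivity) hb0 hb1
      hB1 (by positivity) hq hq1 hW hgrid I).1 c b hfit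
  have hdep' : e.depth ≤ D := by simpa [hc, Expr.depth] using hdep
  have hsz : (e.size : ℝ) ≤ 3 * ((Ng : ℝ) + 6) ^ D := by
    have h3 : e.size ≤ 3 * (Ng + 6) ^ D := by simpa [hc, Expr.size] using Nat.le_of_succ_le hsize
    exact_mod_cast h3
  have hsm0 : 0 ≤ e.sm (3 * η) fun _ => b := SF.sm_nonneg (by positivity) (fun _ => hb0.le) e
  set T := η ^ pE K * b
  refine ⟨⌊Cf * η ^ (-θ)⌋₊, Nat.floor_le (by positivity),
    fun G hG => isField_tiltField hG hη.le hu4 (abs_le.2 ⟨by linarith, ha1⟩) hb0 hb1,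
    fun ρ hρ hle => ?_⟩
  have hroom : e.sm (3 * η) (fun _ => b) * η ^ (-w) ≤ B₁ * ρ := by
    calc e.sm (3 * η) (fun _ => b) * η ^ (-w) ≤ 2 * (3 * η) * b * η ^ (-w) :=
          mul_le_mul_of_nonneg_right hsm (rpow_nonneg hη.le _)
      _ = 2 * (3 * η * b * η ^ (-w)) := by ring
      _ ≤ 2 * (B * ρ) := by gcongr
      _ ≤ B₁ * ρ := by
          rw [hB₁, ← mul_assoc]
          refine mul_le_mul_of_nonneg_right ?_ hρ.le
          have : 0 ≤ (2 * (K : ℝ) + 8) * 2 ^ (2 * K + 7) := by positivity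
          linarith [le_abs_self B]
  obtain ⟨p, hpc, hpe⟩ := hPt d 0 1 (Option ℝ) (Sp d) η (3 * η) ρ Nb (fun _ => b) (boxV T) e
    Fin.elim0 (fun y _ => (a / b) • y) Fin.elim0 hd hη hu3 (by positivity) (by linarith) hρ hNb1
    (fun _ => hb0.le) (fun j => j.elim0) (by fun_prop) hdep' hgood (e.fill_elim0 _) hroom hboxes
  refine ⟨p, Nat.le_floor ?_, fun G hG => ?_⟩
  · refine hpc.trans ?_
    simp only [Finset.univ_eq_empty, Finset.sum_empty, Nat.cast_zero, add_zero]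
    refine (tilt_cost hη hη1 hθ'.le hθ'e hC₁ (Nat.cast_nonneg _) hsz (Nat.cast_nonneg _) hNg
      (Nat.cast_nonneg _) hNb).trans (mul_le_mul_of_nonneg_right ?_ (rpow_nonneg hη.le _))
    exact le_add_of_nonneg_right (by positivity)
  set V := fun k => boxV T k G with hV
  have he := hpe G hG (fun _ => Fin.elim0) (fun j => j.elim0) (fun j => j.elim0)
    (fun j => j.elim0) fun j => j.elim0
  simp only [Finset.univ_eq_empty, Finset.sum_empty, add_zero] at he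
  have hVb : ∀ k y, ‖V k y‖ ≤ 3 * η * (√d + ‖y‖) := by
    intro k y
    have hf : IsField (3 * η) (V k) := (hboxes k 0 (Nat.zero_le _)).1 G hG
    have h1 := Convex.norm_image_sub_le_of_norm_hasFDerivWithin_le
      (fun z _ => ((hf.smooth.differentiable one_ne_zero) z).hasFDerivAt.hasFDerivWithinAt)
      (fun z _ => hf.bound z) convex_univ (Set.mem_univ 0) (Set.mem_univ y)
    rw [sub_zero] at h1
    calc ‖V k y‖ ≤ ‖V k 0‖ + ‖V k y - V k 0‖ := norm_le_norm_add_norm_sub' _ _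
      _ ≤ _ := by rw [mul_add]; exact add_le_add hf.zero h1
  have heval : ∀ y : Sp d, c.eval V Fin.elim0 (fun _ => (a / b) • y) = a • y := fun y => by
    simp [hc, Expr.eval, smul_smul, mul_div_cancel₀ _ hb0.ne']
  have hbias : ∀ y : Sp d, ‖e.eval V Fin.elim0 (fun _ => (a / b) • y) - tiltField a b G y‖ ≤
      C₁ * η * b * η ^ (K + 2) * (√d + ‖y‖) := fun y => by
    have e1 : tiltField a b G y = tiltField 1 b G (a • y) := by simp [tiltField]
    rw [(SF.eval_eq V I).1, heval, e1]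
    refine (hsfe G hG b hb0 hb1 V rfl (fun t ht0 ht1 => ?_) _).trans ?_
    · simp only [hV, boxV]
      rw [if_pos ⟨ht0, ht1⟩]
    · gcongr
      rw [norm_smul, norm_eq_abs, abs_of_nonneg ha]
      exact mul_le_of_le_one_left (norm_nonneg _) ha1
  refine EmitBase.emits_mono (Emits.move he hbias) fun y => ?_
  have hcen : e.cen V Fin.elim0 (fun _ => (a / b) • y) ≤ D * (√d + ‖y‖) := by
    have h1 := ((SF.cen_le (by positivity) hVb hq hq1 hgrid hW hWL I).1 c b hb0.le hb1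
      (fun _ => (a / b) • y) 0 le_rfl (by simp [hc, Expr.cen]; positivity))
    rw [zero_add, heval] at h1
    refine h1.trans ?_
    gcongr
    rw [norm_smul, norm_eq_abs, abs_of_nonneg ha]
    exact mul_le_of_le_one_left (norm_nonneg _) ha1
  have hX : η ^ (K + 2) ≤ η ^ ((m : ℝ) * pE K) := by
    rw [← rpow_natCast η (K + 2)]
    refine rpow_le_rpow_of_exponent_ge hη hη1 ?_
    push_cast
    exact order_le_top K hm
  have h3 : 0 ≤ η ^ ((m : ℝ) * pE K) := rpow_nonneg hη.le _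
  rw [abs_of_nonneg (mul_nonneg zero_le_two (add_nonneg (abs_nonneg _)
    (show 0 ≤ C₁ * η * b * η ^ (K + 2) * (√d + ‖y‖) by positivity)))]
  refine le_trans ?_ (le_abs_self _)
  refine (tilt_err hη.le hb0.le hC₁ h3 hX hsm0 hsm
    (e.white_cen_nonneg V _ _) (sqrt_nonneg _) (norm_nonneg y) hcen (by positivity) le_rfl).trans ?_
  gcongr
  exact le_add_of_nonneg_left (by positivity)

end Vale.Agent.P347.Shift
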