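import Vale.Agent.P347.Shift.SFParams
import Vale.Agent.P347.Shift.TiltBox

/-!
# P347: the scale functions on the geometric grids follow the tilted velocity

The values of `SF.sf` only read the boxes at scales at most `√q` times the target scale, so they
satisfy the equations of `SFErr`; with the parameters of `SFParams` the error of index `2 (K + 3)`
is below `η ^ (K + 3)` in units of the scale.
-/

open MeasureTheory ProbabilityTheory Real Finset
open scoped RealInnerProductSpace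

namespace Vale.Agent.P347.Shift

open Quarter

namespace SFApprox

variable {d : ℕ}

/-- The values read the boxes at scales at most `ρ q` times the target scale only. -/
lemma sfv_congr {q : ℝ} {grid : ℝ → List (ℝ × ℝ)} (hq : 0 < q) {W : ℝ} {N : ℕ}
    (hgrid : SF.GridOK q grid W N) {V V' : Option ℝ → Sp d → Sp d} {s₀ : ℝ}
    (h0 : V none = V' none)
    (h1 : ∀ t, 0 < t → t ≤ SF.rho q * s₀ → V (some t) = V' (some t)) :
    ∀ i, (∀ s u, 0 < s → s ≤ s₀ → SF.sfv q grid V i s u = SF.sfv q grid V' i s u) ∧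
      ∀ s t u z, 0 < s → s ≤ s₀ → SF.tau q ≤ t →
        SF.phv q grid V i s t u z = SF.phv q grid V' i s t u z := by
  intro i
  induction i with
  | zero => exact ⟨fun s u _ _ => by simp only [SF.sfv, h0], fun s t u z _ _ _ => by simp only [SF.phv]⟩
  | succ i ih =>
    constructor
    · intro s u hs hs₀
      have hρ : 0 < SF.rho q := sqrt_pos.2 (div_pos hq (by linarith))
      simp only [SF.sfv, h1 _ (mul_pos hρ hs) (mul_le_mul_of_nonneg_left hs₀ hρ.le),
        ih.2 s (SF.tau q) u _ hs hs₀ le_rfl]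
    · intro s t u z hs hs₀ ht
      simp only [SF.phv]
      congr 2
      refine List.map_congr_left fun p hp => ?_
      have htp := (hgrid t ht).1 p hp
      have hb : 0 < SF.bt p.2 := TiltFlow.bT_pos ((SF.tau_pos hq).trans_le htp)
      rw [ih.2 s p.2 u z hs hs₀ htp, ih.1 _ _ (mul_pos hs hb)
        ((mul_le_of_le_one_right hs.le (SF.bt_le _)).trans hs₀)]

/-- The error at the index of the box against the small parameter. -/
lemma rel_bound {K : ℕ} {η θ C R : ℝ} {N r : ℕ} {w : Fin (r + 1) → ℝ} (hη : 0 < η) (hη1 : η ≤ 1)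
    (hC : 1 ≤ C) (hR : 0 ≤ R) (hW : R * ∑ i, |w i| ≤ C * η ^ (-θ))
    (hθ : θ * ((K : ℝ) + 2) ≤ 1) (hq : 6 * (R * ∑ i, |w i|) * η ≤ 1)
    (htail : SFErr.tail R N r w ≤ 7 * (C * η ^ (K + 3))) :
    2 * η ^ 2 * SFErr.rel η R N r w (2 * (K + 3) - 1) ≤
      (28 * (6 * C) ^ (K + 2) + 28 * C) * η * η ^ (K + 2) := by
  set X := R * ∑ i, |w i|
  have hX : 0 ≤ X := mul_nonneg hR (sum_nonneg fun _ _ => abs_nonneg _)
  set q := 6 * X * η
  have hq0 : 0 ≤ q := by positivity
  have hρ : √q ^ (2 * (K + 3) - 1) ≤ q ^ (K + 2) := by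
    rw [show 2 * (K + 3) - 1 = 2 * (K + 2) + 1 by omega, pow_succ, pow_mul, sq_sqrt hq0]
    exact mul_le_of_le_one_right (pow_nonneg hq0 _) (sqrt_le_one.2 hq)
  have hp : η * q ^ (K + 2) ≤ (6 * C) ^ (K + 2) * η ^ (K + 2) := by
    calc η * q ^ (K + 2) ≤ η * ((6 * C) ^ (K + 2) * (η ^ (-θ) * η) ^ (K + 2)) := by
          refine mul_le_mul_of_nonneg_left ?_ hη.le
          rw [← mul_pow]
          refine pow_le_pow_left₀ hq0 ?_ _
          simp only [q]
          nlinarith [mul_le_mul_of_nonneg_right hW hη.le]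
      _ = (6 * C) ^ (K + 2) * η ^ (K + 2) * (η * (η ^ (-θ)) ^ (K + 2)) := by ring
      _ ≤ (6 * C) ^ (K + 2) * η ^ (K + 2) := by
          refine mul_le_of_le_one_right (by positivity) ?_
          calc η * (η ^ (-θ)) ^ (K + 2) = η ^ (1 - θ * ((K : ℝ) + 2)) := by
                rw [sub_eq_add_neg, rpow_add hη, rpow_one, ← rpow_natCast, ← rpow_mul hη.le]
                congr 2
                push_cast
                ring
            _ ≤ 1 := rpow_le_one hη.le hη1 (by linarith)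
  have h3 : η ^ (K + 3) ≤ η ^ (K + 2) := pow_le_pow_of_le_one hη.le hη1 (by omega)
  rw [SFErr.rel]
  calc 2 * η ^ 2 * (14 * √q ^ (2 * (K + 3) - 1) + 2 * SFErr.tail R N r w)
      ≤ 2 * η ^ 2 * (14 * q ^ (K + 2) + 2 * (7 * (C * η ^ (K + 3)))) := by gcongr
    _ = 28 * η * (η * q ^ (K + 2)) + 28 * C * η * (η * η ^ (K + 3)) := by ring
    _ ≤ 28 * η * ((6 * C) ^ (K + 2) * η ^ (K + 2)) + 28 * C * η * η ^ (K + 2) := by
        gcongr
        exact (mul_le_of_le_one_left (pow_nonneg hη.le _) hη1).trans h3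
    _ = _ := by ring

end SFApprox

/-- **The grids of the tilt.** -/
theorem sfApprox (K : ℕ) : SFApprox K := by
  intro θ hθ
  set θ' : ℝ := min θ (1 / (8 * ((K : ℝ) + 2)))
  have hθ0 : 0 < θ' := lt_min hθ (by positivity)
  have hθK : θ' * ((K : ℝ) + 2) ≤ 1 / 8 := by
    refine (mul_le_mul_of_nonneg_right (min_le_right _ _) (by positivity)).trans_eq ?_
    field_simp
  have hK0 : (0 : ℝ) ≤ K := Nat.cast_nonneg K
  have hθ8 : θ' ≤ 1 / 8 := by nlinarith
  obtain ⟨r, C, hC, hpar⟩ := SFParams.exists_params K hθ0 SFFlow.matM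
  set C' : ℝ := C + (28 * (6 * C) ^ (K + 2) + 28 * C)
  have hCC : C ≤ C' := le_add_of_nonneg_right (by positivity)
  refine ⟨C', min (1 / 8) ((1 / (12 * C)) ^ 2), by positivity,
    lt_min (by norm_num) (by positivity), fun d η _ hη hu => ?_⟩
  simp only [le_min_iff] at hu
  obtain ⟨hu1, hu2⟩ := hu
  have hη1 : η ≤ 1 := hu1.trans (by norm_num)
  obtain ⟨R, N, hR1, hτR, hN, -, hW, hn, htail⟩ := hpar η hη hη1
  set w := SFParams.rw₀ r
  set cν := SFParams.rc₀ r
  set q := qq K η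
  have hq : 0 < q := rpow_pos_of_pos hη _
  have hrule := SFParams.rule₀ r
  have hX : 0 ≤ R * ∑ i, |w i| := mul_nonneg (by linarith) (sum_nonneg fun _ _ => abs_nonneg _)
  have hgrid : SF.GridOK q (SFLink.sfGrid R N w cν) (R * ∑ i, |w i|) _ :=
    SFLink.gridOK_sfGrid hrule hq hτR hN
  refine ⟨_, _, _, hgrid, hX, hW.trans (mul_le_mul hCC
    (rpow_le_rpow_of_exponent_ge hη hη1 (by linarith)) (by positivity) (by positivity)), ?_,
    fun G hG s hs hs1 V hV0 hV u => ?_⟩
  · rw [Fintype.card_fin]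
    exact hn.trans (mul_le_mul hCC (rpow_le_rpow_of_exponent_ge hη hη1
      (by linarith [min_le_left θ (1 / (8 * ((K : ℝ) + 2)))])) (by positivity) (by positivity))
  have hsmall : 6 * (R * ∑ i, |w i|) * η ≤ 1 / 2 := by
    have h1 : η ^ (-θ') * η ≤ η ^ (1 / 2 : ℝ) := by
      rw [← rpow_add_one' hη.le (by linarith)]
      exact rpow_le_rpow_of_exponent_ge hη hη1 (by linarith)
    have h2 : η ^ (1 / 2 : ℝ) ≤ 1 / (12 * C) := by
      rw [← sqrt_eq_rpow]
      exact (sqrt_le_left (by positivity)).2 hu2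
    calc 6 * (R * ∑ i, |w i|) * η ≤ 6 * (C * η ^ (-θ')) * η := by gcongr
      _ = 6 * C * (η ^ (-θ') * η) := by ring
      _ ≤ 6 * C * (1 / (12 * C)) := mul_le_mul_of_nonneg_left (h1.trans h2) (by positivity)
      _ = 1 / 2 := by field_simp; ring
  obtain ⟨h0, W, H, hWp⟩ := hG
  set T : Option ℝ → Sp d → Sp d := fun k => k.elim G fun t => tiltField 1 t G
  have hRec : SFErr.Rec G (SF.tau q) R N w cν (SF.sfv q (SFLink.sfGrid R N w cν) T) :=
    ⟨fun s u _ _ => by simp only [SF.sfv]; rfl, fun i s u hs hs1 =>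
      SFLink.sfv_succ hrule hq hτR (fun _ _ _ => rfl) i s u hs hs1⟩
  have hρ : SF.rho q ≤ η ^ pE K := by
    refine (SF.rho_le hq.le).trans_eq ?_
    simp only [q, qq]
    rw [sqrt_eq_rpow, ← rpow_mul hη.le]
    ring_nf
  rw [(SFApprox.sfv_congr hq hgrid (V' := T) (s₀ := s) (by simp [T, hV0])
    (fun t ht ht' => by
      simp only [T, Option.elim_some]
      exact hV t ht (ht'.trans (mul_le_mul_of_nonneg_right hρ hs.le))) _).1 s u hs le_rfl]
  refine (SFErr.sf_err_box hWp hη.le hu1 (SF.tau_pos hq) hτR hN hrule hsmall hRec h0 _ hs hs1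
    u).trans ?_
  have htail' : SFErr.tail R N r w ≤ 7 * (C * η ^ (K + 3)) := by
    refine le_trans ?_ (mul_le_mul_of_nonneg_left htail (by norm_num))
    have h7 : 0 ≤ (1 + ∑ i, |w i|) / (N : ℝ) ^ (r + 1) * R * SFFlow.matM r := by
      have := SFFlow.matM_nonneg r
      positivity
    show 7 * exp (-R) + (1 + ∑ i, |w i|) / (N : ℝ) ^ (r + 1) * R * SFFlow.matM r ≤
      7 * (exp (-R) + (1 + ∑ i, |w i|) / (N : ℝ) ^ (r + 1) * R * SFFlow.matM r)
    linarith
  have hb := SFApprox.rel_bound (K := K) (N := N) hη hη1 hC (by linarith) hW (by linarith)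
    (hsmall.trans (by norm_num)) htail'
  calc 2 * η ^ 2 * SFErr.rel η R N r w (2 * (K + 3) - 1) * (s * (√d + ‖u‖))
      ≤ C' * η * η ^ (K + 2) * (s * (√d + ‖u‖)) := by
        refine mul_le_mul_of_nonneg_right (hb.trans ?_) (by positivity)
        gcongr
        exact le_add_of_nonneg_left (by linarith)
    _ = _ := by ring

end Vale.Agent.P347.Shift
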