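import Vale.Agent.P347.Shift.SFLink
import Vale.Agent.P347.Shift.SpecArith

/-!
# P347: the parameters of the geometric grids

For every cost exponent `θ` the horizon is a multiple of `log (1/η)`, the blocks are cut into
`η^(-θ/4)` pieces and the rule is exact to a degree of order `K/θ`: the grid costs `C η^(-θ)` and
the tail of the flow and the quadrature error are below `η^(K+3)`.
-/

open MeasureTheory ProbabilityTheory Real Finset

namespace Vale.Agent.P347.Shift.SFParams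

open Quarter

/-- The logarithm against a small power. -/
lemma neg_log_le {η δ : ℝ} (hη : 0 < η) (hδ : 0 < δ) : -log η ≤ η ^ (-δ) / δ := by
  rw [← log_inv, rpow_neg hη.le, ← inv_rpow hη.le]
  exact log_le_rpow_div (inv_nonneg.2 hη.le) hδ

/-- The stopping time against the fineness. -/
lemma tau_ge {q : ℝ} (hq : 0 ≤ q) (hq1 : q ≤ 1) : q / 6 ≤ SF.tau q := by
  have h := one_sub_inv_le_log_of_pos (show (0 : ℝ) < 1 + q / 2 by linarith)
  have h2 : q / 3 ≤ 1 - (1 + q / 2)⁻¹ := by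
    rw [le_sub_iff_add_le, ← le_sub_iff_add_le', inv_le_iff_one_le_mul₀ (by linarith)]
    nlinarith
  rw [SF.tau]
  linarith

lemma tau_le {q : ℝ} (hq : 0 ≤ q) (hq1 : q ≤ 1) : SF.tau q ≤ 1 := by
  have h := log_le_sub_one_of_pos (show (0 : ℝ) < 1 + q / 2 by linarith)
  rw [SF.tau]
  linarith

/-- The number of blocks. -/
lemma blocks_le {η R e : ℝ} (hη : 0 < η) (hη1 : η ≤ 1) (he : 0 ≤ e) (he1 : e ≤ 1) (hR : 1 ≤ R) :
    (CompQuad.blocks (1 - SF.tau (η ^ e) / R) : ℝ) ≤ 2 * R + 2 * -log η + 9 := by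
  set q := η ^ e
  have hq : 0 < q := rpow_pos_of_pos hη _
  have hq1 : q ≤ 1 := rpow_le_one hη.le hη1 he
  have hτ := SF.tau_pos hq
  have hτR : SF.tau q / R ≤ 1 := (div_le_one (by linarith)).2 ((tau_le hq.le hq1).trans hR)
  refine (CompQuad.blocks_le (sub_nonneg.2 hτR)
    (sub_lt_self 1 (div_pos hτ (by linarith)))).trans ?_
  have h1 : 1 / (1 - (1 - SF.tau q / R)) ≤ 6 * R / q := by
    rw [sub_sub_cancel, one_div_div, div_le_div_iff₀ hτ hq]
    nlinarith [mul_le_mul_of_nonneg_left (tau_ge hq.le hq1) (show (0 : ℝ) ≤ R by linarith)]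
  have h2 := log_le_log (div_pos one_pos (sub_pos.2 (sub_lt_self 1 (div_pos hτ (by linarith))))) h1
  have h3 : log (6 * R / q) ≤ R + 4 + -log η := by
    rw [log_div (by positivity) hq.ne', log_mul (by norm_num) (by linarith), log_rpow hη]
    have hl6 := log_le_sub_one_of_pos (show (0 : ℝ) < 6 by norm_num)
    have hlR := log_le_sub_one_of_pos (show (0 : ℝ) < R by linarith)
    nlinarith [log_nonpos hη.le hη1, mul_le_of_le_one_left
      (neg_nonneg.2 (log_nonpos hη.le hη1)) he1]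
  have hl2 := log_two_gt_d9
  have hh := h2.trans h3
  rw [logb, ← le_sub_iff_add_le, div_le_iff₀ (log_pos one_lt_two)]
  nlinarith [log_nonpos hη.le hη1]

/-- The weights of the rule exact to degree `r`. -/
noncomputable def rw₀ (r : ℕ) : Fin (r + 1) → ℝ := Quad.nc (r + 1)

/-- The nodes of the rule exact to degree `r`. -/
noncomputable def rc₀ (r : ℕ) : Fin (r + 1) → ℝ := Quad.node (r + 1)

lemma rule₀ (r : ℕ) : Rule r (rw₀ r) (rc₀ r) := rule_nc r

/-- The tail of the flow and the quadrature error, in units. -/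
noncomputable def tail₀ (R : ℝ) (N r : ℕ) (M : ℝ) : ℝ :=
  exp (-R) + (1 + ∑ i, |rw₀ r i|) / (N : ℝ) ^ (r + 1) * R * M

/-- **The parameters of the grid.** -/
theorem exists_params (K : ℕ) {θ : ℝ} (hθ : 0 < θ) (M : ℕ → ℝ) :
    ∃ (r : ℕ) (C : ℝ), 1 ≤ C ∧ ∀ η : ℝ, 0 < η → η ≤ 1 → ∃ (R : ℝ) (N : ℕ),
      1 ≤ R ∧ SF.tau (η ^ (2 * pE K)) ≤ R ∧ 0 < N ∧ R ≤ C * η ^ (-θ) ∧
      R * ∑ i, |rw₀ r i| ≤ C * η ^ (-θ) ∧
      ((CompQuad.blocks (1 - SF.tau (η ^ (2 * pE K)) / R) * (N * (r + 1)) : ℕ) : ℝ) ≤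
        C * η ^ (-θ) ∧
      tail₀ R N r (M r) ≤ C * η ^ (K + 3) := by
  set δ : ℝ := min (θ / 4) 1
  have hδ : 0 < δ := lt_min (by linarith) one_pos
  have hδ1 : δ ≤ 1 := min_le_right _ _
  have hδθ : δ ≤ θ / 4 := min_le_left _ _
  set r : ℕ := ⌈((K : ℝ) + 4) / δ⌉₊
  have hr : (K : ℝ) + 4 ≤ δ * (r + 1) := by
    have h := Nat.le_ceil (((K : ℝ) + 4) / δ)
    rw [div_le_iff₀ hδ] at h
    nlinarith [show (⌈((K : ℝ) + 4) / δ⌉₊ : ℝ) = r from rfl]
  set W₀ : ℝ := ∑ i, |rw₀ r i|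
  have hW₀ : 0 ≤ W₀ := sum_nonneg fun _ _ => abs_nonneg _
  set CR : ℝ := 1 + ((K : ℝ) + 3) / δ
  have hCR : 1 ≤ CR := le_add_of_nonneg_right (by positivity)
  set CN : ℝ := (2 * CR + 2 / δ + 9) * (2 * (r + 1))
  have hCN : 0 ≤ CN := by positivity
  refine ⟨r, CR * (W₀ + 1) + CN + (1 + (1 + W₀) * CR * |M r|), ?_, fun η hη hη1 => ?_⟩
  · nlinarith [mul_nonneg (mul_nonneg (add_nonneg zero_le_one hW₀) (le_trans zero_le_one hCR))
      (abs_nonneg (M r))]
  set C : ℝ := CR * (W₀ + 1) + CN + (1 + (1 + W₀) * CR * |M r|)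
  have hM0 : 0 ≤ (1 + W₀) * CR * |M r| := by positivity
  have hCC : CR * (W₀ + 1) ≤ C ∧ CR * W₀ ≤ C ∧ CR ≤ C ∧ CN ≤ C := by
    refine ⟨?_, ?_, ?_, ?_⟩ <;> simp only [C] <;> nlinarith
  set R : ℝ := 1 + ((K : ℝ) + 3) * -log η
  set p : ℝ := η ^ (-δ)
  have hp : 1 ≤ p := one_le_rpow_of_pos_of_le_one_of_nonpos hη hη1 (by linarith)
  have hl : 0 ≤ -log η := neg_nonneg.2 (log_nonpos hη.le hη1)
  have hR1 : 1 ≤ R := le_add_of_nonneg_right (by positivity)
  have hRp : R ≤ CR * p := by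
    have := mul_le_mul_of_nonneg_left (neg_log_le hη hδ) (show (0 : ℝ) ≤ (K : ℝ) + 3 by positivity)
    rw [← mul_div_assoc, ← div_mul_eq_mul_div] at this
    simp only [R, CR, add_mul, one_mul]
    linarith
  have hpθ : p ≤ η ^ (-θ) := rpow_le_rpow_of_exponent_ge hη hη1 (by linarith)
  have hp2 : p * p ≤ η ^ (-θ) := by
    rw [← rpow_add hη]; exact rpow_le_rpow_of_exponent_ge hη hη1 (by linarith)
  set N : ℕ := ⌈p⌉₊
  have hN0 : 0 < N := Nat.ceil_pos.2 (by linarith)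
  have hNp : p ≤ (N : ℝ) := Nat.le_ceil p
  have hN2 : (N : ℝ) ≤ 2 * p := by
    have := Nat.ceil_lt_add_one (show 0 ≤ p by linarith)
    linarith [show (⌈p⌉₊ : ℝ) = N from rfl]
  have he0 : 0 ≤ 2 * pE K := by linarith [pE_pos K]
  refine ⟨R, N, hR1, (tau_le (rpow_nonneg hη.le _) (rpow_le_one hη.le hη1 he0)).trans hR1, hN0,
    hRp.trans (mul_le_mul hCC.2.2.1 hpθ (by positivity) (by positivity)), ?_, ?_, ?_⟩
  · refine (mul_le_mul_of_nonneg_right hRp hW₀).trans ?_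
    rw [mul_right_comm]
    exact mul_le_mul hCC.2.1 hpθ (by positivity) (by positivity)
  · push_cast
    have hb := blocks_le (R := R) hη hη1 he0 (by linarith [pE_le K]) hR1
    have hb' : 2 * R + 2 * -log η + 9 ≤ (2 * CR + 2 / δ + 9) * p := by
      have := neg_log_le hη hδ
      rw [add_mul, add_mul, div_mul_eq_mul_div, mul_div_assoc]
      linarith
    calc (CompQuad.blocks (1 - SF.tau (η ^ (2 * pE K)) / R) : ℝ) * ((N : ℝ) * ((r : ℝ) + 1))
        ≤ ((2 * CR + 2 / δ + 9) * p) * (2 * p * ((r : ℝ) + 1)) := by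
          gcongr
          exact hb.trans hb'
      _ = CN * (p * p) := by simp only [CN]; ring
      _ ≤ C * η ^ (-θ) := mul_le_mul hCC.2.2.2 hp2 (by positivity) (by positivity)
  · have h1 : exp (-R) ≤ η ^ (K + 3) := by
      rw [← rpow_natCast, rpow_def_of_pos hη]
      refine exp_le_exp.2 ?_
      simp only [R]
      push_cast
      linarith
    have h2 : R / (N : ℝ) ^ (r + 1) ≤ CR * η ^ (K + 3) := by
      have h3 : p ^ (r + 1) ≤ (N : ℝ) ^ (r + 1) := pow_le_pow_left₀ (by linarith) hNp _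
      have h4 : p * η ^ (-((δ * (r + 1)))) ≥ 0 := by positivity
      calc R / (N : ℝ) ^ (r + 1) ≤ CR * p / p ^ (r + 1) :=
            div_le_div₀ (by positivity) hRp (by positivity) h3
        _ = CR * η ^ (-δ + δ * (r + 1)) := by
            rw [rpow_add hη, ← rpow_natCast p (r + 1), ← rpow_mul hη.le, mul_div_assoc,
              show -δ * ((r + 1 : ℕ) : ℝ) = -(δ * (r + 1)) by push_cast; ring, rpow_neg hη.le (δ * _),
              div_inv_eq_mul]
        _ ≤ CR * η ^ (K + 3) := by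
            rw [← rpow_natCast η (K + 3)]
            refine mul_le_mul_of_nonneg_left (rpow_le_rpow_of_exponent_ge hη hη1 ?_) (by positivity)
            push_cast
            linarith
    have h3 : 0 ≤ η ^ (K + 3) := pow_nonneg hη.le _
    rw [tail₀]
    calc exp (-R) + (1 + W₀) / (N : ℝ) ^ (r + 1) * R * M r
        ≤ η ^ (K + 3) + (1 + W₀) * (R / (N : ℝ) ^ (r + 1)) * |M r| := by
          rw [div_mul_eq_mul_div, mul_div_assoc]
          gcongr
          exact le_abs_self _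
      _ ≤ η ^ (K + 3) + (1 + W₀) * (CR * η ^ (K + 3)) * |M r| := by gcongr
      _ = (1 + (1 + W₀) * CR * |M r|) * η ^ (K + 3) := by ring
      _ ≤ C * η ^ (K + 3) := by
          refine mul_le_mul_of_nonneg_right ?_ h3
          simp only [C]
          nlinarith

end Vale.Agent.P347.Shift.SFParams
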