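import Vale.Agent.P347.Shift.SF
import Vale.Agent.P347.Shift.WhiteAsm

/-!
# P347: the whitened step from the tower expression

The flow of the tilt at the origin and scale one, stopped at correlation `√(4/5)`, is the expression
`SF.ph` at the centre `0`.  Its bounds are those of the tower; only its distance to the flow map is
left as a hypothesis.
-/

open MeasureTheory ProbabilityTheory Real
open scoped RealInnerProductSpace ENNReal

namespace Vale.Agent.P347.Shift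

open Quarter

variable {d : ℕ} {η : ℝ}

/-- The boxes of the tower: the gradient and the tilted velocities at scales in `(0, 1]`. -/
noncomputable def towerBox (d : ℕ) : Option ℝ → (Sp d → Sp d) → Sp d → Sp d
  | none => fun G => G
  | some t => if 0 < t ∧ t ≤ 1 then tiltField 1 t else fun G => G

lemma padded_towerBox : Padded (fun _ => (1 : ℝ)) (towerBox d) := by
  intro k
  refine ⟨zero_le_one, ?_⟩
  cases k with
  | none => exact Or.inl rfl
  | some t =>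
    by_cases h : 0 < t ∧ t ≤ 1
    · exact Or.inr ⟨1, t, zero_le_one, le_rfl, h.1, h.2, h.2, by simp [towerBox, h]⟩
    · exact Or.inl (by simp [towerBox, h])

/-- A field grows linearly. -/
lemma IsField.norm_apply_le {L : ℝ} {V : Sp d → Sp d} (h : IsField L V) (y : Sp d) :
    ‖V y‖ ≤ L * (√d + ‖y‖) := by
  have h1 := (convex_univ (𝕜 := ℝ) (E := Sp d)).norm_image_sub_le_of_norm_fderiv_le
    (fun x _ => h.smooth.differentiable one_ne_zero x) (fun x _ => h.bound x)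
    (Set.mem_univ (0 : Sp d)) (Set.mem_univ y)
  rw [sub_zero] at h1
  linarith [norm_le_norm_add_norm_sub' (V y) (V 0), h.zero]

lemma norm_towerBox_le {G : Sp d → Sp d} (hG : Adm η G) (hη : 0 ≤ η) (hη1 : η ≤ 1 / 8)
    (k : Option ℝ) (y : Sp d) : ‖towerBox d k G y‖ ≤ 3 * η * (√d + ‖y‖) := by
  obtain ⟨-, ⟨a, b, -, ha1, hb0, hb1, -, he⟩⟩ | ⟨h, -⟩ :
      (True ∧ ∃ a b : ℝ, 0 ≤ a ∧ |a| ≤ 1 ∧ 0 < b ∧ b ≤ 1 ∧ b ≤ 1 ∧
        towerBox d k = tiltField a b) ∨ ((towerBox d k = fun G => G) ∧ True) := by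
    obtain ⟨-, hk | ⟨a, b, ha, ha1, hb0, hb1, hbs, hk⟩⟩ := padded_towerBox (d := d) k
    · exact Or.inr ⟨hk, trivial⟩
    · exact Or.inl ⟨trivial, a, b, ha, by rwa [abs_of_nonneg ha], hb0, hb1, hbs, hk⟩
  · rw [he]
    exact (isField_tiltField hG hη hη1 ha1 hb0 hb1).norm_apply_le y
  · rw [h]
    obtain ⟨h0, W, H, hW⟩ := hG
    refine ((hW.grad_le le_rfl y).trans (add_le_add h0 le_rfl)).trans ?_
    nlinarith [mul_nonneg hη (norm_nonneg y), mul_nonneg hη (sqrt_nonneg (d : ℝ))]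

/-- The time of correlation `√(4/5)`. -/
noncomputable def whiteTime : ℝ := log (1 + 1 / 4) / 2

lemma mu_pow_eq {K m : ℕ} (hη : 0 < η) :
    SF.mu (η ^ (2 * pE K)) ^ m = η ^ ((m : ℝ) * pE K) / 2 ^ m := by
  rw [SF.mu, sqrt_eq_rpow, ← rpow_mul hη.le, div_pow, ← rpow_natCast (η ^ _) m, ← rpow_mul hη.le]
  ring_nf

/-- The scales of the tower fit the zero centre. -/
lemma fits_zero {K m : ℕ} {C W w θ : ℝ} (hη : 0 < η) (hη1 : η ≤ 1) (hm : m ≤ 8 * (K + 1))
    (hC : 0 ≤ C) (hW : W ≤ C * η ^ (-θ)) (hθ : θ ≤ 1 / 8) (hw : w ≤ 1 / 2)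
    (hη' : η ^ (1 / 8 : ℝ) * (6 * m * C + 1) ≤ 1) :
    SF.Fits η (3 * η) 1 ((m + 1) * 2 ^ m) ((m + 1) * 2 ^ m * η ^ (-pA K)) w W (η ^ (2 * pE K)) m 1
      (Expr.zero : Expr (Option ℝ) 0 1) := by
  set B : ℝ := (m + 1) * 2 ^ m
  have h2 : (1 : ℝ) ≤ 2 ^ m := one_le_pow₀ one_le_two
  have hm0 : (0 : ℝ) ≤ m := Nat.cast_nonneg m
  have hB : (m : ℝ) ≤ B := (le_add_of_nonneg_right zero_le_one).trans
    (le_mul_of_one_le_right (by positivity) h2)
  have hpow : η ^ pA K ≤ η ^ ((m : ℝ) * pE K) := by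
    refine rpow_le_rpow_of_exponent_ge hη hη1 ?_
    rw [pE]
    have : (m : ℝ) ≤ 8 * ((K : ℝ) + 1) := by exact_mod_cast hm
    rw [mul_div_left_comm]
    exact mul_le_of_le_one_right (pA_pos K).le ((div_le_one (by positivity)).2 this)
  have hμ : SF.mu (η ^ (2 * pE K)) ^ m = η ^ ((m : ℝ) * pE K) / 2 ^ m := mu_pow_eq hη
  have hx : (m : ℝ) * (2 * (3 * η) * W * 1) ≤ η ^ (pA K + 1 / 2) := by
    have e1 : η * η ^ (-θ) = η ^ (1 - θ) := by
      rw [← rpow_one_add' hη.le (by linarith), ← sub_eq_add_neg]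
    have e2 : η ^ (1 - θ) ≤ η ^ (1 / 8 : ℝ) * η ^ (pA K + 1 / 2) := by
      rw [← rpow_add hη]
      exact rpow_le_rpow_of_exponent_ge hη hη1 (by linarith [pA_le K])
    calc (m : ℝ) * (2 * (3 * η) * W * 1) ≤ (m : ℝ) * (2 * (3 * η) * (C * η ^ (-θ)) * 1) := by
          gcongr
      _ = 6 * m * C * (η * η ^ (-θ)) := by ring
      _ ≤ 6 * m * C * (η ^ (1 / 8 : ℝ) * η ^ (pA K + 1 / 2)) := by rw [e1]; gcongr
      _ = η ^ (1 / 8 : ℝ) * (6 * m * C) * η ^ (pA K + 1 / 2) := by ring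
      _ ≤ 1 * η ^ (pA K + 1 / 2) := mul_le_mul_of_nonneg_right
          (le_trans (mul_le_mul_of_nonneg_left (by linarith) (rpow_nonneg hη.le _)) hη')
          (rpow_nonneg hη.le _)
      _ = _ := one_mul _
  refine ⟨trivial, one_pos, le_rfl, ?_, ?_, ?_, ?_⟩ <;>
    simp only [Expr.aff, Expr.sm, abs_zero, Finset.sum_const_zero, zero_add, mul_one, one_mul, hμ]
  · exact hB
  · calc (m : ℝ) ≤ (m + 1) * 1 := by linarith
      _ = (m + 1) * (η ^ (-pA K) * η ^ pA K) := by rw [← rpow_add hη]; simp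
      _ ≤ (m + 1) * (η ^ (-pA K) * η ^ ((m : ℝ) * pE K)) := by gcongr
      _ = _ := by simp only [B]; field_simp
  · rw [mul_one] at hx
    refine hx.trans ?_
    calc η ^ (pA K + 1 / 2) = η ^ pA K * η ^ (1 / 2 : ℝ) := rpow_add hη _ _
      _ ≤ η ^ ((m : ℝ) * pE K) * η ^ w :=
          mul_le_mul hpow (rpow_le_rpow_of_exponent_ge hη hη1 hw) (rpow_nonneg hη.le _)
            (rpow_nonneg hη.le _)
      _ ≤ (m + 1) * (η ^ ((m : ℝ) * pE K) * η ^ w) :=
          le_mul_of_one_le_left (by positivity) (by linarith)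
      _ = _ := by simp only [B]; field_simp
  · rw [mul_one] at hx
    exact hx.trans (rpow_le_one hη.le hη1 (by linarith [pA_pos K]))

/-- **The whitened step from the error of the tower flow.** `i` rounds of the flow at the origin and
scale one follow the flow map. -/
theorem whiteSpec_of_flowErr {K : ℕ} (i : ℕ) (hi : i + 1 ≤ 8 * (K + 1))
    (hp : PtSpec K (pTop K)) (hb : ∀ m ≤ pTop K, TiltBox K m)
    (herr : ∀ θ : ℝ, 0 < θ → θ ≤ 1 / 8 → ∃ C η₀ : ℝ, 0 ≤ C ∧ 0 < η₀ ∧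
      ∀ (d : ℕ) (η : ℝ), 1 ≤ d → 0 < η → η ≤ η₀ →
        ∃ (Wt : ℝ) (N : ℕ) (grid : ℝ → List (ℝ × ℝ)), 0 ≤ Wt ∧ Wt ≤ C * η ^ (-θ) ∧
          (N : ℝ) ≤ C * η ^ (-θ) ∧ SF.GridOK (η ^ (2 * pE K)) grid Wt N ∧
          ∀ (W : Sp d → ℝ) (G : Sp d → Sp d) (H : Sp d → Sp d →L[ℝ] Sp d),
            IsPot W G H 0 η → ‖G 0‖ ≤ η * √d →
            ∃ T : Sp d → Sp d, Measurable T ∧ (gd d).map T = gibbs (smPot (mixKap (1 / 4)) W) ∧
              ∫⁻ z, ENNReal.ofReal (‖SF.phv (η ^ (2 * pE K)) grid (fun k => towerBox d k G) i 1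
                  whiteTime 0 z - T z‖ ^ 2) ∂gd d ≤
                ENNReal.ofReal ((C * η ^ K * √d) ^ 2)) :
    WhiteSpec K := by
  refine whiteSpec_of_expr hp hb ⟨SF.dep i, ((i + 1 : ℕ) + 1) * 2 ^ (i + 1), ?_, fun θ hθ => ?_⟩
  · exact one_le_mul_of_one_le_of_one_le (le_add_of_nonneg_left (Nat.cast_nonneg _))
      (one_le_pow₀ one_le_two)
  set θ' : ℝ := min (θ / SF.dep i) (1 / 8) with hθ'
  have hdep : (0 : ℝ) < SF.dep i := by exact_mod_cast SF.one_le_dep i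
  have hθ0 : 0 < θ' := lt_min (div_pos hθ hdep) (by norm_num)
  have hθ8 : θ' ≤ 1 / 8 := min_le_right _ _
  obtain ⟨C, η₁, hC, hη₁, herr⟩ := herr θ' hθ0 hθ8
  set C' : ℝ := 2 * (C + 6) ^ SF.dep i + 6 * C + SF.dep i + C with hC'
  have hC0 : 0 ≤ (C + 6) ^ SF.dep i := by positivity
  refine ⟨C', min η₁ (min (min (1 / 8) ((1 / 4 : ℝ) ^ (1 / (2 * pE K))))
      ((1 / (30 * (C + 1) * ((i + 1 : ℕ) + 1))) ^ 8)), by positivity,
    lt_min hη₁ (lt_min (lt_min (by norm_num) (rpow_pos_of_pos (by norm_num) _)) (by positivity)),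
    fun d η hd hη hu => ?_⟩
  simp only [le_min_iff] at hu
  obtain ⟨hu1, ⟨hu2, hu3⟩, hu4⟩ := hu
  have hη1 : η ≤ 1 := hu2.trans (by norm_num)
  obtain ⟨Wt, N, grid, hW0, hWt, hN, hgrid, herr⟩ := herr d η hd hη hu1
  set q : ℝ := η ^ (2 * pE K) with hq
  have hq0 : 0 < q := rpow_pos_of_pos hη _
  have hq1 : q ≤ 1 / 4 := by
    refine (rpow_le_rpow hη.le hu3 (by linarith [pE_pos K])).trans_eq ?_
    rw [← rpow_mul (by norm_num), one_div_mul_cancel (by linarith [pE_pos K]), rpow_one]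
  have h8 : η ^ (1 / 8 : ℝ) ≤ 1 / (30 * (C + 1) * ((i + 1 : ℕ) + 1)) := by
    refine (rpow_le_rpow hη.le hu4 (by norm_num)).trans_eq ?_
    rw [← rpow_natCast, ← rpow_mul (by positivity)]
    norm_num
  have h8' : η ^ (1 / 8 : ℝ) * (30 * (C + 1) * ((i + 1 : ℕ) + 1)) ≤ 1 :=
    (le_div_iff₀ (by positivity)).1 h8
  have hθη : η * η ^ (-θ') ≤ η ^ (3 / 4 : ℝ) ∧ η * η ^ (-θ') ≤ η ^ (1 / 8 : ℝ) := by
    rw [← rpow_one_add' hη.le (by linarith)]
    exact ⟨rpow_le_rpow_of_exponent_ge hη hη1 (by linarith),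
      rpow_le_rpow_of_exponent_ge hη hη1 (by linarith)⟩
  have hη8 : 0 ≤ η ^ (1 / 8 : ℝ) := rpow_nonneg hη.le _
  have hWL : 10 * (3 * η) * Wt ≤ 1 := by
    calc 10 * (3 * η) * Wt ≤ 10 * (3 * η) * (C * η ^ (-θ')) := by gcongr
      _ = 30 * C * (η * η ^ (-θ')) := by ring
      _ ≤ 30 * (C + 1) * ((i + 1 : ℕ) + 1) * η ^ (1 / 8 : ℝ) := by
          refine mul_le_mul ?_ hθη.2 (by positivity) (by positivity)
          exact (show 30 * C ≤ 30 * (C + 1) by linarith).trans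
            (le_mul_of_one_le_right (by positivity) (le_add_of_nonneg_left (Nat.cast_nonneg _)))
      _ ≤ 1 := by linarith
  have hfit := fits_zero (K := K) (m := i + 1) (w := pW K (pTop K)) hη hη1 hi hC hWt hθ8
    (pW_le_half K le_rfl) (le_trans (mul_le_mul_of_nonneg_left (show
      6 * ((i + 1 : ℕ) : ℝ) * C + 1 ≤ 30 * (C + 1) * (((i + 1 : ℕ) : ℝ) + 1) by
        nlinarith [mul_nonneg (Nat.cast_nonneg (α := ℝ) (i + 1)) hC,
          Nat.cast_nonneg (α := ℝ) (i + 1)]) hη8) h8')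
  have ht : SF.tau q ≤ whiteTime := by
    rw [SF.tau, whiteTime]
    exact div_le_div_of_nonneg_right (log_le_log (by linarith) (by linarith)) two_pos.le
  have hR : 0 ≤ ((i + 1 : ℕ) + 1 : ℝ) * 2 ^ (i + 1) * η ^ (-pA K) := by positivity
  obtain ⟨⟨hgood, hsm, -⟩, hdepth, hsize⟩ := (SF.spec (L := 3 * η) (B :=
      ((i + 1 : ℕ) + 1 : ℝ) * 2 ^ (i + 1)) hη (by positivity) one_pos le_rfl
    (one_le_mul_of_one_le_of_one_le (le_add_of_nonneg_left (Nat.cast_nonneg _))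
      (one_le_pow₀ one_le_two)) hR hq0 hq1 hW0 hgrid i).2 Expr.zero 1 whiteTime 0 hfit ht
  refine ⟨Option ℝ, fun _ => 1, towerBox d, SF.ph q grid i 1 whiteTime Expr.zero 0,
    padded_towerBox, ?_, hgood, ?_, ?_, fun W G H hW hG0 => ?_⟩
  · simpa [Expr.depth] using hdepth
  · have h1 : ((SF.ph q grid i 1 whiteTime Expr.zero (0 : Fin 1)).size : ℝ) ≤
        2 * ((N : ℝ) + 6) ^ SF.dep i := by
      have := (Nat.cast_le (α := ℝ)).2 hsize
      simp only [Expr.size] at this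
      push_cast at this
      linarith
    have hp1 : 1 ≤ η ^ (-θ') := one_le_rpow_of_pos_of_le_one_of_nonpos hη hη1 (by linarith)
    calc ((SF.ph q grid i 1 whiteTime Expr.zero (0 : Fin 1)).size : ℝ)
        ≤ 2 * ((C + 6) * η ^ (-θ')) ^ SF.dep i := h1.trans (by
          gcongr
          linarith)
      _ = 2 * (C + 6) ^ SF.dep i * η ^ (-θ' * SF.dep i) := by
          rw [mul_pow, rpow_mul hη.le, rpow_natCast]
          ring
      _ ≤ C' * η ^ (-θ) := by
          refine mul_le_mul (by rw [hC']; linarith)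
            (rpow_le_rpow_of_exponent_ge hη hη1 ?_) (rpow_nonneg hη.le _) (by positivity)
          have := mul_le_mul_of_nonneg_right (min_le_left (θ / SF.dep i) (1 / 8 : ℝ)) hdep.le
          rw [div_mul_cancel₀ _ hdep.ne'] at this
          linarith
  · refine hsm.trans ?_
    calc 2 * (3 * η) * Wt * 1 ≤ 6 * C * (η * η ^ (-θ')) := by
          nlinarith [mul_le_mul_of_nonneg_left hWt hη.le]
      _ ≤ C' * η ^ (3 / 4 : ℝ) :=
          mul_le_mul (by rw [hC']; linarith) hθη.1 (by positivity) (by positivity)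
  · have hG : Adm η G := ⟨hG0, W, H, hW⟩
    set V := fun k => towerBox d k G
    refine ⟨fun x => ?_, ?_⟩
    · have h := (SF.cen_le (L := 3 * η) (V := V) (by positivity)
        (norm_towerBox_le hG hη.le hu2) hq0 hq1 hgrid hW0 hWL i).2 Expr.zero 1 whiteTime
        (0 : Fin 1) zero_le_one le_rfl ht (fun _ => x) 0 le_rfl
        (by simp only [Expr.cen, Expr.eval]; positivity)
      refine h.trans ?_
      simp only [Expr.eval, norm_zero, add_zero, zero_add]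
      refine mul_le_mul_of_nonneg_right ?_ (by positivity)
      exact (show (SF.dep i : ℝ) ≤ C' by rw [hC']; linarith).trans
        (le_mul_of_one_le_right (by positivity) ((one_le_inv₀ hη).2 hη1))
    · obtain ⟨T, hT, hlaw, hTe⟩ := herr W G H hW hG0
      refine ⟨T, hT, hlaw, le_trans (le_of_eq ?_) (hTe.trans (ENNReal.ofReal_le_ofReal ?_))⟩
      · simp only [(SF.eval_eq V i).2, Expr.eval]
        rfl
      · refine pow_le_pow_left₀ (by positivity) ?_ 2
        gcongr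
        rw [hC']
        linarith

end Vale.Agent.P347.Shift
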