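import Vale.Agent.P347.Shift.SFFlow
import Vale.Agent.P347.Shift.SFParams
import Vale.Agent.P347.Shift.WhiteSF

/-!
# P347: the whitened step, assembled

At the origin and scale one the rounds of the tower follow the exact flow of the tilt at the time
of correlation `√(4/5)`: this discharges the hypothesis of `whiteSpec_of_flowErr`.
-/

open MeasureTheory ProbabilityTheory Real Finset
open scoped RealInnerProductSpace ENNReal

namespace Vale.Agent.P347.Shift

open Quarter Fields TiltFlow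

variable {d : ℕ} {η : ℝ}

lemma vT_whiteTime : vT whiteTime = mixKap (1 / 4) := by
  have e : whiteTime = SF.tau (1 / 2) := by rw [whiteTime, SF.tau]; norm_num
  rw [e, SFLink.vT_tau (by norm_num), mixKap]
  norm_num

lemma towerBox_some (G : Sp d → Sp d) (t : ℝ) (ht : 0 < t) (ht1 : t ≤ 1) :
    towerBox d (some t) G = tiltField 1 t G := by
  simp [towerBox, ht, ht1]

/-- The exact flow at the origin and scale one. -/
theorem exists_white_flow {W : Sp d → ℝ} {G : Sp d → Sp d} {H : Sp d → Sp d →L[ℝ] Sp d}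
    (hW : IsPot W G H 0 η) (hη : 0 ≤ η) (hη2 : η ≤ 1 / 2) :
    ∃ X : ℝ → Sp d → Sp d, SFFlow.Exact η 1 G 0
        (score fun w => W (0 + (1 : ℝ) • w)) (TiltFlow.pot fun w => W (0 + (1 : ℝ) • w)) X ∧
      (gd d).map (X whiteTime) = gibbs (smPot (mixKap (1 / 4)) W) := by
  obtain ⟨Y, h0, hc, hd, hl⟩ := exists_flowV (isPot_slice hW zero_le_one le_rfl (0 : Sp d))
    (mul_nonneg (sq_nonneg 1) hη) (by simpa using hη2)
  have hX := SFFlow.exact_of_flowV hW hη hη2 zero_le_one le_rfl (0 : Sp d) ⟨h0, hc, hd, hl⟩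
  refine ⟨_, hX, ?_⟩
  have ht : 0 < whiteTime := div_pos (log_pos (by norm_num)) two_pos
  have e : (fun w : Sp d => W (0 + (1 : ℝ) • w)) = W := funext fun w => by simp
  rw [hX.law _ ht, e, ← gibbs_smPot_eq hW ht, vT_whiteTime]

/-- An error in units of `‖G 0‖ + η √d` as a squared integral. -/
lemma lintegral_sq_of_eLpNorm {f : Sp d → Sp d} {e : ℝ} (he : 0 ≤ e)
    (h : eLpNorm f 2 (gd d) ≤ ENNReal.ofReal e) :
    ∫⁻ z, ENNReal.ofReal (‖f z‖ ^ 2) ∂gd d ≤ ENNReal.ofReal (e ^ 2) :=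
  (EmitBase.sq_err_iff (gd d) f e).2 (by rwa [abs_of_nonneg he])

/-- The rounds reach `η ^ K` once `θ (K + 2) ≤ 2`. -/
lemma round_arith {K : ℕ} {η θ C W : ℝ} (hη : 0 < η) (hη1 : η ≤ 1) (hC : 0 ≤ C) (hW : 0 ≤ W)
    (hWb : W ≤ C * η ^ (-θ)) (hθ : θ * (K + 2) ≤ 2) :
    (6 * W * η) ^ (K + 2) ≤ (6 * C) ^ (K + 2) * η ^ K := by
  calc (6 * W * η) ^ (K + 2) ≤ (6 * C * (η ^ (-θ) * η)) ^ (K + 2) := by
        refine pow_le_pow_left₀ (by positivity) ?_ _
        nlinarith [mul_le_mul_of_nonneg_right hWb hη.le]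
    _ = (6 * C) ^ (K + 2) * η ^ ((1 - θ) * ((K + 2 : ℕ) : ℝ)) := by
        rw [mul_pow, rpow_mul hη.le, rpow_natCast]
        congr 2
        rw [sub_eq_neg_add, rpow_add hη, rpow_one]
    _ ≤ (6 * C) ^ (K + 2) * η ^ K := by
        rw [← rpow_natCast η K]
        refine mul_le_mul_of_nonneg_left (rpow_le_rpow_of_exponent_ge hη hη1 ?_) (by positivity)
        push_cast
        linarith

/-- **The whitened step of every order**, from the emission of expressions and the tilted boxes. -/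
theorem whiteSpec (K : ℕ) (hp : ∀ n ≤ pTop K, PtSpec K n) (hb : ∀ n ≤ pTop K, TiltBox K n) :
    WhiteSpec K := by
  refine whiteSpec_of_flowErr (2 * (K + 2)) (by omega) (hp _ le_rfl) hb fun θ hθ hθ8 => ?_
  set θ' : ℝ := min θ (2 / ((K : ℝ) + 2))
  have hθ0 : 0 < θ' := lt_min hθ (by positivity)
  have hθK : θ' * ((K : ℝ) + 2) ≤ 2 := by
    refine (mul_le_mul_of_nonneg_right (min_le_right _ _) (by positivity)).trans_eq ?_
    rw [div_mul_cancel₀ _ (by positivity)]
  obtain ⟨r, C, hC, hpar⟩ := SFParams.exists_params K hθ0 SFFlow.matM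
  set C' : ℝ := C + 2 * (14 * (6 * C) ^ (K + 2) + 14 * C)
  refine ⟨C', min (min (1 / 8) ((1 / (12 * C)) ^ 2)) ((1 / 2 : ℝ) ^ (1 / (2 * pE K))),
    by positivity, lt_min (lt_min (by norm_num) (by positivity)) (rpow_pos_of_pos (by norm_num) _),
    fun d η hd hη hu => ?_⟩
  simp only [le_min_iff] at hu
  obtain ⟨⟨hu1, hu2⟩, hu3⟩ := hu
  have hη1 : η ≤ 1 := hu1.trans (by norm_num)
  obtain ⟨R, N, hR1, hτR, hN, hR, hW, hn, htail⟩ := hpar η hη hη1
  set w := SFParams.rw₀ r
  set cν := SFParams.rc₀ r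
  set q : ℝ := η ^ (2 * pE K)
  have hq : 0 < q := rpow_pos_of_pos hη _
  have hrule := SFParams.rule₀ r
  have hW0 : 0 ≤ R * ∑ i, |w i| :=
    mul_nonneg (by linarith) (sum_nonneg fun _ _ => abs_nonneg _)
  have hpθ : η ^ (-θ') ≤ η ^ (-θ) :=
    rpow_le_rpow_of_exponent_ge hη hη1 (by linarith [min_le_left θ (2 / ((K : ℝ) + 2))])
  have hC'0 : C ≤ C' := le_add_of_nonneg_right (by positivity)
  refine ⟨R * ∑ i, |w i|, _, SFLink.sfGrid R N w cν, hW0,
    hW.trans (mul_le_mul hC'0 hpθ (by positivity) (by positivity)), ?_,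
    SFLink.gridOK_sfGrid hrule hq hτR hN, fun W G H hWp hG0 => ?_⟩
  · rw [Fintype.card_fin]
    exact hn.trans (mul_le_mul hC'0 hpθ (by positivity) (by positivity))
  obtain ⟨X, hX, hlaw⟩ := exists_white_flow hWp hη.le (hu1.trans (by norm_num))
  have hsmall : 6 * (R * ∑ i, |w i|) * η ≤ 1 / 2 := by
    have h1 : η ^ (-θ') * η ≤ η ^ (1 / 2 : ℝ) := by
      rw [← rpow_add_one' hη.le (by linarith [(min_le_left θ (2 / ((K : ℝ) + 2))).trans hθ8])]
      exact rpow_le_rpow_of_exponent_ge hη hη1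
        (by linarith [(min_le_left θ (2 / ((K : ℝ) + 2))).trans hθ8])
    have h2 : η ^ (1 / 2 : ℝ) ≤ 1 / (12 * C) := by
      rw [← sqrt_eq_rpow]
      exact (sqrt_le_left (by positivity)).2 hu2
    calc 6 * (R * ∑ i, |w i|) * η ≤ 6 * (C * η ^ (-θ')) * η := by gcongr
      _ = 6 * C * (η ^ (-θ') * η) := by ring
      _ ≤ 6 * C * (1 / (12 * C)) := mul_le_mul_of_nonneg_left (h1.trans h2) (by positivity)
      _ = 1 / 2 := by field_simp; ring
  set SF' := SF.sfv q (SFLink.sfGrid R N w cν) fun k => towerBox d k G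
  have hRec : SFErr.Rec G (SF.tau q) R N w cν SF' :=
    ⟨fun s u _ _ => by simp only [SF', SF.sfv]; rfl, fun i s u hs hs1 => SFLink.sfv_succ hrule hq hτR
      (fun t ht ht1 => towerBox_some G t ht ht1) i s u hs hs1⟩
  have ht : SF.tau q ≤ whiteTime := by
    rw [SF.tau, whiteTime]
    refine div_le_div_of_nonneg_right (log_le_log (by linarith) ?_) two_pos.le
    have : q ≤ 1 / 2 := by
      refine (rpow_le_rpow hη.le hu3 (by linarith [pE_pos K])).trans_eq ?_
      rw [← rpow_mul (by norm_num), one_div_mul_cancel (by linarith [pE_pos K]), rpow_one]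
    linarith
  have htR : whiteTime ≤ R := by
    refine le_trans ?_ hR1
    rw [whiteTime, div_le_one two_pos]
    linarith [log_le_sub_one_of_pos (show (0 : ℝ) < 1 + 1 / 4 by norm_num)]
  have hG : Adm η G := ⟨hG0, W, H, hWp⟩
  refine ⟨X whiteTime, hX.meas _, hlaw, ?_⟩
  have htw : 0 < whiteTime := div_pos (log_pos (by norm_num)) two_pos
  have hM := SFFlow.matM_nonneg r
  have h := SFErr.round_err hWp hη.le hu1 (SF.tau_pos hq) hτR hN hrule hsmall hRec one_pos le_rfl
    hX (2 * (K + 2)) (t := whiteTime) ⟨ht, htR⟩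
  set e : ℝ := 2 * (14 * (6 * C) ^ (K + 2) + 14 * C) * η ^ K * √d
  have hrel : SFErr.rel η R N r w (2 * (K + 2)) ≤ (14 * (6 * C) ^ (K + 2) + 14 * C) * η ^ K := by
    rw [SFErr.rel, pow_mul, sq_sqrt (by positivity), add_mul]
    have h1 := round_arith hη hη1 (by linarith) hW0 hW hθK
    have h2 : SFErr.tail R N r w ≤ 7 * (C * η ^ (K + 3)) := by
      refine le_trans ?_ (mul_le_mul_of_nonneg_left htail (by norm_num))
      have : 0 ≤ (1 + ∑ i, |w i|) / (N : ℝ) ^ (r + 1) * R * SFFlow.matM r := by positivity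
      show 7 * exp (-R) + (1 + ∑ i, |w i|) / (N : ℝ) ^ (r + 1) * R * SFFlow.matM r ≤
        7 * (exp (-R) + (1 + ∑ i, |w i|) / (N : ℝ) ^ (r + 1) * R * SFFlow.matM r)
      linarith
    have h3 : η ^ (K + 3) ≤ η ^ K := pow_le_pow_of_le_one hη.le hη1 (by omega)
    have h4 := mul_le_mul_of_nonneg_left h3 (show (0 : ℝ) ≤ C by linarith)
    linarith
  have he : eLpNorm (fun z => SF.phv q (SFLink.sfGrid R N w cν) (fun k => towerBox d k G)
      (2 * (K + 2)) 1 whiteTime 0 z - X whiteTime z) 2 (gd d) ≤ ENNReal.ofReal e := by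
    rw [show (fun z => SF.phv q (SFLink.sfGrid R N w cν) (fun k => towerBox d k G)
        (2 * (K + 2)) 1 whiteTime 0 z - X whiteTime z) = fun z =>
        SFPicard.approx R N w cν (SFErr.surr SF' 1 0) (2 * (K + 2)) whiteTime z - X whiteTime z from
      funext fun z => by rw [SFLink.phv_eq_approx hrule (fun k => towerBox d k G) 1 0
        (2 * (K + 2)) whiteTime htw htR z]]
    refine h.trans (ENNReal.ofReal_le_ofReal ?_)
    have hd0 : η * √(d : ℝ) ≤ √d := mul_le_of_le_one_left (sqrt_nonneg _) hη1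
    calc SFErr.rel η R N r w (2 * (K + 2)) * (1 * (‖G 0‖ + η * √d))
        ≤ (14 * (6 * C) ^ (K + 2) + 14 * C) * η ^ K * (2 * √d) :=
          mul_le_mul hrel (by linarith) (by positivity) (by positivity)
      _ = e := by simp only [e]; ring
  refine (lintegral_sq_of_eLpNorm (by positivity) he).trans (ENNReal.ofReal_le_ofReal ?_)
  refine pow_le_pow_left₀ (by positivity) ?_ 2
  simp only [e]
  gcongr
  exact le_add_of_nonneg_left (by linarith)

end Vale.Agent.P347.Shift
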