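import Vale.Agent.P347.Shift.Assemble
import Vale.Agent.P347.Shift.PtZero
import Vale.Agent.P347.Shift.TiltBox
import Vale.Agent.P347.Shift.SFApprox
import Vale.Agent.P347.Shift.WhiteFlow
import Vale.Agent.P347.Shift.MV.Main

/-!
# P347: the whitened step of every order from the two halves of one emission step
-/

namespace Vale.Agent.P347.Shift

/-- What remains is one step of the emission of nodes and of means. -/
theorem whiteSpec_of_node_mean
    (hN : ∀ K n, 0 < n → n ≤ pTop K → MVSpec K → (∀ m < n, PtSpec K m) → NodeSpec K n)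
    (hM : ∀ K n, 0 < n → n ≤ pTop K → MVSpec K → (∀ m < n, PtSpec K m) → MeanSpec K n) (K : ℕ) :
    WhiteSpec K :=
  whiteSpec_of_steps (pt_zero K)
    (fun n h0 hn h => pt_of (hN K n h0 hn (mvSpec K) h) (hM K n h0 hn (mvSpec K) h))
    (tiltBox_zero K) (fun _ _ hm hp h => tiltBox_step_of hm hp h (sfApprox K)) (whiteSpec K)

end Vale.Agent.P347.Shift
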