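import Vale.Agent.P347.Quarter.Gauss
import Vale.Agent.P347.Shift.DivergLim

/-!
# P347: total variation per step from a reserved part of the output noise

A fraction `s` of the fresh Gaussian vector is kept away from everything that follows. A change of
the rest of the output then costs its mean displacement over `s` in total variation: one moment,
no derivative of the displacement. Such errors add linearly over the steps. (For a change that
uses the whole room see `room_bound` in `Shift/DivergLim`.)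
-/

open MeasureTheory ProbabilityTheory Real Filter Topology
open scoped RealInnerProductSpace

namespace Vale.Agent.P347.Shift

open Quarter

variable {ι : Type} [Fintype ι]

lemma integral_exp_mul_shift (c : Eu ι) :
    Integrable (fun z => (exp (⟪c, z⟫ - ‖c‖ ^ 2 / 2) - 1) ^ 2) (gam ι) ∧
      ∫ z, (exp (⟪c, z⟫ - ‖c‖ ^ 2 / 2) - 1) ^ 2 ∂gam ι = exp (‖c‖ ^ 2) - 1 := by
  set k := exp (-(‖c‖ ^ 2 / 2)) with hk
  obtain ⟨h1, e1⟩ := integral_exp_inner c
  obtain ⟨h2, e2⟩ := integral_exp_inner ((2 : ℝ) • c)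
  have e : (fun z => (exp (⟪c, z⟫ - ‖c‖ ^ 2 / 2) - 1) ^ 2) =
      fun z => k ^ 2 * exp ⟪(2 : ℝ) • c, z⟫ - 2 * k * exp ⟪c, z⟫ + 1 := by
    funext z
    rw [real_inner_smul_left, sub_eq_add_neg ⟪c, z⟫, exp_add, ← hk, two_mul ⟪c, z⟫, exp_add]
    ring
  have ha : Integrable (fun z => k ^ 2 * exp ⟪(2 : ℝ) • c, z⟫ - 2 * k * exp ⟪c, z⟫) (gam ι) :=
    (h2.const_mul _).sub (h1.const_mul _)
  rw [e]
  refine ⟨ha.add (integrable_const _), ?_⟩
  rw [integral_add ha (integrable_const _), integral_sub (h2.const_mul _) (h1.const_mul _),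
    integral_const_mul, integral_const_mul, e1, e2, integral_const, probReal_univ, one_smul,
    norm_smul, norm_eq_abs, abs_two, hk, ← exp_nat_mul, mul_assoc 2, ← exp_add, ← exp_add]
  ring_nf
  rw [exp_zero]
  ring

/-- A translation of the Gaussian law costs its chi square. -/
lemma abs_translate_le_chi {φ : Eu ι → ℝ} (hφ : Measurable φ) {M : ℝ} (hM : ∀ x, |φ x| ≤ M)
    (a c : Eu ι) :
    |(∫ z, φ (z + (a + c)) ∂gam ι) - ∫ z, φ (z + a) ∂gam ι| ≤ M * √(exp (‖c‖ ^ 2) - 1) := by
  have hM0 : 0 ≤ M := (abs_nonneg _).trans (hM 0)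
  set ψ := fun z => φ (z + a)
  have hψ : Measurable ψ := hφ.comp (measurable_add_const a)
  set q := fun z => exp (⟪c, z⟫ - ‖c‖ ^ 2 / 2) - 1
  have hq : Continuous q := by fun_prop
  have hq2 : MemLp q 2 (gam ι) :=
    (memLp_two_iff_integrable_sq hq.aestronglyMeasurable).2 (integral_exp_mul_shift c).1
  have hq1 : Integrable q (gam ι) := hq2.integrable one_le_two
  have hψi : Integrable ψ (gam ι) :=
    .of_bound hψ.aestronglyMeasurable M (ae_of_all _ fun z => hM _)
  have hqψ : Integrable (fun z => q z * ψ z) (gam ι) :=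
    hq1.mul_bdd hψ.aestronglyMeasurable (ae_of_all _ fun z => hM _)
  have e : ∫ z, φ (z + (a + c)) ∂gam ι = ∫ z, q z * ψ z + ψ z ∂gam ι := by
    have h1 : ∫ z, φ (z + (a + c)) ∂gam ι = ∫ z, ψ z ∂(gam ι).map fun z => z + c := by
      rw [integral_map (by fun_prop) hψ.aestronglyMeasurable]
      exact integral_congr_ae (ae_of_all _ fun z => by simp only [ψ]; congr 1; abel)
    rw [h1, gauss_translate, integral_tilted, (integral_exp_inner c).2]
    exact integral_congr_ae (ae_of_all _ fun z => by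
      simp only [q, smul_eq_mul, exp_sub]; ring)
  rw [e, integral_add hqψ hψi, add_sub_cancel_right]
  refine (norm_integral_le_of_norm_le (f := fun z => q z * ψ z) (hq1.abs.const_mul M)
    (ae_of_all _ fun z => ?_)).trans ?_
  · rw [norm_mul, norm_eq_abs, norm_eq_abs, mul_comm M]
    exact mul_le_mul_of_nonneg_left (hM _) (abs_nonneg _)
  rw [integral_const_mul]
  refine mul_le_mul_of_nonneg_left (le_sqrt_of_sq_le ?_) hM0
  have hv := variance_nonneg (fun z => |q z|) (gam ι)
  rw [variance_eq_sub (show MemLp (fun z => |q z|) 2 (gam ι) from hq2.abs)] at hv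
  simp only [Pi.pow_apply, sq_abs] at hv
  linarith [(integral_exp_mul_shift c).2]

/-- A translation of the Gaussian law costs its length. -/
theorem abs_translate_le {φ : Eu ι → ℝ} (hφ : Measurable φ) {M : ℝ} (hM : ∀ x, |φ x| ≤ M)
    (a b : Eu ι) :
    |(∫ z, φ (z + a) ∂gam ι) - ∫ z, φ (z + b) ∂gam ι| ≤ M * ‖a - b‖ := by
  have hM0 : 0 ≤ M := (abs_nonneg _).trans (hM 0)
  set r := ‖a - b‖
  set F := fun x => ∫ z, φ (z + x) ∂gam ι
  -- cut the translation into `N + 1` equal pieces
  have hN : ∀ N : ℕ, |F a - F b| ≤ M * (r * exp (r ^ 2 / ((N:ℝ) + 1) ^ 2 / 2)) := by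
    intro N
    set c : Eu ι := ((N:ℝ) + 1)⁻¹ • (a - b) with hc
    have hcn : ‖c‖ = r / ((N:ℝ) + 1) := by
      rw [hc, norm_smul, norm_inv, norm_of_nonneg (by positivity), inv_mul_eq_div]
    have hone : ∀ x, |F (x + c) - F x| ≤ M * (‖c‖ * exp (‖c‖ ^ 2 / 2)) := fun x => by
      refine (abs_translate_le_chi hφ hM x c).trans (mul_le_mul_of_nonneg_left ?_ hM0)
      rw [sqrt_le_left (by positivity), mul_pow, ← exp_nat_mul]
      have h := add_one_le_exp (-‖c‖ ^ 2)
      have hp := mul_le_mul_of_nonneg_right h (exp_pos (‖c‖ ^ 2)).le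
      rw [← exp_add, neg_add_cancel, exp_zero] at hp
      rw [Nat.cast_ofNat, mul_div_cancel₀ _ two_ne_zero]
      linarith
    have hk : ∀ k : ℕ, |F (b + (k:ℝ) • c) - F b| ≤ k * (M * (‖c‖ * exp (‖c‖ ^ 2 / 2))) := by
      intro k
      induction k with
      | zero => simp
      | succ k ih =>
        have e : b + ((k + 1 : ℕ) : ℝ) • c = b + (k:ℝ) • c + c := by push_cast; module
        rw [e]
        push_cast
        linarith [abs_sub_le (F (b + (k:ℝ) • c + c)) (F (b + (k:ℝ) • c)) (F b),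
          hone (b + (k:ℝ) • c)]
    have e : b + ((N + 1 : ℕ) : ℝ) • c = a := by
      rw [hc, smul_smul, Nat.cast_succ, mul_inv_cancel₀ (by positivity), one_smul, add_sub_cancel]
    have h := hk (N + 1)
    rw [e, hcn, div_pow] at h
    refine h.trans_eq ?_
    push_cast
    field_simp
  have hlim : Tendsto (fun N : ℕ => M * (r * exp (r ^ 2 / ((N:ℝ) + 1) ^ 2 / 2))) atTop
      (𝓝 (M * (r * exp (0 / 2)))) := by
    refine ((Tendsto.div_const ?_ 2).rexp.const_mul r).const_mul M
    exact (tendsto_const_nhds.div_atTop ((tendsto_pow_atTop two_ne_zero).comp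
      (tendsto_atTop_add_const_right _ 1 tendsto_natCast_atTop_atTop)))
  rw [zero_div, exp_zero, mul_one] at hlim
  exact ge_of_tendsto' hlim hN

variable {α : Type*} [MeasurableSpace α] {μ : Measure α}

/-- The reserved room absorbs a random change of the output: mean displacement over `s`. -/
theorem room_shift [IsProbabilityMeasure μ] {s : ℝ} (hs : 0 < s) {m n : α → Eu ι}
    (hm : Measurable m) (hn : Measurable n) (hmn : Integrable (fun a => ‖m a - n a‖) μ)
    {φ : Eu ι → ℝ} (hφ : Measurable φ) {M : ℝ} (hM : ∀ x, |φ x| ≤ M) :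
    |(∫ p, φ (s • p.2 + m p.1) ∂μ.prod (gam ι)) - ∫ p, φ (s • p.2 + n p.1) ∂μ.prod (gam ι)| ≤
      M / s * ∫ a, ‖m a - n a‖ ∂μ := by
  have hi : ∀ f : α → Eu ι, Measurable f →
      Integrable (fun p : α × Eu ι => φ (s • p.2 + f p.1)) (μ.prod (gam ι)) := fun f hf =>
    .of_bound (hφ.comp ((measurable_snd.const_smul s).add (hf.comp measurable_fst))
      ).aestronglyMeasurable M (ae_of_all _ fun p => hM _)
  have hpt : ∀ a, |(∫ z, φ (s • z + m a) ∂gam ι) - ∫ z, φ (s • z + n a) ∂gam ι| ≤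
      M / s * ‖m a - n a‖ := fun a => by
    have h := abs_translate_le (φ := fun x => φ (s • x)) (hφ.comp (measurable_const_smul s))
      (fun x => hM _) (s⁻¹ • m a) (s⁻¹ • n a)
    simp only [smul_add, smul_inv_smul₀ hs.ne', ← smul_sub, norm_smul, norm_inv,
      norm_of_nonneg hs.le] at h
    exact h.trans_eq (by ring)
  rw [integral_prod _ (hi m hm), integral_prod _ (hi n hn),
    ← integral_sub (hi m hm).integral_prod_left (hi n hn).integral_prod_left]
  exact (norm_integral_le_of_norm_le (f := fun a => (∫ z, φ (s • z + m a) ∂gam ι) -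
    ∫ z, φ (s • z + n a) ∂gam ι) (hmn.const_mul _) (ae_of_all _ fun a => hpt a)).trans_eq
    (integral_const_mul _ _)

/-- The same with the second moment of the displacement. -/
theorem room_shift_sq [IsProbabilityMeasure μ] {s ε : ℝ} (hs : 0 < s) (hε : 0 ≤ ε)
    {m n : α → Eu ι} (hm : Measurable m) (hn : Measurable n)
    (hmn : Integrable (fun a => ‖m a - n a‖ ^ 2) μ) (hb : ∫ a, ‖m a - n a‖ ^ 2 ∂μ ≤ ε ^ 2)
    {φ : Eu ι → ℝ} (hφ : Measurable φ) {M : ℝ} (hM : ∀ x, |φ x| ≤ M) :
    |(∫ p, φ (s • p.2 + m p.1) ∂μ.prod (gam ι)) - ∫ p, φ (s • p.2 + n p.1) ∂μ.prod (gam ι)| ≤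
      M / s * ε := by
  have h2 : MemLp (fun a => ‖m a - n a‖) 2 μ :=
    (memLp_two_iff_integrable_sq (hm.sub hn).norm.aestronglyMeasurable).2 hmn
  refine (room_shift hs hm hn (h2.integrable one_le_two) hφ hM).trans
    (mul_le_mul_of_nonneg_left ?_ (div_nonneg ((abs_nonneg _).trans (hM 0)) hs.le))
  have hv := variance_nonneg (fun a => ‖m a - n a‖) μ
  rw [variance_eq_sub h2] at hv
  simp only [Pi.pow_apply] at hv
  exact (abs_le_of_sq_le_sq' (by linarith) hε).2

/-- **Linear adding.** The error of `n` steps is at most the sum of the errors of one step, each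
seen through the exact steps before it. -/
theorem room_add {β : Type*} (P Q : (β → ℝ) → β → ℝ) (S : Set (β → ℝ))
    (hP : ∀ f ∈ S, P f ∈ S) (x : β) (e : ℕ → ℝ) :
    ∀ n, (∀ i < n, ∀ f ∈ S, |Q^[i] (P f) x - Q^[i] (Q f) x| ≤ e i) → ∀ f ∈ S,
      |P^[n] f x - Q^[n] f x| ≤ ∑ i ∈ Finset.range n, e i := by
  intro n
  induction n with
  | zero => intro _ f _; simp
  | succ n ih =>
    intro he f hf
    simp only [Function.iterate_succ_apply, Finset.sum_range_succ]
    linarith [abs_sub_le (P^[n] (P f) x) (Q^[n] (P f) x) (Q^[n] (Q f) x),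
      ih (fun i hi => he i (by omega)) _ (hP f hf), he n (by omega) f hf]

end Vale.Agent.P347.Shift
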