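import Vale.Agent.P347.Shift.Spec
import Vale.Agent.P347.Quarter.Flow.Deriv

/-!
# P347: the tilted velocity as an expression

`sf i s c` stands for `tiltField 1 s G` at the centre `c`, to order `i`. Order `0` is the smoothed
gradient. Order `i + 1` is the tower: the velocity at the finer scale `ρ s`, smoothed by `δ s`, at
the centre moved by `γ s` times the flow `ph i` of the tilt, which is `i` Picard rounds on the time
grids with the velocities `sf j` inside. The box `none` is the gradient, `some t` the scale `t`.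
-/

open MeasureTheory Real Finset
open scoped RealInnerProductSpace

namespace Vale.Agent.P347.Shift

open Quarter

namespace Expr

variable {κ : Type} {J : ℕ}

/-- A sum of a list. -/
def sumE {n : ℕ} : List (Expr κ J n) → Expr κ J n
  | [] => .zero
  | e :: l => .add e (sumE l)

lemma aff_renSF {n : ℕ} (e : Expr κ J n) : ∀ {m : ℕ} (r : Fin n → Fin m) (i : Fin m),
    (e.ren r).aff i = ∑ j, if r j = i then e.aff j else 0 := by
  induction e with
  | var j =>
    intro m r i
    rw [Finset.sum_eq_single j (fun b _ hb => by simp [aff, Ne.symm hb]) (by simp)]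
    by_cases h : r j = i <;> simp [ren, aff, h]
  | zero => intro m r i; simp [ren, aff]
  | add e f he hf =>
    intro m r i
    simp only [ren, aff, he, hf, ← Finset.sum_add_distrib]
    exact Finset.sum_congr rfl fun j _ => by split <;> simp
  | smul t e he =>
    intro m r i
    simp only [ren, aff, he, Finset.mul_sum]
    exact Finset.sum_congr rfl fun j _ => by split <;> simp
  | node k σ e _ => intro m r i; simp [ren, aff]
  | mean C e he =>
    intro m r i
    simp only [ren, aff, he, Fin.sum_univ_succ, Fin.cons_zero, Fin.cons_succ, Function.comp_apply,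
      Fin.succ_inj]
    simp [(Fin.succ_ne_zero i).symm]

/-- A weighted sum of linear coefficients is unchanged by an injective renaming. -/
lemma sum_aff_ren {n m : ℕ} (e : Expr κ J n) (r : Fin n → Fin m) (hr : Function.Injective r)
    (g : Fin m → ℝ) : ∑ i, |(e.ren r).aff i| * g i = ∑ j, |e.aff j| * g (r j) := by
  have h : ∀ i, |(e.ren r).aff i| = ∑ j, if r j = i then |e.aff j| else 0 := fun i => by
    rw [aff_renSF]
    by_cases h : ∃ j, r j = i
    · obtain ⟨j, rfl⟩ := h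
      simp [hr.eq_iff]
    · simp only [not_exists] at h
      simp [h]
  simp only [h, Finset.sum_mul, ite_mul, zero_mul]
  rw [Finset.sum_comm]
  simp

lemma cons_succ_injective {n m : ℕ} {r : Fin n → Fin m} (hr : Function.Injective r) :
    Function.Injective (Fin.cons 0 (Fin.succ ∘ r) : Fin (n + 1) → Fin (m + 1)) := by
  intro a b
  refine a.cases ?_ (fun i => ?_) <;> refine b.cases ?_ (fun j => ?_) <;>
    simp [Fin.succ_ne_zero, (Fin.succ_ne_zero _).symm, hr.eq_iff]

lemma sm_renSF (L : ℝ) (sc : κ → ℝ) {n : ℕ} (e : Expr κ J n) :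
    ∀ {m : ℕ} (r : Fin n → Fin m), (e.ren r).sm L sc = e.sm L sc := by
  induction e with
  | var j => intro m r; rfl
  | zero => intro m r; rfl
  | add e f he hf => intro m r; simp [ren, sm, he, hf]
  | smul t e he => intro m r; simp [ren, sm, he]
  | node k σ e he => intro m r; simp [ren, sm, he]
  | mean C e he =>
    intro m r
    simp only [ren, sm, he, aff_renSF, Fin.sum_univ_succ, Fin.cons_zero, Fin.cons_succ,
      Function.comp_apply]
    simp [Fin.succ_ne_zero]

lemma good_renSF (η L : ℝ) (sc : κ → ℝ) (B R w : ℝ) {n : ℕ} (e : Expr κ J n) :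
    ∀ {m : ℕ} (r : Fin n → Fin m), Function.Injective r → e.Good η L sc B R w →
      (e.ren r).Good η L sc B R w := by
  induction e with
  | var j => intro m r _ h; trivial
  | zero => intro m r _ h; trivial
  | add e f he hf => intro m r hr h; exact ⟨he r hr h.1, hf r hr h.2⟩
  | smul t e he => intro m r hr h; exact he r hr h
  | node k σ e he =>
    intro m r hr h
    obtain ⟨h1, h2, h3, h4, h5, h6, h7⟩ := h
    have hs := sum_aff_ren e r hr fun _ => 1
    simp only [mul_one] at hs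
    exact ⟨h1, h2, h3, hs.trans_le h4, hs.trans_le h5, (sm_renSF L sc e r).trans_le h6, he r hr h7⟩
  | mean C e he => intro m r hr h; exact he _ (cons_succ_injective hr) h

lemma depth_renSF {n : ℕ} (e : Expr κ J n) :
    ∀ {m : ℕ} (r : Fin n → Fin m), (e.ren r).depth = e.depth := by
  induction e with
  | var j => intro m r; rfl
  | zero => intro m r; rfl
  | add e f he hf => intro m r; simp [ren, depth, he, hf]
  | smul t e he => intro m r; simp [ren, depth, he]
  | node k σ e he => intro m r; simp [ren, depth, he]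
  | mean C e he => intro m r; simp [ren, depth, he]

lemma size_renSF {n : ℕ} (e : Expr κ J n) :
    ∀ {m : ℕ} (r : Fin n → Fin m), (e.ren r).size = e.size := by
  induction e with
  | var j => intro m r; rfl
  | zero => intro m r; rfl
  | add e f he hf => intro m r; simp [ren, size, he, hf]
  | smul t e he => intro m r; simp [ren, size, he]
  | node k σ e he => intro m r; simp [ren, size, he]
  | mean C e he => intro m r; simp [ren, size, he]

lemma cen_renSF {d : ℕ} (V : κ → Sp d → Sp d) (c : Fin J → Sp d) {n : ℕ} (e : Expr κ J n) :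
    ∀ {m : ℕ} (r : Fin n → Fin m) (x : Fin m → Sp d),
      (e.ren r).cen V c x = e.cen V c (x ∘ r) := by
  induction e with
  | var j => intro m r x; rfl
  | zero => intro m r x; rfl
  | add e f he hf => intro m r x; simp [ren, cen, he, hf]
  | smul t e he => intro m r x; simp [ren, cen, he]
  | node k σ e he => intro m r x; simp [ren, cen, he, eval_ren]
  | mean C e he =>
    intro m r x
    simp only [ren, cen, he]
    congr 1
    funext i
    refine i.cases ?_ (fun j => ?_) <;> simp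

lemma eval_sumE {d n : ℕ} (V : κ → Sp d → Sp d) (c : Fin J → Sp d) (x : Fin n → Sp d) :
    ∀ l : List (Expr κ J n), (sumE l).eval V c x = (l.map fun e => e.eval V c x).sum
  | [] => rfl
  | e :: l => by simp [sumE, eval, eval_sumE V c x l]

lemma aff_sumE {n : ℕ} (i : Fin n) : ∀ l : List (Expr κ J n), (∀ e ∈ l, e.aff i = 0) →
    (sumE l).aff i = 0
  | [], _ => rfl
  | e :: l, h => by
    simp [sumE, aff, h e (by simp), aff_sumE i l fun f hf => h f (List.mem_cons_of_mem _ hf)]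

lemma sm_sumE (L : ℝ) (sc : κ → ℝ) {n : ℕ} : ∀ l : List (Expr κ J n),
    (sumE l).sm L sc = (l.map fun e => e.sm L sc).sum
  | [] => rfl
  | e :: l => by simp [sumE, sm, sm_sumE L sc l]

lemma good_sumE (η L : ℝ) (sc : κ → ℝ) (B R w : ℝ) {n : ℕ} : ∀ l : List (Expr κ J n),
    (∀ e ∈ l, e.Good η L sc B R w) → (sumE l).Good η L sc B R w
  | [], _ => trivial
  | e :: l, h => ⟨h e (by simp), good_sumE η L sc B R w l fun f hf => h f (List.mem_cons_of_mem _ hf)⟩

lemma depth_sumE {n : ℕ} {D : ℕ} : ∀ l : List (Expr κ J n), (∀ e ∈ l, e.depth ≤ D) →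
    (sumE l).depth ≤ D
  | [], _ => Nat.zero_le _
  | e :: l, h => max_le (h e (by simp)) (depth_sumE l fun f hf => h f (List.mem_cons_of_mem _ hf))

lemma size_sumE {n : ℕ} {M : ℕ} : ∀ l : List (Expr κ J n), (∀ e ∈ l, e.size ≤ M) →
    (sumE l).size ≤ l.length * (M + 1) + 1
  | [], _ => by simp [sumE, size]
  | e :: l, h => by
    have h1 := size_sumE l fun f hf => h f (List.mem_cons_of_mem _ hf)
    have h2 := h e (by simp)
    simp only [sumE, size, List.length_cons, add_mul, one_mul]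
    omega

lemma cen_sumE {d : ℕ} (V : κ → Sp d → Sp d) (c : Fin J → Sp d) {n : ℕ} (x : Fin n → Sp d) {M : ℝ}
    (hM : 0 ≤ M) : ∀ l : List (Expr κ J n), (∀ e ∈ l, e.cen V c x ≤ M) → (sumE l).cen V c x ≤ M
  | [], _ => hM
  | e :: l, h => max_le (h e (by simp))
      (cen_sumE V c x hM l fun f hf => h f (List.mem_cons_of_mem _ hf))

end Expr

namespace SF

/-- The finer scale of the tower, relative. -/
noncomputable def rho (q : ℝ) : ℝ := √(q / (1 + q))

/-- The smoothing of the tower, relative. -/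
noncomputable def del (q : ℝ) : ℝ := √(q / 2) / (1 + q)

/-- The factor of the flow in the centre of the tower. -/
noncomputable def gm (q : ℝ) : ℝ := √(1 + q / 2) / (1 + q)

/-- The time at which the flow is stopped. -/
noncomputable def tau (q : ℝ) : ℝ := log (1 + q / 2) / 2

/-- The relative scale of the tilt at a time. -/
noncomputable def bt (t : ℝ) : ℝ := √(1 - exp (-t) ^ 2)

/-- The lower bound of all relative scales. -/
noncomputable def mu (q : ℝ) : ℝ := √q / 2

lemma rho_le {q : ℝ} (hq : 0 ≤ q) : rho q ≤ √q :=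
  sqrt_le_sqrt (div_le_self hq (by linarith))

lemma mu_le_del {q : ℝ} (hq : 0 ≤ q) (hq1 : q ≤ 1 / 4) : mu q ≤ del q := by
  have h2 : √2 ≤ 3 / 2 := (sqrt_le_left (by norm_num)).2 (by norm_num)
  have h3 : √q = √2 * √(q / 2) := by rw [← sqrt_mul (by norm_num)]; ring_nf
  rw [mu, del, le_div_iff₀ (by linarith), h3]
  have h4 : √2 * (1 + q) ≤ 2 := by nlinarith [sqrt_nonneg (2:ℝ)]
  nlinarith [mul_le_mul_of_nonneg_right h4 (sqrt_nonneg (q / 2))]

lemma gm_nonneg {q : ℝ} (hq : 0 ≤ q) : 0 ≤ gm q := div_nonneg (sqrt_nonneg _) (by linarith)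

lemma gm_le {q : ℝ} (hq : 0 ≤ q) : gm q ≤ 1 := by
  rw [gm, div_le_one (by linarith), sqrt_le_left (by linarith)]
  nlinarith

lemma tau_pos {q : ℝ} (hq : 0 < q) : 0 < tau q :=
  div_pos (log_pos (by linarith)) two_pos

lemma bt_le (t : ℝ) : bt t ≤ 1 := sqrt_le_one.2 (by nlinarith [sq_nonneg (exp (-t))])

lemma mu_le_bt {q t : ℝ} (hq : 0 ≤ q) (hq1 : q ≤ 1 / 4) (ht : tau q ≤ t) : mu q ≤ bt t := by
  have h1 : exp (-t) ^ 2 ≤ 1 / (1 + q / 2) := by
    rw [← exp_nat_mul, Nat.cast_ofNat, one_div, ← exp_log (show (0:ℝ) < 1 + q / 2 by linarith),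
      ← exp_neg]
    exact exp_le_exp.2 (by unfold tau at ht; linarith)
  have h2 : mu q ^ 2 ≤ 1 - 1 / (1 + q / 2) := by
    rw [mu, div_pow, sq_sqrt hq, le_sub_iff_add_le, div_add_div _ _ (by norm_num) (by linarith),
      div_le_one (by nlinarith)]
    nlinarith
  rw [bt, ← sqrt_sq (show 0 ≤ mu q by unfold mu; positivity)]
  exact sqrt_le_sqrt (by linarith)

variable (q : ℝ) (grid : ℝ → List (ℝ × ℝ))

mutual

/-- The velocity at scale `s` and centre `c`, to order `i`. -/
noncomputable def sf : ℕ → ℝ → {n : ℕ} → Expr (Option ℝ) 0 n → Expr (Option ℝ) 0 n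
  | 0, s, _, c => .node none s c
  | i + 1, s, _, c => .mean Fin.elim0 (.node (some (rho q * s)) (del q * s)
      (.add (c.ren Fin.succ) (.smul (gm q * s) (ph i s (tau q) (c.ren Fin.succ) 0))))

/-- The flow of the tilt at time `t` from the variable `j`, `i` rounds. -/
noncomputable def ph : ℕ → ℝ → ℝ → {n : ℕ} → Expr (Option ℝ) 0 n → Fin n → Expr (Option ℝ) 0 n
  | 0, _, _, _, _, j => .var j
  | i + 1, s, t, _, c, j => .add (.var j) (Expr.sumE ((grid t).map fun p =>
      .smul (-(p.1 * exp (-p.2) * s)) (sf i (s * bt p.2)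
        (.add c (.smul (s * exp (-p.2)) (ph i s p.2 c j))))))

end

variable {q grid}

/-- What is asked of the grids: times after `tau`, weights at most `W`, at most `N` nodes. -/
def GridOK (q : ℝ) (grid : ℝ → List (ℝ × ℝ)) (W : ℝ) (N : ℕ) : Prop :=
  ∀ t, tau q ≤ t → (∀ p ∈ grid t, tau q ≤ p.2) ∧
    ((grid t).map fun p => |p.1|).sum ≤ W ∧ (grid t).length ≤ N

/-- The hypotheses on a centre at depth `m`. -/
def Fits (η L b B R w W q : ℝ) (m : ℕ) (s : ℝ) {n : ℕ} (c : Expr (Option ℝ) 0 n) : Prop :=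
  c.Good η L (fun _ => b) B R w ∧ 0 < s ∧ s ≤ b ∧
    ∑ i, |c.aff i| + m * b ≤ B * b ∧ ∑ i, |c.aff i| + m * b ≤ R * (s * mu q ^ m) ∧
    c.sm L (fun _ => b) + m * (2 * L * W * b) ≤ B * (s * mu q ^ m) * η ^ w ∧
    c.sm L (fun _ => b) + m * (2 * L * W * b) ≤ b

/-- The bound on sizes, depths and growth. -/
def dep (i : ℕ) : ℕ := 3 ^ (i + 1)

/-- What is shown about the velocity. -/
def SfGood (η L b B R w : ℝ) (N i : ℕ) {n : ℕ} (c e : Expr (Option ℝ) 0 n) : Prop :=
  (e.Good η L (fun _ => b) B R w ∧ e.sm L (fun _ => b) ≤ 2 * L * b ∧ ∀ j, e.aff j = 0) ∧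
    e.depth ≤ c.depth + dep i ∧ e.size + 1 ≤ (c.size + 1) * (N + 6) ^ dep i

/-- What is shown about the flow. -/
def PhGood (η L b B R w W : ℝ) (N i : ℕ) {n : ℕ} (c : Expr (Option ℝ) 0 n) (j : Fin n)
    (e : Expr (Option ℝ) 0 n) : Prop :=
  (e.Good η L (fun _ => b) B R w ∧ e.sm L (fun _ => b) ≤ 2 * L * W * b ∧
      ∀ k, e.aff k = if j = k then 1 else 0) ∧
    e.depth ≤ c.depth + dep i ∧ e.size + 1 ≤ (c.size + 1) * (N + 6) ^ dep i

lemma dep_succ (i : ℕ) : dep (i + 1) = 3 * dep i := by simp [dep, pow_succ, mul_comm]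

lemma one_le_dep (i : ℕ) : 1 ≤ dep i := Nat.one_le_pow _ _ (by norm_num)

lemma sm_nonneg {κ : Type} {L : ℝ} {sc : κ → ℝ} (hL : 0 ≤ L) (hs : ∀ k, 0 ≤ sc k) {n : ℕ}
    (e : Expr κ 0 n) : 0 ≤ e.sm L sc := by
  induction e with
  | var j => exact le_rfl
  | zero => exact le_rfl
  | add e f he hf => exact add_nonneg he hf
  | smul t e he => exact mul_nonneg (abs_nonneg t) he
  | node k σ e he => exact mul_nonneg hL (add_nonneg (hs k) he)
  | mean C e he => exact add_nonneg he (abs_nonneg _)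

variable {η L b B R w W : ℝ} {N : ℕ}

/-- A node whose centre has the bounds of a fit. -/
lemma node_good (hL : 0 ≤ L) (hb : 0 < b) (hb1 : b ≤ 1) (hB : 1 ≤ B) {n : ℕ} (k : Option ℝ)
    {σ A S : ℝ} {e : Expr (Option ℝ) 0 n} (h1 : 0 < σ) (h2 : σ ≤ b) (h3 : ∑ i, |e.aff i| ≤ A)
    (h4 : e.sm L (fun _ => b) ≤ S) (h5 : A ≤ B * b) (h6 : A ≤ R * σ) (h7 : S ≤ B * σ * η ^ w)
    (h8 : S ≤ b) (h9 : e.Good η L (fun _ => b) B R w) :
    (Expr.node k σ e).Good η L (fun _ => b) B R w ∧
      (Expr.node k σ e).sm L (fun _ => b) ≤ 2 * L * b ∧ ∀ j, (Expr.node k σ e).aff j = 0 :=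
  ⟨⟨h1, h2.trans (le_mul_of_one_le_left hb.le hB), hb1.trans hB, h3.trans h6, h3.trans h5,
    h4.trans h7, h9⟩, (mul_le_mul_of_nonneg_left (show b + e.sm L (fun _ => b) ≤ 2 * b by linarith)
      hL).trans_eq (by ring), fun j => rfl⟩

/-- A fit one deeper gives a fit here. -/
lemma Fits.down (hη : 0 < η) (hL : 0 ≤ L) (hb : 0 < b) (hB : 1 ≤ B) (hR : 0 ≤ R) (hq : 0 < q)
    (hq1 : q ≤ 1 / 4) (hW : 0 ≤ W) {i n : ℕ} {c : Expr (Option ℝ) 0 n} {s : ℝ}
    (h : Fits η L b B R w W q (i + 1 + 1) s c) : Fits η L b B R w W q (i + 1) s c := by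
  have hμ0 : 0 < mu q := by unfold mu; positivity
  have hμ1 : mu q ≤ 1 := (mu_le_bt hq.le hq1 le_rfl).trans (bt_le _)
  have hU : 0 ≤ 2 * L * W * b := by positivity
  have hηw : 0 ≤ η ^ w := (rpow_pos_of_pos hη w).le
  obtain ⟨hg, hs, hsb, hA, hAR, hS, hSb⟩ := h
  push_cast at hA hAR hS hSb
  have hp : s * mu q ^ (i + 1 + 1) ≤ s * mu q ^ (i + 1) := mul_le_mul_of_nonneg_left
    (pow_le_pow_of_le_one hμ0.le hμ1 (Nat.le_succ _)) hs.le
  refine ⟨hg, hs, hsb, by push_cast; linarith, ?_, ?_, by push_cast; linarith⟩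
  · push_cast
    linarith [mul_le_mul_of_nonneg_left hp hR]
  · push_cast
    linarith [mul_le_mul_of_nonneg_right
      (mul_le_mul_of_nonneg_left hp (show (0:ℝ) ≤ B by linarith)) hηw]

/-- What is shown about one term of a round. -/
def TermGood (η L b B R w : ℝ) (N i : ℕ) {n : ℕ} (c : Expr (Option ℝ) 0 n) (ω : ℝ)
    (e : Expr (Option ℝ) 0 n) : Prop :=
  (e.Good η L (fun _ => b) B R w ∧ e.sm L (fun _ => b) ≤ |ω| * (2 * L * b) ∧ ∀ k, e.aff k = 0) ∧
    e.depth ≤ c.depth + dep (i + 1) ∧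
    e.size + 1 ≤ (c.size + 1) * (4 * ((N + 6) ^ dep i) ^ 2)

/-- The velocity, one order up. -/
lemma sf_succ (hη : 0 < η) (hL : 0 ≤ L) (hb : 0 < b) (hb1 : b ≤ 1) (hB : 1 ≤ B) (hR : 0 ≤ R)
    (hq : 0 < q) (hq1 : q ≤ 1 / 4) (hW : 0 ≤ W) {i : ℕ}
    (ihP : ∀ {n : ℕ} (c : Expr (Option ℝ) 0 n) (s t : ℝ) (j : Fin n),
      Fits η L b B R w W q (i + 1) s c → tau q ≤ t →
        PhGood η L b B R w W N i c j (ph q grid i s t c j))
    {n : ℕ} (c : Expr (Option ℝ) 0 n) (s : ℝ) (hc : Fits η L b B R w W q (i + 1 + 1) s c) :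
    SfGood η L b B R w N (i + 1) c (sf q grid (i + 1) s c) := by
  set sc : Option ℝ → ℝ := fun _ => b
  have hμ1 : mu q ≤ 1 := (mu_le_bt hq.le hq1 le_rfl).trans (bt_le _)
  have hμ0 : 0 < mu q := by unfold mu; positivity
  have hU : 0 ≤ 2 * L * W * b := by positivity
  have hηw : 0 ≤ η ^ w := (rpow_pos_of_pos hη w).le
  have hc' : Fits η L b B R w W q (i + 1) s (c.ren Fin.succ) := by
    obtain ⟨hg, hs, hsb, hA, hAR, hS, hSb⟩ := Fits.down hη hL hb hB hR hq hq1 hW hc
    have hs' := Expr.sum_aff_ren c Fin.succ (Fin.succ_injective _) fun _ => 1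
    simp only [mul_one] at hs'
    exact ⟨Expr.good_renSF η L _ B R w c _ (Fin.succ_injective _) hg, hs, hsb,
      hs' ▸ hA, hs' ▸ hAR, by rwa [Expr.sm_renSF], by rwa [Expr.sm_renSF]⟩
  obtain ⟨⟨hpg, hps, hpa⟩, hpd, hpz⟩ := ihP (c.ren Fin.succ) s (tau q) 0 hc' le_rfl
  set P := ph q grid i s (tau q) (c.ren Fin.succ) 0
  set e := Expr.add (c.ren Fin.succ) (Expr.smul (gm q * s) P)
  obtain ⟨hg, hs, hsb, hA, hAR, hS, hSb⟩ := hc
  push_cast at hA hAR hS hSb
  have hgs : 0 ≤ gm q * s := mul_nonneg (gm_nonneg hq.le) hs.le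
  have hgs1 : gm q * s ≤ s := mul_le_of_le_one_left hs.le (gm_le hq.le)
  have hσ : mu q * s ≤ del q * s := mul_le_mul_of_nonneg_right (mu_le_del hq.le hq1) hs.le
  have hσ0 : 0 < del q * s := (mul_pos hμ0 hs).trans_le hσ
  have hσ1 : del q * s ≤ b := by
    refine (mul_le_of_le_one_left hs.le ?_).trans hsb
    rw [del, div_le_one (by linarith), sqrt_le_left (by linarith)]
    nlinarith
  have hpm : s * mu q ^ (i + 1 + 1) ≤ del q * s := by
    refine (mul_le_mul_of_nonneg_left ((pow_le_pow_of_le_one hμ0.le hμ1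
      (show 1 ≤ i + 1 + 1 by omega)).trans_eq (pow_one _)) hs.le).trans ?_
    linarith
  have haff : ∑ k, |e.aff k| ≤ ∑ k, |c.aff k| + b := by
    have h := Expr.sum_aff_ren c Fin.succ (Fin.succ_injective _) fun _ => 1
    simp only [mul_one] at h
    refine (sum_le_sum fun k _ => abs_add_le _ _).trans ?_
    rw [sum_add_distrib, h]
    refine add_le_add le_rfl ?_
    simp only [Expr.aff, hpa, mul_ite, mul_one, mul_zero, apply_ite abs, abs_zero, sum_ite_eq,
      Finset.mem_univ, if_true, abs_of_nonneg hgs]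
    linarith
  have hsm : e.sm L sc ≤ c.sm L sc + 2 * L * W * b := by
    simp only [e, Expr.sm, Expr.sm_renSF, abs_of_nonneg hgs]
    have := mul_le_mul (hgs1.trans (hsb.trans hb1)) hps
      (show 0 ≤ P.sm L sc from ?_) zero_le_one
    · linarith
    · exact sm_nonneg hL (fun _ => hb.le) P
  have hi0 : (0:ℝ) ≤ i := Nat.cast_nonneg i
  have hib : 0 ≤ (i:ℝ) * b := by positivity
  have hiU : 0 ≤ (i:ℝ) * (2 * L * W * b) := by positivity
  obtain ⟨hnG, hnS, hnA⟩ := node_good hL hb hb1 hB (some (rho q * s)) hσ0 hσ1 haff hsm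
    (by linarith) (by linarith [mul_le_mul_of_nonneg_left hpm hR])
    (by linarith [mul_le_mul_of_nonneg_right
          (mul_le_mul_of_nonneg_left hpm (show (0:ℝ) ≤ B by linarith)) hηw])
    (by linarith) ⟨Expr.good_renSF η L _ B R w c _ (Fin.succ_injective _) hg, hpg⟩
  rw [sf]
  refine ⟨⟨hnG, by simpa only [e, P, Expr.sm, Expr.aff, abs_zero, add_zero] using hnS, fun j => rfl⟩, ?_, ?_⟩
  · simp only [Expr.depth, Expr.depth_renSF, P] at hpd ⊢
    rw [dep_succ]
    have := one_le_dep i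
    omega
  · simp only [Expr.size, Expr.size_renSF, P] at hpz ⊢
    rw [dep_succ]
    refine le_trans ?_ (Nat.mul_le_mul_left (c.size + 1)
      (Nat.pow_le_pow_right (show 0 < N + 6 by omega) (show dep i + 1 ≤ 3 * dep i by
        have := one_le_dep i; omega)))
    rw [pow_succ, ← mul_assoc]
    have h1 : c.size + 1 ≤ (c.size + 1) * (N + 6) ^ dep i :=
      Nat.le_mul_of_pos_right _ (pow_pos (by omega) _)
    nlinarith

/-- One term of a round. -/
lemma ph_term (hη : 0 < η) (hL : 0 ≤ L) (hb : 0 < b) (hb1 : b ≤ 1) (hB : 1 ≤ B) (hR : 0 ≤ R)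
    (hq : 0 < q) (hq1 : q ≤ 1 / 4) (hW : 0 ≤ W) {i : ℕ}
    (ihS : ∀ {n : ℕ} (c : Expr (Option ℝ) 0 n) (s : ℝ), Fits η L b B R w W q (i + 1) s c →
      SfGood η L b B R w N i c (sf q grid i s c))
    (ihP : ∀ {n : ℕ} (c : Expr (Option ℝ) 0 n) (s t : ℝ) (j : Fin n),
      Fits η L b B R w W q (i + 1) s c → tau q ≤ t →
        PhGood η L b B R w W N i c j (ph q grid i s t c j))
    {n : ℕ} (c : Expr (Option ℝ) 0 n) (s : ℝ) (j : Fin n)
    (hc : Fits η L b B R w W q (i + 1 + 1) s c) (p : ℝ × ℝ) (htp : tau q ≤ p.2) :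
    TermGood η L b B R w N i c p.1 (.smul (-(p.1 * exp (-p.2) * s))
      (sf q grid i (s * bt p.2) (.add c (.smul (s * exp (-p.2)) (ph q grid i s p.2 c j))))) := by
  set sc : Option ℝ → ℝ := fun _ => b
  have hμ0 : 0 < mu q := by unfold mu; positivity
  have hU : 0 ≤ 2 * L * W * b := by positivity
  have hηw : 0 ≤ η ^ w := (rpow_pos_of_pos hη w).le
  obtain ⟨⟨hpg, hps, hpa⟩, hpd, hpz⟩ := ihP c s p.2 j (Fits.down hη hL hb hB hR hq hq1 hW hc) htp
  set P := ph q grid i s p.2 c j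
  obtain ⟨hg, hs, hsb, hA, hAR, hS, hSb⟩ := hc
  push_cast at hA hAR hS hSb
  have hv1 : exp (-p.2) ≤ 1 :=
    exp_le_one_iff.2 (by linarith [tau_pos hq, htp])
  have hsv : 0 ≤ s * exp (-p.2) := mul_nonneg hs.le (exp_pos _).le
  have hsv1 : s * exp (-p.2) ≤ s := mul_le_of_le_one_right hs.le hv1
  have hbt := mu_le_bt hq.le hq1 htp
  set e := Expr.add c (Expr.smul (s * exp (-p.2)) P)
  have haff : ∀ g : Fin n → ℝ, (∀ k, 0 ≤ g k) →
      ∑ k, |e.aff k| * g k ≤ ∑ k, |c.aff k| * g k + s * exp (-p.2) * g j := fun g hg' => by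
    refine (sum_le_sum fun k _ => mul_le_mul_of_nonneg_right
      ((abs_add_le _ _).trans_eq rfl) (hg' k)).trans ?_
    simp only [add_mul, sum_add_distrib]
    refine add_le_add le_rfl (le_of_eq ?_)
    simp [Expr.aff, hpa, apply_ite abs, abs_of_nonneg hsv, ite_mul, mul_ite]
  have haff1 : ∑ k, |e.aff k| ≤ ∑ k, |c.aff k| + b := by
    have := haff (fun _ => 1) fun _ => zero_le_one
    simp only [mul_one] at this
    linarith
  have hesm : e.sm L sc ≤ c.sm L sc + 2 * L * W * b := by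
    simp only [e, Expr.sm, abs_of_nonneg hsv]
    have := mul_le_mul (hsv1.trans (hsb.trans hb1)) hps
      (sm_nonneg hL (fun _ => hb.le) P) zero_le_one
    linarith
  have hlow : s * mu q ^ (i + 1 + 1) ≤ s * bt p.2 * mu q ^ (i + 1) := by
    rw [pow_succ _ (i + 1), mul_assoc s, mul_comm (mu q ^ (i + 1))]
    exact mul_le_mul_of_nonneg_left
      (mul_le_mul_of_nonneg_right hbt (pow_nonneg hμ0.le _)) hs.le
  have hfit : Fits η L b B R w W q (i + 1) (s * bt p.2) e := by
    refine ⟨⟨hg, hpg⟩, mul_pos hs (hμ0.trans_le hbt),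
      (mul_le_of_le_one_right hs.le (bt_le _)).trans hsb, ?_, ?_, ?_, ?_⟩ <;> push_cast
    · linarith
    · linarith [mul_le_mul_of_nonneg_left hlow hR]
    · linarith [mul_le_mul_of_nonneg_right
        (mul_le_mul_of_nonneg_left hlow (show (0:ℝ) ≤ B by linarith)) hηw]
    · linarith
  obtain ⟨⟨hsg, hss, hsa⟩, hsd, hsz⟩ := ihS e (s * bt p.2) hfit
  refine ⟨⟨hsg, ?_, fun k => ?_⟩, ?_, ?_⟩
  · simp only [Expr.sm, abs_neg, abs_mul, abs_of_pos (exp_pos _), abs_of_pos hs]
    refine mul_le_mul ?_ hss (sm_nonneg hL (fun _ => hb.le) _) (abs_nonneg _)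
    rw [mul_assoc]
    exact mul_le_of_le_one_right (abs_nonneg _)
      (mul_le_one₀ hv1 hs.le (hsb.trans hb1))
  · simp [Expr.aff, e, P, hsa k]
  · simp only [e, Expr.depth] at hsd ⊢
    rw [dep_succ]
    omega
  · simp only [e, Expr.size] at hsz ⊢
    set M := (N + 6) ^ dep i
    have hM : 6 ≤ M := le_trans (by omega) (Nat.le_self_pow
      (Nat.pos_iff_ne_zero.1 (one_le_dep i)) _)
    have h1 : c.size + (P.size + 1) + 1 + 1 ≤ (c.size + 1) * (2 * M) := by nlinarith
    have h2 := Nat.mul_le_mul_right M h1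
    have h3 : (c.size + 1) * (2 * M) * M + 1 ≤ (c.size + 1) * (4 * M ^ 2) := by nlinarith
    linarith

/-- One round. -/
lemma ph_succ (hη : 0 < η) (hL : 0 ≤ L) (hb : 0 < b) (hb1 : b ≤ 1) (hB : 1 ≤ B) (hR : 0 ≤ R)
    (hq : 0 < q) (hq1 : q ≤ 1 / 4) (hW : 0 ≤ W) (hgrid : GridOK q grid W N) {i : ℕ}
    (ihS : ∀ {n : ℕ} (c : Expr (Option ℝ) 0 n) (s : ℝ), Fits η L b B R w W q (i + 1) s c →
      SfGood η L b B R w N i c (sf q grid i s c))
    (ihP : ∀ {n : ℕ} (c : Expr (Option ℝ) 0 n) (s t : ℝ) (j : Fin n),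
      Fits η L b B R w W q (i + 1) s c → tau q ≤ t →
        PhGood η L b B R w W N i c j (ph q grid i s t c j))
    {n : ℕ} (c : Expr (Option ℝ) 0 n) (s t : ℝ) (j : Fin n)
    (hc : Fits η L b B R w W q (i + 1 + 1) s c) (ht : tau q ≤ t) :
    PhGood η L b B R w W N (i + 1) c j (ph q grid (i + 1) s t c j) := by
  obtain ⟨hgp, hwp, hlen⟩ := hgrid t ht
  set f : ℝ × ℝ → Expr (Option ℝ) 0 n := fun p => .smul (-(p.1 * exp (-p.2) * s))
      (sf q grid i (s * bt p.2) (.add c (.smul (s * exp (-p.2)) (ph q grid i s p.2 c j))))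
  have hterm : ∀ p ∈ grid t, TermGood η L b B R w N i c p.1 (f p) := fun p hp =>
    ph_term hη hL hb hb1 hB hR hq hq1 hW ihS ihP c s j hc p (hgp p hp)
  rw [ph]
  refine ⟨⟨⟨trivial, Expr.good_sumE η L _ B R w _ ?_⟩, ?_, fun k => ?_⟩, ?_, ?_⟩
  · simp only [List.mem_map, forall_exists_index, and_imp, forall_apply_eq_imp_iff₂]
    exact fun p hp => (hterm p hp).1.1
  · simp only [Expr.sm, zero_add, Expr.sm_sumE, List.map_map]
    refine (List.sum_le_sum fun p hp => (hterm p hp).1.2.1).trans ?_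
    rw [List.sum_map_mul_right]
    exact (mul_le_mul_of_nonneg_right hwp (by positivity)).trans_eq (by ring)
  · simp only [Expr.aff]
    rw [Expr.aff_sumE k _ ?_, add_zero]
    simp only [List.mem_map, forall_exists_index, and_imp, forall_apply_eq_imp_iff₂]
    exact fun p hp => (hterm p hp).1.2.2 k
  · refine max_le (Nat.zero_le _) (Expr.depth_sumE _ ?_)
    simp only [List.mem_map, forall_exists_index, and_imp, forall_apply_eq_imp_iff₂]
    exact fun p hp => (hterm p hp).2.1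
  · set M := (c.size + 1) * (4 * ((N + 6) ^ dep i) ^ 2) with hM
    have hs1 := Expr.size_sumE (M := M - 1) ((grid t).map f) (by
      simp only [List.mem_map, forall_exists_index, and_imp, forall_apply_eq_imp_iff₂]
      intro p hp
      have := (hterm p hp).2.2
      omega)
    rw [List.length_map] at hs1
    have hM0 : 1 ≤ M := by
      have : 1 ≤ 4 * ((N + 6) ^ dep i) ^ 2 := by
        have := pow_pos (show 0 < (N + 6) ^ dep i from pow_pos (by omega) _) 2
        omega
      exact Nat.one_le_iff_ne_zero.2 (Nat.mul_ne_zero (by omega) (by omega))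
    rw [Nat.sub_add_cancel hM0] at hs1
    simp only [Expr.size]
    have h2 : (grid t).length * M ≤ N * M := Nat.mul_le_mul_right _ hlen
    rw [dep_succ, show 3 * dep i = dep i * 2 + dep i by omega, pow_add, pow_mul]
    set X := ((N + 6) ^ dep i) ^ 2
    have hX : 1 ≤ X := Nat.one_le_pow _ _ (pow_pos (by omega) _)
    have h4 : 6 * (N + 1) ≤ (N + 6) ^ dep i := by
      refine le_trans ?_ (Nat.pow_le_pow_right (by omega) (show 2 ≤ dep i from ?_))
      · nlinarith
      · exact le_trans (by norm_num : 2 ≤ 3 ^ 1) (Nat.pow_le_pow_right (by norm_num) (by omega))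
    have h5 := Nat.mul_le_mul_left ((c.size + 1) * X) h4
    change 1 + (Expr.sumE ((grid t).map f)).size + 1 + 1 ≤ _
    nlinarith

/-- **The bounds.** -/
theorem spec (hη : 0 < η) (hL : 0 ≤ L) (hb : 0 < b) (hb1 : b ≤ 1) (hB : 1 ≤ B) (hR : 0 ≤ R)
    (hq : 0 < q) (hq1 : q ≤ 1 / 4) (hW : 0 ≤ W) (hgrid : GridOK q grid W N) :
    ∀ i, (∀ {n : ℕ} (c : Expr (Option ℝ) 0 n) (s : ℝ), Fits η L b B R w W q (i + 1) s c →
        SfGood η L b B R w N i c (sf q grid i s c)) ∧
      ∀ {n : ℕ} (c : Expr (Option ℝ) 0 n) (s t : ℝ) (j : Fin n),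
        Fits η L b B R w W q (i + 1) s c → tau q ≤ t →
        PhGood η L b B R w W N i c j (ph q grid i s t c j) := by
  have hμ1 : mu q ≤ 1 := (mu_le_bt hq.le hq1 le_rfl).trans (bt_le _)
  have hμ0 : 0 < mu q := by unfold mu; positivity
  have hU : 0 ≤ 2 * L * W * b := by positivity
  have hηw : 0 ≤ η ^ w := (rpow_pos_of_pos hη w).le
  intro i
  induction i with
  | zero =>
    constructor
    · intro n c s hc
      obtain ⟨hg, hs, hsb, hA, hAR, hS, hSb⟩ := hc
      simp only [zero_add, Nat.cast_one, one_mul, pow_one] at hA hAR hS hSb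
      have hsm : s * mu q ≤ s := mul_le_of_le_one_right hs.le hμ1
      rw [sf]
      refine ⟨node_good hL hb hb1 hB none hs hsb le_rfl le_rfl (by linarith) ?_ ?_ (by linarith) hg, ?_, ?_⟩
      · exact (le_add_of_nonneg_right hb.le).trans (hAR.trans (mul_le_mul_of_nonneg_left hsm hR))
      · exact (le_add_of_nonneg_right hU).trans (hS.trans (mul_le_mul_of_nonneg_right
          (mul_le_mul_of_nonneg_left hsm (by linarith)) hηw))
      · simp [Expr.depth, dep]
      · simp only [Expr.size, dep, zero_add, pow_one]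
        have h6 : 6 ≤ (N + 6) ^ 3 := le_trans (by omega) (Nat.le_self_pow (by norm_num) _)
        nlinarith
    · intro n c s t j _ _
      rw [ph]
      refine ⟨⟨trivial, by simpa [Expr.sm] using hU, fun k => rfl⟩, Nat.zero_le _, ?_⟩
      · simp only [Expr.size, dep, zero_add, pow_one]
        have h6 : 6 ≤ (N + 6) ^ 3 := le_trans (by omega) (Nat.le_self_pow (by norm_num) _)
        nlinarith
  | succ i ih =>
    exact ⟨fun c s hc => sf_succ hη hL hb hb1 hB hR hq hq1 hW ih.2 c s hc,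
      fun c s t j hc ht => ph_succ hη hL hb hb1 hB hR hq hq1 hW hgrid ih.1 ih.2 c s t j hc ht⟩

/-! ### The values -/

mutual

/-- The value of `sf`. -/
noncomputable def sfv (q : ℝ) (grid : ℝ → List (ℝ × ℝ)) {d : ℕ}
    (V : Option ℝ → Sp d → Sp d) : ℕ → ℝ → Sp d → Sp d
  | 0, s, u => smth 1 s (V none) u
  | i + 1, s, u => ∫ z, smth 1 (del q * s) (V (some (rho q * s)))
      (u + (gm q * s) • phv q grid V i s (tau q) u z) ∂gd d

/-- The value of `ph`. -/
noncomputable def phv (q : ℝ) (grid : ℝ → List (ℝ × ℝ)) {d : ℕ}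
    (V : Option ℝ → Sp d → Sp d) : ℕ → ℝ → ℝ → Sp d → Sp d → Sp d
  | 0, _, _, _, z => z
  | i + 1, s, t, u, z => z + ((grid t).map fun p => (-(p.1 * exp (-p.2) * s)) •
      sfv q grid V i (s * bt p.2) (u + (s * exp (-p.2)) • phv q grid V i s p.2 u z)).sum

end

/-- The expressions have these values. -/
theorem eval_eq {d : ℕ} (V : Option ℝ → Sp d → Sp d) :
    ∀ i, (∀ {n : ℕ} (c : Expr (Option ℝ) 0 n) (s : ℝ) (x : Fin n → Sp d),
        (sf q grid i s c).eval V Fin.elim0 x = sfv q grid V i s (c.eval V Fin.elim0 x)) ∧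
      ∀ {n : ℕ} (c : Expr (Option ℝ) 0 n) (s t : ℝ) (j : Fin n) (x : Fin n → Sp d),
        (ph q grid i s t c j).eval V Fin.elim0 x =
          phv q grid V i s t (c.eval V Fin.elim0 x) (x j) := by
  intro i
  induction i with
  | zero =>
    refine ⟨fun c s x => ?_, fun c s t j x => ?_⟩
    · rw [sf, sfv]; rfl
    · rw [ph, phv]; rfl
  | succ i ih =>
    obtain ⟨ihS, ihP⟩ := ih
    constructor
    · intro n c s x
      rw [sf, sfv]
      simp only [Expr.eval, Finset.univ_eq_empty, Finset.sum_empty, add_zero, Expr.eval_ren, ihP]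
      congr 1
    · intro n c s t j x
      rw [ph, phv]
      simp only [Expr.eval, Expr.eval_sumE, List.map_map, Function.comp_def, ihS, ihP]

/-- The bound on the values of `phv` from that of `sfv`. -/
lemma phv_succ_le {d : ℕ} {V : Option ℝ → Sp d → Sp d} {L : ℝ} (hL : 0 ≤ L) (hq : 0 < q) {W : ℝ}
    {N : ℕ} (hgrid : GridOK q grid W N) (hWL : 10 * L * W ≤ 1) {i : ℕ}
    (hS : ∀ s, 0 ≤ s → s ≤ 1 → ∀ u, ‖sfv q grid V i s u‖ ≤ 5 * L * (√d + ‖u‖))
    (hP : ∀ s t, 0 ≤ s → s ≤ 1 → tau q ≤ t → ∀ u z,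
      ‖phv q grid V i s t u z‖ ≤ 2 * ‖z‖ + (√d + ‖u‖))
    {s t : ℝ} (hs : 0 ≤ s) (hs1 : s ≤ 1) (ht : tau q ≤ t) (u z : Sp d) :
    ‖phv q grid V (i + 1) s t u z‖ ≤ 2 * ‖z‖ + (√d + ‖u‖) := by
  obtain ⟨hgp, hwp, -⟩ := hgrid t ht
  set X := 2 * ‖z‖ + 2 * (√d + ‖u‖)
  have hX : 0 ≤ X := by positivity
  rw [phv]
  refine (norm_add_le _ _).trans ?_
  have h : ‖((grid t).map fun p => (-(p.1 * exp (-p.2) * s)) •
      sfv q grid V i (s * bt p.2) (u + (s * exp (-p.2)) • phv q grid V i s p.2 u z)).sum‖ ≤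
      W * (5 * L * X) := by
    refine (List.le_sum_of_subadditive _ norm_zero.le norm_add_le _).trans ?_
    rw [List.map_map]
    refine (List.sum_le_sum (g := fun p => |p.1| * (5 * L * X)) fun p hp => ?_).trans ?_
    · have htp := hgp p hp
      have hv1 : exp (-p.2) ≤ 1 := exp_le_one_iff.2 (by linarith [tau_pos hq, htp])
      have hsv : 0 ≤ s * exp (-p.2) := mul_nonneg hs (exp_pos _).le
      have hsv1 : s * exp (-p.2) ≤ 1 := mul_le_one₀ hs1 (exp_pos _).le hv1
      simp only [Function.comp_apply, norm_smul, norm_eq_abs, abs_neg, abs_mul,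
        abs_of_pos (exp_pos _), abs_of_nonneg hs]
      refine mul_le_mul ?_ ((hS _ (mul_nonneg hs (sqrt_nonneg _))
        (mul_le_one₀ hs1 (sqrt_nonneg _) (bt_le _)) _).trans ?_) (norm_nonneg _) (abs_nonneg _)
      · rw [mul_assoc]
        exact mul_le_of_le_one_right (abs_nonneg _) (mul_le_one₀ hv1 hs hs1)
      · refine mul_le_mul_of_nonneg_left ?_ (by linarith)
        have h1 := norm_add_le u ((s * exp (-p.2)) • phv q grid V i s p.2 u z)
        rw [norm_smul, norm_eq_abs, abs_of_nonneg hsv] at h1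
        have h2 := (mul_le_of_le_one_left (norm_nonneg _) hsv1).trans (hP s p.2 hs hs1 htp u z)
        linarith
    · rw [List.sum_map_mul_right]
      exact mul_le_mul_of_nonneg_right hwp (by positivity)
  have h3 : W * (5 * L * X) ≤ ‖z‖ + (√d + ‖u‖) := by
    have := mul_le_mul_of_nonneg_right hWL hX
    linarith
  linarith

/-- The values are bounded by those of the boxes. -/
theorem norm_le {d : ℕ} {V : Option ℝ → Sp d → Sp d} {L : ℝ} (hL : 0 ≤ L)
    (hV : ∀ k y, ‖V k y‖ ≤ L * (√d + ‖y‖)) (hq : 0 < q) (hq1 : q ≤ 1 / 4) {W : ℝ} {N : ℕ}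
    (hgrid : GridOK q grid W N) (hW : 0 ≤ W) (hWL : 10 * L * W ≤ 1) :
    ∀ i, (∀ s, 0 ≤ s → s ≤ 1 → ∀ u, ‖sfv q grid V i s u‖ ≤ 5 * L * (√d + ‖u‖)) ∧
      ∀ s t, 0 ≤ s → s ≤ 1 → tau q ≤ t → ∀ u z,
        ‖phv q grid V i s t u z‖ ≤ 2 * ‖z‖ + (√d + ‖u‖) := by
  have hd : ∀ k σ u, 0 ≤ σ → σ ≤ 1 → ‖smth 1 σ (V k) u‖ ≤ L * (2 * √d + ‖u‖) := by
    intro k σ u hσ hσ1
    refine (norm_integral_le_integral_norm _).trans ((integral_mono_of_nonneg
      (ae_of_all _ fun _ => norm_nonneg _) ((integrable_const (L * (√d + ‖u‖))).add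
        (integrable_norm_gd.const_mul L)) (ae_of_all _ fun z => ?_)).trans ?_)
    · refine (hV k _).trans ?_
      have h1 := norm_add_le ((1:ℝ) • u) (σ • z)
      rw [one_smul, norm_smul, norm_eq_abs, abs_of_nonneg hσ] at h1
      simp only [Pi.add_apply, one_smul]
      rw [← mul_add]
      refine mul_le_mul_of_nonneg_left ?_ hL
      linarith [mul_le_of_le_one_left (norm_nonneg z) hσ1]
    · rw [Pi.add_def, integral_add (integrable_const _) (integrable_norm_gd.const_mul L),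
        integral_const, probReal_univ, one_smul, integral_const_mul]
      linarith [mul_le_mul_of_nonneg_left (integral_norm_le (d := d)) hL]
  intro i
  induction i with
  | zero =>
    refine ⟨fun s hs hs1 u => ?_, fun s t _ _ _ u z => ?_⟩
    · rw [sfv]
      refine (hd none s u hs hs1).trans ?_
      nlinarith [norm_nonneg u, sqrt_nonneg (d:ℝ)]
    · rw [phv]
      linarith [norm_nonneg z, norm_nonneg u, sqrt_nonneg (d:ℝ)]
  | succ i ih =>
    obtain ⟨ihS, ihP⟩ := ih
    refine ⟨fun s hs hs1 u => ?_, fun s t hs hs1 ht u z =>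
      phv_succ_le hL hq hgrid hWL ihS ihP hs hs1 ht u z⟩
    rw [sfv]
    have hσ0 : 0 ≤ del q * s := mul_nonneg ((le_of_lt (by unfold mu; positivity)).trans
      (mu_le_del hq.le hq1)) hs
    have hσ1 : del q * s ≤ 1 := mul_le_one₀ (by
      rw [del, div_le_one (by linarith), sqrt_le_left (by linarith)]; nlinarith) hs hs1
    have hg : |gm q * s| ≤ 1 := by
      rw [abs_of_nonneg (mul_nonneg (gm_nonneg hq.le) hs)]
      exact mul_le_one₀ (gm_le hq.le) hs hs1
    refine (norm_integral_le_integral_norm _).trans ((integral_mono_of_nonneg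
      (ae_of_all _ fun _ => norm_nonneg _) ((integrable_const (L * (3 * √d + 2 * ‖u‖))).add
        (integrable_norm_gd.const_mul (2 * L))) (ae_of_all _ fun z => ?_)).trans ?_)
    · refine (hd _ _ _ hσ0 hσ1).trans ?_
      simp only [Pi.add_apply]
      have h1 := norm_add_le u ((gm q * s) • phv q grid V i s (tau q) u z)
      rw [norm_smul, norm_eq_abs] at h1
      have h2 := (mul_le_of_le_one_left (norm_nonneg _) hg).trans
        (ihP s (tau q) hs hs1 le_rfl u z)
      rw [mul_assoc 2 L, ← mul_left_comm L, ← mul_add]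
      refine mul_le_mul_of_nonneg_left ?_ hL
      linarith
    · rw [Pi.add_def, integral_add (integrable_const _) (integrable_norm_gd.const_mul (2 * L)),
        integral_const, probReal_univ, one_smul, integral_const_mul]
      nlinarith [mul_le_mul_of_nonneg_left (integral_norm_le (d := d)) hL, norm_nonneg u,
        sqrt_nonneg (d:ℝ)]

/-- **The node centres.** Bound variables are read at their means. -/
theorem cen_le {d : ℕ} {V : Option ℝ → Sp d → Sp d} {L : ℝ} (hL : 0 ≤ L)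
    (hV : ∀ k y, ‖V k y‖ ≤ L * (√d + ‖y‖)) (hq : 0 < q) (hq1 : q ≤ 1 / 4) {W : ℝ} {N : ℕ}
    (hgrid : GridOK q grid W N) (hW : 0 ≤ W) (hWL : 10 * L * W ≤ 1) :
    ∀ i, (∀ {n : ℕ} (c : Expr (Option ℝ) 0 n) (s : ℝ), 0 ≤ s → s ≤ 1 → ∀ (x : Fin n → Sp d) (M : ℝ),
        0 ≤ M → c.cen V Fin.elim0 x ≤ M + (√d + ‖c.eval V Fin.elim0 x‖) →
        (sf q grid i s c).cen V Fin.elim0 x ≤
          M + dep i * (√d + ‖c.eval V Fin.elim0 x‖)) ∧
      ∀ {n : ℕ} (c : Expr (Option ℝ) 0 n) (s t : ℝ) (j : Fin n), 0 ≤ s → s ≤ 1 → tau q ≤ t →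
        ∀ (x : Fin n → Sp d) (M : ℝ),
        0 ≤ M → c.cen V Fin.elim0 x ≤ M + (√d + ‖c.eval V Fin.elim0 x‖) →
        (ph q grid i s t c j).cen V Fin.elim0 x ≤
          M + dep i * (√d + ‖c.eval V Fin.elim0 x‖ + ‖x j‖) := by
  have hnb := norm_le hL hV hq hq1 hgrid hW hWL
  intro i
  induction i with
  | zero =>
    refine ⟨fun c s _ _ x M hM hc => ?_, fun c s t j _ _ _ x M hM _ => ?_⟩
    · rw [sf, Expr.cen]
      have hd : (1:ℝ) ≤ dep 0 := by exact_mod_cast one_le_dep 0
      have h := le_mul_of_one_le_left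
        (add_nonneg (sqrt_nonneg (d:ℝ)) (norm_nonneg (c.eval V Fin.elim0 x))) hd
      exact max_le (by linarith [sqrt_nonneg (d:ℝ)]) (by linarith)
    · rw [ph, Expr.cen]
      positivity
  | succ i ih =>
    obtain ⟨ihS, ihP⟩ := ih
    have hd : (1:ℝ) ≤ dep i := by exact_mod_cast one_le_dep i
    constructor
    · intro n c s hs hs1 x M hM hc
      set Q := √(d:ℝ) + ‖c.eval V Fin.elim0 x‖ with hQ
      have hQ0 : 0 ≤ Q := by positivity
      rw [sf]
      simp only [Expr.cen, Expr.eval, Finset.univ_eq_empty, Finset.sum_empty, Expr.eval_ren,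
        Expr.cen_renSF]
      set x' : Fin (n + 1) → Sp d := Fin.cons 0 x
      have hx : x' ∘ Fin.succ = x := funext fun k => by simp [x']
      have hP := ihP (c.ren Fin.succ) s (tau q) 0 hs hs1 le_rfl x' M hM
        (by rwa [Expr.cen_renSF, Expr.eval_ren, hx])
      rw [Expr.eval_ren, hx] at hP
      have he : ‖(ph q grid i s (tau q) (c.ren Fin.succ) 0).eval V Fin.elim0 x'‖ ≤ Q := by
        rw [(eval_eq V i).2, Expr.eval_ren, hx]
        refine ((hnb i).2 s (tau q) hs hs1 le_rfl _ _).trans_eq ?_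
        simp [x', hQ]
      have hx0 : ‖x' 0‖ = 0 := by simp [x']
      rw [hx0, add_zero, ← hQ] at hP
      rw [hx]
      have hg : |gm q * s| ≤ 1 := by
        rw [abs_of_nonneg (mul_nonneg (gm_nonneg hq.le) hs)]
        exact mul_le_one₀ (gm_le hq.le) hs hs1
      rw [dep_succ]
      push_cast
      have hdQ := le_mul_of_one_le_left hQ0 hd
      refine max_le ?_ (max_le (hc.trans (by linarith)) (hP.trans (by linarith)))
      refine (norm_add_le _ _).trans ?_
      rw [norm_smul, norm_eq_abs]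
      have h1 := (mul_le_of_le_one_left (norm_nonneg _) hg).trans he
      linarith [sqrt_nonneg (d:ℝ)]
    · intro n c s t j hs hs1 ht x M hM hc
      obtain ⟨hgp, -, -⟩ := hgrid t ht
      set Q := √(d:ℝ) + ‖c.eval V Fin.elim0 x‖ with hQ
      have hQ0 : 0 ≤ Q := by positivity
      rw [ph]
      simp only [Expr.cen]
      refine max_le (by positivity) (Expr.cen_sumE V _ x (by positivity) _ ?_)
      simp only [List.mem_map, forall_exists_index, and_imp, forall_apply_eq_imp_iff₂, Expr.cen]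
      intro p hp
      have htp := hgp p hp
      have hsv : 0 ≤ s * exp (-p.2) := mul_nonneg hs (exp_pos _).le
      have hsv1 : s * exp (-p.2) ≤ 1 := mul_le_one₀ hs1 (exp_pos _).le
        (exp_le_one_iff.2 (by linarith [tau_pos hq, htp]))
      set P := ph q grid i s p.2 c j
      set e := Expr.add c (Expr.smul (s * exp (-p.2)) P)
      have hPn : ‖P.eval V Fin.elim0 x‖ ≤ 2 * ‖x j‖ + Q := by
        simp only [P, (eval_eq V i).2]
        exact (hnb i).2 s p.2 hs hs1 htp _ _
      have hen : √(d:ℝ) + ‖e.eval V Fin.elim0 x‖ ≤ 2 * Q + 2 * ‖x j‖ := by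
        simp only [e, Expr.eval]
        refine (add_le_add le_rfl (norm_add_le _ _)).trans ?_
        rw [norm_smul, norm_eq_abs, abs_of_nonneg hsv]
        have := (mul_le_of_le_one_left (norm_nonneg _) hsv1).trans hPn
        linarith [sqrt_nonneg (d:ℝ)]
      have hPc := ihP c s p.2 j hs hs1 htp x M hM hc
      have hdx := le_mul_of_one_le_left (add_nonneg hQ0 (norm_nonneg (x j))) hd
      have hec : e.cen V Fin.elim0 x ≤
          M + dep i * (Q + ‖x j‖) + (√d + ‖e.eval V Fin.elim0 x‖) := by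
        simp only [e, Expr.cen]
        have h5 : 0 ≤ √(d:ℝ) + ‖(c.add (Expr.smul (s * exp (-p.2)) P)).eval V Fin.elim0 x‖ := by
          positivity
        refine max_le (hc.trans ?_) (hPc.trans (by linarith))
        linarith [norm_nonneg (x j)]
      refine (ihS e (s * bt p.2) (mul_nonneg hs (sqrt_nonneg _))
        (mul_le_one₀ hs1 (sqrt_nonneg _) (bt_le _)) x _ (by positivity) hec).trans ?_
      rw [dep_succ]
      push_cast
      have h6 := mul_le_mul_of_nonneg_left hen (Nat.cast_nonneg (α := ℝ) (dep i))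
      linarith

end SF

end Vale.Agent.P347.Shift
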