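import Vale.Agent.P347.Shift.SFFlow

/-!
# P347: the scale functions of the tilt against the tilted velocity

`SF 0` is the smoothed gradient and `SF (i + 1)` at scale `s` and observation `u` is the mean over a
standard seed of the tilted velocity at the finer scale `s ρ`, smoothed, at `u + s γ Φ_i`, where
`Φ_i` are `i` Picard rounds of the probability flow whose velocity is read from `SF (< i)`. Then
`SF i` is within `η rel (i - 1) s (‖G u‖ + η √d)` of the tilted velocity, with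
`rel i = 14 (√q) ^ i + 2 P`, `q = 6 R W η` and `P` the tail of the flow plus the quadrature error,
with no dependence on the dimension.
-/

open MeasureTheory ProbabilityTheory Real Finset Filter Topology
open scoped ENNReal NNReal RealInnerProductSpace

namespace Vale.Agent.P347.Shift.SFErr

open Quarter Fields TiltFlow

variable {d : ℕ} {W : Sp d → ℝ} {G : Sp d → Sp d} {H : Sp d → Sp d →L[ℝ] Sp d} {η : ℝ}

/-- The size of the score at an observation. -/
noncomputable def size (G : Sp d → Sp d) (η : ℝ) (u : Sp d) : ℝ := ‖G u‖ + η * √d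

lemma size_nonneg (hη : 0 ≤ η) (u : Sp d) : 0 ≤ size G η u := by unfold size; positivity

/-! ### Lipschitz bounds -/

/-- A Lipschitz map is integrable against the Gaussian law. -/
lemma integrable_lip {L : ℝ} {f : Sp d → Sp d} (hf : ∀ x y, ‖f x - f y‖ ≤ L * ‖x - y‖) :
    Integrable f (gd d) := by
  have hc : Continuous f := by
    refine (LipschitzWith.of_dist_le_mul (K := L.toNNReal) fun x y => ?_).continuous
    rw [dist_eq_norm, dist_eq_norm]
    exact (hf x y).trans (mul_le_mul_of_nonneg_right (Real.le_coe_toNNReal L) (norm_nonneg _))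
  refine ((integrable_const ‖f 0‖).add ((integrable_norm_gd (d := d)).const_mul L)).mono'
    hc.aestronglyMeasurable (ae_of_all _ fun x => ?_)
  have h := hf x 0
  rw [sub_zero] at h
  simp only [Pi.add_apply]
  linarith [norm_sub_norm_le (f x) (f 0)]

/-- Smoothing keeps the Lipschitz constant. -/
lemma smth_lip {L : ℝ} {f : Sp d → Sp d}
    (hf : ∀ x y, ‖f x - f y‖ ≤ L * ‖x - y‖) (δ : ℝ) (x y : Sp d) :
    ‖smth 1 δ f x - smth 1 δ f y‖ ≤ L * ‖x - y‖ := by
  have hi : ∀ x : Sp d, Integrable (fun w => f ((1 : ℝ) • x + δ • w)) (gd d) := fun x =>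
    integrable_lip (L := L * |δ|) fun a b => (hf _ _).trans (le_of_eq (by
      rw [add_sub_add_left_eq_sub, ← smul_sub, norm_smul, norm_eq_abs, mul_assoc]))
  rw [smth, smth, ← integral_sub (hi x) (hi y)]
  refine (norm_integral_le_of_norm_le_const (C := L * ‖x - y‖) (ae_of_all _ fun w => ?_)).trans_eq
    (by rw [probReal_univ, mul_one])
  exact (hf _ _).trans_eq (by rw [add_sub_add_right_eq_sub, one_smul, one_smul])

/-- The mean norm is at most the mean square. -/
lemma integral_norm_le_of_eLpNorm {f : Sp d → Sp d} (hf : AEStronglyMeasurable f (gd d)) {C : ℝ}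
    (hC : 0 ≤ C) (h : eLpNorm f 2 (gd d) ≤ ENNReal.ofReal C) :
    Integrable f (gd d) ∧ ∫ z, ‖f z‖ ∂gd d ≤ C := by
  have h1 : eLpNorm f 1 (gd d) ≤ ENNReal.ofReal C :=
    (eLpNorm_le_eLpNorm_of_exponent_le (by norm_num) hf).trans h
  have hi : Integrable f (gd d) :=
    memLp_one_iff_integrable.1 ⟨hf, h1.trans_lt ENNReal.ofReal_lt_top⟩
  refine ⟨hi, ?_⟩
  rw [integral_norm_eq_lintegral_enorm hf, ← eLpNorm_one_eq_lintegral_enorm]
  exact ENNReal.toReal_le_of_le_ofReal hC h1

section Tilt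

variable (hW : IsPot W G H 0 η) (hη : 0 ≤ η) {s : ℝ} (hs : 0 < s) (hs1 : s ≤ 1)

include hW hη hs hs1

lemma tilt_lip (x y : Sp d) :
    ‖tiltField 1 s G x - tiltField 1 s G y‖ ≤ η * ‖x - y‖ := by
  rw [tiltField_eq hW]
  refine Convex.norm_image_sub_le_of_norm_fderiv_le (𝕜 := ℝ) (s := Set.univ)
    (fun z _ => (rawTilt_contDiff hW hs hs1).differentiable (by simp) z) (fun z _ => ?_)
    convex_univ (Set.mem_univ _) (Set.mem_univ _)
  simpa using norm_fderiv_rawTilt_le (a := 1) hW hη hs hs1 z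

end Tilt

/-- The sum of the weights. -/
lemma sum_abs_weight_le {ν : Type} [Fintype ν] (w : ν → ℝ) {t R : ℝ} (ht : 0 < t) (htR : t ≤ R)
    {N : ℕ} (hN : 0 < N) :
    ∑ p, |SFQuad.weight t R N w p| ≤ R * ∑ i, |w i| := by
  have hR0 : 0 < R := ht.trans_le htR
  simp only [SFQuad.weight, abs_mul, abs_of_pos hR0, ← mul_sum]
  rw [CompQuad.sum_abs_wgt (sub_nonneg.2 ((div_le_one hR0).2 htR))
    (sub_lt_self 1 (div_pos ht hR0)) hN]
  exact mul_le_mul_of_nonneg_left (mul_le_of_le_one_left (sum_nonneg fun _ _ => abs_nonneg _)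
    (sub_le_self 1 (div_nonneg ht.le hR0.le))) hR0.le

/-- The rounds are Lipschitz in the initial point and in the surrogates. -/
lemma approx_lip {r : ℕ} {ν : Type} [Fintype ν] {w cν : ν → ℝ} (hR : Rule r w cν) {τ R : ℝ}
    (hτ : 0 < τ) {N : ℕ} (hN : 0 < N) {gh gh' : ℕ → Pt d → Sp d} {Λ D : ℝ} (hΛ : 0 ≤ Λ)
    (hD : 0 ≤ D) (hsmall : 2 * (R * (∑ i, |w i|) * Λ) ≤ 1) :
    ∀ i : ℕ, (∀ j < i, ∀ t ∈ Set.Icc τ R, ∀ x x',
        ‖gh j (t, x) - gh' j (t, x')‖ ≤ Λ * (‖x - x'‖ + D)) →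
      ∀ t ∈ Set.Icc τ R, ∀ x x', ‖SFPicard.approx R N w cν gh i t x -
        SFPicard.approx R N w cν gh' i t x'‖ ≤ 2 * ‖x - x'‖ + D
  | 0, _, t, _, x, x' => by
    simp only [SFPicard.approx]
    linarith [norm_nonneg (x - x')]
  | i + 1, h, t, ht, x, x' => by
    have ih := approx_lip hR hτ hN hΛ hD hsmall i fun j hj => h j (hj.trans (Nat.lt_succ_self i))
    have ht0 : 0 < t := hτ.trans_le ht.1
    have hm : ∀ p, SFQuad.time t R N cν p ∈ Set.Icc τ R := fun p =>
      ⟨ht.1.trans (SFQuad.time_mem hR ht0 ht.2 p).1, (SFQuad.time_mem hR ht0 ht.2 p).2⟩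
    simp only [SFPicard.approx]
    rw [sub_sub_sub_comm, ← sum_sub_distrib]
    refine (norm_sub_le _ _).trans ((add_le_add le_rfl ((norm_sum_le _ _).trans (sum_le_sum
      (g := fun p => |SFQuad.weight t R N w p| * (Λ * (2 * ‖x - x'‖ + D + D)))
      fun p _ => ?_))).trans ?_)
    · rw [← smul_sub, norm_smul, norm_eq_abs]
      refine mul_le_mul_of_nonneg_left ((h i (Nat.lt_succ_self i) _ (hm p) _ _).trans
        (mul_le_mul_of_nonneg_left ?_ hΛ)) (abs_nonneg _)
      linarith [ih _ (hm p) x x']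
    · rw [← sum_mul]
      have hn := norm_nonneg (x - x')
      have h1 := mul_le_mul_of_nonneg_right (sum_abs_weight_le w ht0 ht.2 hN)
        (show 0 ≤ Λ * (2 * ‖x - x'‖ + D + D) by positivity)
      have h2 := mul_le_mul_of_nonneg_right hsmall (show 0 ≤ ‖x - x'‖ + D by positivity)
      linarith

/-! ### The recursion -/

/-- The factor of the centre. -/
noncomputable def cenC (τ : ℝ) : ℝ := vT τ / (2 - vT τ ^ 2)

/-- The factor of the smoothing. -/
noncomputable def noiseC (τ : ℝ) : ℝ := vT τ * bT τ / (2 - vT τ ^ 2)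

/-- The factor of the finer scale. -/
noncomputable def rhoC (τ : ℝ) : ℝ := √(2 * (1 - vT τ ^ 2) / (2 - vT τ ^ 2))

/-- The surrogates of the velocity of the flow at scale `s` and observation `u`. -/
noncomputable def surr (SF : ℕ → ℝ → Sp d → Sp d) (s : ℝ) (u : Sp d) (j : ℕ) (p : Pt d) : Sp d :=
  (s * vT p.1) • SF j (s * bT p.1) (u + (s * vT p.1) • p.2)

/-- The equations of the scale functions. -/
structure Rec (G : Sp d → Sp d) (τ R : ℝ) (N : ℕ) {ν : Type} [Fintype ν] (w cν : ν → ℝ)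
    (SF : ℕ → ℝ → Sp d → Sp d) : Prop where
  base : ∀ (s : ℝ) (u : Sp d), 0 < s → s ≤ 1 → SF 0 s u = smth 1 s G u
  step : ∀ (i : ℕ) (s : ℝ) (u : Sp d), 0 < s → s ≤ 1 →
    SF (i + 1) s u = ∫ S, smth 1 (s * noiseC τ) (tiltField 1 (s * rhoC τ) G)
      (u + (s * cenC τ) • SFPicard.approx R N w cν (surr SF s u) i τ S) ∂gd d

lemma rhoC_pos {τ : ℝ} (hτ : 0 < τ) : 0 < rhoC τ := by
  have h := one_sub_pos hτ
  exact sqrt_pos.2 (div_pos (by linarith) (by linarith))

lemma rhoC_le {τ : ℝ} (hτ : 0 < τ) : rhoC τ ≤ 1 := by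
  have h := one_sub_pos hτ
  refine sqrt_le_one.2 ?_
  rw [div_le_one (by linarith)]
  linarith [sq_nonneg (vT τ)]

lemma cenC_nonneg {τ : ℝ} (hτ : 0 < τ) : 0 ≤ cenC τ :=
  div_nonneg (vT_pos τ).le (by linarith [one_sub_pos hτ])

lemma cenC_le {τ : ℝ} (hτ : 0 < τ) : cenC τ ≤ 1 := by
  rw [cenC, div_le_one (by linarith [one_sub_pos hτ])]
  nlinarith [one_sub_pos hτ, vT_lt hτ, vT_pos τ]

section Main

variable (hW : IsPot W G H 0 η) (hη : 0 ≤ η) (hη1 : η ≤ 1 / 8)
  {τ R : ℝ} (hτ : 0 < τ) (hτR : τ ≤ R) {N : ℕ} (hN : 0 < N)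
  {r : ℕ} {ν : Type} [Fintype ν] {w cν : ν → ℝ} (hR : Rule r w cν)
  (hq : 6 * (R * (∑ i, |w i|)) * η ≤ 1 / 2) {SF : ℕ → ℝ → Sp d → Sp d}
  (hRec : Rec G τ R N w cν SF)

include hW hη hτ hτR hN hR hq

omit hW hτ hτR hN [Fintype ν] hR hq in
/-- The surrogates of two observations. -/
lemma surr_sub {j : ℕ}
    (h : ∀ s, 0 < s → s ≤ 1 → ∀ u u', ‖SF j s u - SF j s u'‖ ≤ 2 * η * ‖u - u'‖)
    {s : ℝ} (hs : 0 < s) (hs1 : s ≤ 1) {t : ℝ} (ht : 0 < t) (u u' x x' : Sp d) :
    ‖surr SF s u j (t, x) - surr SF s u' j (t, x')‖ ≤ 2 * η * (‖x - x'‖ + ‖u - u'‖) := by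
  have hv : s * vT t ≤ 1 := mul_le_one₀ hs1 (vT_pos t).le (vT_lt ht).le
  have hv0 : 0 ≤ s * vT t := mul_nonneg hs.le (vT_pos t).le
  simp only [surr]
  rw [← smul_sub, norm_smul, norm_eq_abs, abs_of_nonneg hv0]
  refine (mul_le_of_le_one_left (norm_nonneg _) hv).trans ((h _ (mul_pos hs (bT_pos ht))
    (mul_le_one₀ hs1 (bT_pos ht).le (bT_le t)) _ _).trans
      (mul_le_mul_of_nonneg_left ?_ (by positivity)))
  rw [add_sub_add_comm, ← smul_sub]
  refine (norm_add_le _ _).trans ?_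
  rw [norm_smul, norm_eq_abs, abs_of_nonneg hv0, add_comm]
  exact add_le_add (mul_le_of_le_one_left (norm_nonneg _) hv) le_rfl

omit hq hN hR hτR in
lemma body_lip {s : ℝ} (hs : 0 < s) (hs1 : s ≤ 1) (u u' p p' : Sp d) :
    ‖smth 1 (s * noiseC τ) (tiltField 1 (s * rhoC τ) G) (u + (s * cenC τ) • p) -
        smth 1 (s * noiseC τ) (tiltField 1 (s * rhoC τ) G) (u' + (s * cenC τ) • p')‖ ≤
      η * (‖u - u'‖ + (s * cenC τ) * ‖p - p'‖) := by
  refine (smth_lip (tilt_lip hW hη (mul_pos hs (rhoC_pos hτ))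
    (mul_le_one₀ hs1 (rhoC_pos hτ).le (rhoC_le hτ))) _ _ _).trans
      (mul_le_mul_of_nonneg_left ?_ hη)
  rw [add_sub_add_comm, ← smul_sub]
  refine (norm_add_le _ _).trans (le_of_eq ?_)
  rw [norm_smul, norm_eq_abs, abs_of_nonneg (mul_nonneg hs.le (cenC_nonneg hτ))]

include hRec

/-- **The scale functions are `2 η`-Lipschitz in the observation.** -/
theorem sf_lip : ∀ i, ∀ s, 0 < s → s ≤ 1 → ∀ u u',
    ‖SF i s u - SF i s u'‖ ≤ 2 * η * ‖u - u'‖ := by
  intro i
  induction i using Nat.strong_induction_on with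
  | _ i ih =>
    intro s hs hs1 u u'
    rcases i with _ | i
    · rw [hRec.base s u hs hs1, hRec.base s u' hs hs1]
      refine (smth_lip (fun x y => hW.grad_lip le_rfl x y) _ _ _).trans ?_
      linarith [mul_nonneg hη (norm_nonneg (u - u'))]
    have hsmall : 2 * (R * (∑ k, |w k|) * (2 * η)) ≤ 1 := by
      have : 0 ≤ R * (∑ k, |w k|) * η :=
        mul_nonneg (mul_nonneg (hτ.trans_le hτR).le (sum_nonneg fun _ _ => abs_nonneg _)) hη
      linarith
    have happ : ∀ a b x x', ‖SFPicard.approx R N w cν (surr SF s a) i τ x -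
        SFPicard.approx R N w cν (surr SF s b) i τ x'‖ ≤ 2 * ‖x - x'‖ + ‖a - b‖ :=
      fun a b x x' => approx_lip hR hτ hN (by positivity) (norm_nonneg _) hsmall i
        (fun j hj t ht x x' => surr_sub hη (ih j (by omega)) hs hs1
          (hτ.trans_le ht.1) a b x x') τ ⟨le_rfl, hτR⟩ x x'
    have hc := mul_nonneg hs.le (cenC_nonneg hτ)
    have hint : ∀ a, Integrable (fun S => smth 1 (s * noiseC τ) (tiltField 1 (s * rhoC τ) G)
        (a + (s * cenC τ) • SFPicard.approx R N w cν (surr SF s a) i τ S)) (gd d) := fun a =>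
      integrable_lip (L := η * (s * cenC τ) * 2) fun x y =>
        (body_lip hW hη hτ hs hs1 a a _ _).trans (by
          have := happ a a x y
          simp only [sub_self, norm_zero, zero_add, add_zero] at this ⊢
          calc η * (s * cenC τ * _) ≤ η * (s * cenC τ * (2 * ‖x - y‖)) := by gcongr
            _ = _ := by ring)
    rw [hRec.step i s u hs hs1, hRec.step i s u' hs hs1, ← integral_sub (hint u) (hint u')]
    refine (norm_integral_le_of_norm_le_const (C := 2 * η * ‖u - u'‖) (ae_of_all _ fun S => ?_))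
      |>.trans_eq (by rw [probReal_univ, mul_one])
    refine (body_lip hW hη hτ hs hs1 u u' _ _).trans ?_
    have h1 := happ u u' S S
    rw [sub_self, norm_zero, mul_zero, zero_add] at h1
    have h2 := mul_le_mul (mul_le_one₀ hs1 (cenC_nonneg hτ) (cenC_le hτ)) h1 (norm_nonneg _)
      zero_le_one
    calc η * (‖u - u'‖ + _) ≤ η * (‖u - u'‖ + ‖u - u'‖) := by gcongr; simpa using h2
      _ = _ := by ring

end Main

section Tower

variable (hW : IsPot W G H 0 η) (hη : 0 ≤ η) (hη1 : η ≤ 1 / 8) {s : ℝ} (hs : 0 < s) (hs1 : s ≤ 1)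
  {u : Sp d} {X : ℝ → Sp d → Sp d} (hX : SFFlow.Exact η s G u (score fun w => W (u + s • w))
    (TiltFlow.pot fun w => W (u + s • w)) X) {τ : ℝ} (hτ : 0 < τ)

include hW hη hη1 hs hs1 hX hτ

/-- The tower of the tilted velocity along the flow. -/
theorem tower :
    Integrable (fun S => smth 1 (s * noiseC τ) (tiltField 1 (s * rhoC τ) G)
      (u + (s * cenC τ) • X τ S)) (gd d) ∧
    tiltField 1 s G u = ∫ S, smth 1 (s * noiseC τ) (tiltField 1 (s * rhoC τ) G)
      (u + (s * cenC τ) • X τ S) ∂gd d := by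
  have hκ := vT_pos τ
  have hb := one_sub_pos hτ
  have hκ2 : 0 < 2 - vT τ ^ 2 := by linarith
  set q := s ^ 2 * (1 - vT τ ^ 2) / vT τ ^ 2 with hq
  have hq0 : 0 < q := by positivity
  have hf : ∀ σ : ℝ, 0 ≤ σ → ∀ v, rgoField W G (σ ^ 2) v = tiltField 1 σ G v := fun σ hσ v => by
    rw [rgoField, rgo, integral_map (by fun_prop : Continuous _).aemeasurable
      hW.continuous_grad.aestronglyMeasurable, tiltField_eq hW]
    simp [rawTilt, sqrt_sq hσ]
  obtain ⟨hi, he⟩ := rgoField_tower hW le_rfl (pow_pos hs 2) (mul_pos two_pos hq0) u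
  have hlaw : tiltNoise W (s ^ 2) q u = (gd d).map fun S => u + (s / vT τ) • X τ S := by
    have h := tiltNoise_smPot (W := W) (sq_nonneg s) u (by
      simpa [sqrt_sq hs.le] using isPot_slice hW hs.le hs1 u)
      (by nlinarith [mul_le_mul_of_nonneg_right (pow_le_one₀ (n := 2) hs.le hs1) hη]) hκ (vT_lt hτ).le
    rw [← hq] at h
    rw [h, sqrt_sq hs.le, gibbs_smPot_eq (isPot_slice hW hs.le hs1 u) hτ, ← hX.law τ hτ,
      Measure.map_map (by fun_prop) (hX.meas τ)]
    rfl
  rw [show 2 * q / 2 = q by ring, hlaw] at hi he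
  rw [hf s hs.le] at he
  have hg : Measurable fun S => u + (s / vT τ) • X τ S :=
    measurable_const.add ((hX.meas τ).const_smul (s / vT τ) :)
  have hprod : ((gd d).map fun S => u + (s / vT τ) • X τ S).prod (gd d) =
      ((gd d).prod (gd d)).map (Prod.map (fun S => u + (s / vT τ) • X τ S) id) := by
    rw [← Measure.map_prod_map _ _ hg measurable_id, Measure.map_id]
  have hgp : Measurable (Prod.map (fun S => u + (s / vT τ) • X τ S) (id : Sp d → Sp d)) :=
    hg.prodMap measurable_id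
  rw [hprod] at hi he
  rw [integral_map hgp.aemeasurable hi.1] at he
  have hi' := (integrable_map_measure hi.1 hgp.aemeasurable).1 hi
  have hρ : sfine (s ^ 2) (2 * q) = (s * rhoC τ) ^ 2 := by
    rw [rhoC, mul_pow, sq_sqrt (div_nonneg (by linarith) hκ2.le), sfine, hq]
    field_simp
    ring
  have hr : √q = s * bT τ / vT τ := by
    rw [hq, sqrt_div (by positivity), sqrt_mul (sq_nonneg s), sqrt_sq hs.le, sqrt_sq hκ.le]
    rfl
  have hpt : ∀ p : Sp d × Sp d, rgoField W G (sfine (s ^ 2) (2 * q)) (cfine (s ^ 2) (2 * q) u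
      ((Prod.map (fun S => u + (s / vT τ) • X τ S) id p).1 +
        √q • (Prod.map (fun S => u + (s / vT τ) • X τ S) id p).2)) =
      tiltField 1 (s * rhoC τ) G
        ((1 : ℝ) • (u + (s * cenC τ) • X τ p.1) + (s * noiseC τ) • p.2) := fun p => by
    rw [hρ, hf _ (mul_nonneg hs.le (rhoC_pos hτ).le), hr]
    congr 1
    simp only [cfine, Prod.map, id, cenC, noiseC, hq]
    match_scalars
    all_goals field_simp
    all_goals ring
  simp only [Function.comp_def, hpt] at hi' he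
  refine ⟨hi'.integral_prod_left, ?_⟩
  rw [he, integral_prod _ hi']
  rfl

end Tower

/-- The tail of the flow and the quadrature error. -/
noncomputable def tail (R : ℝ) (N r : ℕ) {ν : Type} [Fintype ν] (w : ν → ℝ) : ℝ :=
  7 * exp (-R) + (1 + ∑ i, |w i|) / (N : ℝ) ^ (r + 1) * R * SFFlow.matM r

/-- The relative error of the round `i`. -/
noncomputable def rel (η R : ℝ) (N r : ℕ) {ν : Type} [Fintype ν] (w : ν → ℝ) (i : ℕ) : ℝ :=
  14 * √(6 * (R * (∑ k, |w k|)) * η) ^ i + 2 * tail R N r w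

lemma tail_nonneg {R : ℝ} (hR : 0 ≤ R) (N r : ℕ) {ν : Type} [Fintype ν] (w : ν → ℝ) :
    0 ≤ tail R N r w := by
  have := SFFlow.matM_nonneg r
  unfold tail; positivity

lemma rel_nonneg {R : ℝ} (hR : 0 ≤ R) (N r : ℕ) {ν : Type} [Fintype ν] (w : ν → ℝ) (η : ℝ)
    (i : ℕ) : 0 ≤ rel η R N r w i :=
  add_nonneg (mul_nonneg (by norm_num) (pow_nonneg (sqrt_nonneg _) i))
    (mul_nonneg zero_le_two (tail_nonneg hR N r w))

section Error

variable (hW : IsPot W G H 0 η) (hη : 0 ≤ η) (hη1 : η ≤ 1 / 8)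
  {τ R : ℝ} (hτ : 0 < τ) (hτR : τ ≤ R) {N : ℕ} (hN : 0 < N)
  {r : ℕ} {ν : Type} [Fintype ν] {w cν : ν → ℝ} (hR : Rule r w cν)
  (hq : 6 * (R * (∑ i, |w i|)) * η ≤ 1 / 2) {SF : ℕ → ℝ → Sp d → Sp d}
  (hRec : Rec G τ R N w cν SF)

include hW hη hη1 hτ hτR hN hR hq hRec

omit hτ hτR hN [Fintype ν] hR hq hRec in
/-- The surrogates along the exact flow, from the error of the scale functions. -/
lemma surr_err {j : ℕ} {a : ℝ} (ha : 0 ≤ a)
    (hj : ∀ (s : ℝ) (u : Sp d), 0 < s → s ≤ 1 →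
      ‖SF j s u - tiltField 1 s G u‖ ≤ η * a * (s * size G η u))
    {s : ℝ} {u : Sp d} (hs : 0 < s) (hs1 : s ≤ 1) {g : Pt d → Sp d} {Φ : ℝ → Sp d → ℝ}
    {X : ℝ → Sp d → Sp d} (hX : SFFlow.Exact η s G u g Φ X) {t : ℝ} (ht0 : 0 < t) :
    eLpNorm (fun z => surr SF s u j (t, X t z) - g (t, X t z)) 2 (gd d) ≤
      ENNReal.ofReal (4 * η * a * (s * size G η u)) := by
  have hsz := size_nonneg (G := G) hη u
  set A := s * size G η u
  have hA : 0 ≤ A := mul_nonneg hs.le hsz
  set c := η * a * s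
  have hc : 0 ≤ c := mul_nonneg (mul_nonneg hη ha) hs.le
  have hv := (vT_pos t).le
  have hv1 := (vT_lt ht0).le
  have hb := (bT_pos ht0).le
  have hb1 := bT_le t
  have hpt : ∀ z, ‖surr SF s u j (t, X t z) - g (t, X t z)‖ ≤
      c * size G η u + c * η * ‖X t z‖ := fun z => by
    set y := u + (s * vT t) • X t z
    rw [hX.vel t ht0, surr, ← smul_sub, norm_smul, norm_eq_abs,
      abs_of_nonneg (mul_nonneg hs.le hv)]
    have h1 : size G η y ≤ size G η u + η * ‖X t z‖ := by
      have h2 := hW.grad_lip le_rfl y u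
      have h3 : ‖y - u‖ ≤ ‖X t z‖ := by
        rw [add_sub_cancel_left, norm_smul, norm_eq_abs, abs_of_nonneg (mul_nonneg hs.le hv)]
        exact mul_le_of_le_one_left (norm_nonneg _) (mul_le_one₀ hs1 hv hv1)
      unfold size
      linarith [norm_sub_norm_le (G y) (G u), mul_le_mul_of_nonneg_left h3 hη]
    refine (mul_le_mul_of_nonneg_left (hj (s * bT t) y (mul_pos hs (bT_pos ht0))
      (mul_le_one₀ hs1 hb hb1)) (mul_nonneg hs.le hv)).trans ?_
    have hsy := size_nonneg (G := G) hη y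
    calc s * vT t * (η * a * (s * bT t * size G η y))
        = (c * size G η y) * (vT t * (s * bT t)) := by simp only [c]; ring
      _ ≤ c * size G η y := mul_le_of_le_one_right (by positivity)
          (mul_le_one₀ hv1 (mul_nonneg hs.le hb) (mul_le_one₀ hs1 hb hb1))
      _ ≤ c * (size G η u + η * ‖X t z‖) := mul_le_mul_of_nonneg_left h1 hc
      _ = _ := by ring
  refine (eLpNorm_mono_real (g := fun z => c * size G η u + c * η * ‖X t z‖) hpt).trans ?_
  have hXn : eLpNorm (fun z => ‖X t z‖) 2 (gd d) ≤ ENNReal.ofReal (√d + 7 * A) := by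
    rw [eLpNorm_norm (X t), show X t = (fun z : Sp d => z) - fun z => z - X t z by funext z; simp,
      ENNReal.ofReal_add (sqrt_nonneg _) (by positivity)]
    refine (eLpNorm_sub_le measurable_id.aestronglyMeasurable
      (measurable_id.sub (hX.meas t)).aestronglyMeasurable one_le_two).trans (add_le_add ?_ ?_)
    · exact (FlowStep.eLpNorm_id_le (ι := Fin d)).trans_eq (by rw [Fintype.card_fin])
    · exact (hX.tail t ht0.le).trans (ENNReal.ofReal_le_ofReal
        (mul_le_of_le_one_left (mul_nonneg (by norm_num) hA) hv1))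
  refine (eLpNorm_add_le (f := fun _ => c * size G η u) (g := (c * η) • fun z => ‖X t z‖)
    aestronglyMeasurable_const ((hX.meas t).norm.aestronglyMeasurable.const_smul _)
    one_le_two).trans ?_
  rw [eLpNorm_const _ two_ne_zero (IsProbabilityMeasure.ne_zero _), measure_univ,
    ENNReal.one_rpow, mul_one, eLpNorm_const_smul, ← ofReal_norm, ← ofReal_norm,
    Real.norm_of_nonneg (by positivity), Real.norm_of_nonneg (by positivity)]
  refine (add_le_add le_rfl (mul_le_mul_right hXn _)).trans ?_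
  rw [← ENNReal.ofReal_mul (by positivity), ← ENNReal.ofReal_add (by positivity) (by positivity)]
  refine ENNReal.ofReal_le_ofReal ?_
  have h4 : η * (√d + 7 * A) ≤ 3 * size G η u := by
    have h5 : 7 * (η * s) ≤ 1 := by nlinarith [mul_le_of_le_one_right hη hs1]
    have h6 := mul_le_mul_of_nonneg_right h5 hsz
    have e : η * (√d + 7 * A) = η * √d + 7 * (η * s) * size G η u := by simp only [A]; ring
    have h7 : η * √d ≤ size G η u := le_add_of_nonneg_left (norm_nonneg _)
    linarith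
  calc c * size G η u + c * η * (√d + 7 * A)
      = c * (size G η u + η * (√d + 7 * A)) := by ring
    _ ≤ c * (4 * size G η u) := mul_le_mul_of_nonneg_left (by linarith) hc
    _ = _ := by simp only [c, A]; ring

/-- The rounds against the exact flow, given the errors of the scale functions below. -/
lemma round_err_of {i : ℕ}
    (hSF : ∀ j < i, ∀ (s : ℝ) (u : Sp d), 0 < s → s ≤ 1 →
      ‖SF j s u - tiltField 1 s G u‖ ≤ η * rel η R N r w (j - 1) * (s * size G η u))
    {s : ℝ} {u : Sp d} (hs : 0 < s) (hs1 : s ≤ 1) {g : Pt d → Sp d} {Φ : ℝ → Sp d → ℝ}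
    {X : ℝ → Sp d → Sp d} (hX : SFFlow.Exact η s G u g Φ X) {t : ℝ} (ht : t ∈ Set.Icc τ R) :
    eLpNorm (fun z => SFPicard.approx R N w cν (surr SF s u) i t z - X t z) 2 (gd d) ≤
      ENNReal.ofReal (rel η R N r w i * (s * size G η u)) := by
  have hR0 : 0 < R := hτ.trans_le hτR
  have hWw : 0 ≤ ∑ k, |w k| := sum_nonneg fun _ _ => abs_nonneg _
  set q := 6 * (R * (∑ k, |w k|)) * η with hqdef
  have hq0 : 0 ≤ q := mul_nonneg (mul_nonneg (by norm_num) (mul_nonneg hR0.le hWw)) hη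
  have htail := tail_nonneg hR0.le N r w
  have hrel := rel_nonneg hR0.le N r w η
  have hsz := size_nonneg (G := G) hη u
  set A := s * size G η u
  have hA : 0 ≤ A := mul_nonneg hs.le hsz
  have hlip := sf_lip hW hη hτ hτR hN hR hq hRec
  set Λ : ℝ≥0 := (2 * η).toNNReal
  have hΛ : (Λ : ℝ) = 2 * η := Real.coe_toNNReal _ (by positivity)
  have h0 : 7 * A ≤ rel η R N r w 0 * A :=
    mul_le_mul_of_nonneg_right (by simp only [rel, pow_zero]; linarith) hA
  refine hX.picard_rec hη hs.le hR hτ hτR hN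
    (s := fun j => 4 * η * rel η R N r w (j - 1) * A) (e := fun j => rel η R N r w j * A)
    (gh := surr SF s u) (Λ := Λ) (n := i)
    (fun j => mul_nonneg (mul_nonneg (mul_nonneg (by norm_num) hη) (hrel _)) hA)
    (fun j => mul_nonneg (hrel j) hA) (fun j _ t ht => LipschitzWith.of_dist_le_mul fun x y => ?_)
    (fun j hj t ht => surr_err hW hη hη1 (hrel (j - 1)) (hSF j hj) hs hs1 hX
      (hτ.trans_le ht.1)) h0 (fun j _ => ?_) i le_rfl t ht
  · rw [dist_eq_norm, dist_eq_norm, hΛ]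
    simpa using surr_sub hη (hlip j) hs hs1 (hτ.trans_le ht.1) u u x y
  · rw [hΛ]
    have e : vT R * (7 * A) +
        (1 + ∑ k, |w k|) / (N : ℝ) ^ (r + 1) * R * (SFFlow.matM r * A) +
        R * (∑ k, |w k|) * (2 * η * (rel η R N r w j * A) + 4 * η * rel η R N r w (j - 1) * A) =
        (tail R N r w + q / 3 * rel η R N r w j + 2 * (q / 3) * rel η R N r w (j - 1)) * A := by
      rw [hqdef]; unfold tail; rw [vT]; ring
    refine e.trans_le (mul_le_mul_of_nonneg_right ?_ hA)
    set ρ := √q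
    have hρ : ρ ^ 2 = q := sq_sqrt hq0
    have hρ0 : 0 ≤ ρ := sqrt_nonneg _
    have hρ1 : ρ ≤ 1 := sqrt_le_one.2 (by linarith)
    have hT : q * tail R N r w ≤ 1 / 2 * tail R N r w := mul_le_mul_of_nonneg_right hq htail
    simp only [rel, ← hqdef]
    rcases j with _ | j
    · have : q ≤ ρ := by nlinarith
      simp only [Nat.zero_sub, zero_add, pow_zero, pow_one]
      linarith
    · simp only [Nat.add_sub_cancel, pow_succ]
      have hp := pow_nonneg hρ0 j
      have h1 : q / 3 * (ρ ^ j * ρ) ≤ q / 3 * ρ ^ j :=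
        mul_le_mul_of_nonneg_left (mul_le_of_le_one_right hp hρ1) (by linarith)
      have h2 : ρ ^ j * ρ * ρ = q * ρ ^ j := by rw [← hρ]; ring
      linarith

/-- **The scale functions against the tilted velocity.** -/
theorem sf_err : ∀ i, ∀ (s : ℝ) (u : Sp d), 0 < s → s ≤ 1 →
    ‖SF i s u - tiltField 1 s G u‖ ≤ η * rel η R N r w (i - 1) * (s * (‖G u‖ + η * √d)) := by
  have hR0 : 0 < R := hτ.trans_le hτR
  have hrel := rel_nonneg hR0.le N r w η
  intro i
  induction i using Nat.strong_induction_on with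
  | _ i ih =>
  intro s u hs hs1
  show _ ≤ η * rel η R N r w (i - 1) * (s * size G η u)
  have hsz := size_nonneg (G := G) hη u
  set A := s * size G η u
  have hA : 0 ≤ A := mul_nonneg hs.le hsz
  rcases i with _ | i
  · rw [hRec.base s u hs hs1, tiltField_eq hW, norm_sub_rev]
    have hS := isPot_slice hW hs.le hs1 u
    have hs2 : s ^ 2 * η ≤ η := mul_le_of_le_one_left hη (pow_le_one₀ hs.le hs1)
    have h := hS.tilt_norm (hs2.trans (hη1.trans (by norm_num)))
    rw [integral_smul, integral_smul, ← smul_sub, norm_smul, norm_eq_abs, abs_of_pos hs] at h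
    simp only [rawTilt, smth, one_smul, Nat.zero_sub]
    refine le_of_mul_le_mul_left (h.trans ?_) hs
    simp only [smul_zero, add_zero, norm_smul, Real.norm_eq_abs, abs_of_pos hs]
    have h1 : s * ‖G u‖ + s ^ 2 * η * √d ≤ A := by
      simp only [A, size, mul_add]
      refine add_le_add le_rfl ?_
      rw [sq, mul_assoc s s, mul_assoc s]
      exact mul_le_mul_of_nonneg_left (mul_le_mul_of_nonneg_right
        (mul_le_of_le_one_left hη hs1) (sqrt_nonneg _)) hs.le
    have h2 : 4 ≤ rel η R N r w 0 := by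
      simp only [rel, pow_zero]
      linarith [tail_nonneg hR0.le N r w]
    calc 4 * (s ^ 2 * η) * (s * ‖G u‖ + s ^ 2 * η * √d) ≤ 4 * (s ^ 2 * η) * A :=
          mul_le_mul_of_nonneg_left h1 (by positivity)
      _ = s * (η * (s * 4) * A) := by ring
      _ ≤ s * (η * rel η R N r w 0 * A) := by
          gcongr
          linarith
  obtain ⟨Y, h0, hc, hd, hl⟩ := exists_flowV (isPot_slice hW hs.le hs1 u)
    (mul_nonneg (sq_nonneg s) hη)
    ((mul_le_of_le_one_left hη (pow_le_one₀ hs.le hs1)).trans (hη1.trans (by norm_num)))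
  have hX := SFFlow.exact_of_flowV hW hη (hη1.trans (by norm_num)) hs.le hs1 u ⟨h0, hc, hd, hl⟩
  set X := SFFlow.timed Y
  have hpic := round_err_of (i := i) hW hη hη1 hτ hτR hN hR hq hRec
    (fun j hj => ih j (by omega)) hs hs1 hX (Set.left_mem_Icc.2 hτR)
  set Φi := SFPicard.approx R N w cν (surr SF s u) i τ
  have hlip := sf_lip hW hη hτ hτR hN hR hq hRec
  have hΦm : Measurable Φi := (SFPicard.continuous_approx hR hτ i
    (fun j _ t ht => (LipschitzWith.of_dist_le_mul (K := (2 * η).toNNReal) fun x y => by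
      rw [dist_eq_norm, dist_eq_norm, Real.coe_toNNReal _ (by positivity)]
      simpa using surr_sub hη (hlip j) hs hs1 (hτ.trans_le ht.1) u u x y).continuous)
    τ (Set.left_mem_Icc.2 hτR)).measurable
  obtain ⟨hdi, hd1⟩ := integral_norm_le_of_eLpNorm
    (hΦm.sub (hX.meas τ)).aestronglyMeasurable (mul_nonneg (hrel i) hA) hpic
  obtain ⟨hti, hte⟩ := tower hW hη hη1 hs hs1 hX hτ
  have hc := mul_nonneg hs.le (cenC_nonneg hτ)
  have hcont : Continuous fun p => smth 1 (s * noiseC τ) (tiltField 1 (s * rhoC τ) G)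
      (u + (s * cenC τ) • p) := by
    refine (LipschitzWith.of_dist_le_mul (K := (η * (s * cenC τ)).toNNReal) fun p p' => ?_).continuous
    rw [dist_eq_norm, dist_eq_norm, Real.coe_toNNReal _ (mul_nonneg hη hc)]
    exact (body_lip hW hη hτ hs hs1 u u p p').trans_eq (by simp; ring)
  have hpd : ∀ z, ‖smth 1 (s * noiseC τ) (tiltField 1 (s * rhoC τ) G) (u + (s * cenC τ) • Φi z) -
      smth 1 (s * noiseC τ) (tiltField 1 (s * rhoC τ) G) (u + (s * cenC τ) • X τ z)‖ ≤
      η * (s * cenC τ) * ‖Φi z - X τ z‖ := fun z =>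
    (body_lip hW hη hτ hs hs1 u u _ _).trans_eq (by simp; ring)
  have hsub := (hdi.norm.const_mul (η * (s * cenC τ))).mono'
    ((hcont.measurable.comp hΦm).sub (hcont.measurable.comp (hX.meas τ))).aestronglyMeasurable
    (ae_of_all _ hpd)
  have hΦint : Integrable (fun z => smth 1 (s * noiseC τ) (tiltField 1 (s * rhoC τ) G)
      (u + (s * cenC τ) • Φi z)) (gd d) := by
    refine (hsub.add hti).congr (ae_of_all _ fun z => ?_)
    simp
  rw [hRec.step i s u hs hs1, hte, ← integral_sub hΦint hti, Nat.add_sub_cancel]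
  refine (norm_integral_le_of_norm_le (hdi.norm.const_mul (η * (s * cenC τ)))
    (ae_of_all _ hpd)).trans ?_
  rw [integral_const_mul, mul_assoc η (rel η R N r w i), mul_assoc η (s * cenC τ)]
  refine mul_le_mul_of_nonneg_left ?_ hη
  exact (mul_le_of_le_one_left (integral_nonneg fun _ => norm_nonneg _)
    (mul_le_one₀ hs1 (cenC_nonneg hτ) (cenC_le hτ))).trans hd1

/-- **The rounds against the exact flow.** -/
theorem round_err {s : ℝ} {u : Sp d} (hs : 0 < s) (hs1 : s ≤ 1) {g : Pt d → Sp d}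
    {Φ : ℝ → Sp d → ℝ} {X : ℝ → Sp d → Sp d} (hX : SFFlow.Exact η s G u g Φ X) (i : ℕ)
    {t : ℝ} (ht : t ∈ Set.Icc τ R) :
    eLpNorm (fun z => SFPicard.approx R N w cν (surr SF s u) i t z - X t z) 2 (gd d) ≤
      ENNReal.ofReal (rel η R N r w i * (s * (‖G u‖ + η * √d))) :=
  round_err_of hW hη hη1 hτ hτR hN hR hq hRec
    (fun j _ => sf_err hW hη hη1 hτ hτR hN hR hq hRec j) hs hs1 hX ht

/-- The error in the units of a box of the tilt. -/
theorem sf_err_box (h0 : ‖G 0‖ ≤ η * √d) (i : ℕ) {s : ℝ} (hs : 0 < s) (hs1 : s ≤ 1) (u : Sp d) :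
    ‖SF i s u - tiltField 1 s G u‖ ≤
      2 * η ^ 2 * rel η R N r w (i - 1) * (s * (√d + ‖u‖)) := by
  refine (sf_err hW hη hη1 hτ hτR hN hR hq hRec i s u hs hs1).trans ?_
  have hrel := rel_nonneg (hτ.trans_le hτR).le N r w η (i - 1)
  calc η * rel η R N r w (i - 1) * (s * (‖G u‖ + η * √d))
      ≤ η * rel η R N r w (i - 1) * (s * (2 * η * (√d + ‖u‖))) := by
        gcongr
        nlinarith [hW.grad_le le_rfl u, mul_nonneg hη (norm_nonneg u)]
    _ = _ := by ring

end Error

end Vale.Agent.P347.Shift.SFErr
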