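import Vale.Agent.P347.Shift.SFQuad
import Vale.Agent.P347.Shift.FlowStep

/-!
# P347: Picard rounds on geometric time grids along a probability flow

Round `i + 1` at time `t` reads round `i` at the nodes of the grid of `[t, R]` through a surrogate
of the velocity. If the surrogates are `Λ`-Lipschitz, within `s` of the velocity under the law at
each time and `R (∑ |w|) Λ ≤ 1 / 2`, the rounds are within `(R (∑ |w|) Λ) ^ i E₀` of the flow, up
to twice the tail, the quadrature error and `R (∑ |w|) s`.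
-/

open MeasureTheory Real Finset Filter Topology
open scoped ENNReal NNReal

namespace Vale.Agent.P347.Shift.SFPicard

open Quarter Fields

variable {d : ℕ} {g : Pt d → Sp d} {Φ : ℝ → Sp d → ℝ} {σ : ℝ → ℝ} {c : ℕ → ℝ}
  {ν : Type} [Fintype ν] {w cν : ν → ℝ} {r : ℕ}

/-- The rounds, as maps of the initial point. -/
noncomputable def approx (R : ℝ) (N : ℕ) (w cν : ν → ℝ) (gh : ℕ → Pt d → Sp d) :
    ℕ → ℝ → Sp d → Sp d
  | 0, _, x => x
  | i + 1, t, x => x - ∑ p, SFQuad.weight t R N w p •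
      gh i (SFQuad.time t R N cν p, approx R N w cν gh i (SFQuad.time t R N cν p) x)

lemma continuous_approx (hR : Rule r w cν) {τ R : ℝ} (hτ : 0 < τ) {N : ℕ}
    {gh : ℕ → Pt d → Sp d} : ∀ (i : ℕ),
    (∀ j < i, ∀ t ∈ Set.Icc τ R, Continuous fun x => gh j (t, x)) →
      ∀ t ∈ Set.Icc τ R, Continuous (approx R N w cν gh i t)
  | 0, _, _, _ => continuous_id
  | i + 1, hc, t, ht => by
    refine continuous_id.sub (continuous_finsetSum _ fun p _ => ?_)
    have hm := SFQuad.time_mem hR (hτ.trans_le ht.1) ht.2 p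
    have hm' : SFQuad.time t R N cν p ∈ Set.Icc τ R := ⟨ht.1.trans hm.1, hm.2⟩
    exact ((hc i (Nat.lt_succ_self i) _ hm').comp (continuous_approx hR hτ i
      (fun j hj => hc j (hj.trans (Nat.lt_succ_self i))) _ hm')).const_smul
        (SFQuad.weight t R N w p)

omit [Fintype ν] in
/-- The square of the norm as a sum. -/
lemma norm_sq_coord (v : Sp d) : ‖v‖ ^ 2 = ∑ a, v a ^ 2 := by simp [EuclideanSpace.norm_sq_eq]

variable {Ω : Type} [MeasurableSpace Ω] {μ : Measure Ω} [SFinite μ] {X : ℝ → Ω → Sp d}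

/-- The exact flow against its quadrature. -/
theorem eLpNorm_quad (hS : Score g Φ σ c) (hX : ∀ t, 0 < t → Measurable (X t))
    (hder : ∀ z t, 0 < t → HasDerivAt (fun t => X t z) (g (t, X t z)) t)
    (hlaw : ∀ t, 0 < t → μ.map (X t) = nuT (Φ t)) (hR : Rule r w cν) {t R : ℝ} (ht : 0 < t)
    (htR : t ≤ R) {N : ℕ} (hN : 0 < N) {M : ℝ} (hM0 : 0 ≤ M)
    (hM : ∀ u ∈ Set.Icc t R, u ^ (r + 1) *
      √(∑ a, ∫ x, (mat g)^[r + 1] (gc g a) (u, x) ^ 2 ∂nuT (Φ u)) ≤ M) :
    eLpNorm (fun z => X R z - X t z - ∑ p, SFQuad.weight t R N w p •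
        g (SFQuad.time t R N cν p, X (SFQuad.time t R N cν p) z)) 2 μ ≤
      ENNReal.ofReal ((1 + ∑ i, |w i|) / (N : ℝ) ^ (r + 1) * R * M) := by
  set V : Ω → Sp d := fun z => X R z - X t z - ∑ p, SFQuad.weight t R N w p •
      g (SFQuad.time t R N cν p, X (SFQuad.time t R N cν p) z)
  have hR0 : 0 < R := ht.trans_le htR
  have hm : ∀ u, 0 < u → ∀ a : Fin d, MemLp (fun z => X u z a) 2 μ ∧
      MemLp (fun z => g (u, X u z) a) 2 μ := fun u hu a => by
    have hp := hS.pot u hu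
    have key : ∀ F : Sp d → ℝ, F.HasTemperateGrowth → MemLp (fun z => F (X u z)) 2 μ := fun F hF => by
      refine (memLp_two_iff_integrable_sq
        (hF.1.continuous.measurable.comp (hX u hu)).aestronglyMeasurable).2 ?_
      exact (integrable_map_measure (hF.fun_pow 2).1.continuous.aestronglyMeasurable
        (hX u hu).aemeasurable).1 (hlaw u hu ▸ integrable_nuT hp (hF.fun_pow 2))
    exact ⟨key _ (tg_coord a), key _ (SFQuad.tg_slice hS a 0 hu)⟩
  have hint : ∀ z a, ∫ u in t..R, g (u, X u z) a = X R z a - X t z a := fun z a => by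
    refine intervalIntegral.integral_eq_sub_of_hasDerivAt (f := fun u => X u z a) (fun u hu => ?_) ?_
    · rw [Set.uIcc_of_le htR] at hu
      exact (EuclideanSpace.proj (𝕜 := ℝ) a).hasFDerivAt.comp_hasDerivAt u
        (hder z u (ht.trans_le hu.1))
    · refine ContinuousOn.intervalIntegrable fun u hu => ?_
      rw [Set.uIcc_of_le htR] at hu
      exact (SFQuad.hasDerivAt_along (hS.toField.contDiffOn_gc a) (ht.trans_le hu.1)
        (hder z u (ht.trans_le hu.1))).continuousAt.continuousWithinAt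
  have hV : ∀ a, MemLp (fun z => V z a) 2 μ := fun a => by
    simp only [V, PiLp.sub_apply, WithLp.ofLp_sum, Finset.sum_apply, PiLp.smul_apply, smul_eq_mul]
    exact ((hm R hR0 a).1.sub (hm t ht a).1).sub (memLp_finsetSum _ fun p _ =>
      ((hm _ (ht.trans_le (SFQuad.time_mem hR ht htR p).1) a).2.const_mul _))
  have hQ : 0 ≤ (1 + ∑ i, |w i|) / (N : ℝ) ^ (r + 1) * R * M :=
    mul_nonneg (mul_nonneg (div_nonneg (add_nonneg zero_le_one
      (sum_nonneg fun _ _ => abs_nonneg _)) (by positivity)) hR0.le) hM0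
  refine (FlowStep.eLpNorm_le_sqrt (C := ((1 + ∑ i, |w i|) / (N : ℝ) ^ (r + 1) * R * M) ^ 2)
    ?_ ?_).trans_eq (by rw [sqrt_sq hQ])
  · simp only [norm_sq_coord]
    exact integrable_finsetSum _ fun a _ => (hV a).integrable_sq
  · simp only [norm_sq_coord]
    rw [integral_finsetSum _ fun a _ => (hV a).integrable_sq]
    refine le_trans (le_of_eq ?_) (SFQuad.flow_quad hS hX hder hlaw hR ht htR hN hM0 hM)
    simp only [hint, V, PiLp.sub_apply, WithLp.ofLp_sum, Finset.sum_apply, PiLp.smul_apply,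
      smul_eq_mul]

/-- **The rounds against the flow**, round by round. -/
theorem picard_rec (hS : Score g Φ σ c) (hX : ∀ t, 0 < t → Measurable (X t))
    (hder : ∀ z t, 0 < t → HasDerivAt (fun t => X t z) (g (t, X t z)) t)
    (hlaw : ∀ t, 0 < t → μ.map (X t) = nuT (Φ t)) (hR : Rule r w cν) {τ R : ℝ} (hτ : 0 < τ)
    (hτR : τ ≤ R) {N : ℕ} (hN : 0 < N) {M : ℝ} (hM0 : 0 ≤ M)
    (hM : ∀ u ∈ Set.Icc τ R, u ^ (r + 1) *
      √(∑ a, ∫ x, (mat g)^[r + 1] (gc g a) (u, x) ^ 2 ∂nuT (Φ u)) ≤ M)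
    {n : ℕ} {gh : ℕ → Pt d → Sp d} {Λ : ℝ≥0} {eR : ℝ} {s e : ℕ → ℝ} (hs0 : ∀ j, 0 ≤ s j)
    (heR : 0 ≤ eR) (he : ∀ j, 0 ≤ e j)
    (hlip : ∀ j < n, ∀ u ∈ Set.Icc τ R, LipschitzWith Λ fun x => gh j (u, x))
    (herr : ∀ j < n, ∀ u ∈ Set.Icc τ R,
      eLpNorm (fun z => gh j (u, X u z) - g (u, X u z)) 2 μ ≤ ENNReal.ofReal (s j))
    {S : Ω → Sp d} (hSm : Measurable S)
    (hend : eLpNorm (fun z => S z - X R z) 2 μ ≤ ENNReal.ofReal eR)
    (hstart : ∀ u ∈ Set.Icc τ R, eLpNorm (fun z => S z - X u z) 2 μ ≤ ENNReal.ofReal (e 0))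
    (hrec : ∀ j < n, eR + (1 + ∑ i, |w i|) / (N : ℝ) ^ (r + 1) * R * M +
      R * (∑ i, |w i|) * (Λ * e j + s j) ≤ e (j + 1)) :
    ∀ i ≤ n, ∀ t ∈ Set.Icc τ R,
      eLpNorm (fun z => approx R N w cν gh i t (S z) - X t z) 2 μ ≤ ENNReal.ofReal (e i) := by
  set W := ∑ i, |w i|
  set Q := (1 + W) / (N : ℝ) ^ (r + 1) * R * M with hQ'
  have hR0 : 0 < R := hτ.trans_le hτR
  have hW : 0 ≤ W := sum_nonneg fun _ _ => abs_nonneg _
  have hQ : 0 ≤ Q := by rw [hQ']; positivity
  intro i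
  induction i with
  | zero =>
    intro _ t ht
    exact hstart t ht
  | succ i ih =>
    intro hi t ht
    have ht0 : 0 < t := hτ.trans_le ht.1
    set T := fun p => SFQuad.time t R N cν p
    have hT : ∀ p, T p ∈ Set.Icc τ R := fun p =>
      ⟨ht.1.trans (SFQuad.time_mem hR ht0 ht.2 p).1, (SFQuad.time_mem hR ht0 ht.2 p).2⟩
    set wt := SFQuad.weight t R N w
    have hei := he i
    have hsi := hs0 i
    have hgc : ∀ p, Continuous fun x => g (T p, x) := fun p =>
      (PiLp.continuous_toLp 2 _).comp (continuous_pi fun a =>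
        (SFQuad.tg_slice hS a 0 (hτ.trans_le (hT p).1)).1.continuous)
    have hXp : ∀ p, Measurable (X (T p)) := fun p => hX _ (hτ.trans_le (hT p).1)
    have hA : ∀ p, Measurable fun z => approx R N w cν gh i (T p) (S z) := fun p =>
      (continuous_approx hR hτ i (fun j hj u hu =>
        (hlip j (hj.trans_le (Nat.le_of_succ_le hi)) u hu).continuous) _ (hT p)).measurable.comp hSm
    set D : _ → Ω → Sp d := fun p z =>
      wt p • (g (T p, X (T p) z) - gh i (T p, approx R N w cν gh i (T p) (S z)))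
    set V : Ω → Sp d := fun z => X R z - X t z - ∑ p, wt p • g (T p, X (T p) z)
    have hgm : ∀ p, Measurable fun z => g (T p, X (T p) z) := fun p =>
      (hgc p).measurable.comp (hXp p)
    have hghm : ∀ p, Measurable fun z => gh i (T p, approx R N w cν gh i (T p) (S z)) := fun p =>
      (hlip i hi _ (hT p)).continuous.measurable.comp (hA p)
    have hDm : ∀ p, AEStronglyMeasurable (D p) μ := fun p =>
      (((hgm p).sub (hghm p)).const_smul (wt p)).aestronglyMeasurable
    have hVm : AEStronglyMeasurable V μ :=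
      (((hX R hR0).sub (hX t ht0)).sub (Finset.measurable_sum _ fun p _ =>
        (hgm p).const_smul (wt p))).aestronglyMeasurable
    have e1 : (fun z => approx R N w cν gh (i + 1) t (S z) - X t z) =
        (fun z => S z - X R z) + V + ∑ p, D p := by
      funext z
      simp only [approx, V, D, Pi.add_apply, Finset.sum_apply, smul_sub, sum_sub_distrib, wt, T]
      abel
    have hD : ∀ p, eLpNorm (D p) 2 μ ≤ ENNReal.ofReal (|wt p| * (Λ * e i + s i)) := fun p => by
      rw [show D p = wt p • fun z =>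
        g (T p, X (T p) z) - gh i (T p, approx R N w cν gh i (T p) (S z)) from rfl,
        eLpNorm_const_smul, ENNReal.ofReal_mul (abs_nonneg _), ← ofReal_norm, norm_eq_abs]
      refine mul_le_mul_right ?_ _
      rw [show (fun z => g (T p, X (T p) z) - gh i (T p, approx R N w cν gh i (T p) (S z))) =
          (fun z => g (T p, X (T p) z) - gh i (T p, X (T p) z)) +
            fun z => gh i (T p, X (T p) z) - gh i (T p, approx R N w cν gh i (T p) (S z)) by
        funext z; simp]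
      refine (eLpNorm_add_le ((hgm p).sub ((hlip i hi _ (hT p)).continuous.measurable.comp
        (hXp p))).aestronglyMeasurable (((hlip i hi _ (hT p)).continuous.measurable.comp
        (hXp p)).sub (hghm p)).aestronglyMeasurable one_le_two).trans ?_
      rw [add_comm (Λ * e i : ℝ), ENNReal.ofReal_add hsi (by positivity)]
      refine add_le_add ?_ ?_
      · refine le_of_eq_of_le ?_ (herr i hi _ (hT p))
        exact eLpNorm_congr_norm_ae (ae_of_all _ fun z => norm_sub_rev _ _)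
      · refine (eLpNorm_le_mul_eLpNorm_of_ae_le_mul (c := (Λ : ℝ))
          (ae_of_all _ fun z => (hlip i hi _ (hT p)).norm_sub_le _ _) 2).trans ?_
        rw [ENNReal.ofReal_mul Λ.coe_nonneg]
        refine mul_le_mul_right (le_of_eq_of_le ?_ (ih (Nat.le_of_succ_le hi) _ (hT p))) _
        exact eLpNorm_congr_norm_ae (ae_of_all _ fun z => norm_sub_rev _ _)
    have hwt : ∑ p, |wt p| ≤ R * W := by
      simp only [wt, SFQuad.weight, abs_mul, abs_of_pos hR0, ← mul_sum]
      rw [CompQuad.sum_abs_wgt (sub_nonneg.2 ((div_le_one hR0).2 ht.2))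
        (sub_lt_self 1 (div_pos ht0 hR0)) hN]
      exact mul_le_mul_of_nonneg_left
        (mul_le_of_le_one_left hW (sub_le_self 1 (div_nonneg ht0.le hR0.le))) hR0.le
    have hV := eLpNorm_quad hS hX hder hlaw hR ht0 ht.2 hN hM0
      fun u hu => hM u ⟨ht.1.trans hu.1, hu.2⟩
    have h1 : AEStronglyMeasurable (fun z => S z - X R z) μ :=
      (hSm.sub (hX R hR0)).aestronglyMeasurable
    rw [e1]
    refine (eLpNorm_add_le (h1.add hVm) (Finset.aestronglyMeasurable_sum _ fun p _ => hDm p)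
      one_le_two).trans ((add_le_add ((eLpNorm_add_le h1 hVm one_le_two).trans
        (add_le_add hend hV)) ((eLpNorm_sum_le (fun p _ => hDm p) one_le_two).trans
          (sum_le_sum fun p _ => hD p))).trans ?_)
    rw [← ENNReal.ofReal_sum_of_nonneg fun p _ => by positivity, ← sum_mul,
      ← ENNReal.ofReal_add heR hQ, ← ENNReal.ofReal_add (by positivity) (by positivity)]
    refine ENNReal.ofReal_le_ofReal (le_trans ?_ (hrec i hi))
    linarith [mul_le_mul_of_nonneg_right hwt (show 0 ≤ Λ * e i + s i by positivity)]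

/-- **The rounds against the flow.** -/
theorem picard (hS : Score g Φ σ c) (hX : ∀ t, 0 < t → Measurable (X t))
    (hder : ∀ z t, 0 < t → HasDerivAt (fun t => X t z) (g (t, X t z)) t)
    (hlaw : ∀ t, 0 < t → μ.map (X t) = nuT (Φ t)) (hR : Rule r w cν) {τ R : ℝ} (hτ : 0 < τ)
    (hτR : τ ≤ R) {N : ℕ} (hN : 0 < N) {M : ℝ} (hM0 : 0 ≤ M)
    (hM : ∀ u ∈ Set.Icc τ R, u ^ (r + 1) *
      √(∑ a, ∫ x, (mat g)^[r + 1] (gc g a) (u, x) ^ 2 ∂nuT (Φ u)) ≤ M)
    {n : ℕ} {gh : ℕ → Pt d → Sp d} {Λ : ℝ≥0} {s E₀ eR : ℝ} (hs0 : 0 ≤ s) (hE₀ : 0 ≤ E₀)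
    (heR : 0 ≤ eR) (hlip : ∀ j < n, ∀ u ∈ Set.Icc τ R, LipschitzWith Λ fun x => gh j (u, x))
    (herr : ∀ j < n, ∀ u ∈ Set.Icc τ R,
      eLpNorm (fun z => gh j (u, X u z) - g (u, X u z)) 2 μ ≤ ENNReal.ofReal s)
    {S : Ω → Sp d} (hSm : Measurable S)
    (hend : eLpNorm (fun z => S z - X R z) 2 μ ≤ ENNReal.ofReal eR)
    (hstart : ∀ u ∈ Set.Icc τ R, eLpNorm (fun z => S z - X u z) 2 μ ≤ ENNReal.ofReal E₀)
    (hsmall : R * (∑ i, |w i|) * Λ ≤ 1 / 2) :
    ∀ i ≤ n, ∀ t ∈ Set.Icc τ R,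
      eLpNorm (fun z => approx R N w cν gh i t (S z) - X t z) 2 μ ≤
        ENNReal.ofReal ((R * (∑ i, |w i|) * Λ) ^ i * E₀ +
          2 * (eR + (1 + ∑ i, |w i|) / (N : ℝ) ^ (r + 1) * R * M + R * (∑ i, |w i|) * s)) := by
  set W := ∑ i, |w i|
  have hR0 : 0 < R := hτ.trans_le hτR
  have hW : 0 ≤ W := sum_nonneg fun _ _ => abs_nonneg _
  set Q := (1 + W) / (N : ℝ) ^ (r + 1) * R * M with hQ'
  set P := eR + Q + R * W * s with hP'
  have hP : 0 ≤ P := by rw [hP', hQ']; positivity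
  refine picard_rec (s := fun _ => s) (e := fun j => (R * W * Λ) ^ j * E₀ + 2 * P) hS hX hder hlaw
    hR hτ hτR hN hM0 hM (fun _ => hs0) heR (fun j => by positivity) hlip herr hSm hend
    (fun u hu => (hstart u hu).trans (ENNReal.ofReal_le_ofReal (by
      simp only [pow_zero, one_mul]; linarith))) fun j _ => ?_
  have h3 : R * W * Λ * P ≤ 1 / 2 * P := mul_le_mul_of_nonneg_right hsmall hP
  have h4 : R * W * (Λ * ((R * W * Λ) ^ j * E₀ + 2 * P) + s) =
      (R * W * Λ) ^ (j + 1) * E₀ + 2 * (R * W * Λ * P) + R * W * s := by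
    simp only [pow_succ]; ring
  linarith

end Vale.Agent.P347.Shift.SFPicard
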