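import Vale.Agent.P347.Shift.Score

/-!
# P347: the score against the smoothed target

The localisation kernel is the tilt seen from `x`: `z = v x + b w` turns the Gaussian law of `w`
into the kernel at `(σ, a x)`. So `score W (t, x) = v E G (v x + b w)` under the tilt of `w`, and the
moving law is `gibbs (smPot v W)`.
-/

open Real Finset MeasureTheory ProbabilityTheory
open scoped RealInnerProductSpace

namespace Vale.Agent.P347.Shift

open Quarter

namespace TiltFlow

variable {d : ℕ} {W : Sp d → ℝ} {G : Sp d → Sp d} {H : Sp d → Sp d →L[ℝ] Sp d} {η t : ℝ}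

/-- The change of variable `z = v x + b w`. -/
lemma slice_integral (ht : 0 < t) (φ : Sp d → ℝ) (x : Sp d) :
    ∫ w, φ (vT t • x + bT t • w) ∂gd d =
      (bT t ^ d)⁻¹ * exp (-(sT t / 2 * ‖x‖ ^ 2)) *
        ∫ z, exp (⟪aT t • x, z⟫ - sT t / 2 * ‖z‖ ^ 2) * φ z ∂gd d := by
  have hb := bT_pos ht
  set h : Sp d → ℝ := fun z => gdensity ((bT t)⁻¹ • (z - vT t • x)) * φ z with hh
  have e : ∀ w : Sp d, gdensity w * φ (vT t • x + bT t • w) = h (vT t • x + bT t • w) := fun w => by
    rw [hh]
    beta_reduce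
    rw [add_sub_cancel_left, smul_smul, inv_mul_cancel₀ hb.ne', one_smul]
  have hq : (bT t)⁻¹ ^ 2 = 1 + sT t := by
    rw [inv_pow, bT_sq ht, one_add_sT ht]
  have hav : (bT t)⁻¹ ^ 2 * vT t = aT t := by
    rw [inv_pow, bT_sq ht, aT, mul_comm]
  have e2 : ∀ z, h z = exp (-(sT t / 2 * ‖x‖ ^ 2)) *
      (gdensity z * (exp (⟪aT t • x, z⟫ - sT t / 2 * ‖z‖ ^ 2) * φ z)) := fun z => by
    have k : exp (-(1 / 2) * ‖(bT t)⁻¹ • (z - vT t • x)‖ ^ 2) =
        exp (-(sT t / 2 * ‖x‖ ^ 2)) * (exp (-(1 / 2) * ‖z‖ ^ 2) *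
          exp (⟪aT t • x, z⟫ - sT t / 2 * ‖z‖ ^ 2)) := by
      rw [← exp_add, ← exp_add, norm_smul, norm_eq_abs, mul_pow, sq_abs, norm_sub_sq_real,
        norm_smul, norm_eq_abs, mul_pow, sq_abs, inner_smul_right, inner_smul_left,
        real_inner_comm z, RCLike.conj_to_real]
      congr 1
      have hs : sT t = vT t * aT t := rfl
      have hc : ⟪z, x⟫ = ⟪x, z⟫ := real_inner_comm x z
      linear_combination (-(1 / 2) * ‖z‖ ^ 2) * hq + ((bT t)⁻¹ ^ 2 * vT t - aT t) * hc +
        (⟪x, z⟫ - 1 / 2 * vT t * ‖x‖ ^ 2) * hav + (1 / 2 * ‖x‖ ^ 2) * hs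
    simp only [hh, gdensity, k]
    ring
  rw [integral_gam, funext e, Measure.integral_comp_smul volume (fun w => h (vT t • x + w)) (bT t),
    integral_add_left_eq_self h (vT t • x), funext e2, integral_const_mul, integral_gam,
    finrank_euclideanSpace_fin, abs_of_pos (inv_pos.2 (pow_pos hb d)), smul_eq_mul, mul_assoc]

/-- The tilt seen from `x`. -/
theorem integral_slice (hW : IsPot W G H 0 η) (ht : 0 < t) (f : Sp d → ℝ) (x : Sp d) :
    ∫ w, f (vT t • x + bT t • w) ∂gibbs (fun w => W (vT t • x + bT t • w)) =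
      tiltMean (Kernel.Wq W (sT t)) f (aT t • x) := by
  have hb := bT_pos ht
  have hP := Kernel.Z_one_pos hW (q := (sT t, aT t • x)) (sT_pos ht)
  have k : ∀ φ : Sp d → ℝ, ∫ w, exp (-W (vT t • x + bT t • w)) * φ (vT t • x + bT t • w) ∂gd d =
      (bT t ^ d)⁻¹ * exp (-(sT t / 2 * ‖x‖ ^ 2)) *
        Appell.Zt (Kernel.Wq W (sT t)) φ (aT t • x) := fun φ => by
    rw [slice_integral ht (fun z => exp (-W z) * φ z) x, Appell.Zt]
    congr 1
    refine integral_congr_ae (ae_of_all _ fun z => ?_)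
    simp only [Kernel.Wq]
    rw [← mul_assoc, ← exp_add]
    ring_nf
  rw [tiltMean, Appell.integral_tilt, gibbs, integral_tilted]
  simp only [smul_eq_mul, div_mul_eq_mul_div]
  rw [integral_div, k, show (fun w => exp (-W (vT t • x + bT t • w))) =
    fun w => exp (-W (vT t • x + bT t • w)) * (fun _ => (1 : ℝ)) (vT t • x + bT t • w) from
    funext fun w => (mul_one _).symm, k (fun _ => 1), mul_div_mul_left]
  positivity

/-- The score is `v` times the mean of `G` under the tilt seen from `x`. -/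
theorem score_eq (hW : IsPot W G H 0 η) (hη : 0 ≤ η) (ht : 0 < t) (x : Sp d) :
    score W (t, x) =
      vT t • ∫ w, G (vT t • x + bT t • w) ∂gibbs (fun w => W (vT t • x + bT t • w)) := by
  have hb := bT_pos ht
  have hS := hW.slice (κ := vT t) hb.le (bT_le t) x
  have hi : Integrable (fun w => G (vT t • x + bT t • w))
      (gibbs fun w => W (vT t • x + bT t • w)) :=
    hS.integrable_gibbs_of_le le_rfl (hW.continuous_grad.comp (by fun_prop))
      (C := (‖G 0‖ + |η| * (‖x‖ + 1))) (K := 1) fun w => by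
      rw [one_mul]
      exact hW.grad_comp_le (vT_pos t).le (vT_lt ht).le hb.le (bT_le t) le_rfl
  refine ext_inner_left ℝ fun u => ?_
  rw [inner_score_eq hW hη ht u x, inner_smul_right, ← integral_inner hi u,
    ← integral_slice hW ht (fun z => ⟪u, G z⟫) x]

/-- The potential of the moving law is that of the smoothed target, up to a constant. -/
theorem smPot_eq_pot (hW : IsPot W G H 0 η) (ht : 0 < t) (x : Sp d) :
    smPot (vT t) W x = pot W t x + log (bT t ^ d) := by
  have hb := bT_pos ht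
  have hP := Kernel.Z_one_pos hW (q := (sT t, aT t • x)) (sT_pos ht)
  rw [smPot, pv, smth, show √(1 - vT t ^ 2) = bT t from rfl, slice_integral ht (fun z => exp (-W z))]
  rw [pot, show ∫ z, exp (⟪aT t • x, z⟫ - sT t / 2 * ‖z‖ ^ 2) * exp (-W z) ∂gd d =
    Kernel.Z W (fun _ => 1) (sT t, aT t • x) from by
      simp only [Kernel.Z, Appell.Zt, Kernel.Wq, mul_one, ← exp_add]
      refine integral_congr_ae (ae_of_all _ fun z => ?_)
      beta_reduce
      congr 1
      ring, log_mul (by positivity) hP.ne', log_mul (by positivity) (by positivity),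
    log_exp, log_inv]
  ring

/-- The moving law. -/
theorem gibbs_smPot_eq (hW : IsPot W G H 0 η) (ht : 0 < t) :
    gibbs (smPot (vT t) W) = nuT (pot W t) := by
  rw [gibbs, nuT, show (fun x : Sp d => -smPot (vT t) W x) =
    fun x => -pot W t x + -log (bT t ^ d) from funext fun x => by rw [smPot_eq_pot hW ht]; ring]
  simp only [Measure.tilted]
  congr 1
  funext x
  simp only [exp_add, integral_mul_const]
  rw [mul_div_mul_right _ _ (exp_pos _).ne']

end TiltFlow

end Vale.Agent.P347.Shift
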