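import Vale.Agent.P347.Shift.ScoreBound
import Vale.Agent.P347.Shift.ScoreLink

/-!
# P347: the probability flow of a tilt at an observation

For `c : Sp d` and a scale `b ∈ [0, 1]` the tilt `w ↦ W (c + b w)` has smoothness `b² η`. Its score
at `(t, x)` is `b v` times the tilted mean of `G` at centre `c + b v x` and scale `b √(1 - v²)`, and
all its material derivatives are at most `b^{-2r}` (in time) times `v b (‖G c‖ + η √d)`.
-/

open Real Finset MeasureTheory ProbabilityTheory
open scoped RealInnerProductSpace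

namespace Vale.Agent.P347.Shift

open Quarter Fields

namespace TiltFlow

variable {d : ℕ} {W : Sp d → ℝ} {G : Sp d → Sp d} {H : Sp d → Sp d →L[ℝ] Sp d} {η b t : ℝ}

/-- The tilt at centre `c` and scale `b`. -/
theorem isPot_slice (hW : IsPot W G H 0 η) (hb : 0 ≤ b) (hb1 : b ≤ 1) (c : Sp d) :
    IsPot (fun w => W (c + b • w)) (fun w => b • G (c + b • w))
      (fun w => b ^ 2 • H (c + b • w)) 0 (b ^ 2 * η) := by
  have h := hW.slice (κ := 1) hb hb1 c
  simp only [one_smul] at h
  exact { h with
    hiHess := fun w v => by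
      simp only [smul_apply, inner_smul_left, RCLike.conj_to_real]
      rw [mul_assoc]
      exact mul_le_mul_of_nonneg_left (hW.hiHess _ v) (sq_nonneg b) }

/-- The score of the tilt at an observation is a tilted mean of `G` itself. -/
theorem score_slice (hW : IsPot W G H 0 η) (hη : 0 ≤ η) (hb : 0 ≤ b) (hb1 : b ≤ 1) (ht : 0 < t)
    (c x : Sp d) :
    score (fun w => W (c + b • w)) (t, x) =
      (b * vT t) • ∫ w, G (c + (b * vT t) • x + (b * bT t) • w)
        ∂gibbs fun w => W (c + (b * vT t) • x + (b * bT t) • w) := by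
  rw [score_eq (isPot_slice hW hb hb1 c) (mul_nonneg (sq_nonneg b) hη) ht x]
  simp only [smul_add, smul_smul, ← add_assoc, integral_smul]
  rw [mul_comm (vT t) b]

/-- Material derivatives of the score of the tilt at an observation. -/
theorem material_slice_le (hW : IsPot W G H 0 η) (hη : 0 ≤ η) (hη2 : η ≤ 1 / 2) (hb : 0 ≤ b)
    (hb1 : b ≤ 1) (ht : 0 < t) (c : Sp d) (r : ℕ) :
    √(∑ k, ∫ x, (mat (score fun w => W (c + b • w)))^[r]
        (gc (score fun w => W (c + b • w)) k) (t, x) ^ 2
          ∂nuT (TiltFlow.pot (fun w => W (c + b • w)) t)) ≤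
      matC r * (bT t)⁻¹ ^ (2 * r) * vT t * (b * (‖G c‖ + η * √d)) := by
  have hb2 : b ^ 2 * η ≤ η := mul_le_of_le_one_left hη (pow_le_one₀ hb hb1)
  refine (material_le (isPot_slice hW hb hb1 c) (mul_nonneg (sq_nonneg b) hη) ht
    (hb2.trans hη2) r).trans (mul_le_mul_of_nonneg_left ?_ ?_)
  · simp only [smul_zero, add_zero, norm_smul, Real.norm_eq_abs, abs_of_nonneg hb]
    rw [mul_add, ← mul_assoc b η]
    gcongr
    nlinarith
  · have hS := isScore hW hη
    have hC : 0 ≤ matC r := by
      refine mul_nonneg (mul_nonneg ?_ ?_) (by positivity)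
      · exact zero_le_one.trans (Material.gC_mono (sys hS ht) (Nat.zero_le r))
      · exact zero_le_one.trans (one_le_lam (fun m => Nat.cast_nonneg _) _)
    have := bT_pos ht
    have := vT_pos t
    positivity

end TiltFlow

end Vale.Agent.P347.Shift
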