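import Vale.Agent.P347.Shift.FlowMap
import Vale.Agent.P347.Shift.ScoreSlice
import Vale.Agent.P347.Shift.SFPicard
import Vale.Agent.P347.Shift.TiltField
import Mathlib.Analysis.Complex.Exponential

/-!
# P347: the exact probability flow of the tilt at an observation

Let `Y` be a flow of the velocity: `Y 0` is the identity, `d/dv Y v = -uvel (v, Y v)` and `Y v`
carries the Gaussian law to that of `v X + √(1 - v²) Z`. With `X t = Y (e^{-t})` it solves the
equation of the score, has the moving law, moves in mean square at most like `e^{-t}`, and the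
material derivatives of the score along it meet the hypothesis of `SFQuad` and `SFPicard` with a
bound that depends on neither end of the time interval.
-/

open MeasureTheory ProbabilityTheory Real Filter Topology Finset
open scoped RealInnerProductSpace ENNReal

namespace Vale.Agent.P347.Shift

open Quarter Fields FlowLaw

namespace SFFlow

open TiltFlow

variable {d : ℕ} {W : Sp d → ℝ} {G : Sp d → Sp d} {H : Sp d → Sp d →L[ℝ] Sp d} {η b t : ℝ}
  {Y : ℝ → Sp d → Sp d}

/-- A flow of the velocity of `W`. -/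
structure IsFlowV (W : Sp d → ℝ) (G : Sp d → Sp d) (Y : ℝ → Sp d → Sp d) : Prop where
  zero : ∀ z, Y 0 z = z
  cont : Continuous fun p : ℝ × Sp d => Y p.1 p.2
  deriv : ∀ z, ∀ v ∈ Set.Ioo (0:ℝ) 1, HasDerivAt (fun v => Y v z) (-(uvel W G v (Y v z))) v
  law : ∀ v ∈ Set.Icc (0:ℝ) 1, (gd d).map (Y v) = (pairLaw W).map (interpPt v)

/-- The flow in the time of the Ornstein-Uhlenbeck semigroup. -/
noncomputable def timed (Y : ℝ → Sp d → Sp d) (t : ℝ) : Sp d → Sp d := Y (vT t)

lemma vT_mem (ht : 0 ≤ t) : vT t ∈ Set.Icc (0:ℝ) 1 :=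
  ⟨(vT_pos t).le, exp_le_one_iff.2 (neg_nonpos.2 ht)⟩

lemma score_eq_uvel (hW : IsPot W G H 0 η) (hη : 0 ≤ η) (ht : 0 < t) (x : Sp d) :
    score W (t, x) = vT t • uvel W G (vT t) x :=
  score_eq hW hη ht x

namespace IsFlowV

lemma measurable (hY : IsFlowV W G Y) (v : ℝ) : Measurable (Y v) :=
  (hY.cont.comp (Continuous.prodMk_right v)).measurable

/-- The flow solves the equation of the score. -/
theorem hasDerivAt_timed (hW : IsPot W G H 0 η) (hη : 0 ≤ η) (hY : IsFlowV W G Y) (z : Sp d)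
    (ht : 0 < t) : HasDerivAt (fun t => timed Y t z) (score W (t, timed Y t z)) t := by
  have h1 : HasDerivAt vT (-vT t) t := by
    simpa [vT] using (show HasDerivAt vT (exp (-t) * -1) t from (hasDerivAt_neg t).exp)
  have h2 := (hY.deriv z (vT t) ⟨vT_pos t, vT_lt ht⟩).scomp t h1
  simp only [timed, score_eq_uvel hW hη ht]
  exact h2.congr_deriv (by rw [neg_smul, smul_neg, neg_neg])

/-- The flow has the moving law. -/
theorem map_timed (hW : IsPot W G H 0 η) (hη2 : η ≤ 1 / 2) (hY : IsFlowV W G Y) (ht : 0 < t) :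
    (gd d).map (timed Y t) = nuT (TiltFlow.pot W t) := by
  obtain ⟨-, -, -, -, h⟩ := smPot_spec hW hη2 (vT_pos t) (vT_lt ht).le
  rw [timed, hY.law _ (vT_mem ht.le), ← gibbs_smPot_eq hW ht]
  exact h

/-- The flow ends at the target. -/
theorem map_one (hW : IsPot W G H 0 η) (hY : IsFlowV W G Y) :
    (gd d).map (Y 1) = gibbs W := by
  have := isProb_gibbs hW le_rfl
  have e : interpPt (d := d) 1 = Prod.fst := funext fun p => by simp [interpPt]
  rw [hY.law 1 ⟨zero_le_one, le_rfl⟩, e, pairLaw, Measure.map_fst_prod]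
  simp

/-- The velocity is at most `7 (‖G 0‖ + η √d)` in mean square along the flow. -/
theorem lintegral_uvel_sq_le (hW : IsPot W G H 0 η) (hη : 0 ≤ η) (hη2 : η ≤ 1 / 2)
    (hY : IsFlowV W G Y) {v : ℝ} (hv : v ∈ Set.Ioo (0:ℝ) 1) :
    ∫⁻ z, ENNReal.ofReal (‖uvel W G v (Y v z)‖ ^ 2) ∂gd d ≤
      ENNReal.ofReal ((7 * (‖G 0‖ + η * √d)) ^ 2) := by
  have ht : 0 < -log v := neg_pos.2 (log_neg hv.1 hv.2)
  have hvt : vT (-log v) = v := by rw [vT, neg_neg, exp_log hv.1]
  have hp := tiltPot_pot hW hη ht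
  have hP := isPot_pot hW hη ht
  have hu : Continuous fun x => uvel W G v x := continuous_uvel_right hW v
  have key : ∀ x, ‖uvel W G v x‖ ^ 2 = (v ^ 2)⁻¹ * ∑ k, score W (-log v, x) k ^ 2 := fun x => by
    rw [← SFPicard.norm_sq_coord, score_eq_uvel hW hη ht, hvt, norm_smul, mul_pow,
      Real.norm_eq_abs, sq_abs, ← mul_assoc, inv_mul_cancel₀ (pow_ne_zero 2 hv.1.ne'), one_mul]
  have hk : ∀ k, Integrable (fun x => score W (-log v, x) k ^ 2)
      (nuT (TiltFlow.pot W (-log v))) := fun k =>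
    integrable_nuT hp ((SFQuad.tg_slice (isScore hW hη) k 0 ht).fun_pow 2)
  have hi : Integrable (fun x => ∑ k, score W (-log v, x) k ^ 2) (nuT (TiltFlow.pot W (-log v))) :=
    integrable_finsetSum _ fun k _ => hk k
  rw [← lintegral_map (f := fun x => ENNReal.ofReal (‖uvel W G v x‖ ^ 2))
      (hu.norm.pow 2).measurable.ennreal_ofReal (hY.measurable v),
    show Y v = timed Y (-log v) by rw [timed, hvt], map_timed hW hη2 hY ht]
  simp only [key]
  rw [← ofReal_integral_eq_lintegral_ofReal (hi.const_mul _)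
    (ae_of_all _ fun x => by positivity), integral_const_mul,
    integral_finsetSum _ fun k _ => hk k]
  refine ENNReal.ofReal_le_ofReal ?_
  have h := integral_score_sq hW hη ht hη2
  rw [hvt] at h
  refine (mul_le_mul_of_nonneg_left h (by positivity)).trans_eq ?_
  rw [mul_assoc, mul_left_comm, mul_pow v, ← mul_assoc, inv_mul_cancel₀ (pow_ne_zero 2 hv.1.ne'),
    one_mul]

/-- Cauchy-Schwarz on an interval. -/
lemma sq_setIntegral_le {f : ℝ → ℝ} (hf : Continuous f) {u v : ℝ} (huv : u ≤ v) :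
    (∫ s in Set.Ioc u v, f s) ^ 2 ≤ (v - u) * ∫ s in Set.Ioc u v, f s ^ 2 := by
  rcases huv.eq_or_lt with rfl | hlt
  · simp
  set A := ∫ s in Set.Ioc u v, f s
  set c := A / (v - u)
  have i1 : IntegrableOn (fun s => f s ^ 2) (Set.Ioc u v) := (hf.pow 2).integrableOn_Ioc
  have i2 : IntegrableOn (fun s => 2 * c * f s) (Set.Ioc u v) :=
    (continuous_const.mul hf).integrableOn_Ioc
  have i3 : IntegrableOn (fun _ => c ^ 2) (Set.Ioc u v) := continuous_const.integrableOn_Ioc
  have h0 : 0 ≤ ∫ s in Set.Ioc u v, (f s ^ 2 - 2 * c * f s) + c ^ 2 :=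
    integral_nonneg fun s => by
      show 0 ≤ f s ^ 2 - 2 * c * f s + c ^ 2
      nlinarith [sq_nonneg (f s - c)]
  have i12 : IntegrableOn (fun s => f s ^ 2 - 2 * c * f s) (Set.Ioc u v) := i1.sub i2
  rw [integral_add i12 i3, integral_sub i1 i2, integral_const_mul, setIntegral_const,
    Real.volume_real_Ioc_of_le huv, smul_eq_mul] at h0
  have e : (v - u) * c = A := mul_div_cancel₀ A (sub_ne_zero.2 hlt.ne')
  nlinarith [mul_le_mul_of_nonneg_left h0 (sub_nonneg.2 huv)]

/-- The squared increment against the squared velocity. -/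
lemma ofReal_sub_sq_le (hW : IsPot W G H 0 η) (hY : IsFlowV W G Y) {u v : ℝ} (hu : 0 ≤ u)
    (huv : u ≤ v) (hv : v ≤ 1) (z : Sp d) :
    ENNReal.ofReal (‖Y v z - Y u z‖ ^ 2) ≤
      ENNReal.ofReal (v - u) * ∫⁻ s in Set.Ioc u v, ENNReal.ofReal (‖uvel W G s (Y s z)‖ ^ 2) := by
  have hcY : Continuous fun s => Y s z :=
    Continuous.comp (g := fun p : ℝ × Sp d => Y p.1 p.2) (f := fun s : ℝ => (s, z)) hY.cont
      (continuous_id.prodMk continuous_const)
  have hc : Continuous fun s => uvel W G s (Y s z) :=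
    Continuous.comp (g := fun q : ℝ × Sp d => uvel W G q.1 q.2)
      (f := fun s : ℝ => (s, Y s z)) (continuous_uvel hW) (continuous_id.prodMk hcY)
  have hint : ∫ s in u..v, -(uvel W G s (Y s z)) = Y v z - Y u z :=
    intervalIntegral.integral_eq_sub_of_hasDerivAt_of_le huv hcY.continuousOn
      (fun s hs => hY.deriv z s ⟨hu.trans_lt hs.1, hs.2.trans_le hv⟩)
      (hc.neg.intervalIntegrable u v)
  have h1 : ‖Y v z - Y u z‖ ≤ ∫ s in Set.Ioc u v, ‖uvel W G s (Y s z)‖ := by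
    rw [← hint, ← intervalIntegral.integral_of_le huv]
    exact (intervalIntegral.norm_integral_le_integral_norm huv).trans_eq (by simp only [norm_neg])
  have hsq : Continuous fun s => ‖uvel W G s (Y s z)‖ ^ 2 := hc.norm.pow 2
  rw [← ofReal_integral_eq_lintegral_ofReal hsq.integrableOn_Ioc
      (ae_of_all _ fun s => sq_nonneg _), ← ENNReal.ofReal_mul (sub_nonneg.2 huv)]
  exact ENNReal.ofReal_le_ofReal
    ((pow_le_pow_left₀ (norm_nonneg _) h1 2).trans (sq_setIntegral_le hc.norm huv))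

/-- **The flow moves in mean square at most like its parameter.** -/
theorem eLpNorm_sub_le (hW : IsPot W G H 0 η) (hη : 0 ≤ η) (hη2 : η ≤ 1 / 2)
    (hY : IsFlowV W G Y) {u v : ℝ} (hu : 0 ≤ u) (huv : u ≤ v) (hv : v ≤ 1) :
    eLpNorm (fun z => Y v z - Y u z) 2 (gd d) ≤
      ENNReal.ofReal ((v - u) * (7 * (‖G 0‖ + η * √d))) := by
  set M := 7 * (‖G 0‖ + η * √d)
  have hM : 0 ≤ M := by positivity
  have hw : Continuous fun p : Sp d × ℝ => uvel W G p.2 (Y p.2 p.1) :=
    Continuous.comp (g := fun q : ℝ × Sp d => uvel W G q.1 q.2)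
      (f := fun p : Sp d × ℝ => (p.2, Y p.2 p.1)) (continuous_uvel hW)
      (continuous_snd.prodMk (Continuous.comp (g := fun p : ℝ × Sp d => Y p.1 p.2)
        (f := fun p : Sp d × ℝ => (p.2, p.1)) hY.cont (continuous_snd.prodMk continuous_fst)))
  have hmeas : Measurable (Function.uncurry fun z s =>
      ENNReal.ofReal (‖uvel W G s (Y s z)‖ ^ 2)) := (hw.norm.pow 2).measurable.ennreal_ofReal
  have hin : ∫⁻ z, (∫⁻ s in Set.Ioc u v, ENNReal.ofReal (‖uvel W G s (Y s z)‖ ^ 2)) ∂gd d ≤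
      ENNReal.ofReal (M ^ 2) * ENNReal.ofReal (v - u) := by
    rw [lintegral_lintegral_swap hmeas.aemeasurable]
    refine (lintegral_mono_ae (g := fun _ => ENNReal.ofReal (M ^ 2)) ?_).trans_eq
      (by rw [setLIntegral_const, Real.volume_Ioc])
    filter_upwards [ae_restrict_of_ae (Measure.ae_ne volume (1:ℝ)),
      ae_restrict_mem measurableSet_Ioc] with s hs1 hs
    exact lintegral_uvel_sq_le hW hη hη2 hY
      ⟨hu.trans_lt hs.1, lt_of_le_of_ne (hs.2.trans hv) hs1⟩
  have h2 : ∫⁻ z, ENNReal.ofReal (‖Y v z - Y u z‖ ^ 2) ∂gd d ≤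
      ENNReal.ofReal (((v - u) * M) ^ 2) := by
    refine (lintegral_mono (ofReal_sub_sq_le hW hY hu huv hv)).trans ?_
    rw [lintegral_const_mul' _ _ ENNReal.ofReal_ne_top]
    refine (mul_le_mul_right hin _).trans_eq ?_
    rw [← ENNReal.ofReal_mul (sq_nonneg _), ← ENNReal.ofReal_mul (sub_nonneg.2 huv)]
    congr 1
    ring
  rw [eLpNorm_eq_lintegral_rpow_enorm_toReal two_ne_zero ENNReal.ofNat_ne_top, ENNReal.toReal_ofNat]
  have e : ∀ z, ‖Y v z - Y u z‖ₑ ^ (2:ℝ) = ENNReal.ofReal (‖Y v z - Y u z‖ ^ 2) := fun z => by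
    rw [← ofReal_norm, ENNReal.ofReal_rpow_of_nonneg (norm_nonneg _) zero_le_two, rpow_two]
  simp only [e]
  refine (ENNReal.rpow_le_rpow h2 (by norm_num)).trans_eq ?_
  rw [ENNReal.ofReal_rpow_of_nonneg (sq_nonneg _) (by norm_num), ← sqrt_eq_rpow,
    sqrt_sq (mul_nonneg (sub_nonneg.2 huv) hM)]

end IsFlowV

/-- A power of time against the noise level and the clean weight. -/
lemma time_weight_le (ht : 0 < t) (k : ℕ) :
    t ^ k * (bT t)⁻¹ ^ (2 * k) * vT t ≤ 2 * k.factorial := by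
  have hb := bT_sq ht
  have h1 : t / bT t ^ 2 ≤ t + 1 / 2 := by
    rw [div_le_iff₀ (by rw [hb]; exact one_sub_pos ht), hb]
    have h := add_one_le_exp (2 * t)
    have e : vT t ^ 2 * exp (2 * t) = 1 := by
      rw [vT, ← exp_nat_mul, ← exp_add]; simp
    nlinarith [mul_le_mul_of_nonneg_left h (sq_nonneg (vT t)), sq_nonneg (vT t)]
  rw [pow_mul, inv_pow, ← mul_pow, ← div_eq_mul_inv]
  refine (mul_le_mul_of_nonneg_right (pow_le_pow_left₀ (by positivity) h1 k)
    (vT_pos t).le).trans ?_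
  have h2 := Real.pow_div_factorial_le_exp (t + 1 / 2) (by positivity) k
  rw [div_le_iff₀ (by positivity)] at h2
  refine (mul_le_mul_of_nonneg_right h2 (vT_pos t).le).trans ?_
  rw [vT, mul_right_comm, ← exp_add, show t + 1 / 2 + -t = (1:ℝ) / 2 by ring]
  refine mul_le_mul_of_nonneg_right ?_ (Nat.cast_nonneg _)
  have := Real.exp_bound_div_one_sub_of_interval (x := 1 / 2) (by norm_num) (by norm_num)
  linarith

/-- The constant of the material bound. -/
noncomputable def matM (r : ℕ) : ℝ := 2 * (r + 1).factorial * matC (r + 1)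

lemma matC_nonneg (r : ℕ) : 0 ≤ matC r := by
  have hW : IsPot (d := 0) (fun _ => 0) (fun _ => 0) (fun _ => 0) 0 0 :=
    { hasGrad := fun x => by simpa using hasFDerivAt_const (0:ℝ) x
      hasHess := fun x => hasFDerivAt_const _ x
      contHess := continuous_const
      symHess := fun _ _ _ => by simp
      loHess := fun _ _ => by simp
      hiHess := fun _ _ => by simp }
  refine mul_nonneg (mul_nonneg ?_ ?_) (by positivity)
  · exact zero_le_one.trans (Material.gC_mono (sys (isScore hW le_rfl) one_pos) (Nat.zero_le r))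
  · exact zero_le_one.trans (one_le_lam (fun m => Nat.cast_nonneg _) _)

lemma matM_nonneg (r : ℕ) : 0 ≤ matM r := mul_nonneg (by positivity) (matC_nonneg _)

/-- **The material bound in the form of `SFQuad`**, uniform in time. -/
theorem time_material_le (hW : IsPot W G H 0 η) (hη : 0 ≤ η) (hη2 : η ≤ 1 / 2) (hb : 0 ≤ b)
    (hb1 : b ≤ 1) (c : Sp d) (r : ℕ) (ht : 0 < t) :
    t ^ (r + 1) * √(∑ k, ∫ x, (mat (score fun w => W (c + b • w)))^[r + 1]
        (gc (score fun w => W (c + b • w)) k) (t, x) ^ 2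
          ∂nuT (TiltFlow.pot (fun w => W (c + b • w)) t)) ≤
      matM r * (b * (‖G c‖ + η * √d)) := by
  refine (mul_le_mul_of_nonneg_left (material_slice_le hW hη hη2 hb hb1 ht c (r + 1))
    (by positivity)).trans ?_
  rw [matM]
  refine le_trans (le_of_eq (by ring : _ = matC (r + 1) * (b * (‖G c‖ + η * √d)) *
    (t ^ (r + 1) * (bT t)⁻¹ ^ (2 * (r + 1)) * vT t))) ?_
  refine (mul_le_mul_of_nonneg_left (time_weight_le ht (r + 1))
    (mul_nonneg (matC_nonneg (r + 1)) (by positivity))).trans_eq ?_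
  ring

/-- **The exact flow of the tilt at centre `c` and scale `b`**, in the interface of `SFQuad` and
`SFPicard`, its seed the standard Gaussian vector. -/
structure Exact (η b : ℝ) (G : Sp d → Sp d) (c : Sp d) (g : Pt d → Sp d) (Φ : ℝ → Sp d → ℝ)
    (X : ℝ → Sp d → Sp d) : Prop where
  isScore : Score g Φ bT fun m => b ^ 2 * η * (m + 1).factorial
  meas : ∀ t, Measurable (X t)
  der : ∀ z t, 0 < t → HasDerivAt (fun t => X t z) (g (t, X t z)) t
  law : ∀ t, 0 < t → (gd d).map (X t) = nuT (Φ t)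
  /-- the velocity is the tilted velocity of `G` at scale `b √(1 - e^{-2t})` -/
  vel : ∀ t, 0 < t → ∀ x,
    g (t, x) = (b * vT t) • tiltField 1 (b * bT t) G (c + (b * vT t) • x)
  mat : ∀ (r : ℕ) (t : ℝ), 0 < t →
    t ^ (r + 1) * √(∑ k, ∫ x, (Fields.mat g)^[r + 1] (gc g k) (t, x) ^ 2 ∂nuT (Φ t)) ≤
      matM r * (b * (‖G c‖ + η * √d))
  incr : ∀ s t, 0 ≤ s → s ≤ t → eLpNorm (fun z => X t z - X s z) 2 (gd d) ≤
    ENNReal.ofReal ((vT s - vT t) * (7 * (b * (‖G c‖ + η * √d))))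
  tail : ∀ t, 0 ≤ t → eLpNorm (fun z => z - X t z) 2 (gd d) ≤
    ENNReal.ofReal (vT t * (7 * (b * (‖G c‖ + η * √d))))
  target : ∀ (a : ℝ) (u : Sp d), a • u = c →
    tiltField a b G u = ∫ z, G (c + b • X 0 z) ∂gd d

/-- A flow of the velocity of every tilt gives an exact flow. -/
theorem exact_of_flowV (hW : IsPot W G H 0 η) (hη : 0 ≤ η) (hη2 : η ≤ 1 / 2) (hb : 0 ≤ b)
    (hb1 : b ≤ 1) (c : Sp d)
    (hY : IsFlowV (fun w => W (c + b • w)) (fun w => b • G (c + b • w)) Y) :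
    Exact η b G c (score fun w => W (c + b • w)) (TiltFlow.pot fun w => W (c + b • w))
      (timed Y) := by
  have hS := isPot_slice hW hb hb1 c
  have hη' : 0 ≤ b ^ 2 * η := by positivity
  have hb2 : b ^ 2 * η ≤ η := mul_le_of_le_one_left hη (pow_le_one₀ hb hb1)
  have hM : 7 * (‖b • G (c + b • (0 : Sp d))‖ + b ^ 2 * η * √d) ≤
      7 * (b * (‖G c‖ + η * √d)) := by
    rw [smul_zero, add_zero, norm_smul, Real.norm_eq_abs, abs_of_nonneg hb, mul_add b, ← mul_assoc b]
    gcongr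
    nlinarith
  have hinc : ∀ {u v : ℝ}, 0 ≤ u → u ≤ v → v ≤ 1 → eLpNorm (fun z => Y v z - Y u z) 2 (gd d) ≤
      ENNReal.ofReal ((v - u) * (7 * (b * (‖G c‖ + η * √d)))) := fun {u v} hu huv hv =>
    (IsFlowV.eLpNorm_sub_le hS hη' (hb2.trans hη2) hY hu huv hv).trans
      (ENNReal.ofReal_le_ofReal (mul_le_mul_of_nonneg_left hM (sub_nonneg.2 huv)))
  refine
    { isScore := TiltFlow.isScore hS hη'
      meas := fun t => hY.measurable _
      der := fun z t ht => IsFlowV.hasDerivAt_timed hS hη' hY z ht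
      law := fun t ht => IsFlowV.map_timed hS (hb2.trans hη2) hY ht
      vel := fun t ht x => ?_
      mat := fun r t ht => time_material_le hW hη hη2 hb hb1 c r ht
      incr := fun s t hs hst => ?_
      tail := fun t ht => ?_
      target := fun a u hu => ?_ }
  · rw [score_slice hW hη hb hb1 ht c x, tiltField_eq hW, rawTilt]
    simp only [one_smul]
  · refine (eLpNorm_sub_comm (timed Y t) (timed Y s) 2 (gd d)).trans_le ?_
    exact hinc (vT_pos t).le (exp_le_exp.2 (neg_le_neg hst)) (vT_mem hs).2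
  · refine le_trans (le_of_eq ?_) ((hinc le_rfl (vT_pos t).le (vT_mem ht).2).trans_eq
      (by rw [sub_zero]))
    refine (eLpNorm_sub_comm (fun z => z) (timed Y t) 2 (gd d)).trans ?_
    simp only [timed, hY.zero]
    rfl
  · have hc : Continuous fun x : Sp d => G (c + b • x) := hW.continuous_grad.comp (by fun_prop)
    rw [tiltField_eq hW, rawTilt]
    simp only [hu]
    rw [← IsFlowV.map_one hS hY, integral_map (hY.measurable 1).aemeasurable
      hc.aestronglyMeasurable]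
    simp [timed, vT]

/-- **The rounds from the Gaussian seed against the exact flow.** -/
theorem Exact.picard_rec {c : Sp d} {g : Pt d → Sp d} {Φ : ℝ → Sp d → ℝ} {X : ℝ → Sp d → Sp d}
    (hX : Exact η b G c g Φ X) (hη : 0 ≤ η) (hb : 0 ≤ b) {ν : Type} [Fintype ν] {w cν : ν → ℝ}
    {r : ℕ} (hR : Rule r w cν) {τ R : ℝ} (hτ : 0 < τ) (hτR : τ ≤ R)
    {N : ℕ} (hN : 0 < N) {n : ℕ} {gh : ℕ → Pt d → Sp d} {Λ : NNReal} {s e : ℕ → ℝ}
    (hs0 : ∀ j, 0 ≤ s j) (he : ∀ j, 0 ≤ e j)
    (hlip : ∀ j < n, ∀ u ∈ Set.Icc τ R, LipschitzWith Λ fun x => gh j (u, x))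
    (herr : ∀ j < n, ∀ u ∈ Set.Icc τ R,
      eLpNorm (fun z => gh j (u, X u z) - g (u, X u z)) 2 (gd d) ≤ ENNReal.ofReal (s j))
    (he0 : 7 * (b * (‖G c‖ + η * √d)) ≤ e 0)
    (hrec : ∀ j < n, vT R * (7 * (b * (‖G c‖ + η * √d))) +
      (1 + ∑ i, |w i|) / (N : ℝ) ^ (r + 1) * R * (matM r * (b * (‖G c‖ + η * √d))) +
      R * (∑ i, |w i|) * (Λ * e j + s j) ≤ e (j + 1)) :
    ∀ i ≤ n, ∀ t ∈ Set.Icc τ R,
      eLpNorm (fun z => SFPicard.approx R N w cν gh i t z - X t z) 2 (gd d) ≤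
        ENNReal.ofReal (e i) := by
  have hM := matM_nonneg r
  refine SFPicard.picard_rec (S := fun z => z) hX.isScore (fun t _ => hX.meas t) hX.der hX.law hR hτ
    hτR hN (mul_nonneg hM (by positivity)) (fun u hu => hX.mat r u (hτ.trans_le hu.1)) hs0
    (mul_nonneg (vT_pos R).le (by positivity)) he hlip herr measurable_id
    (hX.tail R (hτ.le.trans hτR)) (fun u hu => ?_) hrec
  refine (hX.tail u (hτ.le.trans hu.1)).trans (ENNReal.ofReal_le_ofReal ?_)
  exact (mul_le_of_le_one_left (by positivity) (vT_mem (hτ.le.trans hu.1)).2).trans he0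

/-- **The exact flow exists.** -/
theorem exists_exact (hG : Adm η G) (hη : 0 ≤ η) (hη2 : η ≤ 1 / 2) (hb : 0 ≤ b) (hb1 : b ≤ 1)
    (c : Sp d) : ∃ (g : Pt d → Sp d) (Φ : ℝ → Sp d → ℝ) (X : ℝ → Sp d → Sp d),
      Exact η b G c g Φ X := by
  obtain ⟨-, W, H, hW⟩ := hG
  obtain ⟨Y, h0, hc, hd, hl⟩ := exists_flowV (isPot_slice hW hb hb1 c)
    (mul_nonneg (sq_nonneg b) hη) ((mul_le_of_le_one_left hη (pow_le_one₀ hb hb1)).trans hη2)
  exact ⟨_, _, _, exact_of_flowV hW hη hη2 hb hb1 c ⟨h0, hc, hd, hl⟩⟩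

end SFFlow

end Vale.Agent.P347.Shift
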