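import Vale.Agent.P347.Shift.SF
import Vale.Agent.P347.Shift.SFErr

/-!
# P347: the tower expression against the rounds on the geometric grids

With the grid of `SFQuad` the values `SF.phv` are the Picard rounds of `SFPicard` with the surrogate
velocities of `SF.sfv`, and the constants of the tower are those of the flow stopped at `tau q`.
-/

open MeasureTheory ProbabilityTheory Real Finset
open scoped RealInnerProductSpace

namespace Vale.Agent.P347.Shift.SFLink

open Quarter Fields TiltFlow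

variable {d : ℕ} {ν : Type} [Fintype ν] {w cν : ν → ℝ} {q R : ℝ} {N : ℕ}

/-- The grid of a time: weights and nodes between it and `R`. -/
noncomputable def sfGrid (R : ℝ) (N : ℕ) (w cν : ν → ℝ) (t : ℝ) : List (ℝ × ℝ) :=
  if t ≤ R then
    (univ : Finset (Fin (CompQuad.blocks (1 - t / R)) × Fin N × ν)).toList.map fun p =>
      (SFQuad.weight t R N w p, SFQuad.time t R N cν p)
  else []

/-- Later times need fewer blocks. -/
lemma blocks_anti {τ t : ℝ} (hτ : 0 < τ) (hτt : τ ≤ t) (htR : t ≤ R) :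
    CompQuad.blocks (1 - t / R) ≤ CompQuad.blocks (1 - τ / R) := by
  have hR : 0 < R := hτ.trans_le (hτt.trans htR)
  have ht : 0 < t := hτ.trans_le hτt
  unfold CompQuad.blocks
  simp only [sub_sub_cancel, one_div_div]
  exact Nat.ceil_le_ceil (logb_le_logb_of_le one_lt_two (div_pos hR ht)
    (div_le_div_of_nonneg_left hR.le hτ hτt))

/-- The grid is admissible. -/
theorem gridOK_sfGrid {r : ℕ} (hR : Rule r w cν) (hq : 0 < q) (hτR : SF.tau q ≤ R) (hN : 0 < N) :
    SF.GridOK q (sfGrid R N w cν) (R * ∑ i, |w i|)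
      (CompQuad.blocks (1 - SF.tau q / R) * (N * Fintype.card ν)) := by
  have hτ := SF.tau_pos hq
  have hR0 : 0 < R := hτ.trans_le hτR
  intro t ht
  by_cases htR : t ≤ R
  · simp only [sfGrid, htR, if_true, List.mem_map, List.map_map, List.length_map, length_toList,
      card_univ]
    refine ⟨?_, ?_, ?_⟩
    · rintro p ⟨a, -, rfl⟩
      exact ht.trans (SFQuad.time_mem hR (hτ.trans_le ht) htR a).1
    · rw [sum_map_toList]
      exact SFErr.sum_abs_weight_le w (hτ.trans_le ht) htR hN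
    · rw [CompQuad.card_nodes]
      exact Nat.mul_le_mul_right _ (blocks_anti hτ ht htR)
  · simp only [sfGrid, htR, if_false]
    refine ⟨fun p hp => absurd hp (List.not_mem_nil), ?_, Nat.zero_le _⟩
    simp only [List.map_nil, List.sum_nil]
    exact mul_nonneg hR0.le (sum_nonneg fun _ _ => abs_nonneg _)

/-- The correlation at the time of the tower. -/
lemma vT_tau_sq (hq : 0 ≤ q) : vT (SF.tau q) ^ 2 = (1 + q / 2)⁻¹ := by
  rw [vT, ← exp_nat_mul, SF.tau, ← exp_log (show (0 : ℝ) < 1 + q / 2 by linarith), ← exp_neg]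
  congr 1
  rw [log_exp]
  push_cast
  ring

lemma vT_tau (hq : 0 ≤ q) : vT (SF.tau q) = (√(1 + q / 2))⁻¹ := by
  rw [← sqrt_sq (vT_pos (SF.tau q)).le, vT_tau_sq hq, sqrt_inv]

/-- The constants of the tower. -/
theorem const_eq (hq : 0 < q) : SF.rho q = SFErr.rhoC (SF.tau q) ∧
    SF.del q = SFErr.noiseC (SF.tau q) ∧ SF.gm q = SFErr.cenC (SF.tau q) := by
  have h1 : (0 : ℝ) < 1 + q / 2 := by linarith
  have h2 : (0 : ℝ) < 1 + q := by linarith
  have hs : 0 < √(1 + q / 2) := sqrt_pos.2 h1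
  have hd : 2 - (1 + q / 2)⁻¹ = (1 + q) / (1 + q / 2) := by field_simp; ring
  have hb : bT (SF.tau q) = √(q / 2) / √(1 + q / 2) := by
    rw [bT, vT_tau_sq hq.le, ← sqrt_div' _ h1.le]
    congr 1
    field_simp
    ring
  refine ⟨?_, ?_, ?_⟩
  · rw [SF.rho, SFErr.rhoC, vT_tau_sq hq.le, hd]
    congr 1
    field_simp
    ring
  · rw [SF.del, SFErr.noiseC, hb, vT_tau_sq hq.le, hd, vT_tau hq.le]
    field_simp
    rw [sq_sqrt (by linarith)]
    ring
  · rw [SF.gm, SFErr.cenC, vT_tau_sq hq.le, hd, vT_tau hq.le]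
    field_simp
    rw [sq_sqrt (by linarith)]
    ring

/-- **The values of the flow expression are the Picard rounds.** -/
theorem phv_eq_approx {r : ℕ} (hR : Rule r w cν) (V : Option ℝ → Sp d → Sp d) (s : ℝ) (u : Sp d) :
    ∀ (i : ℕ) (t : ℝ), 0 < t → t ≤ R → ∀ z,
      SF.phv q (sfGrid R N w cν) V i s t u z =
        SFPicard.approx R N w cν (SFErr.surr (SF.sfv q (sfGrid R N w cν) V) s u) i t z
  | 0, _, _, _, _ => by rw [SF.phv, SFPicard.approx]
  | i + 1, t, ht, htR, z => by
    rw [SF.phv, SFPicard.approx]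
    simp only [sfGrid, htR, if_true, List.map_map, Function.comp_def]
    rw [sum_map_toList, sub_eq_add_neg z, ← sum_neg_distrib]
    congr 1
    refine sum_congr rfl fun p _ => ?_
    have hm := SFQuad.time_mem hR ht htR p
    rw [phv_eq_approx hR V s u i _ (ht.trans_le hm.1) hm.2 z, SFErr.surr, smul_smul, ← neg_smul]
    have e1 : ∀ a, SF.bt a = bT a := fun _ => rfl
    rw [e1]
    congr 1
    simp only [vT]
    ring

/-- **The equation of the scale functions**, one order up. -/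
theorem sfv_succ {r : ℕ} (hR : Rule r w cν) (hq : 0 < q) (hτR : SF.tau q ≤ R)
    {G : Sp d → Sp d} {V : Option ℝ → Sp d → Sp d}
    (hV : ∀ t : ℝ, 0 < t → t ≤ 1 → V (some t) = tiltField 1 t G) (i : ℕ) (s : ℝ) (u : Sp d)
    (hs : 0 < s) (hs1 : s ≤ 1) :
    SF.sfv q (sfGrid R N w cν) V (i + 1) s u =
      ∫ z, smth 1 (s * SFErr.noiseC (SF.tau q)) (tiltField 1 (s * SFErr.rhoC (SF.tau q)) G)
        (u + (s * SFErr.cenC (SF.tau q)) • SFPicard.approx R N w cν
          (SFErr.surr (SF.sfv q (sfGrid R N w cν) V) s u) i (SF.tau q) z) ∂gd d := by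
  obtain ⟨h1, h2, h3⟩ := const_eq hq
  have hρ : 0 < SF.rho q ∧ SF.rho q ≤ 1 :=
    ⟨sqrt_pos.2 (div_pos hq (by linarith)),
      sqrt_le_one.2 ((div_le_one (by linarith)).2 (by linarith))⟩
  rw [SF.sfv, hV _ (mul_pos hρ.1 hs) (mul_le_one₀ hρ.2 hs.le hs1)]
  simp only [phv_eq_approx hR V s u i _ (SF.tau_pos hq) hτR, h1, h2, h3, mul_comm s]

end Vale.Agent.P347.Shift.SFLink
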