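import Vale.Agent.P347.Shift.FieldsNorm
import Vale.Agent.P347.Shift.CompQuad
import Mathlib.MeasureTheory.Function.StronglyMeasurable.Lemmas

/-!
# P347: quadrature along a probability flow

Let `X t` follow a velocity `g` satisfying the equation of the score and have at time `t` the law
`nuT (Φ t)`. The material derivatives of `g` are the time derivatives of `t ↦ g (t, X t)`, so
geometric blocks of `[τ, R]`, each cut into `N` pieces, integrate it with mean square error
`N⁻⁽ʳ⁺¹⁾` times the largest value of `t ^ (r + 1)` times the bound on those derivatives.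
-/

open MeasureTheory Real Finset Filter Topology
open scoped ContDiff

namespace Vale.Agent.P347.Shift.SFQuad

open Quarter Fields

variable {d : ℕ} {g : Pt d → Sp d} {Φ : ℝ → Sp d → ℝ} {s : ℝ → ℝ} {c : ℕ → ℝ}
  {Ω : Type} {X : ℝ → Ω → Sp d}

/-- The material derivatives of a component of the velocity are smooth. -/
lemma contDiffOn_iterate (hg : Fields.Field g) (a : Fin d) :
    ∀ k, ContDiffOn ℝ ∞ ((mat g)^[k] (gc g a)) Dom
  | 0 => hg.contDiffOn_gc a
  | k + 1 => by
    rw [Function.iterate_succ_apply']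
    exact contDiffOn_mat hg (contDiffOn_iterate hg a k)

/-- The time derivative along a trajectory is the material derivative. -/
lemma hasDerivAt_along {F : Pt d → ℝ} (hF : ContDiffOn ℝ ∞ F Dom) {x : ℝ → Sp d} {t : ℝ}
    (ht : 0 < t) (hx : HasDerivAt x (g (t, x t)) t) :
    HasDerivAt (fun t => F (t, x t)) (mat g F (t, x t)) t :=
  (diffAt hF (p := (t, x t)) ht).hasFDerivAt.comp_hasDerivAt t ((hasDerivAt_id t).prodMk hx)

/-- A slice of a material derivative is of temperate growth. -/
lemma tg_slice (hS : Score g Φ s c) (a : Fin d) (k : ℕ) {t : ℝ} (ht : 0 < t) :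
    (fun x => (mat g)^[k] (gc g a) (t, x)).HasTemperateGrowth := by
  have h : ∀ k, Good g ((opA g)^[k] (gT g)) := by
    intro k
    induction k with
    | zero => exact .base
    | succ k ih => rw [Function.iterate_succ_apply']; exact ih.A hS.toField
  have e : sl ((opA g)^[k] (gT g)) t [a] = fun x => (mat g)^[k] (gc g a) (t, x) :=
    funext fun x => iterate_opA_gT a k (t, x) ht
  exact e ▸ (h k).tg hS ht [a]

/-- The time of a node. -/
noncomputable def time (τ R : ℝ) (N : ℕ) {ν : Type} (c : ν → ℝ)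
    (p : Fin (CompQuad.blocks (1 - τ / R)) × Fin N × ν) : ℝ :=
  R * (1 - CompQuad.node (1 - τ / R) N c p)

/-- The weight of a node. -/
noncomputable def weight (τ R : ℝ) (N : ℕ) {ν : Type} (w : ν → ℝ)
    (p : Fin (CompQuad.blocks (1 - τ / R)) × Fin N × ν) : ℝ :=
  R * CompQuad.wgt (1 - τ / R) N w p

variable [MeasurableSpace Ω] {μ : Measure Ω} [SFinite μ]

/-- **Quadrature along the flow.** -/
theorem flow_quad (hS : Score g Φ s c) (hX : ∀ t, 0 < t → Measurable (X t))
    (hder : ∀ z t, 0 < t → HasDerivAt (fun t => X t z) (g (t, X t z)) t)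
    (hlaw : ∀ t, 0 < t → μ.map (X t) = nuT (Φ t)) {r : ℕ} {ν : Type} [Fintype ν]
    {w cν : ν → ℝ} (hR : Rule r w cν) {τ R : ℝ} (hτ : 0 < τ) (hτR : τ ≤ R) {N : ℕ} (hN : 0 < N)
    {M : ℝ} (hM0 : 0 ≤ M) (hM : ∀ t ∈ Set.Icc τ R, t ^ (r + 1) *
      √(∑ a, ∫ x, (mat g)^[r + 1] (gc g a) (t, x) ^ 2 ∂nuT (Φ t)) ≤ M) :
    ∑ a, ∫ z, ((∫ t in τ..R, g (t, X t z) a) -
        ∑ p, weight τ R N w p * g (time τ R N cν p, X (time τ R N cν p) z) a) ^ 2 ∂μ ≤
      ((1 + ∑ i, |w i|) / (N : ℝ) ^ (r + 1) * R * M) ^ 2 := by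
  have hR0 : 0 < R := hτ.trans_le hτR
  set T := 1 - τ / R
  have hT0 : 0 ≤ T := by
    have : τ / R ≤ 1 := (div_le_one hR0).2 hτR
    simp only [T]; linarith
  have hT1 : T < 1 := sub_lt_self 1 (div_pos hτ hR0)
  have hRT : ∀ u, R * (1 - u) ≥ τ ↔ u ≤ T := fun u => by
    simp only [T, ge_iff_le]
    rw [← div_le_iff₀' hR0]
    constructor <;> intro h <;> linarith
  set F : ℕ → Fin d → Pt d → ℝ := fun k a => (mat g)^[k] (gc g a)
  set f : Fin d → Ω → ℕ → ℝ → ℝ := fun a z k u =>
    R * (-R) ^ k * F k a (R * (1 - u), X (R * (1 - u)) z)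
  have hf : ∀ a z, CompQuad.Derivs (f a z) (-1) 1 := fun a z k u hu => by
    have ht : 0 < R * (1 - u) := mul_pos hR0 (by linarith [hu.2])
    have h1 : HasDerivAt (fun u => R * (1 - u)) (-R) u := by
      simpa using ((hasDerivAt_id u).const_sub 1).const_mul R
    have h2 := ((hasDerivAt_along (contDiffOn_iterate hS.toField a k) ht (hder z _ ht)).comp u
      h1).const_mul (R * (-R) ^ k)
    refine h2.congr_deriv ?_
    simp only [f, F, Function.iterate_succ_apply', pow_succ]
    ring
  have hm : ∀ a, AEStronglyMeasurable (fun p : ℝ × Ω => f a p.2 (r + 1) p.1)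
      ((volume.restrict (Set.Ioc 0 T)).prod μ) := fun a => by
    set θ : ℝ → ℝ := fun u => max (R * (1 - u)) τ
    have hθc : Continuous θ := by fun_prop
    have hθ : ∀ u, 0 < θ u := fun u => hτ.trans_le (le_max_right _ _)
    set G : ℝ → Ω → ℝ := fun u z => R * (-R) ^ (r + 1) * F (r + 1) a (θ u, X (θ u) z)
    have hG : StronglyMeasurable (Function.uncurry G) := by
      refine stronglyMeasurable_uncurry_of_continuous_of_stronglyMeasurable (fun z => ?_)
        fun u => ?_
      · refine continuous_iff_continuousAt.2 fun u => ?_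
        have h1 : ContinuousAt (fun u => X (θ u) z) u :=
          ContinuousAt.comp (g := fun t => X t z) (f := θ) (hder z _ (hθ u)).continuousAt
            hθc.continuousAt
        exact continuousAt_const.mul (ContinuousAt.comp (g := F (r + 1) a)
          (f := fun u => (θ u, X (θ u) z))
          (((contDiffOn_iterate hS.toField a (r + 1)).continuousOn).continuousAt
            (isOpen_Dom.mem_nhds (hθ u))) (hθc.continuousAt.prodMk h1))
      · exact (((tg_slice hS a (r + 1) (hθ u)).1.continuous.stronglyMeasurable.comp_measurable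
          (hX _ (hθ u))).const_mul _)
    refine hG.aestronglyMeasurable.congr ?_
    filter_upwards [Measure.quasiMeasurePreserving_fst.ae
      (ae_restrict_mem (measurableSet_Ioc (a := (0:ℝ)) (b := T)))] with p hp
    simp only [Function.uncurry, G, f, θ, max_eq_left ((hRT p.1).2 hp.2)]
  have hlawi : ∀ t, 0 < t → ∀ a k,
      Integrable (fun z => F k a (t, X t z) ^ 2) μ ∧
        ∫ z, F k a (t, X t z) ^ 2 ∂μ = ∫ x, F k a (t, x) ^ 2 ∂nuT (Φ t) := fun t ht a k => by
    have h := (tg_slice hS a k ht).fun_pow 2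
    refine ⟨?_, ?_⟩
    · exact (integrable_map_measure h.1.continuous.aestronglyMeasurable
        (hX t ht).aemeasurable).1 (hlaw t ht ▸ integrable_nuT (hS.pot t ht) h)
    · rw [← hlaw t ht,
        integral_map (hX t ht).aemeasurable h.1.continuous.aestronglyMeasurable]
  have hpos : ∀ u ∈ Set.Icc 0 T, R * (1 - u) ∈ Set.Icc τ R := fun u hu =>
    ⟨(hRT u).2 hu.2, mul_le_of_le_one_right hR0.le (by linarith [hu.1])⟩
  have hi : ∀ a, ∀ u ∈ Set.Icc 0 T, Integrable (fun z => f a z (r + 1) u ^ 2) μ := fun a u hu => by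
    simp only [f, mul_pow]
    exact ((hlawi _ (hτ.trans_le (hpos u hu).1) a (r + 1)).1).const_mul _
  have hMt : ∀ u ∈ Set.Icc 0 T,
      ∑ a, ∫ z, ((1 - u) ^ (r + 1) * f a z (r + 1) u) ^ 2 ∂μ ≤ (R * M) ^ 2 := fun u hu => by
    have ht := hτ.trans_le (hpos u hu).1
    have e : ∀ a z, ((1 - u) ^ (r + 1) * f a z (r + 1) u) ^ 2 =
        (R * (R * (1 - u)) ^ (r + 1)) ^ 2 * F (r + 1) a (R * (1 - u), X (R * (1 - u)) z) ^ 2 :=
      fun a z => by
        simp only [f, mul_pow, ← pow_mul]
        rw [show (-R) ^ ((r + 1) * 2) = R ^ ((r + 1) * 2) by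
          rw [mul_comm, pow_mul, pow_mul, neg_sq]]
        ring
    simp only [e, integral_const_mul, (hlawi _ ht _ (r + 1)).2, ← mul_sum]
    rw [mul_pow R, mul_pow R M, mul_assoc]
    refine mul_le_mul_of_nonneg_left ?_ (sq_nonneg R)
    set S := ∑ a, ∫ x, F (r + 1) a (R * (1 - u), x) ^ 2 ∂nuT (Φ (R * (1 - u)))
    have hS0 : 0 ≤ S := sum_nonneg fun a _ => integral_nonneg fun x => sq_nonneg _
    have h2 : (R * (1 - u)) ^ (r + 1) * √S ≤ M := hM _ (hpos u hu)
    nlinarith [sq_sqrt hS0, mul_nonneg (pow_nonneg ht.le (r + 1)) (sqrt_nonneg S)]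
  have h := CompQuad.error_sq (μ := μ) (f := f) hR hf (by norm_num) hT0 hT1 hT1 hN hm hi hMt
  refine le_trans ?_ (h.trans ?_)
  · refine le_of_eq (sum_congr rfl fun a _ => integral_congr_ae (ae_of_all _ fun z => ?_))
    have e1 : ∫ u in (0:ℝ)..T, f a z 0 u = ∫ t in τ..R, g (t, X t z) a := by
      simp only [f, F, pow_zero, mul_one, Function.iterate_zero_apply, gc]
      rw [intervalIntegral.integral_const_mul]
      have e := intervalIntegral.smul_integral_comp_sub_mul (fun t => g (t, X t z) a) R R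
        (a := 0) (b := T)
      rw [show R - R * T = τ by simp only [T]; field_simp; ring, mul_zero, sub_zero,
        smul_eq_mul] at e
      rw [← e]
      simp only [mul_sub, mul_one]
    have e2 : ∑ p, CompQuad.wgt T N w p * f a z 0 (CompQuad.node T N cν p) =
        ∑ p, weight τ R N w p * g (time τ R N cν p, X (time τ R N cν p) z) a :=
      sum_congr rfl fun p _ => by
        simp only [f, F, weight, time, pow_zero, mul_one, Function.iterate_zero_apply, gc]
        ring
    simp only [e1, e2]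
  · have hW : 0 ≤ (1 + ∑ i, |w i|) / (N : ℝ) ^ (r + 1) :=
      div_nonneg (add_nonneg zero_le_one (sum_nonneg fun _ _ => abs_nonneg _)) (by positivity)
    refine pow_le_pow_left₀ (by positivity) ?_ 2
    rw [mul_assoc _ T, mul_assoc _ R M]
    exact mul_le_mul_of_nonneg_left (mul_le_of_le_one_left (mul_nonneg hR0.le hM0) hT1.le) hW

omit [SFinite μ] in
/-- The nodes lie between `τ` and `R`. -/
lemma time_mem {r : ℕ} {ν : Type} [Fintype ν] {w cν : ν → ℝ} (hR : Rule r w cν) {τ R : ℝ}
    (hτ : 0 < τ) (hτR : τ ≤ R) {N : ℕ}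
    (p : Fin (CompQuad.blocks (1 - τ / R)) × Fin N × ν) :
    time τ R N cν p ∈ Set.Icc τ R := by
  have hR0 : 0 < R := hτ.trans_le hτR
  have hT0 : 0 ≤ 1 - τ / R := sub_nonneg.2 ((div_le_one hR0).2 hτR)
  obtain ⟨h0, h1⟩ := CompQuad.node_mem hR hT0 p
  refine ⟨?_, mul_le_of_le_one_right hR0.le (by linarith)⟩
  have h2 : τ / R ≤ 1 - CompQuad.node (1 - τ / R) N cν p := by linarith
  exact (div_le_iff₀' hR0).1 h2

end Vale.Agent.P347.Shift.SFQuad
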