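import Vale.Agent.P347.Shift.Appell
import Vale.Agent.P347.Shift.Diverg

/-!
# P347: the localisation kernel

The tilted integrals `Z f (σ, θ) = E f(z) exp (⟪θ, z⟫ - σ |z|²/2 - W z)`, their derivatives and
the equation `∂_σ m = -(1/2) Δ m - Dm m` of the tilted mean `m`.
-/

open Real Finset MeasureTheory ProbabilityTheory Filter Topology
open scoped RealInnerProductSpace ContDiff

namespace Vale.Agent.P347.Shift

open Quarter
open Appell (ExpB expB_const expB_coord Zt Zt_integrable Zt_bound Zt_one_pos)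

namespace Kernel

variable {d : ℕ} {W : Sp d → ℝ} {G : Sp d → Sp d} {H : Sp d → Sp d →L[ℝ] Sp d} {η : ℝ}

/-- The potential with an added quadratic. -/
noncomputable def Wq (W : Sp d → ℝ) (σ : ℝ) : Sp d → ℝ := fun z => W z + σ / 2 * ‖z‖ ^ 2

/-- The tilted integral as a function of both parameters. -/
noncomputable def Z (W f : Sp d → ℝ) (q : ℝ × Sp d) : ℝ := Zt (Wq W q.1) f q.2

/-- Positive first parameters. -/
def Pos : Set (ℝ × Sp d) := {q | 0 < q.1}

lemma isOpen_Pos : IsOpen (Pos : Set (ℝ × Sp d)) := isOpen_lt continuous_const continuous_fst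

lemma isPot_Wq (hW : IsPot W G H 0 η) (σ : ℝ) :
    IsPot (Wq W σ) (fun z => G z + σ • z) (fun z => H z + σ • ContinuousLinearMap.id ℝ (Sp d))
      σ (η + σ) := by
  refine ⟨fun z => ?_, fun z => ?_, hW.contHess.add continuous_const, fun z u v => ?_,
    fun z v => ?_, fun z v => ?_⟩
  · refine ((hW.hasGrad z).add ((hasFDerivAt_id z).norm_sq.const_mul (σ / 2))).congr_fderiv ?_
    ext v
    simp
    ring
  · exact (hW.hasHess z).add ((hasFDerivAt_id z).const_smul σ)
  · simp [inner_add_left, inner_add_right, inner_smul_left, inner_smul_right, hW.symHess z u v]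
  · simp only [add_apply, smul_apply, ContinuousLinearMap.id_apply, inner_add_left, inner_smul_left,
      RCLike.conj_to_real, real_inner_self_eq_norm_sq]
    linarith [hW.loHess z v]
  · simp only [add_apply, smul_apply, ContinuousLinearMap.id_apply, inner_add_left, inner_smul_left,
      RCLike.conj_to_real, real_inner_self_eq_norm_sq, add_mul]
    linarith [hW.hiHess z v]

lemma isPot_Wq0 (hW : IsPot W G H 0 η) {σ : ℝ} (hσ : 0 ≤ σ) :
    IsPot (Wq W σ) (fun z => G z + σ • z) (fun z => H z + σ • ContinuousLinearMap.id ℝ (Sp d))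
      0 (η + σ) :=
  IsPot.mono (isPot_Wq hW σ) hσ

/-- The derivative of the tilted integral in both parameters. -/
noncomputable def dZ (W f : Sp d → ℝ) (q : ℝ × Sp d) : ℝ × Sp d →L[ℝ] ℝ :=
  (-(1 / 2) * ∑ j, Z W (fun z => f z * z j * z j) q) • ContinuousLinearMap.fst ℝ ℝ (Sp d) +
    ∑ j, Z W (fun z => f z * z j) q •
      (EuclideanSpace.proj (𝕜 := ℝ) j).comp (ContinuousLinearMap.snd ℝ ℝ (Sp d))

lemma kernel_le (hW : IsPot W G H 0 η) {f : Sp d → ℝ} {C K : ℝ}
    (hb : ∀ z, |f z| ≤ C * exp (K * ‖z‖)) {σ : ℝ} (hσ : 0 ≤ σ) {θ : Sp d} {r : ℝ}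
    (hθ : ‖θ‖ ≤ r) (z : Sp d) :
    |exp (⟪θ, z⟫ - Wq W σ z) * f z| ≤ exp (-W 0) * C * exp ((r + ‖G 0‖ + K) * ‖z‖) := by
  refine le_trans ?_ (Zt_bound hW hb hθ z)
  rw [abs_mul, abs_mul, abs_exp, abs_exp]
  refine mul_le_mul_of_nonneg_right (exp_le_exp.2 ?_) (abs_nonneg _)
  simp only [Wq]
  nlinarith [mul_nonneg hσ (sq_nonneg ‖z‖)]

theorem hasFDerivAt_Z (hW : IsPot W G H 0 η) {f : Sp d → ℝ} (hf : ExpB f) {q : ℝ × Sp d}
    (hq : 0 < q.1) : HasFDerivAt (Z W f) (dZ W f q) q := by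
  obtain ⟨hc, C, K, h⟩ := hf
  obtain ⟨σ, θ⟩ := q
  have hWc := hW.contDiff.continuous
  have hC : 0 ≤ C := by
    have := (abs_nonneg _).trans (h 0)
    rwa [norm_zero, mul_zero, exp_zero, mul_one] at this
  set L : Sp d → (ℝ × Sp d →L[ℝ] ℝ) := fun z =>
    (-(1 / 2) * ‖z‖ ^ 2) • ContinuousLinearMap.fst ℝ ℝ (Sp d) +
      (innerSL ℝ z).comp (ContinuousLinearMap.snd ℝ ℝ (Sp d))
  set F : ℝ × Sp d → Sp d → ℝ := fun q z => exp (⟪q.2, z⟫ - Wq W q.1 z) * f z
  set F' : ℝ × Sp d → Sp d → (ℝ × Sp d →L[ℝ] ℝ) := fun q z => F q z • L z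
  have hL : ∀ z, ‖L z‖ ≤ 2 * exp ‖z‖ := fun z => by
    refine ContinuousLinearMap.opNorm_le_bound _ (by positivity) fun v => ?_
    simp only [L, add_apply, smul_apply, ContinuousLinearMap.coe_comp, Function.comp_apply,
      ContinuousLinearMap.coe_fst', ContinuousLinearMap.coe_snd', innerSL_apply_apply, smul_eq_mul]
    have h1 : |v.1| ≤ ‖v‖ := norm_fst_le v
    have h2 := norm_snd_le v
    have h3 := abs_real_inner_le_norm z v.2
    have h4 := quadratic_le_exp_of_nonneg (norm_nonneg z)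
    rw [norm_eq_abs]
    refine (abs_add_le _ _).trans ?_
    rw [abs_mul, abs_mul, abs_neg, abs_of_pos (by norm_num : (0:ℝ) < 1 / 2), abs_pow, abs_norm]
    nlinarith [mul_le_mul_of_nonneg_left h2 (norm_nonneg z), norm_nonneg v, norm_nonneg z,
      mul_le_mul_of_nonneg_left h1 (by positivity : (0:ℝ) ≤ 1 / 2 * ‖z‖ ^ 2),
      mul_le_mul_of_nonneg_left h4 (norm_nonneg v)]
  have hLc : Continuous L := by
    refine Continuous.add ?_ ?_
    · exact (continuous_const.mul (continuous_norm.pow 2)).smul continuous_const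
    · exact (innerSL ℝ).continuous.clm_comp continuous_const
  have hFc : ∀ q, Continuous (F q) := fun q => by simp only [F, Wq]; fun_prop
  set B : Sp d → ℝ := fun z => 2 * (exp (-W 0) * C) * exp ((‖θ‖ + σ + ‖G 0‖ + K + 1) * ‖z‖)
  have hb : ∀ z, ∀ q' ∈ Metric.ball (σ, θ) σ, ‖F' q' z‖ ≤ B z := by
    intro z q' hq'
    rw [mem_ball_iff_norm] at hq'
    have h1 : |q'.1 - σ| ≤ ‖q' - (σ, θ)‖ := norm_fst_le (q' - (σ, θ))
    have h2 : ‖q'.2 - θ‖ ≤ ‖q' - (σ, θ)‖ := norm_snd_le (q' - (σ, θ))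
    have hσ' : 0 ≤ q'.1 := by have := abs_le.1 h1; linarith
    have hθ' : ‖q'.2‖ ≤ ‖θ‖ + σ := by linarith [norm_sub_norm_le q'.2 θ]
    rw [norm_smul, norm_eq_abs]
    refine (mul_le_mul (kernel_le hW h hσ' hθ' z) (hL z) (norm_nonneg _) (by positivity)).trans_eq ?_
    simp only [B]
    rw [show exp (-W 0) * C * exp ((‖θ‖ + σ + ‖G 0‖ + K) * ‖z‖) * (2 * exp ‖z‖) =
      2 * (exp (-W 0) * C) * (exp ((‖θ‖ + σ + ‖G 0‖ + K) * ‖z‖) * exp ‖z‖) by ring, ← exp_add]
    ring_nf
  have hBi : Integrable B (gd d) :=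
    integrable_gam_of_le (f := B) (continuous_const.mul (continuous_exp.comp
      (continuous_const.mul continuous_norm)))
      (C := 2 * (exp (-W 0) * C)) (K := ‖θ‖ + σ + ‖G 0‖ + K + 1) fun z => by
      rw [Real.norm_eq_abs, abs_of_nonneg (by positivity)]
  have hF'c : Continuous (F' (σ, θ)) := (hFc _).smul hLc
  have hd := hasFDerivAt_integral_of_dominated_of_fderiv_le (μ := gd d) (F := F) (F' := F')
    (bound := B) (Metric.ball_mem_nhds (σ, θ) hq)
    (Filter.Eventually.of_forall fun q' => (hFc q').aestronglyMeasurable)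
    (Zt_integrable (isPot_Wq0 hW hq.le) ⟨hc, C, K, h⟩ θ) hF'c.aestronglyMeasurable
    (ae_of_all _ hb) hBi
    (ae_of_all _ fun z q' _ => by
      have h1 : HasFDerivAt (fun q : ℝ × Sp d => ⟪q.2, z⟫ - Wq W q.1 z) (L z) q' := by
        have ha : HasFDerivAt (fun q : ℝ × Sp d => ⟪q.2, z⟫)
            ((innerSL ℝ z).comp (ContinuousLinearMap.snd ℝ ℝ (Sp d))) q' := by
          refine (((innerSL ℝ z).comp (ContinuousLinearMap.snd ℝ ℝ (Sp d))).hasFDerivAt).congr_of_eventuallyEq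
            (Filter.Eventually.of_forall fun t => ?_)
          simp [real_inner_comm]
        have hb' : HasFDerivAt (fun q : ℝ × Sp d => Wq W q.1 z)
            ((1 / 2 * ‖z‖ ^ 2) • ContinuousLinearMap.fst ℝ ℝ (Sp d)) q' := by
          refine (((ContinuousLinearMap.fst ℝ ℝ (Sp d)).hasFDerivAt).const_mul
            (1 / 2 * ‖z‖ ^ 2)).const_add (W z) |>.congr_of_eventuallyEq
            (Filter.Eventually.of_forall fun t => ?_)
          simp [Wq]; ring
        refine (ha.sub hb').congr_fderiv ?_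
        ext v <;> simp [L]
      refine (h1.exp.mul_const (f z)).congr_fderiv ?_
      simp only [F', F, smul_smul]
      congr 1
      ring)
  refine hd.congr_fderiv ?_
  refine ContinuousLinearMap.ext fun v => ?_
  have hint : Integrable (F' (σ, θ)) (gd d) :=
    hBi.mono' hF'c.aestronglyMeasurable
      (ae_of_all _ fun z => hb z _ (Metric.mem_ball_self hq))
  have hi1 : ∀ j, Integrable (fun z => exp (⟪θ, z⟫ - Wq W σ z) * (f z * z j)) (gd d) := fun j =>
    Zt_integrable (isPot_Wq0 hW hq.le) (ExpB.mul ⟨hc, C, K, h⟩ (expB_coord j)) θ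
  have hi2 : ∀ j, Integrable (fun z => exp (⟪θ, z⟫ - Wq W σ z) * (f z * z j * z j)) (gd d) := fun j =>
    Zt_integrable (isPot_Wq0 hW hq.le)
      ((ExpB.mul ⟨hc, C, K, h⟩ (expB_coord j)).mul (expB_coord j)) θ
  rw [ContinuousLinearMap.integral_apply hint]
  simp only [dZ, add_apply, _root_.sum_apply, smul_apply, ContinuousLinearMap.coe_comp,
    Function.comp_apply, ContinuousLinearMap.coe_fst', ContinuousLinearMap.coe_snd',
    PiLp.proj_apply, smul_eq_mul, Z, Zt]
  rw [← integral_finsetSum _ fun j _ => hi2 j, ← integral_const_mul, ← integral_mul_const]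
  simp only [← integral_mul_const]
  rw [← integral_finsetSum _ fun j _ => (hi1 j).mul_const _, ← integral_add
    (((integrable_finsetSum _ fun j _ => hi2 j).const_mul _).mul_const _)
    (integrable_finsetSum _ fun j _ => (hi1 j).mul_const _)]
  refine integral_congr_ae (ae_of_all _ fun z => ?_)
  have e2 : ‖z‖ ^ 2 = ∑ j, z j * z j := by
    rw [EuclideanSpace.norm_sq_eq]
    exact sum_congr rfl fun j _ => by rw [Real.norm_eq_abs, sq_abs, sq]
  simp only [F', F, L, smul_apply, add_apply, ContinuousLinearMap.coe_comp, Function.comp_apply,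
    ContinuousLinearMap.coe_fst', ContinuousLinearMap.coe_snd', innerSL_apply_apply, smul_eq_mul,
    PiLp.inner_apply, RCLike.inner_apply, conj_trivial, e2, mul_add, mul_sum, sum_mul]
  congr 1 <;> exact sum_congr rfl fun j _ => by ring

theorem contDiffOn_Z (hW : IsPot W G H 0 η) : ∀ (n : ℕ) {f : Sp d → ℝ}, ExpB f →
    ContDiffOn ℝ n (Z W f) Pos
  | 0, f, hf => contDiffOn_zero.2 fun q hq =>
      (hasFDerivAt_Z hW hf hq).continuousAt.continuousWithinAt
  | n + 1, f, hf => by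
    rw [Nat.cast_succ, contDiffOn_succ_iff_fderiv_of_isOpen isOpen_Pos]
    refine ⟨fun q hq => (hasFDerivAt_Z hW hf hq).differentiableAt.differentiableWithinAt,
      fun h => absurd h (WithTop.natCast_ne_top n), ?_⟩
    refine ContDiffOn.congr ?_ fun q hq => (hasFDerivAt_Z hW hf hq).fderiv
    exact (((contDiffOn_const (c := -(1 / 2 : ℝ))).mul (ContDiffOn.sum fun j _ =>
      contDiffOn_Z hW n ((hf.mul (expB_coord j)).mul (expB_coord j)))).smul contDiffOn_const).add
      (ContDiffOn.sum fun j _ => (contDiffOn_Z hW n (hf.mul (expB_coord j))).smul contDiffOn_const)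

lemma contDiffOn_Z_top (hW : IsPot W G H 0 η) {f : Sp d → ℝ} (hf : ExpB f) :
    ContDiffOn ℝ ∞ (Z W f) Pos :=
  contDiffOn_infty.2 fun n => contDiffOn_Z hW n hf

lemma Z_one_pos (hW : IsPot W G H 0 η) {q : ℝ × Sp d} (hq : 0 < q.1) :
    0 < Z W (fun _ => 1) q :=
  Zt_one_pos (isPot_Wq0 hW hq.le) q.2

/-- The tilted mean. -/
noncomputable def mu (W : Sp d → ℝ) (i : Fin d) (q : ℝ × Sp d) : ℝ :=
  Z W (fun z => z i) q * (Z W (fun _ => 1) q)⁻¹

/-- The covariance of the tilt. -/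
noncomputable def cv (W : Sp d → ℝ) (i j : Fin d) (q : ℝ × Sp d) : ℝ :=
  Z W (fun z => z i * z j) q * (Z W (fun _ => 1) q)⁻¹ -
    Z W (fun z => z i) q * Z W (fun z => z j) q * (Z W (fun _ => 1) q)⁻¹ ^ 2

/-- The derivative of a covariance in the direction of its second index. -/
noncomputable def cv' (W : Sp d → ℝ) (i j : Fin d) (q : ℝ × Sp d) : ℝ :=
  fderiv ℝ (cv W i j) q (0, ei j)

lemma cv_comm (W : Sp d → ℝ) (i j : Fin d) : cv W i j = cv W j i := by
  funext q
  simp only [cv, mul_comm]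

lemma contDiffOn_mu (hW : IsPot W G H 0 η) (i : Fin d) : ContDiffOn ℝ ∞ (mu W i) Pos :=
  (contDiffOn_Z_top hW (expB_coord i)).mul
    ((contDiffOn_Z_top hW (expB_const 1)).inv fun _ hq => (Z_one_pos hW hq).ne')

lemma contDiffOn_cv (hW : IsPot W G H 0 η) (i j : Fin d) : ContDiffOn ℝ ∞ (cv W i j) Pos :=
  ((contDiffOn_Z_top hW ((expB_coord i).mul (expB_coord j))).mul
    ((contDiffOn_Z_top hW (expB_const 1)).inv fun _ hq => (Z_one_pos hW hq).ne')).sub
    (((contDiffOn_Z_top hW (expB_coord i)).mul (contDiffOn_Z_top hW (expB_coord j))).mul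
      (((contDiffOn_Z_top hW (expB_const 1)).inv fun _ hq => (Z_one_pos hW hq).ne').pow 2))

lemma dZ_zero_ei (f : Sp d → ℝ) (q : ℝ × Sp d) (j : Fin d) :
    dZ W f q (0, ei j) = Z W (fun z => f z * z j) q := by
  simp [dZ, ei, PiLp.single_apply]

lemma hasFDerivAt_inv_Z (hW : IsPot W G H 0 η) {q : ℝ × Sp d} (hq : 0 < q.1) :
    HasFDerivAt (fun q => (Z W (fun _ => 1) q)⁻¹)
      ((-((Z W (fun _ => 1) q) ^ 2)⁻¹) • dZ W (fun _ => 1) q) q :=
  (hasDerivAt_inv (Z_one_pos hW hq).ne').comp_hasFDerivAt q (hasFDerivAt_Z hW (expB_const 1) hq)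

lemma fderiv_mu (hW : IsPot W G H 0 η) {q : ℝ × Sp d} (hq : 0 < q.1) (i j : Fin d) :
    fderiv ℝ (mu W i) q (0, ei j) = cv W i j q := by
  have h : HasFDerivAt (mu W i) _ q :=
    (hasFDerivAt_Z hW (expB_coord i) hq).fun_mul (hasFDerivAt_inv_Z hW hq)
  rw [h.fderiv]
  simp only [add_apply, smul_apply, smul_eq_mul, dZ_zero_ei, one_mul, cv]
  ring

/-- **The localisation equation.** -/
theorem fderiv_mu_fst (hW : IsPot W G H 0 η) {q : ℝ × Sp d} (hq : 0 < q.1) (i : Fin d) :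
    fderiv ℝ (mu W i) q (1, 0) =
      -(1 / 2) * ∑ j, cv' W i j q - ∑ j, mu W j q * cv W i j q := by
  have h : HasFDerivAt (mu W i) _ q :=
    (hasFDerivAt_Z hW (expB_coord i) hq).fun_mul (hasFDerivAt_inv_Z hW hq)
  have h2 : ∀ j, cv' W i j q =
      Z W (fun z => z i * z j * z j) q * (Z W (fun _ => 1) q)⁻¹
        - 2 * Z W (fun z => z i * z j) q * Z W (fun z => z j) q * (Z W (fun _ => 1) q)⁻¹ ^ 2
        - Z W (fun z => z i) q * Z W (fun z => z j * z j) q * (Z W (fun _ => 1) q)⁻¹ ^ 2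
        + 2 * Z W (fun z => z i) q * Z W (fun z => z j) q ^ 2 * (Z W (fun _ => 1) q)⁻¹ ^ 3 :=
    fun j => by
    have hj : HasFDerivAt (cv W i j) _ q :=
      ((hasFDerivAt_Z hW ((expB_coord i).mul (expB_coord j)) hq).fun_mul
        (hasFDerivAt_inv_Z hW hq)).fun_sub
        (((hasFDerivAt_Z hW (expB_coord i) hq).fun_mul
          (hasFDerivAt_Z hW (expB_coord j) hq)).fun_mul ((hasFDerivAt_inv_Z hW hq).pow 2))
    rw [cv', hj.fderiv]
    simp only [add_apply, sub_apply, smul_apply, smul_eq_mul, dZ_zero_ei, one_mul, nsmul_eq_mul]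
    push_cast
    ring
  rw [h.fderiv]
  simp only [add_apply, smul_apply, smul_eq_mul, dZ, _root_.sum_apply, ContinuousLinearMap.coe_comp,
    Function.comp_apply, ContinuousLinearMap.coe_fst', ContinuousLinearMap.coe_snd', map_zero,
    mul_zero, sum_const_zero, add_zero, mul_one, one_mul, h2, mu, cv]
  simp only [mul_sum, ← sum_sub_distrib, ← sum_add_distrib]
  exact sum_congr rfl fun j _ => by ring

end Kernel

end Vale.Agent.P347.Shift
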