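import Vale.Agent.P347.Shift.Bridge
import Vale.Agent.P347.Shift.FieldsNorm
import Vale.Agent.P347.Shift.ScoreKernel

/-!
# P347: the score of the probability flow of a tilt

With `v = exp (-t)`, `b² = 1 - v²`, `σ = v²/b²`, `a = v/b²` the score
`g t x = σ x - a m (σ, a x) = v E_tilt G` is the gradient of the potential of the law of
`v X + b ξ`, `X` of law `gibbs W`.  It is an instance of `Fields.Score` with weight `b` and row
bounds `η (m+1)!`, so all its material derivatives are bounded in every dimension.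
-/

open Real Finset MeasureTheory ProbabilityTheory Filter Topology
open scoped RealInnerProductSpace ContDiff

namespace Vale.Agent.P347.Shift

open Quarter Fields

namespace TiltFlow

variable {d : ℕ} {W : Sp d → ℝ} {G : Sp d → Sp d} {H : Sp d → Sp d →L[ℝ] Sp d} {η : ℝ} {t : ℝ}

/-- The correlation. -/
noncomputable def vT (t : ℝ) : ℝ := exp (-t)

/-- The noise level. -/
noncomputable def bT (t : ℝ) : ℝ := √(1 - vT t ^ 2)

/-- The factor of the tilt. -/
noncomputable def aT (t : ℝ) : ℝ := vT t * (1 - vT t ^ 2)⁻¹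

/-- The precision of the tilt. -/
noncomputable def sT (t : ℝ) : ℝ := vT t * aT t

/-- The coordinates of the localisation kernel. -/
noncomputable def loc (p : Pt d) : ℝ × Sp d := (sT p.1, aT p.1 • p.2)

/-- The score. -/
noncomputable def score (W : Sp d → ℝ) (p : Pt d) : Sp d :=
  WithLp.toLp 2 fun i => sT p.1 * p.2 i - aT p.1 * Kernel.mu W i (loc p)

/-- The potential of the moving law. -/
noncomputable def pot (W : Sp d → ℝ) (t : ℝ) (x : Sp d) : ℝ :=
  sT t / 2 * ‖x‖ ^ 2 - log (Kernel.Z W (fun _ => 1) (sT t, aT t • x))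

/-! ### The parameters -/

lemma vT_pos (t : ℝ) : 0 < vT t := exp_pos _

lemma vT_lt (ht : 0 < t) : vT t < 1 := exp_lt_one_iff.2 (neg_neg_of_pos ht)

lemma one_sub_pos (ht : 0 < t) : 0 < 1 - vT t ^ 2 := by
  nlinarith [vT_pos t, vT_lt ht]

lemma sT_pos (ht : 0 < t) : 0 < sT t :=
  mul_pos (vT_pos t) (mul_pos (vT_pos t) (inv_pos.2 (one_sub_pos ht)))

lemma one_add_sT (ht : 0 < t) : 1 + sT t = (1 - vT t ^ 2)⁻¹ := by
  have := (one_sub_pos ht).ne'
  simp only [sT, aT]; field_simp; ring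

lemma aT_sq (ht : 0 < t) : aT t ^ 2 = sT t * (1 + sT t) := by
  rw [one_add_sT ht, sT, aT]; ring

lemma bT_pos (ht : 0 < t) : 0 < bT t := sqrt_pos.2 (one_sub_pos ht)

lemma bT_le (t : ℝ) : bT t ≤ 1 := sqrt_le_one.2 (by nlinarith [sq_nonneg (vT t)])

lemma bT_sq (ht : 0 < t) : bT t ^ 2 = 1 - vT t ^ 2 := sq_sqrt (one_sub_pos ht).le

lemma hasDerivAt_aT (ht : 0 < t) : HasDerivAt aT (-aT t * (1 + 2 * sT t)) t := by
  have hv : HasDerivAt vT (-vT t) t := by
    unfold vT
    simpa [mul_comm] using (hasDerivAt_id t).fun_neg.exp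
  have h := (one_sub_pos ht).ne'
  have hd : HasDerivAt aT _ t := hv.fun_mul (((hv.fun_pow 2).const_sub 1).fun_inv h)
  refine hd.congr_deriv ?_
  simp only [sT, aT]
  field_simp
  ring

lemma hasDerivAt_sT (ht : 0 < t) : HasDerivAt sT (-2 * aT t ^ 2) t := by
  have hv : HasDerivAt vT (-vT t) t := by
    unfold vT
    simpa [mul_comm] using (hasDerivAt_id t).fun_neg.exp
  have hd : HasDerivAt sT _ t := hv.fun_mul (hasDerivAt_aT ht)
  refine hd.congr_deriv ?_
  rw [aT_sq ht]
  simp only [sT]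
  ring

/-! ### The chain rule -/

lemma loc_mem {p : Pt d} (hp : p ∈ Dom) : loc p ∈ Kernel.Pos := sT_pos hp

lemma hasFDerivAt_time {F : ℝ → ℝ} {F' : ℝ} {p : Pt d} (h : HasDerivAt F F' p.1) :
    HasFDerivAt (fun q : Pt d => F q.1) (F' • ContinuousLinearMap.fst ℝ ℝ (Sp d)) p :=
  h.comp_hasFDerivAt p hasFDerivAt_fst

lemma fderiv_comp_loc {F : ℝ × Sp d → ℝ} {p : Pt d} (hp : p ∈ Dom)
    (hF : DifferentiableAt ℝ F (loc p)) (v : Pt d) :
    fderiv ℝ (fun q => F (loc q)) p v =
      fderiv ℝ F (loc p) (-2 * aT p.1 ^ 2 * v.1,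
        aT p.1 • v.2 + (-aT p.1 * (1 + 2 * sT p.1) * v.1) • p.2) := by
  have h : HasFDerivAt (loc (d := d)) _ p := (hasFDerivAt_time (hasDerivAt_sT hp)).prodMk
    ((hasFDerivAt_time (hasDerivAt_aT hp)).fun_smul hasFDerivAt_snd)
  rw [show (fun q => F (loc q)) = F ∘ loc from rfl, (hF.hasFDerivAt.comp p h).fderiv]
  simp [loc]

lemma clm_split (L : ℝ × Sp d →L[ℝ] ℝ) (u : ℝ) (y : Sp d) :
    L (u, y) = u * L (1, 0) + ∑ k, y k * L (0, ei k) := by
  have e : ((u, y) : ℝ × Sp d) = u • (1, 0) + ContinuousLinearMap.inr ℝ ℝ (Sp d) y := by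
    ext <;> simp
  rw [e, map_add, map_smul, smul_eq_mul, ← ContinuousLinearMap.comp_apply,
    Fields.clm_expand (L.comp (ContinuousLinearMap.inr ℝ ℝ (Sp d))) y]
  simp

lemma px_comp_loc {F : ℝ × Sp d → ℝ} {p : Pt d} (hp : p ∈ Dom)
    (hF : DifferentiableAt ℝ F (loc p)) (j : Fin d) :
    px j (fun q => F (loc q)) p = aT p.1 * fderiv ℝ F (loc p) (0, ei j) := by
  rw [px, fderiv_comp_loc hp hF]
  simp only [mul_zero, zero_smul, add_zero]
  rw [show ((0 : ℝ), aT p.1 • ei j) = aT p.1 • ((0, ei j) : ℝ × Sp d) by simp, map_smul,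
    smul_eq_mul]

lemma mu_diff (hW : IsPot W G H 0 η) (i : Fin d) {q : ℝ × Sp d} (hq : q ∈ Kernel.Pos) :
    DifferentiableAt ℝ (Kernel.mu W i) q :=
  ((Kernel.contDiffOn_mu hW i).contDiffAt (Kernel.isOpen_Pos.mem_nhds hq)).differentiableAt
    (by simp)

lemma cv_diff (hW : IsPot W G H 0 η) (i j : Fin d) {q : ℝ × Sp d} (hq : q ∈ Kernel.Pos) :
    DifferentiableAt ℝ (Kernel.cv W i j) q :=
  ((Kernel.contDiffOn_cv hW i j).contDiffAt (Kernel.isOpen_Pos.mem_nhds hq)).differentiableAt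
    (by simp)

lemma contDiffOn_loc : ContDiffOn ℝ ∞ (loc (d := d)) Dom := by
  have hv : ContDiff ℝ ∞ fun p : Pt d => vT p.1 := by unfold vT; fun_prop
  have ha : ContDiffOn ℝ ∞ (fun p : Pt d => aT p.1) Dom :=
    hv.contDiffOn.mul ((contDiffOn_const.sub (hv.contDiffOn.pow 2)).inv fun p hp =>
      (one_sub_pos hp).ne')
  exact (hv.contDiffOn.mul ha).prodMk (ha.smul contDiff_snd.contDiffOn)

lemma contDiffOn_score (hW : IsPot W G H 0 η) : ContDiffOn ℝ ∞ (score W) Dom := by
  have h1 : ContDiffOn ℝ ∞ (fun p : Pt d => sT p.1) Dom :=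
    contDiff_fst.comp_contDiffOn contDiffOn_loc
  have hv : ContDiff ℝ ∞ fun p : Pt d => vT p.1 := by unfold vT; fun_prop
  have ha : ContDiffOn ℝ ∞ (fun p : Pt d => aT p.1) Dom :=
    hv.contDiffOn.mul ((contDiffOn_const.sub (hv.contDiffOn.pow 2)).inv fun p hp =>
      (one_sub_pos hp).ne')
  refine contDiffOn_euclidean.2 fun i => ?_
  exact (h1.mul (contDiffOn_coord i)).sub
    (ha.mul ((Kernel.contDiffOn_mu hW i).comp contDiffOn_loc fun p hp => loc_mem hp))

lemma hasFDerivAt_gc (hW : IsPot W G H 0 η) {p : Pt d} (hp : p ∈ Dom) (k : Fin d) (v : Pt d) :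
    fderiv ℝ (gc (score W) k) p v =
      -2 * aT p.1 ^ 2 * v.1 * p.2 k + sT p.1 * v.2 k
        - (-aT p.1 * (1 + 2 * sT p.1) * v.1 * Kernel.mu W k (loc p)
          + aT p.1 * fderiv ℝ (fun q => Kernel.mu W k (loc q)) p v) := by
  have hm : DifferentiableAt ℝ (fun q => Kernel.mu W k (loc q)) p :=
    (((Kernel.contDiffOn_mu hW k).comp contDiffOn_loc fun q hq => loc_mem hq).contDiffAt
      (isOpen_Dom.mem_nhds hp)).differentiableAt (by simp)
  have hx : HasFDerivAt (fun q : Pt d => q.2 k)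
      ((EuclideanSpace.proj (𝕜 := ℝ) k).comp (ContinuousLinearMap.snd ℝ ℝ (Sp d))) p :=
    ((EuclideanSpace.proj (𝕜 := ℝ) k).comp (ContinuousLinearMap.snd ℝ ℝ (Sp d))).hasFDerivAt
  have h : HasFDerivAt (gc (score W) k) _ p :=
    ((hasFDerivAt_time (hasDerivAt_sT hp)).fun_mul hx).fun_sub
      ((hasFDerivAt_time (hasDerivAt_aT hp)).fun_mul hm.hasFDerivAt)
  rw [h.fderiv]
  simp
  ring

lemma px_gc (hW : IsPot W G H 0 η) {p : Pt d} (hp : p ∈ Dom) (j k : Fin d) :
    px j (gc (score W) k) p =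
      sT p.1 * (if k = j then 1 else 0) - aT p.1 ^ 2 * Kernel.cv W k j (loc p) := by
  have h := px_comp_loc hp (mu_diff hW k (loc_mem hp)) j
  rw [Kernel.fderiv_mu hW (loc_mem hp)] at h
  rw [px] at h ⊢
  rw [hasFDerivAt_gc hW hp k, h]
  simp [ei, PiLp.single_apply]
  ring

lemma px_px_gc (hW : IsPot W G H 0 η) {p : Pt d} (hp : p ∈ Dom) (j k : Fin d) :
    px j (px j (gc (score W) k)) p = -aT p.1 ^ 3 * Kernel.cv' W k j (loc p) := by
  set e : ℝ := if k = j then 1 else 0
  have hF : DifferentiableAt ℝ (fun q => Kernel.cv W k j (loc q)) p :=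
    (((Kernel.contDiffOn_cv hW k j).comp contDiffOn_loc fun q hq => loc_mem hq).contDiffAt
      (isOpen_Dom.mem_nhds hp)).differentiableAt (by simp)
  have h : HasFDerivAt (fun q : Pt d => sT q.1 * e - aT q.1 ^ 2 * Kernel.cv W k j (loc q)) _ p :=
    ((hasFDerivAt_time (hasDerivAt_sT hp)).mul_const e).fun_sub
      ((hasFDerivAt_time ((hasDerivAt_aT hp).fun_pow 2)).fun_mul hF.hasFDerivAt)
  have he : px j (gc (score W) k) =ᶠ[𝓝 p]
      fun q => sT q.1 * e - aT q.1 ^ 2 * Kernel.cv W k j (loc q) :=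
    Filter.eventually_of_mem (isOpen_Dom.mem_nhds hp) fun q hq => px_gc hW hq j k
  have hc := px_comp_loc hp (cv_diff hW k j (loc_mem hp)) j
  rw [px] at hc ⊢
  rw [he.fderiv_eq, h.fderiv]
  simp only [sub_apply, add_apply, smul_apply, smul_eq_mul, ContinuousLinearMap.coe_fst', hc,
    mul_zero, add_zero, Kernel.cv']
  ring

/-- The score solves its equation. -/
theorem field (hW : IsPot W G H 0 η) : Field (score W) where
  smooth := contDiffOn_score hW
  sym j k p hp := by
    rw [px_gc hW hp, px_gc hW hp, Kernel.cv_comm W k j]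
    simp [eq_comm]
  mat_eq k p hp := by
    have hx : ∀ i, score W p i = sT p.1 * p.2 i - aT p.1 * Kernel.mu W i (loc p) := fun i => rfl
    rw [mat, hasFDerivAt_gc hW hp k, fderiv_comp_loc hp (mu_diff hW k (loc_mem hp)), clm_split,
      Kernel.fderiv_mu_fst hW (loc_mem hp)]
    simp only [Kernel.fderiv_mu hW (loc_mem hp), px_gc hW hp, px_px_gc hW hp, PiLp.add_apply,
      PiLp.smul_apply, smul_eq_mul, mul_one, hx]
    have e1 : ∑ j, (p.2 j + (sT p.1 * p.2 j - aT p.1 * Kernel.mu W j (loc p))) *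
        (sT p.1 * if k = j then 1 else 0) =
          sT p.1 * (p.2 k + (sT p.1 * p.2 k - aT p.1 * Kernel.mu W k (loc p))) := by
      simp; ring
    have e2 : ∑ j, ((p.2 j + (sT p.1 * p.2 j - aT p.1 * Kernel.mu W j (loc p))) *
          ((sT p.1 * if k = j then 1 else 0) - aT p.1 ^ 2 * Kernel.cv W k j (loc p))
          - -aT p.1 ^ 3 * Kernel.cv' W k j (loc p)) =
        sT p.1 * (p.2 k + (sT p.1 * p.2 k - aT p.1 * Kernel.mu W k (loc p)))
          - aT p.1 ^ 2 * (1 + sT p.1) * (∑ j, p.2 j * Kernel.cv W k j (loc p))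
          + aT p.1 ^ 3 * (∑ j, Kernel.mu W j (loc p) * Kernel.cv W k j (loc p))
          + aT p.1 ^ 3 * ∑ j, Kernel.cv' W k j (loc p) := by
      rw [← e1]
      simp only [mul_sum, ← sum_sub_distrib, ← sum_add_distrib]
      exact sum_congr rfl fun j _ => by ring
    have e3 : ∑ j, (aT p.1 * (sT p.1 * p.2 j - aT p.1 * Kernel.mu W j (loc p)) +
          -aT p.1 * (1 + 2 * sT p.1) * p.2 j) * Kernel.cv W k j (loc p) =
        -aT p.1 * (1 + sT p.1) * (∑ j, p.2 j * Kernel.cv W k j (loc p))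
          - aT p.1 ^ 2 * ∑ j, Kernel.mu W j (loc p) * Kernel.cv W k j (loc p) := by
      simp only [mul_sum, ← sum_sub_distrib]
      exact sum_congr rfl fun j _ => by ring
    rw [e2, e3]
    linear_combination (-2 * p.2 k) * aT_sq hp

/-! ### Slices -/

lemma inner_mu (hW : IsPot W G H 0 η) {σ : ℝ} (hσ : 0 < σ) (u θ : Sp d) :
    tiltMean (Kernel.Wq W σ) (fun z => ⟪u, z⟫) θ = ∑ i, u i * Kernel.mu W i (σ, θ) := by
  have e : (fun z : Sp d => ⟪u, z⟫) = fun z => ∑ i, u i * z i := funext fun z => by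
    simp [PiLp.inner_apply, mul_comm]
  rw [tiltMean, e, integral_finsetSum _ fun i _ =>
    (Appell.integrable_tilt (Kernel.isPot_Wq0 hW hσ.le) (Appell.expB_coord i) θ).const_mul _]
  refine sum_congr rfl fun i _ => ?_
  rw [integral_const_mul, Appell.integral_tilt, div_eq_mul_inv]
  rfl

lemma inner_score (hW : IsPot W G H 0 η) (ht : 0 < t) (u x : Sp d) :
    ⟪u, score W (t, x)⟫ = sT t * ⟪u, x⟫ -
      aT t * tiltMean (Kernel.Wq W (sT t)) (fun z => ⟪u, z⟫) (aT t • x) := by
  rw [inner_mu hW (sT_pos ht), mul_sum]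
  simp only [PiLp.inner_apply, score, RCLike.inner_apply, conj_trivial, loc, mul_sum,
    ← sum_sub_distrib]
  exact sum_congr rfl fun i _ => by ring

lemma expB_inner_grad (hW : IsPot W G H 0 η) (hη : 0 ≤ η) (u : Sp d) :
    ContDiff ℝ 1 (fun z => ⟪u, G z⟫) ∧ ∀ z, ‖fderiv ℝ (fun z => ⟪u, G z⟫) z‖ ≤ η * ‖u‖ := by
  refine ⟨(innerSL ℝ u).contDiff.comp hW.contDiff_grad, fun z => ?_⟩
  have h : HasFDerivAt (fun z => ⟪u, G z⟫) ((innerSL ℝ u).comp (H z)) z :=
    (innerSL ℝ u).hasFDerivAt.comp z (hW.hasHess z)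
  rw [h.fderiv]
  refine (ContinuousLinearMap.opNorm_comp_le _ _).trans ?_
  rw [innerSL_apply_norm, mul_comm]
  exact mul_le_mul_of_nonneg_right (hW.norm_hess hη z) (norm_nonneg _)

/-- The score is `v` times the tilted mean of the gradient. -/
lemma inner_score_eq (hW : IsPot W G H 0 η) (hη : 0 ≤ η) (ht : 0 < t) (u x : Sp d) :
    ⟪u, score W (t, x)⟫ =
      vT t * tiltMean (Kernel.Wq W (sT t)) (fun z => ⟪u, G z⟫) (aT t • x) := by
  set θ := aT t • x
  have hP := Appell.isPot_tilt (Kernel.isPot_Wq0 hW (sT_pos ht).le) θ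
  have hm := hP.mean le_rfl
  have iz : Integrable (fun z : Sp d => z) (gibbs fun z => Kernel.Wq W (sT t) z - ⟪θ, z⟫) :=
    hP.integrable_gibbs_of_le le_rfl continuous_id (C := 1) (K := 1) fun z => by
      rw [one_mul, one_mul]; linarith [add_one_le_exp ‖z‖]
  have iG : Integrable G (gibbs fun z => Kernel.Wq W (sT t) z - ⟪θ, z⟫) :=
    hP.integrable_gibbs_of_le le_rfl hW.continuous_grad (C := ‖G 0‖ + η) (K := 1) fun z => by
      refine (hW.grad_le le_rfl z).trans ?_
      rw [one_mul]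
      nlinarith [add_one_le_exp ‖z‖, norm_nonneg (G 0), norm_nonneg z]
  have := hP.isProb le_rfl
  have ha : ∫ z, (G z + (sT t) • z - θ) ∂gibbs (fun z => Kernel.Wq W (sT t) z - ⟪θ, z⟫) =
      (∫ z, G z ∂gibbs fun z => Kernel.Wq W (sT t) z - ⟪θ, z⟫) +
        (sT t) • (∫ z, z ∂gibbs fun z => Kernel.Wq W (sT t) z - ⟪θ, z⟫) - θ := by
    have i1 : Integrable (fun z => G z + (sT t) • z) (gibbs fun z => Kernel.Wq W (sT t) z - ⟪θ, z⟫) :=
      iG.add (iz.smul (sT t))
    rw [integral_sub i1 (integrable_const θ), integral_add iG (g := fun z => (sT t) • z) (iz.smul (sT t)),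
      integral_smul, integral_const, probReal_univ, one_smul]
  have h := congrArg (fun y => ⟪u, y⟫) hm
  simp only [ha, inner_neg_right, inner_add_right, inner_sub_right, inner_smul_right] at h
  rw [← integral_inner iz u, ← integral_inner iG u, show ⟪u, θ⟫ = aT t * ⟪u, x⟫ by
    simp [θ, inner_smul_right]] at h
  rw [inner_score hW ht]
  simp only [tiltMean]
  have hs := one_add_sT ht
  have hb := (one_sub_pos ht).ne'
  have hv : vT t = aT t * (1 - vT t ^ 2) := by
    rw [aT, mul_assoc, inv_mul_cancel₀ hb, mul_one]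
  have key : (1 + sT t) * (1 - vT t ^ 2) = 1 := by rw [hs, inv_mul_cancel₀ hb]
  linear_combination (-(aT t) * (1 - vT t ^ 2)) * h +
    (-(∫ z, ⟪u, G z⟫ ∂gibbs fun z => Kernel.Wq W (sT t) z - ⟪θ, z⟫)) * hv +
    ((aT t) * (∫ z, ⟪u, z⟫ ∂gibbs fun z => Kernel.Wq W (sT t) z - ⟪θ, z⟫)
      - sT t * ⟪u, x⟫) * key +
    (-((1 - vT t ^ 2) * ⟪u, x⟫)) * (aT_sq ht)

lemma contDiff_slice (hW : IsPot W G H 0 η) (ht : 0 < t) :
    ContDiff ℝ ∞ fun x => score W (t, x) := by
  rw [← contDiffOn_univ]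
  exact (contDiffOn_score hW).comp (contDiff_const.prodMk contDiff_id).contDiffOn
    fun x _ => ht

lemma contDiff_tm (hW : IsPot W G H 0 η) (hη : 0 ≤ η) (ht : 0 < t) (u : Sp d) :
    ContDiff ℝ ∞ (tiltMean (Kernel.Wq W (sT t)) fun z => ⟪u, G z⟫) := by
  obtain ⟨-, C, K, h⟩ := Appell.expB_lip (expB_inner_grad hW hη u).1 (expB_inner_grad hW hη u).2
  exact tiltMean_contDiff (Kernel.isPot_Wq0 hW (sT_pos ht).le)
    (expB_inner_grad hW hη u).1.continuous h

lemma sum_deriv_one (f : Sp d → ℝ) (x : Sp d) :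
    ∑ p : Fin (0 + 1) → Fin d, iteratedFDeriv ℝ (0 + 1) f x (fun i => ei (p i)) ^ 2 =
      ∑ j, fderiv ℝ f x (ei j) ^ 2 := by
  rw [← (Equiv.funUnique (Fin 1) (Fin d)).symm.sum_comp]
  simp [Equiv.funUnique, iteratedFDeriv_one_apply]

/-- All derivatives of a component of the score. -/
theorem sum_sq_deriv_le' (hW : IsPot W G H 0 η) (hη : 0 ≤ η) (ht : 0 < t) (u : Sp d) (m : ℕ)
    (x : Sp d) :
    ∑ p : Fin (m + 1) → Fin d,
        iteratedFDeriv ℝ (m + 1) (fun y => ⟪u, score W (t, y)⟫) x (fun i => ei (p i)) ^ 2 ≤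
      vT t ^ (2 * m + 4) * ((η * (m + 1).factorial * (bT t)⁻¹ ^ m) ^ 2 * ‖u‖ ^ 2) := by
  set tm := tiltMean (Kernel.Wq W (sT t)) fun z => ⟪u, G z⟫
  set L : Sp d →L[ℝ] Sp d := aT t • ContinuousLinearMap.id ℝ (Sp d)
  have hc := contDiff_tm hW hη ht u
  have e : (fun y => ⟪u, score W (t, y)⟫) = vT t • (tm ∘ L) := funext fun y => by
    simp [inner_score_eq hW hη ht, tm, L]
  have hd : ∀ p : Fin (m + 1) → Fin d,
      iteratedFDeriv ℝ (m + 1) (fun y => ⟪u, score W (t, y)⟫) x (fun i => ei (p i)) =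
        vT t * aT t ^ (m + 1) *
          iteratedFDeriv ℝ (m + 1) tm (L x) (fun i => ei (p i)) := fun p => by
    rw [e, iteratedFDeriv_const_smul_apply ((hc.comp L.contDiff).contDiffAt.of_le (by
      exact_mod_cast le_top)), L.iteratedFDeriv_comp_right hc x (by exact_mod_cast le_top)]
    simp [tm, L, ContinuousMultilinearMap.map_smul_univ, mul_assoc]
  have hA := appell (Kernel.isPot_Wq hW (sT t)) (sT_pos ht).le (expB_inner_grad hW hη u).1
    (expB_inner_grad hW hη u).2 m (L x)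
  simp only [hd, mul_pow (vT t * aT t ^ (m + 1)), ← mul_sum]
  refine (mul_le_mul_of_nonneg_left hA (sq_nonneg _)).trans ?_
  rw [one_add_sT ht, inv_inv, aT, ← bT_sq ht]
  have hb := bT_pos ht
  have hv0 := vT_pos t
  calc (vT t * (vT t * (bT t ^ 2)⁻¹) ^ (m + 1)) ^ 2 *
        (((m + 1).factorial * (η * ‖u‖)) ^ 2 * (bT t ^ 2) ^ (m + 2))
      = vT t ^ (2 * m + 4) *
          ((η * (m + 1).factorial * (bT t)⁻¹ ^ m) ^ 2 * ‖u‖ ^ 2) := by
        simp only [inv_pow, mul_pow, ← pow_mul]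
        field_simp
        ring
    _ ≤ _ := le_rfl

/-- All derivatives of a component of the score, without the decay in time. -/
theorem sum_sq_deriv_le (hW : IsPot W G H 0 η) (hη : 0 ≤ η) (ht : 0 < t) (u : Sp d) (m : ℕ)
    (x : Sp d) :
    ∑ p : Fin (m + 1) → Fin d,
        iteratedFDeriv ℝ (m + 1) (fun y => ⟪u, score W (t, y)⟫) x (fun i => ei (p i)) ^ 2 ≤
      (η * (m + 1).factorial * (bT t)⁻¹ ^ m) ^ 2 * ‖u‖ ^ 2 :=
  (sum_sq_deriv_le' hW hη ht u m x).trans
    (mul_le_of_le_one_left (by positivity) (pow_le_one₀ (vT_pos t).le (vT_lt ht).le))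

lemma norm_mlin_le {n : ℕ} (T : (Sp d) [×n]→L[ℝ] ℝ) :
    ‖T‖ ≤ ∑ p : Fin n → Fin d, |T fun i => ei (p i)| := by
  refine ContinuousMultilinearMap.opNorm_le_bound (sum_nonneg fun _ _ => abs_nonneg _) fun m => ?_
  have e : m = fun i => ∑ j, m i j • ei j := funext fun i => by
    conv_lhs => rw [← (EuclideanSpace.basisFun (Fin d) ℝ).sum_repr (m i)]
    simp [ei]
  conv_lhs => rw [e, ← ContinuousMultilinearMap.coe_coe, MultilinearMap.map_sum]
  refine (norm_sum_le _ _).trans ?_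
  rw [sum_mul]
  refine sum_le_sum fun p _ => ?_
  rw [MultilinearMap.map_smul_univ, norm_smul, norm_prod, mul_comm]
  exact mul_le_mul_of_nonneg_left (prod_le_prod (fun i _ => norm_nonneg _) fun i _ => by
    simpa using PiLp.norm_apply_le (m i) (p i)) (abs_nonneg _)

lemma tg_of_bounded {u : Sp d → ℝ} (hu : ContDiff ℝ ∞ u)
    (h : ∀ n, ∃ C, ∀ x, ∀ p : Fin (n + 1) → Fin d,
      |iteratedFDeriv ℝ (n + 1) u x fun i => ei (p i)| ≤ C) : u.HasTemperateGrowth := by
  have hb : ∀ n, ∃ C, ∀ x, ‖iteratedFDeriv ℝ (n + 1) u x‖ ≤ C := fun n => by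
    obtain ⟨C, hC⟩ := h n
    exact ⟨∑ _p : Fin (n + 1) → Fin d, C, fun x =>
      (norm_mlin_le _).trans (sum_le_sum fun p _ => hC x p)⟩
  refine ⟨hu, fun n => ?_⟩
  rcases n with _ | n
  · obtain ⟨C, hC⟩ := hb 0
    have hC0 : 0 ≤ C := (norm_nonneg _).trans (hC 0)
    refine ⟨1, |u 0| + C, fun x => ?_⟩
    have h1 := convex_univ.norm_image_sub_le_of_norm_fderiv_le
      (fun y _ => hu.differentiable (by simp) y) (fun y _ => (by
        rw [← norm_iteratedFDeriv_one]; exact hC y : ‖fderiv ℝ u y‖ ≤ C))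
      (Set.mem_univ 0) (Set.mem_univ x)
    rw [sub_zero, norm_eq_abs] at h1
    rw [norm_iteratedFDeriv_zero, norm_eq_abs, pow_one]
    nlinarith [abs_sub_abs_le_abs_sub (u x) (u 0), norm_nonneg x, abs_nonneg (u 0)]
  · obtain ⟨C, hC⟩ := hb n
    exact ⟨0, C, fun x => by simpa using hC x⟩

lemma tg_inner_score (hW : IsPot W G H 0 η) (hη : 0 ≤ η) (ht : 0 < t) (u : Sp d) :
    (fun y => ⟪u, score W (t, y)⟫).HasTemperateGrowth := by
  refine tg_of_bounded ((innerSL ℝ u).contDiff.comp (contDiff_slice hW ht)) fun n =>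
    ⟨η * (n + 1).factorial * (bT t)⁻¹ ^ n * ‖u‖, fun x p => ?_⟩
  have hb := bT_pos ht
  refine abs_le_of_sq_le_sq ?_ (by positivity)
  rw [mul_pow _ ‖u‖]
  exact le_trans (single_le_sum (f := fun p : Fin (n + 1) → Fin d =>
    iteratedFDeriv ℝ (n + 1) (fun y => ⟪u, score W (t, y)⟫) x (fun i => ei (p i)) ^ 2)
    (fun _ _ => sq_nonneg _) (mem_univ p)) (sum_sq_deriv_le hW hη ht u n x)

/-! ### The potential -/

lemma hasFDerivAt_pot (hW : IsPot W G H 0 η) (ht : 0 < t) (x : Sp d) :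
    HasFDerivAt (pot W t) (innerSL ℝ (score W (t, x))) x := by
  have hi : HasFDerivAt (fun y : Sp d => (sT t, aT t • y))
      ((0 : Sp d →L[ℝ] ℝ).prod (aT t • ContinuousLinearMap.id ℝ (Sp d))) x :=
    (hasFDerivAt_const (sT t) x).prodMk ((hasFDerivAt_id x).const_smul (aT t))
  have h1 : HasFDerivAt (fun y : Sp d => Kernel.Z W (fun _ => 1) (sT t, aT t • y)) _ x :=
    HasFDerivAt.comp (g := Kernel.Z W fun _ => 1) x
      (Kernel.hasFDerivAt_Z hW (Appell.expB_const 1) (q := (sT t, aT t • x)) (sT_pos ht)) hi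
  have h : HasFDerivAt (pot W t) _ x := (((hasFDerivAt_id x).norm_sq).const_mul (sT t / 2)).sub
    (h1.log (Kernel.Z_one_pos hW (q := (sT t, aT t • x)) (sT_pos ht)).ne')
  refine h.congr_fderiv (ContinuousLinearMap.ext fun v => ?_)
  simp [Kernel.dZ, score, Kernel.mu, loc, PiLp.inner_apply, mul_sum, ← sum_sub_distrib]
  exact sum_congr rfl fun i _ => by ring

/-- The potential of the moving law is again convex with Hessian at most `η`. -/
theorem isPot_pot (hW : IsPot W G H 0 η) (hη : 0 ≤ η) (ht : 0 < t) :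
    IsPot (pot W t) (fun x => score W (t, x)) (fun x => fderiv ℝ (fun y => score W (t, y)) x)
      0 η := by
  have hs := contDiff_slice hW ht
  have hd : ∀ x u w, ⟪fderiv ℝ (fun y => score W (t, y)) x w, u⟫ =
      fderiv ℝ (fun y => ⟪u, score W (t, y)⟫) x w := fun x u w => by
    have h : HasFDerivAt (fun y => ⟪u, score W (t, y)⟫)
        ((innerSL ℝ u).comp (fderiv ℝ (fun y => score W (t, y)) x)) x :=
      (innerSL ℝ u).hasFDerivAt.comp x (hs.differentiable (by simp) x).hasFDerivAt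
    rw [h.fderiv, real_inner_comm]
    rfl
  refine ⟨hasFDerivAt_pot hW ht, fun x => (hs.differentiable (by simp) x).hasFDerivAt,
    hs.continuous_fderiv (by simp), fun x u w => ?_, fun x u => ?_, fun x u => ?_⟩
  · rw [hd, real_inner_comm, hd]
    have e : ∀ u w, fderiv ℝ (fun y => ⟪u, score W (t, y)⟫) x w =
        ∑ j, ∑ k, w j * u k * px j (gc (score W) k) (t, x) := fun u w => by
      have hk : ∀ k, DifferentiableAt ℝ (fun y => gc (score W) k (t, y)) x := fun k =>
        (contDiff_euclidean.1 hs k).differentiable (by simp) x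
      rw [clm_expand]
      refine sum_congr rfl fun j _ => ?_
      rw [show (fun y => ⟪u, score W (t, y)⟫) = fun y => ∑ k, u k * gc (score W) k (t, y) from
        funext fun y => by simp [PiLp.inner_apply, gc, mul_comm],
        fderiv_fun_sum fun k _ => (hk k).const_mul _]
      simp only [_root_.sum_apply, fderiv_const_mul (hk _), smul_apply, smul_eq_mul, mul_sum]
      refine sum_congr rfl fun k _ => ?_
      rw [px_slice (diffAt ((field hW).contDiffOn_gc k) ht), mul_assoc]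
      rfl
    rw [e, e, sum_comm]
    exact sum_congr rfl fun j _ => sum_congr rfl fun k _ => by
      rw [(field hW).sym k j (t, x) ht]; ring
  · rw [zero_mul, hd]
    set σ := sT t
    set tm := tiltMean (Kernel.Wq W σ) fun z => ⟪u, z⟫
    obtain ⟨-, C, K, hK⟩ := Appell.expB_lip (f := fun z => ⟪u, z⟫) (innerSL ℝ u).contDiff
      (L := ‖u‖) fun z => by
        rw [show (fun z => ⟪u, z⟫) = innerSL ℝ u from rfl, ContinuousLinearMap.fderiv,
          innerSL_apply_norm]
    have htm : ContDiff ℝ ∞ tm := tiltMean_contDiff (Kernel.isPot_Wq0 hW (sT_pos ht).le)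
      (innerSL ℝ u).continuous hK
    have hA := appell (Kernel.isPot_Wq hW σ) (sT_pos ht).le (f := fun z => ⟪u, z⟫)
      (innerSL ℝ u).contDiff (L := ‖u‖) (fun z => by
        rw [show (fun z => ⟪u, z⟫) = innerSL ℝ u from rfl, ContinuousLinearMap.fderiv,
          innerSL_apply_norm]) 0 (aT t • x)
    replace hA : ∑ j, fderiv ℝ tm (aT t • x) (ei j) ^ 2 ≤
        (‖u‖ * (1 - vT t ^ 2)) ^ 2 := by
      rw [← sum_deriv_one]
      refine hA.trans_eq ?_
      rw [show σ = sT t from rfl, one_add_sT ht, inv_inv]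
      simp
      ring
    have hcs := sum_mul_sq_le_sq_mul_sq univ (fun j => u j)
      fun j => fderiv ℝ tm (aT t • x) (ei j)
    rw [← clm_expand, ← EuclideanSpace.real_norm_sq_eq] at hcs
    have hval : fderiv ℝ tm (aT t • x) u ≤ ‖u‖ ^ 2 * (1 - vT t ^ 2) := by
      refine le_of_abs_le (abs_le_of_sq_le_sq ?_ (by nlinarith [one_sub_pos ht, norm_nonneg u]))
      exact hcs.trans ((mul_le_mul_of_nonneg_left hA (sq_nonneg _)).trans_eq (by ring))
    have h : HasFDerivAt (fun y => sT t * ⟪u, y⟫ - aT t * tm (aT t • y)) _ x :=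
      ((innerSL ℝ u).hasFDerivAt.const_mul (sT t)).fun_sub
        ((((htm.differentiable (by simp) _).hasFDerivAt).comp x
          ((hasFDerivAt_id x).const_smul (aT t))).const_mul (aT t))
    rw [show (fun y => ⟪u, score W (t, y)⟫) = fun y => sT t * ⟪u, y⟫ - aT t * tm (aT t • y) from
      funext fun y => inner_score hW ht u y, h.fderiv]
    simp only [sub_apply, smul_apply, ContinuousLinearMap.coe_comp, Function.comp_apply,
      ContinuousLinearMap.id_apply, map_smul, smul_eq_mul, innerSL_apply_apply,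
      real_inner_self_eq_norm_sq]
    have key : sT t = aT t ^ 2 * (1 - vT t ^ 2) := by
      rw [aT_sq ht, one_add_sT ht, mul_assoc, inv_mul_cancel₀ (one_sub_pos ht).ne', mul_one]
    simp only [Pi.smul_apply, id_eq]
    nlinarith [mul_le_mul_of_nonneg_left hval (sq_nonneg (aT t)), key]
  · rw [hd]
    have hA := sum_sq_deriv_le hW hη ht u 0 x
    rw [sum_deriv_one] at hA
    simp only [zero_add, Nat.factorial_one, Nat.cast_one, mul_one, pow_zero] at hA
    have hcs := sum_mul_sq_le_sq_mul_sq univ (fun j => u j)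
      fun j => fderiv ℝ (fun y => ⟪u, score W (t, y)⟫) x (ei j)
    rw [← clm_expand, ← EuclideanSpace.real_norm_sq_eq] at hcs
    refine le_of_abs_le (abs_le_of_sq_le_sq ?_ (by positivity))
    exact hcs.trans ((mul_le_mul_of_nonneg_left hA (sq_nonneg _)).trans_eq (by ring))

lemma tiltPot_pot (hW : IsPot W G H 0 η) (hη : 0 ≤ η) (ht : 0 < t) : TiltPot (pot W t) := by
  have hP := isPot_pot hW hη ht
  refine ⟨?_, exp (-pot W t 0), ‖score W (t, 0)‖, fun x => hP.exp_neg_le le_rfl x⟩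
  refine Function.HasTemperateGrowth.of_fderiv (k := 2)
    (C := |pot W t 0| + ‖score W (t, 0)‖ + η) ?_ (fun x => (hP.hasGrad x).differentiableAt)
    fun x => ?_
  · have hg : (fun x => score W (t, x)).HasTemperateGrowth := by
      have e : (fun x => score W (t, x)) = fun x => ∑ k,
          ContinuousLinearMap.toSpanSingleton ℝ (ei k) ⟪ei k, score W (t, x)⟫ := funext fun x => by
        conv_lhs => rw [← (EuclideanSpace.basisFun (Fin d) ℝ).sum_repr (score W (t, x))]
        simp [ei, PiLp.inner_apply, PiLp.single_apply]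
      rw [e]
      exact .sum fun k _ => (ContinuousLinearMap.toSpanSingleton ℝ (ei k)).hasTemperateGrowth.comp
        (tg_inner_score hW hη ht (ei k))
    rw [funext fun x => (hP.hasGrad x).fderiv]
    exact (innerSL ℝ).hasTemperateGrowth.comp hg
  · have h := (convex_closedBall (0 : Sp d) ‖x‖).norm_image_sub_le_of_norm_fderiv_le
      (f := pot W t) (C := ‖score W (t, 0)‖ + η * ‖x‖)
      (fun y _ => (hP.hasGrad y).differentiableAt) (fun y hy => by
        rw [mem_closedBall_zero_iff] at hy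
        rw [hP.fderiv_norm]
        exact (hP.grad_le le_rfl y).trans
          (add_le_add_right (mul_le_mul_of_nonneg_left hy hη) _))
      (Metric.mem_closedBall_self (norm_nonneg x)) (mem_closedBall_zero_iff.2 le_rfl)
    rw [sub_zero, norm_eq_abs] at h
    rw [norm_eq_abs]
    nlinarith [abs_sub_abs_le_abs_sub (pot W t x) (pot W t 0), norm_nonneg x,
      abs_nonneg (pot W t 0), norm_nonneg (score W (t, 0)), sq_nonneg ‖x‖,
      mul_nonneg (abs_nonneg (pot W t 0)) (norm_nonneg x),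
      mul_nonneg (norm_nonneg (score W (t, 0))) (sq_nonneg ‖x‖),
      mul_nonneg hη (norm_nonneg x)]

/-- **The score of the probability flow is a score in the sense of `Fields`.** -/
theorem isScore (hW : IsPot W G H 0 η) (hη : 0 ≤ η) :
    Score (score W) (pot W) bT fun m => η * (m + 1).factorial where
  toField := field hW
  s_pos t ht := bT_pos ht
  s_le t _ := bT_le t
  c_nonneg m := by positivity
  pot t ht := tiltPot_pot hW hη ht
  grad t ht i x := by
    rw [pd, (hasFDerivAt_pot hW ht x).fderiv]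
    simp [ei, PiLp.inner_apply, PiLp.single_apply]
  row t ht m x v := by
    set u : Sp d := WithLp.toLp 2 v
    have hu := tg_inner_score hW hη ht u
    have e : ∀ j, (fun y => ∑ k, hes (TiltFlow.pot W t) j k y * v k) =
        pd j fun y => ⟪u, score W (t, y)⟫ := fun j => funext fun y => by
      have hk : ∀ k, DifferentiableAt ℝ (fun y => gc (score W) k (t, y)) y := fun k =>
        (contDiff_euclidean.1 (contDiff_slice hW ht) k).differentiable (by simp) y
      rw [pd, show (fun y => ⟪u, score W (t, y)⟫) = fun y => ∑ k, v k * gc (score W) k (t, y) from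
        funext fun y => by simp [u, PiLp.inner_apply, gc, mul_comm],
        fderiv_fun_sum fun k _ => (hk k).const_mul _]
      simp only [_root_.sum_apply, fderiv_const_mul (hk _), smul_apply, smul_eq_mul]
      refine sum_congr rfl fun k _ => ?_
      rw [hes, show pd k (TiltFlow.pot W t) = fun y => gc (score W) k (t, y) from funext fun y => by
        rw [pd, (hasFDerivAt_pot hW ht y).fderiv]
        simp [ei, gc, PiLp.inner_apply, PiLp.single_apply], mul_comm]
      rfl
    simp only [e]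
    rw [show ∑ a, psq m (pd a fun y => ⟪u, score W (t, y)⟫) x =
      psq (m + 1) (fun y => ⟪u, score W (t, y)⟫) x from rfl, psq_eq_iteratedFDeriv _ hu]
    refine (sum_sq_deriv_le hW hη ht u m x).trans_eq ?_
    rw [EuclideanSpace.real_norm_sq_eq]

end TiltFlow

end Vale.Agent.P347.Shift
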