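import Vale.Agent.P347.Shift.Score

/-!
# P347: the size of the score and of its material derivatives

For `η ≤ 1/2` the score at time `t` has size `exp (-t) (‖G 0‖ + η √d)` in the weighted norms of
every order, so `r` material derivatives have at most `b ^ (-2r)` times this size, with a constant
that depends on `r` only.
-/

open Real Finset MeasureTheory ProbabilityTheory
open scoped RealInnerProductSpace ContDiff

namespace Vale.Agent.P347.Shift

open Quarter Fields

namespace TiltFlow

variable {d : ℕ} {W : Sp d → ℝ} {G : Sp d → Sp d} {H : Sp d → Sp d →L[ℝ] Sp d} {η lo hi t : ℝ}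

lemma norm_fderiv_coord (k : Fin d) (x : Sp d) :
    ‖fderiv ℝ (fun y : Sp d => y k) x‖ ≤ 1 := by
  rw [show (fun y : Sp d => y k) = EuclideanSpace.proj (𝕜 := ℝ) k from rfl,
    ContinuousLinearMap.fderiv]
  exact ContinuousLinearMap.opNorm_le_bound _ zero_le_one fun v => by
    rw [one_mul]; exact PiLp.norm_apply_le v k

/-- The mean size of a point of a log-concave tilt. -/
lemma integral_norm_le (hP : IsPot W G H lo hi) (hlo : 0 ≤ lo) :
    Integrable (fun x => ‖x‖) (gibbs W) ∧
      ∫ x, ‖x‖ ∂gibbs W ≤ ‖∫ x, x ∂gibbs W‖ + √d := by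
  have := hP.isProb hlo
  have he : ∀ x : Sp d, ‖x‖ ≤ 1 * exp (1 * ‖x‖) := fun x => by
    rw [one_mul, one_mul]; linarith [add_one_le_exp ‖x‖]
  have i1 : Integrable (fun x : Sp d => x) (gibbs W) :=
    hP.integrable_gibbs_of_le hlo continuous_id he
  set m := ∫ x, x ∂gibbs W
  refine ⟨i1.norm, ?_⟩
  have hc : ∀ k : Fin d, ∫ x, x k ∂gibbs W = m k := fun k =>
    (EuclideanSpace.proj (𝕜 := ℝ) k).integral_comp_comm i1
  have hk : ∀ k : Fin d, Integrable (fun x : Sp d => (x k - m k) ^ 2) (gibbs W) ∧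
      ∫ x, (x k - m k) ^ 2 ∂gibbs W ≤ 1 := fun k => by
    have hp := gibbs_poincare hP hlo (f := fun x : Sp d => x k)
      (EuclideanSpace.proj (𝕜 := ℝ) k).contDiff (A := 1) (B := 0)
      (fun x => by simpa using norm_fderiv_coord k x)
    refine ⟨(hp.1.sub (memLp_const (m k))).integrable_sq, ?_⟩
    rw [← hc k]
    have hle : ∫ x, ‖fderiv ℝ (fun y : Sp d => y k) x‖ ^ 2 ∂gibbs W ≤ 1 := by
      refine (le_abs_self _).trans ((norm_integral_le_of_norm_le_const (μ := gibbs W) (C := 1)
        (f := fun x => ‖fderiv ℝ (fun y : Sp d => y k) x‖ ^ 2) (ae_of_all _ fun x => ?_)).trans_eq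
          (by rw [probReal_univ, mul_one]))
      rw [norm_pow, norm_norm]
      exact pow_le_one₀ (norm_nonneg _) (norm_fderiv_coord k x)
    have h0 : 0 ≤ (1 + lo)⁻¹ := by positivity
    exact hp.2.trans ((mul_le_mul_of_nonneg_left hle h0).trans (by
      rw [mul_one]; exact inv_le_one_of_one_le₀ (by linarith)))
  have e : ∀ x : Sp d, ‖x - m‖ ^ 2 = ∑ k, (x k - m k) ^ 2 := fun x => by
    rw [EuclideanSpace.real_norm_sq_eq]; rfl
  have h2i : Integrable (fun x : Sp d => ‖x - m‖ ^ 2) (gibbs W) := by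
    simp only [e]; exact integrable_finsetSum _ fun k _ => (hk k).1
  have h2 : ∫ x, ‖x - m‖ ^ 2 ∂gibbs W ≤ d := by
    simp only [e]
    rw [integral_finsetSum _ fun k _ => (hk k).1]
    exact (sum_le_sum fun k _ => (hk k).2).trans_eq (by simp)
  have h1 : ∫ x, ‖x - m‖ ∂gibbs W ≤ √d := by
    rcases Nat.eq_zero_or_pos d with h | h
    · subst h
      have h0 : ∀ x : Sp 0, ‖x - m‖ = 0 := fun x => by rw [Subsingleton.elim x m, sub_self, norm_zero]
      simp [h0]
    · have hd : 0 < √(d : ℝ) := sqrt_pos.2 (by exact_mod_cast h)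
      have ha : Integrable (fun x : Sp d => ‖x - m‖ ^ 2 * (2 * √d)⁻¹) (gibbs W) :=
        h2i.mul_const _
      have hg : Integrable (fun x : Sp d => ‖x - m‖ ^ 2 * (2 * √d)⁻¹ + √d / 2) (gibbs W) :=
        ha.add (integrable_const (√d / 2))
      have hf : Integrable (fun x : Sp d => ‖x - m‖) (gibbs W) :=
        (i1.sub (integrable_const m)).norm
      refine (integral_mono hf hg fun x => ?_).trans ?_
      · rw [show ‖x - m‖ ^ 2 * (2 * √d)⁻¹ + √d / 2 = (‖x - m‖ ^ 2 + √d ^ 2) / (2 * √d) by
          field_simp, le_div_iff₀ (by positivity)]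
        nlinarith [sq_nonneg (‖x - m‖ - √d)]
      · rw [integral_add ha (integrable_const _), integral_mul_const,
          integral_const, probReal_univ, one_smul]
        refine (add_le_add_left (mul_le_mul_of_nonneg_right h2 (by positivity)) _).trans_eq ?_
        field_simp
        rw [sq_sqrt (Nat.cast_nonneg d)]
        ring
  have hf : Integrable (fun x : Sp d => ‖x - m‖) (gibbs W) := (i1.sub (integrable_const m)).norm
  have hg : Integrable (fun x : Sp d => ‖x - m‖ + ‖m‖) (gibbs W) := hf.add (integrable_const ‖m‖)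
  refine (integral_mono i1.norm hg fun x => norm_le_norm_sub_add x m).trans ?_
  rw [integral_add hf (integrable_const _), integral_const, probReal_univ, one_smul]
  linarith

/-- A Lipschitz gradient has small mean once it controls the mean of the point. -/
lemma norm_integral_le_of_mean {F : Sp d → Sp d} (hP : IsPot W G H lo hi) (hlo : 0 ≤ lo)
    (hF : Continuous F) {L : ℝ} (hL : 0 ≤ L) (hL1 : L ≤ 1 / 2)
    (hlip : ∀ x, ‖F x‖ ≤ ‖F 0‖ + L * ‖x‖)
    (hmean : ‖∫ x, x ∂gibbs W‖ ≤ ‖∫ x, F x ∂gibbs W‖) :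
    ‖∫ x, F x ∂gibbs W‖ ≤ 2 * (‖F 0‖ + L * √d) := by
  have := hP.isProb hlo
  obtain ⟨i1, h1⟩ := integral_norm_le hP hlo
  have i2 : Integrable F (gibbs W) :=
    ((integrable_const ‖F 0‖).add (i1.const_mul L)).mono' hF.aestronglyMeasurable
      (ae_of_all _ hlip)
  have h : ‖∫ x, F x ∂gibbs W‖ ≤ ‖F 0‖ + L * (‖∫ x, F x ∂gibbs W‖ + √d) := by
    refine (norm_integral_le_integral_norm _).trans ((integral_mono i2.norm
      ((integrable_const ‖F 0‖).add (i1.const_mul L)) hlip).trans ?_)
    simp only [Pi.add_apply]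
    rw [integral_add (integrable_const _) (i1.const_mul L), integral_const, probReal_univ,
      one_smul, integral_const_mul]
    exact add_le_add_right (mul_le_mul_of_nonneg_left (h1.trans (add_le_add_left hmean _)) hL) _
  nlinarith [norm_nonneg (∫ x, F x ∂gibbs W)]

variable (hW : IsPot W G H 0 η) (hη : 0 ≤ η) (ht : 0 < t)

include hW hη ht

lemma fderiv_inner_score_sq (u x : Sp d) :
    ∑ j, fderiv ℝ (fun y => ⟪u, score W (t, y)⟫) x (ei j) ^ 2 ≤ (η * vT t * ‖u‖) ^ 2 := by
  have h := sum_sq_deriv_le' hW hη ht u 0 x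
  rw [sum_deriv_one] at h
  refine h.trans ?_
  simp only [zero_add, Nat.factorial_one, Nat.cast_one, mul_one, pow_zero, mul_zero, mul_pow]
  have h4 : vT t ^ 4 ≤ vT t ^ 2 :=
    pow_le_pow_of_le_one (vT_pos t).le (vT_lt ht).le (by norm_num)
  calc vT t ^ 4 * (η ^ 2 * ‖u‖ ^ 2) ≤ vT t ^ 2 * (η ^ 2 * ‖u‖ ^ 2) :=
        mul_le_mul_of_nonneg_right h4 (by positivity)
    _ = _ := by ring

lemma norm_fderiv_inner_score (u x : Sp d) :
    ‖fderiv ℝ (fun y => ⟪u, score W (t, y)⟫) x‖ ≤ η * vT t * ‖u‖ := by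
  have := vT_pos t
  refine ContinuousLinearMap.opNorm_le_bound _ (by positivity) fun v => ?_
  rw [norm_eq_abs, clm_expand]
  refine abs_le_of_sq_le_sq ((sum_mul_sq_le_sq_mul_sq univ (fun j => v j) _).trans ?_)
    (by positivity)
  rw [← EuclideanSpace.real_norm_sq_eq, mul_pow _ ‖v‖, mul_comm]
  exact mul_le_mul_of_nonneg_right (fderiv_inner_score_sq hW hη ht u x) (sq_nonneg _)

lemma norm_score_sub (x y : Sp d) :
    ‖score W (t, x) - score W (t, y)‖ ≤ η * vT t * ‖x - y‖ := by
  set u := score W (t, x) - score W (t, y)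
  have := vT_pos t
  rcases (norm_nonneg u).eq_or_lt with h | h
  · rw [← h]; positivity
  · have hd : Differentiable ℝ fun y => ⟪u, score W (t, y)⟫ :=
      ((innerSL ℝ u).contDiff.comp (contDiff_slice hW ht)).differentiable (by simp)
    have h1 := convex_univ.norm_image_sub_le_of_norm_fderiv_le (fun z _ => hd z)
      (fun z _ => norm_fderiv_inner_score hW hη ht u z) (Set.mem_univ y) (Set.mem_univ x)
    rw [← inner_sub_right, real_inner_self_eq_norm_sq, norm_pow, norm_norm] at h1
    exact le_of_mul_le_mul_left (by linarith [h1]) h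

variable (hη2 : η ≤ 1 / 2)

include hη2

lemma norm_score_zero : ‖score W (t, 0)‖ ≤ 2 * vT t * (‖G 0‖ + η * √d) := by
  set σ := sT t
  have hP := Appell.isPot_tilt (Kernel.isPot_Wq0 hW (sT_pos ht).le) (aT t • (0 : Sp d))
  have := hP.isProb le_rfl
  set μ := gibbs fun z => Kernel.Wq W σ z - ⟪aT t • (0 : Sp d), z⟫
  have hlip : ∀ z, ‖G z‖ ≤ ‖G 0‖ + η * ‖z‖ := fun z => hW.grad_le le_rfl z
  have iz : Integrable (fun z : Sp d => z) μ :=
    hP.integrable_gibbs_of_le le_rfl continuous_id (C := 1) (K := 1) fun z => by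
      rw [one_mul, one_mul]; linarith [add_one_le_exp ‖z‖]
  have iG : Integrable G μ :=
    ((integrable_const ‖G 0‖).add (iz.norm.const_mul η)).mono'
      hW.continuous_grad.aestronglyMeasurable (ae_of_all _ hlip)
  have hm : (1 + σ) • ∫ z, z ∂μ = -∫ z, G z ∂μ := by
    have h := hP.mean le_rfl
    have e : ∫ z, (G z + σ • z - aT t • (0 : Sp d)) ∂μ = (∫ z, G z ∂μ) + σ • ∫ z, z ∂μ := by
      simp only [smul_zero, sub_zero]
      rw [integral_add iG (g := fun z => σ • z) (iz.smul σ), integral_smul]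
    rw [e] at h
    rw [add_smul, one_smul]
    linear_combination (norm := module) h
  have hσ : 0 ≤ σ := (sT_pos ht).le
  have hmean : ‖∫ z, z ∂μ‖ ≤ ‖∫ z, G z ∂μ‖ := by
    rw [← norm_neg (∫ z, G z ∂μ), ← hm, norm_smul, norm_eq_abs, abs_of_nonneg (by linarith)]
    exact le_mul_of_one_le_left (norm_nonneg _) (by linarith)
  have hb := norm_integral_le_of_mean hP le_rfl hW.continuous_grad hη hη2 hlip hmean
  set u := score W (t, 0)
  have hu : ‖u‖ ^ 2 = vT t * ⟪u, ∫ z, G z ∂μ⟫ := by
    rw [← real_inner_self_eq_norm_sq, inner_score_eq hW hη ht u 0, ← integral_inner iG u]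
    rfl
  have hv := vT_pos t
  have h2 : ‖u‖ ^ 2 ≤ vT t * (‖u‖ * (2 * (‖G 0‖ + η * √d))) := hu.trans_le
    (mul_le_mul_of_nonneg_left ((real_inner_le_norm _ _).trans
      (mul_le_mul_of_nonneg_left hb (norm_nonneg _))) hv.le)
  rcases (norm_nonneg u).eq_or_lt with h | h
  · rw [← h]; positivity
  · exact le_of_mul_le_mul_left (by linarith [h2, sq ‖u‖]) h

lemma norm_mean_score :
    ‖∫ x, score W (t, x) ∂gibbs (pot W t)‖ ≤ 6 * vT t * (‖G 0‖ + η * √d) := by
  have hv := vT_pos t
  have hv1 := (vT_lt ht).le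
  have h0 := norm_score_zero hW hη ht hη2
  have hP := isPot_pot hW hη ht
  have h := norm_integral_le_of_mean hP le_rfl (F := fun x => score W (t, x))
    (contDiff_slice hW ht).continuous (L := η * vT t) (by positivity) (by nlinarith)
    (fun x => by
      have h := norm_score_sub hW hη ht x 0
      rw [sub_zero] at h
      linarith [norm_sub_norm_le (score W (t, x)) (score W (t, 0))])
    (by rw [hP.mean le_rfl, norm_neg])
  nlinarith [mul_nonneg (mul_nonneg hv.le hη) (sqrt_nonneg (d : ℝ)),
    mul_nonneg hv.le (norm_nonneg (G 0))]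

/-- The mean square of the score. -/
theorem integral_score_sq :
    ∑ k, ∫ x, score W (t, x) k ^ 2 ∂gibbs (pot W t) ≤
      (7 * vT t * (‖G 0‖ + η * √d)) ^ 2 := by
  have hv := vT_pos t
  have hP := isPot_pot hW hη ht
  have := hP.isProb le_rfl
  set μ := gibbs (pot W t)
  set m := ∫ x, score W (t, x) ∂μ
  have i1 : Integrable (fun x => score W (t, x)) μ :=
    ((integrable_const ‖score W (t, 0)‖).add
      ((integral_norm_le hP le_rfl).1.const_mul (η * vT t))).mono'
      (contDiff_slice hW ht).continuous.aestronglyMeasurable (ae_of_all _ fun x => by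
        have h := norm_score_sub hW hη ht x 0
        rw [sub_zero] at h
        simp only [Pi.add_apply]
        linarith [norm_sub_norm_le (score W (t, x)) (score W (t, 0))])
  have hk : ∀ k, ∫ x, score W (t, x) k ^ 2 ∂μ ≤ (η * vT t) ^ 2 + m k ^ 2 := fun k => by
    have hc : ∫ x, score W (t, x) k ∂μ = m k :=
      (EuclideanSpace.proj (𝕜 := ℝ) k).integral_comp_comm i1
    have e : (fun y => score W (t, y) k) = fun y => ⟪ei k, score W (t, y)⟫ := funext fun y => by
      simp [ei, PiLp.inner_apply, PiLp.single_apply]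
    have hbd : ∀ x, ‖fderiv ℝ (fun y => score W (t, y) k) x‖ ≤ η * vT t := fun x => by
      rw [e]
      simpa [ei] using norm_fderiv_inner_score hW hη ht (ei k) x
    have hp := gibbs_poincare hP le_rfl (f := fun y => score W (t, y) k)
      ((contDiff_euclidean.1 (contDiff_slice hW ht) k).of_le (by exact_mod_cast le_top))
      (A := η * vT t) (B := 0) (fun x => by simpa using hbd x)
    rw [add_zero, inv_one, one_mul] at hp
    have hvar : ∫ x, (score W (t, x) k - m k) ^ 2 ∂μ ≤ (η * vT t) ^ 2 := by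
      rw [← hc]
      refine hp.2.trans ((le_abs_self _).trans ((norm_integral_le_of_norm_le_const (μ := μ)
        (C := (η * vT t) ^ 2) (f := fun x => ‖fderiv ℝ (fun y => score W (t, y) k) x‖ ^ 2)
        (ae_of_all _ fun x => ?_)).trans_eq (by rw [probReal_univ, mul_one])))
      rw [norm_pow, norm_norm]
      exact pow_le_pow_left₀ (norm_nonneg _) (hbd x) 2
    have ik : Integrable (fun x => score W (t, x) k) μ := hp.1.integrable (by norm_num)
    have e2 : (fun x => score W (t, x) k ^ 2) =
        fun x => (score W (t, x) k - m k) ^ 2 + (2 * m k * score W (t, x) k - m k ^ 2) :=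
      funext fun x => by ring
    have i2 : Integrable (fun x => 2 * m k * score W (t, x) k - m k ^ 2) μ :=
      (ik.const_mul (2 * m k)).sub (integrable_const (m k ^ 2))
    have i3 : Integrable (fun x => (score W (t, x) k - m k) ^ 2) μ :=
      (hp.1.sub (memLp_const (m k))).integrable_sq
    rw [e2, integral_add i3 i2,
      integral_sub (ik.const_mul (2 * m k)) (integrable_const (m k ^ 2)), integral_const_mul,
      integral_const, probReal_univ, one_smul, hc]
    linarith
  refine (sum_le_sum fun k _ => hk k).trans ?_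
  rw [sum_add_distrib, sum_const, card_univ, Fintype.card_fin, nsmul_eq_mul,
    ← EuclideanSpace.real_norm_sq_eq]
  have hm : ‖m‖ ≤ 6 * vT t * (‖G 0‖ + η * √d) := norm_mean_score hW hη ht hη2
  calc (d : ℝ) * (η * vT t) ^ 2 + ‖m‖ ^ 2
      ≤ (vT t * (η * √d)) ^ 2 + (6 * vT t * (‖G 0‖ + η * √d)) ^ 2 := by
        refine add_le_add (le_of_eq ?_) (pow_le_pow_left₀ (norm_nonneg _) hm 2)
        rw [mul_pow, mul_pow, mul_pow, sq_sqrt (Nat.cast_nonneg d)]
        ring
    _ ≤ _ := by
        have a0 : 0 ≤ vT t * (η * √d) := by positivity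
        have b0 : 0 ≤ vT t * ‖G 0‖ := by positivity
        nlinarith [mul_nonneg a0 b0, sq_nonneg (vT t * ‖G 0‖), sq_nonneg (vT t * (η * √d))]

omit hη2 hW hη ht in
lemma dsqM_eq_integral (μ : Measure (Sp d))
    (hμ : ∀ f : Sp d → ℝ, f.HasTemperateGrowth → Integrable f μ) :
    ∀ (j : ℕ) {f : Sp d → ℝ}, f.HasTemperateGrowth →
      Integrable (psq j f) μ ∧ dsqM μ j f = ∫ x, psq j f x ∂μ
  | 0, f, hf => ⟨hμ _ (hf.fun_pow 2), rfl⟩
  | j + 1, f, hf => by
    have ih := fun i => dsqM_eq_integral μ hμ j (tg_pd i hf)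
    refine ⟨integrable_finsetSum _ fun i _ => (ih i).1, ?_⟩
    simp only [dsqM, psq]
    rw [integral_finsetSum _ fun i _ => (ih i).1]
    exact sum_congr rfl fun i _ => (ih i).2

/-- The weighted norms of the score. -/
theorem Nw_score (q : ℕ) :
    Nw (nuT (pot W t)) (bT t) q (fun k x => score W (t, x) k) ≤
      (7 + ∑ j ∈ range (q + 1), (j.factorial : ℝ)) * vT t * (‖G 0‖ + η * √d) := by
  have hv := vT_pos t
  have hb := bT_pos ht
  have hb1 := bT_le t
  have hA : 0 ≤ ‖G 0‖ + η * √d := by positivity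
  have := isProbability_nuT (tiltPot_pot hW hη ht)
  have hμ : ∀ f : Sp d → ℝ, f.HasTemperateGrowth → Integrable f (nuT (pot W t)) :=
    fun f hf => integrable_nuT (tiltPot_pot hW hη ht) hf
  have hterm : ∀ j, bT t ^ j * DnM (nuT (pot W t)) j (fun k x => score W (t, x) k) ≤
      ((if j = 0 then 7 else 0) + (j.factorial : ℝ)) * (vT t * (‖G 0‖ + η * √d)) := by
    intro j
    rcases j with _ | j
    · simp only [pow_zero, one_mul, if_true, Nat.factorial_zero, Nat.cast_one]
      refine le_trans (sqrt_le_iff.2 ⟨by positivity,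
        (integral_score_sq hW hη ht hη2 : DSM (nuT (pot W t)) 0 _ ≤ _)⟩) ?_
      nlinarith [mul_nonneg hv.le hA]
    · have e : ∀ k, (fun y => score W (t, y) k) = fun y => ⟪ei k, score W (t, y)⟫ := fun k =>
        funext fun y => by simp [ei, PiLp.inner_apply, PiLp.single_apply]
      have hk : ∀ k, dsqM (nuT (pot W t)) (j + 1) (fun x => score W (t, x) k) ≤
          (vT t * (η * (j + 1).factorial * (bT t)⁻¹ ^ j)) ^ 2 := fun k => by
        rw [e]
        have hu := tg_inner_score hW hη ht (ei k)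
        rw [(dsqM_eq_integral _ hμ (j + 1) hu).2]
        refine (le_abs_self _).trans ((norm_integral_le_of_norm_le_const (μ := nuT (pot W t))
          (C := (vT t * (η * (j + 1).factorial * (bT t)⁻¹ ^ j)) ^ 2)
          (f := psq (j + 1) fun y => ⟪ei k, score W (t, y)⟫)
          (ae_of_all _ fun x => ?_)).trans_eq (by rw [probReal_univ, mul_one]))
        rw [Real.norm_eq_abs, abs_of_nonneg (psq_nonneg _ _ _), psq_eq_iteratedFDeriv _ hu]
        refine (sum_sq_deriv_le' hW hη ht (ei k) j x).trans ?_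
        rw [show ‖ei k‖ = 1 by simp [ei], one_pow, mul_one, mul_pow (vT t)]
        exact mul_le_mul_of_nonneg_right
          (pow_le_pow_of_le_one hv.le (vT_lt ht).le (by omega)) (sq_nonneg _)
      have hD : DnM (nuT (pot W t)) (j + 1) (fun k x => score W (t, x) k) ≤
          √d * (vT t * (η * (j + 1).factorial * (bT t)⁻¹ ^ j)) := by
        refine sqrt_le_iff.2 ⟨by positivity, (sum_le_sum fun k _ => hk k).trans_eq ?_⟩
        rw [sum_const, card_univ, Fintype.card_fin, nsmul_eq_mul, mul_pow √(d : ℝ),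
          sq_sqrt (Nat.cast_nonneg d)]
      simp only [Nat.add_one_ne_zero, if_false, zero_add]
      refine (mul_le_mul_of_nonneg_left hD (pow_nonneg hb.le _)).trans ?_
      calc bT t ^ (j + 1) * (√d * (vT t * (η * (j + 1).factorial * (bT t)⁻¹ ^ j)))
          = bT t * ((j + 1).factorial * (vT t * (η * √d))) := by
            rw [inv_pow, pow_succ]
            field_simp
        _ ≤ 1 * ((j + 1).factorial * (vT t * (η * √d))) :=
            mul_le_mul_of_nonneg_right hb1 (by positivity)
        _ ≤ _ := by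
            rw [one_mul]
            exact mul_le_mul_of_nonneg_left (mul_le_mul_of_nonneg_left
              (by linarith [norm_nonneg (G 0)]) hv.le) (Nat.cast_nonneg _)
  refine (sum_le_sum fun j _ => hterm j).trans_eq ?_
  rw [← sum_mul, sum_add_distrib, sum_ite_eq' (range (q + 1)) 0]
  simp [mul_assoc]

/-- The constant of `material_le`. -/
noncomputable def matC (r : ℕ) : ℝ :=
  scoreC (fun m => ((m + 1).factorial : ℝ)) r *
    (7 + ∑ j ∈ range (2 * r + 1), (j.factorial : ℝ))

/-- **All material derivatives of the score**, with constants depending on the order only. -/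
theorem material_le (r : ℕ) :
    √(∑ k, ∫ x, (mat (score W))^[r] (gc (score W) k) (t, x) ^ 2 ∂nuT (pot W t)) ≤
      matC r * (bT t)⁻¹ ^ (2 * r) * vT t * (‖G 0‖ + η * √d) := by
  have hS := isScore hW hη
  have hS' : Score (score W) (pot W) bT fun m => ((m + 1).factorial : ℝ) :=
    { hS with
      c_nonneg := fun m => Nat.cast_nonneg _
      row := fun t ht m x v => (hS.row t ht m x v).trans (mul_le_mul_of_nonneg_right
        (pow_le_pow_left₀ (by have := bT_pos ht; positivity)
          (mul_le_mul_of_nonneg_right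
            (mul_le_of_le_one_left (Nat.cast_nonneg _) (by linarith))
            (pow_nonneg (inv_nonneg.2 (bT_pos ht).le) m)) 2)
        (sum_nonneg fun _ _ => sq_nonneg _)) }
  have hc : 0 ≤ scoreC (fun m => ((m + 1).factorial : ℝ)) r * (bT t)⁻¹ ^ (2 * r) :=
    mul_nonneg (mul_nonneg (zero_le_one.trans (Material.gC_mono (sys hS' ht) (Nat.zero_le r)))
      (zero_le_one.trans (one_le_lam (fun m => Nat.cast_nonneg _) _)))
      (pow_nonneg (inv_nonneg.2 (bT_pos ht).le) _)
  refine (score_iterate hS' ht r).trans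
    ((mul_le_mul_of_nonneg_left (Nw_score hW hη ht hη2 (2 * r)) hc).trans_eq ?_)
  rw [matC]
  ring

end TiltFlow

end Vale.Agent.P347.Shift
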