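import Vale.Agent.P347.Shift.Spec
import Vale.Agent.P347.Shift.Main

/-!
# P347: from the whitened statement of the specification to the top level
-/

open MeasureTheory ProbabilityTheory Real
open scoped RealInnerProductSpace

namespace Vale.Agent.P347.Shift

open Quarter

/-- The whitened half law to order `K` gives whitened steps of order `K`. -/
theorem whiteStep_of_spec {K : ℕ} (hyp : WhiteSpec K) {β : ℝ} (hβ : 0 < β) : WhiteStep K β := by
  obtain ⟨C, η₀, hC, hη₀, hyp⟩ := hyp (β / 3) (by positivity)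
  refine ⟨C, η₀, 1, hη₀, fun d hd η hl hu => ?_⟩
  have hx1 : (1 : ℝ) ≤ d := by exact_mod_cast hd
  have hx0 : (0 : ℝ) < d := by linarith
  have hη : 0 < η := lt_of_lt_of_le (by positivity) hl
  obtain ⟨e, he, hrun⟩ := hyp d η hd hη hu
  obtain ⟨p, hp, hlaw⟩ := exists_prog_of_calc e.μ e.calc_run
  refine ⟨p, ?_, fun W G H hW hG0 => ?_⟩
  · have hb : η ^ (-(β / 3)) ≤ (d : ℝ) ^ β := by
      refine (rpow_le_rpow_of_nonpos (by positivity) hl (by linarith)).trans_eq ?_
      rw [← rpow_natCast, ← rpow_neg hx0.le, ← rpow_mul hx0.le]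
      norm_num
      ring_nf
    calc (p.cost : ℝ) ≤ e.cost := by exact_mod_cast hp
      _ ≤ C * (d : ℝ) ^ β := he.trans (mul_le_mul_of_nonneg_left hb hC)
  obtain ⟨hm, hl'⟩ := hlaw hW.continuous_pot hW.continuous_grad
  obtain ⟨Z, hZ, hZl, hZe⟩ := hrun W G H hW hG0
  rw [hl' (), whiteLaw, ← hZl]
  set t := C * η ^ K * √(d : ℝ) with ht
  have ht0 : 0 ≤ t := by positivity
  have hle : t + C / d ≤ C * budget d K β η := by
    have h1 : (1 : ℝ) ≤ (d : ℝ) ^ β := one_le_rpow hx1 hβ.le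
    calc t + C / d = C * (1 * (η ^ K * √(d : ℝ) + 1 / d)) := by rw [ht]; ring
      _ ≤ C * ((d : ℝ) ^ β * (η ^ K * √(d : ℝ) + 1 / d)) := by gcongr
  refine Near.mono ?_ hle
  rcases eq_or_lt_of_le hC with hC0 | hC0
  · -- no error at all
    intro F L M hL hM hF
    have e0 : ∫⁻ s, ENNReal.ofReal (‖e.run G (s, ()) - Z s‖ ^ 2) ∂e.μ = 0 := by
      refine le_antisymm (hZe.trans_eq ?_) (zero_le)
      rw [ht, ← hC0]; simp
    have hae : (fun s => e.run G (s, ())) =ᵐ[e.μ] Z := by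
      have h2 : Measurable fun s => ENNReal.ofReal (‖e.run G (s, ()) - Z s‖ ^ 2) :=
        (((hm.comp measurable_prodMk_right).sub hZ).norm.pow_const 2).ennreal_ofReal
      filter_upwards [(lintegral_eq_zero_iff h2).1 e0] with s hs
      simpa [sub_eq_zero, ENNReal.ofReal_eq_zero, sq_nonpos_iff] using hs
    rw [Measure.map_congr hae, sub_self, abs_zero]
    positivity
  · have hpos : 0 < t + C / d := by positivity
    refine Near.of_maps_sq (Φ := fun s => e.run G (s, ())) (hm.comp measurable_prodMk_right) hZ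
      hpos (hZe.trans (ENNReal.ofReal_le_ofReal ?_))
    exact pow_le_pow_left₀ ht0 (le_add_of_nonneg_right (by positivity)) 2

/-- **Top.** The program statement with every positive exponent, from the specification. -/
theorem subpoly_of_spec (hyp : ∀ K, WhiteSpec K) {δ : ℝ} (hδ : 0 < δ) :
    ∃ d₀ : ℕ, ∀ d : ℕ, d₀ ≤ d → ∃ p : Prog (Sp d) (ℝ × Sp d) Unit (Sp d),
      (p.cost : ℝ) ≤ (d : ℝ) ^ δ ∧
      ∀ V : Sp d → ℝ, ContDiff ℝ 2 V → gradient V 0 = 0 →
        (∀ x v, ‖v‖ ^ 2 ≤ iteratedFDeriv ℝ 2 V x ![v, v] ∧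
          iteratedFDeriv ℝ 2 V x ![v, v] ≤ 2 * ‖v‖ ^ 2) →
        ∀ B : Set (Sp d), MeasurableSet B →
          |(p.law (fun x => (V x, gradient V x)) ()).real B -
              (∫ x in B, exp (-V x)) / ∫ x, exp (-V x)| ≤ 1 / 10 :=
  subpoly_of_white (fun K _ hβ => whiteStep_of_spec (hyp K) hβ) hδ

/-- Small steps from the specification; what the final hand-in uses. -/
theorem smallStep_of_spec (hyp : ∀ K, WhiteSpec K) {a : ℝ} (ha : 0 < a) (ha4 : a ≤ 1 / 4) :
    SmallStep a :=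
  smallStep_of_white (fun K _ hβ => whiteStep_of_spec (hyp K) hβ) ha ha4

end Vale.Agent.P347.Shift
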