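import Vale.Agent.P347.Shift.TimeQuad

/-!
# P347: composite rules in flow time

Cutting `[0, T]` into `N` pieces multiplies the error of a rule exact below degree `r + 1` by
`(T / N) ^ (r + 1)`, so a fixed degree suffices however fast the iterated derivations grow with it.
-/

open MeasureTheory Real Finset
open scoped ContDiff

namespace Vale.Agent.P347.Shift

open Quarter

/-- The error of a composite rule. -/
theorem Rule.error_comp {r : ℕ} {ν : Type} [Fintype ν] {w c : ν → ℝ} (hR : Rule r w c)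
    {g : ℝ → ℝ} (hg : ContDiff ℝ ∞ g) {T : ℝ} (hT : 0 ≤ T) {N : ℕ} (hN : 0 < N) :
    |(∫ t in (0:ℝ)..T, g t) -
        ∑ j ∈ range N, ∑ i, T / N * w i * g (T / N * (j + c i))| ≤
      (1 + ∑ i, |w i|) * (T / N) ^ (r + 1) * ∫ s in (0:ℝ)..T, |iteratedDeriv (r + 1) g s| := by
  set δ := T / N
  have hδ : 0 ≤ δ := by positivity
  have hN' : δ * N = T := by
    simp only [δ]
    field_simp
  set h := iteratedDeriv (r + 1) g
  have hh : Continuous h := hg.continuous_iteratedDeriv _ (WithTop.coe_le_coe.2 le_top)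
  have hi : ∀ {φ : ℝ → ℝ}, Continuous φ → ∀ j : ℕ,
      ∫ t in (δ * j)..(δ * (j + 1 : ℕ)), φ t = δ * ∫ t in (0:ℝ)..1, φ (δ * (j + t)) :=
    fun {φ} _ j => by
      have e := intervalIntegral.smul_integral_comp_mul_add φ δ (δ * j) (a := 0) (b := 1)
      rw [smul_eq_mul] at e
      simp only [mul_zero, zero_add, mul_one, ← mul_add] at e
      push_cast
      rw [show δ * ((j : ℝ) + 1) = δ + δ * j by ring, ← e]
      simp only [mul_add, add_comm]
  have hsum : ∀ {φ : ℝ → ℝ}, Continuous φ →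
      ∑ j ∈ range N, ∫ t in (δ * j)..(δ * (j + 1 : ℕ)), φ t = ∫ t in (0:ℝ)..T, φ t :=
    fun {φ} hφ => by
      rw [intervalIntegral.sum_integral_adjacent_intervals (a := fun j : ℕ => δ * j)
        fun k _ => hφ.intervalIntegrable _ _]
      simp [hN']
  have hd : ∀ (j : ℕ) s, iteratedDeriv (r + 1) (fun t => g (δ * (j + t))) s =
      δ ^ (r + 1) * h (δ * (j + s)) := fun j s => by
    rw [iteratedDeriv_comp_const_add (r + 1) (fun u => g (δ * u)) (j : ℝ),
      iteratedDeriv_comp_const_mul (hg.of_le (WithTop.coe_le_coe.2 le_top)) δ]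
  have piece : ∀ j : ℕ, |(∫ t in (δ * j)..(δ * (j + 1 : ℕ)), g t) -
      ∑ i, δ * w i * g (δ * (j + c i))| ≤
      (1 + ∑ i, |w i|) * δ ^ (r + 1) * ∫ t in (δ * j)..(δ * (j + 1 : ℕ)), |h t| := fun j => by
    have e := hR.error (g := fun t => g (δ * (j + t)))
      (hg.comp (contDiff_const.mul (contDiff_const.add contDiff_id)))
    simp only [hd, abs_mul, abs_pow, abs_of_nonneg hδ,
      intervalIntegral.integral_const_mul] at e
    rw [hi hg.continuous, hi hh.abs]
    simp only [mul_assoc, ← mul_sum, ← mul_sub, abs_mul, abs_of_nonneg hδ]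
    refine (mul_le_mul_of_nonneg_left e hδ).trans_eq ?_
    ring
  rw [← hsum hg.continuous, ← hsum hh.abs, ← sum_sub_distrib, mul_sum]
  exact (abs_sum_le_sum_abs _ _).trans (sum_le_sum fun j _ => piece j)

/-- Cauchy-Schwarz on an interval. -/
lemma sq_integral_abs_le_mul {h : ℝ → ℝ} (hh : Continuous h) (T : ℝ) :
    (∫ s in (0:ℝ)..T, |h s|) ^ 2 ≤ T * ∫ s in (0:ℝ)..T, h s ^ 2 := by
  have e : ∀ φ : ℝ → ℝ, ∫ s in (0:ℝ)..T, φ s = T * ∫ t in (0:ℝ)..1, φ (T * t) := fun φ => by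
    simpa only [mul_zero, mul_one, smul_eq_mul] using (intervalIntegral.smul_integral_comp_mul_left φ T (a := 0) (b := 1)).symm
  rw [e, e, mul_pow, ← mul_assoc, ← pow_two]
  exact mul_le_mul_of_nonneg_left (sq_integral_abs_le (hh.comp (continuous_const.mul continuous_id)))
    (sq_nonneg T)

variable {ι : Type} [Fintype ι] [DecidableEq ι] {κ : Type} [Fintype κ] {μ : Measure (Eu ι)}
  {D : (Eu ι → ℝ) → Eu ι → ℝ} {Ψ : ℝ → Eu ι → Eu ι}

omit [DecidableEq ι] in
/-- Composite quadrature in flow time in mean square, for a flow preserving `μ`. -/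
theorem flow_quad_comp
    (hD : ∀ {f : Eu ι → ℝ}, f.HasTemperateGrowth → (D f).HasTemperateGrowth)
    (hder : ∀ {f : Eu ι → ℝ}, f.HasTemperateGrowth → ∀ x t,
      HasDerivAt (fun t => f (Ψ t x)) (D f (Ψ t x)) t) [IsProbabilityMeasure μ]
    (hμ : ∀ f : Eu ι → ℝ, f.HasTemperateGrowth → Integrable f μ)
    (hc : Continuous fun p : ℝ × Eu ι => Ψ p.1 p.2)
    (hp : ∀ t, MeasurePreserving (Ψ t) μ μ) {r : ℕ} {ν : Type} [Fintype ν]
    {w c : ν → ℝ} (hR : Rule r w c) {f : κ → Eu ι → ℝ} (hf : ∀ a, (f a).HasTemperateGrowth)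
    {T : ℝ} (hT : 0 ≤ T) {N : ℕ} (hN : 0 < N) :
    ∑ a, ∫ x, ((∫ t in (0:ℝ)..T, f a (Ψ t x)) -
        ∑ j ∈ range N, ∑ i, T / N * w i * f a (Ψ (T / N * (j + c i)) x)) ^ 2 ∂μ ≤
      ((1 + ∑ i, |w i|) * (T / N) ^ (r + 1) * T) ^ 2 *
        ∑ a, ∫ x, (D^[r + 1] (f a) x) ^ 2 ∂μ := by
  rw [mul_sum]
  refine sum_le_sum fun a _ => ?_
  set W := (1 + ∑ i, |w i|) * (T / N) ^ (r + 1) with hW
  set h := D^[r + 1] (f a) with hh
  have hth : h.HasTemperateGrowth := tg_iterate_of hD _ (hf a)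
  have h2 := hth.fun_pow 2
  set u : ℝ × Eu ι → ℝ := fun p => h (Ψ p.1 p.2) ^ 2
  set ρ := (volume : Measure ℝ).restrict (Set.Ioc 0 T)
  have hu : Continuous u := (hth.1.continuous.comp hc).pow 2
  have hi : ∀ t, Integrable (fun x => u (t, x)) μ := fun t =>
    (hp t).integrable_comp_of_integrable (g := fun y => h y ^ 2) (hμ _ h2)
  have he : ∀ t, ∫ x, u (t, x) ∂μ = ∫ y, h y ^ 2 ∂μ := fun t => by
    have := integral_map (hp t).measurable.aemeasurable
      (f := fun y => h y ^ 2) (μ := μ) h2.1.continuous.aestronglyMeasurable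
    rw [(hp t).map_eq] at this
    exact this.symm
  have hI : Integrable u (ρ.prod μ) := by
    refine (integrable_prod_iff hu.aestronglyMeasurable).2 ⟨ae_of_all _ hi, ?_⟩
    simp only [Real.norm_eq_abs, show ∀ p, |u p| = u p from fun p => abs_of_nonneg (sq_nonneg _),
      he]
    exact integrable_const _
  have hb : ∀ x, ((∫ t in (0:ℝ)..T, f a (Ψ t x)) -
      ∑ j ∈ range N, ∑ i, T / N * w i * f a (Ψ (T / N * (j + c i)) x)) ^ 2 ≤
      W ^ 2 * T * ∫ t, u (t, x) ∂ρ := fun x => by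
    have e := hR.error_comp (contDiff_comp_flow_of hD hder (hf a) x) hT hN
    rw [iteratedDeriv_comp_flow_of hD hder (r + 1) (hf a) x] at e
    refine ((sq_abs _).symm.trans_le (pow_le_pow_left₀ (abs_nonneg _) e 2)).trans ?_
    rw [mul_pow, mul_assoc (W ^ 2)]
    refine mul_le_mul_of_nonneg_left ?_ (sq_nonneg W)
    refine (sq_integral_abs_le_mul (h := fun t => h (Ψ t x))
      (hth.1.continuous.comp (hc.comp (continuous_id.prodMk continuous_const))) T).trans_eq ?_
    rw [intervalIntegral.integral_of_le hT]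
  calc ∫ x, ((∫ t in (0:ℝ)..T, f a (Ψ t x)) -
      ∑ j ∈ range N, ∑ i, T / N * w i * f a (Ψ (T / N * (j + c i)) x)) ^ 2 ∂μ
      ≤ ∫ x, W ^ 2 * T * ∫ t, u (t, x) ∂ρ ∂μ :=
        integral_mono_of_nonneg (ae_of_all _ fun _ => sq_nonneg _)
          (hI.integral_prod_right.const_mul _) (ae_of_all _ hb)
    _ = W ^ 2 * T * ∫ t, ∫ x, u (t, x) ∂μ ∂ρ := by
        rw [integral_const_mul, ← integral_integral_swap (f := fun t x => u (t, x)) hI]
    _ = (W * T) ^ 2 * ∫ y, h y ^ 2 ∂μ := by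
        simp [he, ρ, measureReal_def, hT]
        ring

end Vale.Agent.P347.Shift
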