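import Vale.Agent.P347.Shift.Skew
import Vale.Agent.P347.Quarter.Quad.Scalar

/-!
# P347: quadrature in flow time

Along a flow `Φ` of `field M` the `r`-th time derivative of `f (Φ t x)` is `((gen M)^[r] f) (Φ t x)`.
If every `Φ t` preserves the Gaussian law, a rule exact below degree `r` therefore integrates
`t ↦ f (Φ t x)` with mean square error at most `(1 + ∑ |w|)² DS 0 (gen^[r] f)`.
-/

open MeasureTheory Real Finset
open scoped ContDiff Nat

namespace Vale.Agent.P347.Shift

open Quarter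

/-- Taylor's formula on the unit interval, remainder in `L¹`. -/
theorem taylor_abs_le : ∀ (r : ℕ) {g : ℝ → ℝ}, ContDiff ℝ ∞ g → ∀ {t : ℝ}, 0 ≤ t → t ≤ 1 →
    |g t - ∑ m ∈ range (r + 1), t ^ m / m ! * iteratedDeriv m g 0| ≤
      ∫ s in (0:ℝ)..1, |iteratedDeriv (r + 1) g s|
  | r, g, hg, t, ht0, ht1 => by
    have hd : ∀ s, HasDerivAt g (deriv g s) s := fun s => (hg.differentiable (by simp) s).hasDerivAt
    have hg' : ContDiff ℝ ∞ (deriv g) := (contDiff_infty_iff_deriv.1 hg).2
    have hc : Continuous fun s => |iteratedDeriv (r + 1) g s| :=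
      (hg.continuous_iteratedDeriv (r + 1) (WithTop.coe_le_coe.2 le_top)).abs
    have hsub : ∫ s in (0:ℝ)..t, |iteratedDeriv (r + 1) g s| ≤
        ∫ s in (0:ℝ)..1, |iteratedDeriv (r + 1) g s| :=
      intervalIntegral.integral_mono_interval le_rfl ht0 ht1
        (ae_of_all _ fun _ => abs_nonneg _) (hc.intervalIntegrable _ _)
    have ftc : ∫ s in (0:ℝ)..t, deriv g s = g t - g 0 :=
      intervalIntegral.integral_eq_sub_of_hasDerivAt (fun s _ => hd s)
        (hg'.continuous.intervalIntegrable _ _)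
    match r with
    | 0 =>
      simp only [zero_add, range_one, sum_singleton, pow_zero, Nat.factorial_zero, Nat.cast_one,
        div_one, one_mul, iteratedDeriv_zero, iteratedDeriv_one] at hsub ⊢
      rw [← ftc]
      exact (intervalIntegral.abs_integral_le_integral_abs ht0).trans hsub
    | k + 1 =>
      set c : ℕ → ℝ := fun m => iteratedDeriv m (deriv g) 0
      have hT : ∫ s in (0:ℝ)..t, ∑ m ∈ range (k + 1), s ^ m / m ! * c m =
          ∑ m ∈ range (k + 1), t ^ (m + 1) / (m + 1) ! * c m := by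
        rw [intervalIntegral.integral_finsetSum fun m _ =>
          Continuous.intervalIntegrable (by fun_prop) _ _]
        refine sum_congr rfl fun m _ => ?_
        rw [intervalIntegral.integral_mul_const, intervalIntegral.integral_div, integral_pow,
          Nat.factorial_succ]
        simp [div_div]
      have hTc : Continuous fun s : ℝ => ∑ m ∈ range (k + 1), s ^ m / m ! * c m :=
        continuous_finsetSum _ fun m _ => ((continuous_pow m).div_const _).mul continuous_const
      have e : g t - ∑ m ∈ range (k + 1 + 1), t ^ m / m ! * iteratedDeriv m g 0 =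
          ∫ s in (0:ℝ)..t, (deriv g s - ∑ m ∈ range (k + 1), s ^ m / m ! * c m) := by
        rw [intervalIntegral.integral_sub (hg'.continuous.intervalIntegrable _ _)
          (hTc.intervalIntegrable _ _), ftc, hT, sum_range_succ' _ (k + 1)]
        simp [iteratedDeriv_succ', c, sub_add_eq_sub_sub, add_comm]
      rw [e]
      refine (intervalIntegral.abs_integral_le_integral_abs ht0).trans ?_
      refine (intervalIntegral.integral_mono_on ht0
        ((hg'.continuous.sub hTc).abs.intervalIntegrable _ _)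
        (intervalIntegrable_const (c := ∫ s in (0:ℝ)..1, |iteratedDeriv (k + 1 + 1) g s|))
        fun s hs => ?_).trans ?_
      · refine (taylor_abs_le k hg' hs.1 (hs.2.trans ht1)).trans_eq ?_
        simp only [iteratedDeriv_succ' (n := k + 1)]
      · rw [intervalIntegral.integral_const, smul_eq_mul, sub_zero]
        exact mul_le_of_le_one_left
          (intervalIntegral.integral_nonneg zero_le_one fun _ _ => abs_nonneg _) ht1

/-- A rule exact below degree `r + 1`. -/
structure Rule (r : ℕ) {ν : Type} [Fintype ν] (w c : ν → ℝ) : Prop where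
  mem : ∀ i, 0 ≤ c i ∧ c i ≤ 1
  exact' : ∀ m ≤ r, ∑ i, w i * c i ^ m = 1 / (m + 1)

/-- The equispaced rule. -/
theorem rule_nc (r : ℕ) : Rule r (Quad.nc (r + 1)) (Quad.node (r + 1)) where
  mem i := by
    refine ⟨by unfold Quad.node; positivity, ?_⟩
    unfold Quad.node
    rw [div_le_one (by positivity)]
    exact_mod_cast i.isLt.le
  exact' m hm := Quad.nc_exact (r + 1) (by omega)

/-- The error of a rule on a smooth function. -/
theorem Rule.error {r : ℕ} {ν : Type} [Fintype ν] {w c : ν → ℝ} (hR : Rule r w c) {g : ℝ → ℝ}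
    (hg : ContDiff ℝ ∞ g) :
    |(∫ t in (0:ℝ)..1, g t) - ∑ i, w i * g (c i)| ≤
      (1 + ∑ i, |w i|) * ∫ s in (0:ℝ)..1, |iteratedDeriv (r + 1) g s| := by
  set T : ℝ → ℝ := fun t => ∑ m ∈ range (r + 1), t ^ m / m ! * iteratedDeriv m g 0 with hT
  set R := ∫ s in (0:ℝ)..1, |iteratedDeriv (r + 1) g s| with hR'
  have hTc : Continuous T :=
    continuous_finsetSum _ fun m _ => ((continuous_pow m).div_const _).mul continuous_const
  have hex : ∫ t in (0:ℝ)..1, T t = ∑ i, w i * T (c i) := by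
    simp only [hT]
    rw [intervalIntegral.integral_finsetSum fun m _ =>
      Continuous.intervalIntegrable (by fun_prop) _ _]
    simp only [mul_sum]
    rw [sum_comm]
    refine sum_congr rfl fun m hm => ?_
    rw [intervalIntegral.integral_mul_const, intervalIntegral.integral_div, integral_pow]
    have := hR.exact' m (Nat.lt_succ_iff.1 (mem_range.1 hm))
    simp only [← mul_assoc, ← mul_div_assoc]
    rw [← sum_mul, ← sum_div, this]
    simp
  have e : (∫ t in (0:ℝ)..1, g t) - ∑ i, w i * g (c i) =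
      (∫ t in (0:ℝ)..1, (g t - T t)) - ∑ i, w i * (g (c i) - T (c i)) := by
    rw [intervalIntegral.integral_sub (hg.continuous.intervalIntegrable _ _)
      (hTc.intervalIntegrable _ _), hex]
    simp only [mul_sub, sum_sub_distrib]
    ring
  have h1 : |∫ t in (0:ℝ)..1, (g t - T t)| ≤ R := by
    refine (intervalIntegral.abs_integral_le_integral_abs zero_le_one).trans ?_
    refine (intervalIntegral.integral_mono_on zero_le_one
      ((hg.continuous.sub hTc).abs.intervalIntegrable _ _) (intervalIntegrable_const (c := R))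
      fun s hs => taylor_abs_le r hg hs.1 hs.2).trans_eq (by simp)
  have h2 : |∑ i, w i * (g (c i) - T (c i))| ≤ (∑ i, |w i|) * R := by
    rw [sum_mul]
    refine (abs_sum_le_sum_abs _ _).trans (sum_le_sum fun i _ => ?_)
    rw [abs_mul]
    exact mul_le_mul_of_nonneg_left (taylor_abs_le r hg (hR.mem i).1 (hR.mem i).2) (abs_nonneg _)
  rw [e, add_mul, one_mul]
  exact (abs_sub _ _).trans (add_le_add h1 h2)

lemma sq_integral_abs_le {h : ℝ → ℝ} (hh : Continuous h) :
    (∫ s in (0:ℝ)..1, |h s|) ^ 2 ≤ ∫ s in (0:ℝ)..1, h s ^ 2 := by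
  set a := ∫ s in (0:ℝ)..1, |h s|
  have h0 : 0 ≤ ∫ s in (0:ℝ)..1, (|h s| - a) ^ 2 :=
    intervalIntegral.integral_nonneg zero_le_one fun _ _ => sq_nonneg _
  have e : ∀ s, (|h s| - a) ^ 2 = h s ^ 2 - (2 * a * |h s| - a ^ 2) := fun s => by
    rw [sub_sq, sq_abs]; ring
  simp only [e] at h0
  rw [intervalIntegral.integral_sub, intervalIntegral.integral_sub,
    intervalIntegral.integral_const_mul] at h0
  · simp only [intervalIntegral.integral_const, sub_zero, one_smul] at h0
    nlinarith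
  all_goals exact Continuous.intervalIntegrable (by fun_prop) _ _

variable {ι : Type} [Fintype ι] [DecidableEq ι] {κ : Type} [Fintype κ]

/-- `field M` as a vector field. -/
noncomputable def vfield (M : ι → ι → Eu ι → ℝ) (x : Eu ι) : Eu ι :=
  ∑ k, field M k x • ei k

/-- `Φ` is a flow of `field M`. -/
def IsFlow (M : ι → ι → Eu ι → ℝ) (Φ : ℝ → Eu ι → Eu ι) : Prop :=
  ∀ x t, HasDerivAt (fun t => Φ t x) (vfield M (Φ t x)) t

variable {M : ι → ι → Eu ι → ℝ} {Φ : ℝ → Eu ι → Eu ι}

lemma hasDerivAt_comp_flow (hΦ : IsFlow M Φ) {f : Eu ι → ℝ} (hf : f.HasTemperateGrowth)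
    (x : Eu ι) (t : ℝ) : HasDerivAt (fun t => f (Φ t x)) (gen M f (Φ t x)) t := by
  have e : gen M f (Φ t x) = fderiv ℝ f (Φ t x) (vfield M (Φ t x)) := by
    simp [vfield, map_sum, gen, pd, smul_eq_mul]
  rw [e]
  exact ((tg_differentiable hf (Φ t x)).hasFDerivAt.comp_hasDerivAt t (hΦ x t) :)

section Abstract

variable {μ : Measure (Eu ι)} {D : (Eu ι → ℝ) → Eu ι → ℝ} {Ψ : ℝ → Eu ι → Eu ι}
  (hD : ∀ {f : Eu ι → ℝ}, f.HasTemperateGrowth → (D f).HasTemperateGrowth)
  (hder : ∀ {f : Eu ι → ℝ}, f.HasTemperateGrowth → ∀ x t,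
    HasDerivAt (fun t => f (Ψ t x)) (D f (Ψ t x)) t)

include hD

omit [DecidableEq ι] in
lemma tg_iterate_of : ∀ (r : ℕ) {f : Eu ι → ℝ}, f.HasTemperateGrowth →
    (D^[r] f).HasTemperateGrowth
  | 0, _, hf => hf
  | r + 1, _, hf => by rw [Function.iterate_succ_apply']; exact hD (tg_iterate_of r hf)

include hder

omit [DecidableEq ι] in
/-- Time derivatives along a flow with derivation `D`. -/
theorem iteratedDeriv_comp_flow_of : ∀ (r : ℕ) {f : Eu ι → ℝ}, f.HasTemperateGrowth →
    ∀ x : Eu ι, iteratedDeriv r (fun t => f (Ψ t x)) = fun t => D^[r] f (Ψ t x)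
  | 0, _, _, _ => rfl
  | r + 1, f, hf, x => by
    rw [iteratedDeriv_succ', show deriv (fun t => f (Ψ t x)) = fun t => D f (Ψ t x) from
      funext fun t => (hder hf x t).deriv, iteratedDeriv_comp_flow_of r (hD hf) x]
    simp only [Function.iterate_succ_apply]

omit [DecidableEq ι] in
lemma contDiff_comp_flow_of {f : Eu ι → ℝ} (hf : f.HasTemperateGrowth) (x : Eu ι) :
    ContDiff ℝ ∞ fun t => f (Ψ t x) := by
  refine contDiff_of_differentiable_iteratedDeriv fun m _ => ?_
  rw [iteratedDeriv_comp_flow_of hD hder m hf x]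
  exact fun t => (hder (tg_iterate_of hD m hf) x t).differentiableAt

omit [DecidableEq ι] in
/-- Quadrature in flow time in mean square, for a flow preserving `μ`. -/
theorem flow_quad_of [IsProbabilityMeasure μ]
    (hμ : ∀ f : Eu ι → ℝ, f.HasTemperateGrowth → Integrable f μ)
    (hc : Continuous fun p : ℝ × Eu ι => Ψ p.1 p.2)
    (hp : ∀ t, MeasurePreserving (Ψ t) μ μ) {r : ℕ} {ν : Type} [Fintype ν]
    {w c : ν → ℝ} (hR : Rule r w c) {f : κ → Eu ι → ℝ} (hf : ∀ a, (f a).HasTemperateGrowth) :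
    ∑ a, ∫ x, ((∫ t in (0:ℝ)..1, f a (Ψ t x)) - ∑ i, w i * f a (Ψ (c i) x)) ^ 2 ∂μ ≤
      (1 + ∑ i, |w i|) ^ 2 * ∑ a, ∫ x, (D^[r + 1] (f a) x) ^ 2 ∂μ := by
  rw [mul_sum]
  refine sum_le_sum fun a _ => ?_
  set W := 1 + ∑ i, |w i| with hW
  set h := D^[r + 1] (f a) with hh
  have hth : h.HasTemperateGrowth := tg_iterate_of hD _ (hf a)
  have h2 := hth.fun_pow 2
  set u : ℝ × Eu ι → ℝ := fun p => h (Ψ p.1 p.2) ^ 2
  set ρ := (volume : Measure ℝ).restrict (Set.Ioc 0 1)
  have hu : Continuous u := (hth.1.continuous.comp hc).pow 2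
  have hi : ∀ t, Integrable (fun x => u (t, x)) μ := fun t =>
    (hp t).integrable_comp_of_integrable (g := fun y => h y ^ 2) (hμ _ h2)
  have he : ∀ t, ∫ x, u (t, x) ∂μ = ∫ y, h y ^ 2 ∂μ := fun t => by
    have := integral_map (hp t).measurable.aemeasurable
      (f := fun y => h y ^ 2) (μ := μ) h2.1.continuous.aestronglyMeasurable
    rw [(hp t).map_eq] at this
    exact this.symm
  have hI : Integrable u (ρ.prod μ) := by
    refine (integrable_prod_iff hu.aestronglyMeasurable).2 ⟨ae_of_all _ hi, ?_⟩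
    simp only [Real.norm_eq_abs, show ∀ p, |u p| = u p from fun p => abs_of_nonneg (sq_nonneg _),
      he]
    exact integrable_const _
  have hb : ∀ x, ((∫ t in (0:ℝ)..1, f a (Ψ t x)) - ∑ i, w i * f a (Ψ (c i) x)) ^ 2 ≤
      W ^ 2 * ∫ t, u (t, x) ∂ρ := fun x => by
    have e := hR.error (contDiff_comp_flow_of hD hder (hf a) x)
    rw [iteratedDeriv_comp_flow_of hD hder (r + 1) (hf a) x] at e
    have hW0 : 0 ≤ W := by rw [hW]; positivity
    refine ((sq_abs _).symm.trans_le (pow_le_pow_left₀ (abs_nonneg _) e 2)).trans ?_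
    rw [mul_pow]
    refine mul_le_mul_of_nonneg_left ?_ (sq_nonneg W)
    refine (sq_integral_abs_le (h := fun t => h (Ψ t x))
      (hth.1.continuous.comp (hc.comp (continuous_id.prodMk continuous_const)))).trans_eq ?_
    exact intervalIntegral.integral_of_le zero_le_one
  calc ∫ x, ((∫ t in (0:ℝ)..1, f a (Ψ t x)) - ∑ i, w i * f a (Ψ (c i) x)) ^ 2 ∂μ
      ≤ ∫ x, W ^ 2 * ∫ t, u (t, x) ∂ρ ∂μ :=
        integral_mono_of_nonneg (ae_of_all _ fun _ => sq_nonneg _)
          (hI.integral_prod_right.const_mul _) (ae_of_all _ hb)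
    _ = W ^ 2 * ∫ t, ∫ x, u (t, x) ∂μ ∂ρ := by
        rw [integral_const_mul, ← integral_integral_swap (f := fun t x => u (t, x)) hI]
    _ = W ^ 2 * ∫ y, h y ^ 2 ∂μ := by
        simp [he, ρ, measureReal_def]

end Abstract

/-- Time derivatives along a flow. -/
theorem iteratedDeriv_comp_flow (hM : ∀ i k, (M i k).HasTemperateGrowth) (hΦ : IsFlow M Φ)
    (r : ℕ) {f : Eu ι → ℝ} (hf : f.HasTemperateGrowth) (x : Eu ι) :
    iteratedDeriv r (fun t => f (Φ t x)) = fun t => (gen M)^[r] f (Φ t x) :=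
  iteratedDeriv_comp_flow_of (fun h => tg_gen hM h) (fun h => hasDerivAt_comp_flow hΦ h) r hf x

lemma contDiff_comp_flow (hM : ∀ i k, (M i k).HasTemperateGrowth) (hΦ : IsFlow M Φ)
    {f : Eu ι → ℝ} (hf : f.HasTemperateGrowth) (x : Eu ι) :
    ContDiff ℝ ∞ fun t => f (Φ t x) :=
  contDiff_comp_flow_of (fun h => tg_gen hM h) (fun h => hasDerivAt_comp_flow hΦ h) hf x

/-- Quadrature in flow time in mean square. -/
theorem flow_quad (hM : ∀ i k, (M i k).HasTemperateGrowth) (hΦ : IsFlow M Φ)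
    (hc : Continuous fun p : ℝ × Eu ι => Φ p.1 p.2)
    (hp : ∀ t, MeasurePreserving (Φ t) (gam ι) (gam ι)) {r : ℕ} {ν : Type} [Fintype ν]
    {w c : ν → ℝ} (hR : Rule r w c) {f : κ → Eu ι → ℝ} (hf : ∀ a, (f a).HasTemperateGrowth) :
    ∑ a, ∫ x, ((∫ t in (0:ℝ)..1, f a (Φ t x)) - ∑ i, w i * f a (Φ (c i) x)) ^ 2 ∂gam ι ≤
      (1 + ∑ i, |w i|) ^ 2 * DS 0 fun a => (gen M)^[r + 1] (f a) :=
  flow_quad_of (fun h => tg_gen hM h) (fun h => hasDerivAt_comp_flow hΦ h)
    (fun _ h => tg_integrable h) hc hp hR hf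

end Vale.Agent.P347.Shift
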