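import Vale.Agent.P347.Quarter.Main
import Vale.Agent.P347.Shift.Top.Phases

/-!
# P347: steps of every order give `d ^ o(1)` queries

With step size `d ^ (-a)` and order `K > 1 / (2 a)` the chain needs `d ^ a log d` steps and every
step costs `d ^ a` queries; the halvings and the last draw cost `log d` such steps.
-/

open MeasureTheory ProbabilityTheory Real Filter
open scoped RealInnerProductSpace

namespace Vale.Agent.P347.Shift

open Quarter

/-- The size of one step error at step sizes up to `x ^ (-a)`. -/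
lemma budget_le {d K : ℕ} {a h : ℝ} (hd : 1 ≤ (d : ℝ)) (ha : 0 < a) (ha4 : a ≤ 1 / 4)
    (hK : 1 / 2 + 3 * a ≤ a * K) (hh : 0 ≤ h) (hha : h ≤ (d : ℝ) ^ (-a)) :
    budget d K a h ≤ 2 * (d : ℝ) ^ (-(2 * a)) := by
  set x : ℝ := (d : ℝ) with hx
  have hx0 : 0 < x := by linarith
  have h1 : x ^ a * (h ^ K * √x) ≤ x ^ (-(2 * a)) := by
    calc x ^ a * (h ^ K * √x) ≤ x ^ a * ((x ^ (-a)) ^ K * √x) := by gcongr
      _ = x ^ (a + (-a * K + 1 / 2)) := by
          rw [rpow_add hx0, rpow_add hx0, rpow_mul hx0.le, rpow_natCast, sqrt_eq_rpow]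
      _ ≤ x ^ (-(2 * a)) := rpow_le_rpow_of_exponent_le hd (by linarith)
  have h2 : x ^ a * (1 / x) ≤ x ^ (-(2 * a)) := by
    rw [mul_one_div, ← rpow_sub_one hx0.ne']
    exact rpow_le_rpow_of_exponent_le hd (by linarith)
  rw [budget, mul_add]
  linarith

/-- A step of the chain and a step of the descent, from the interface. -/
lemma exists_steps {d d₁ : ℕ} {a C hi : ℝ} (hd : d₁ ≤ d) (hhi : hi ≤ (d : ℝ) ^ (-a))
    (hsp : ∀ d : ℕ, d₁ ≤ d → ∀ h : ℝ, ((d : ℝ) ^ 3)⁻¹ ≤ h → h ≤ (d : ℝ) ^ (-a) →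
      ∃ p : Prog (Sp d) (ℝ × Sp d) (Sp d) (Sp d), (p.cost : ℝ) ≤ C * (d : ℝ) ^ a ∧
        ∀ (V : Sp d → ℝ) (G : Sp d → Sp d) (H : Sp d → Sp d →L[ℝ] Sp d),
          IsPot V G H 1 2 → G 0 = 0 → ∀ y : Sp d, ‖y‖ ≤ (d : ℝ) ^ 5 →
          Near (p.law (fun x => (V x, G x)) y) (halfLaw V h y) (C * √h * (d : ℝ) ^ (-(2 * a))))
    (hd1 : 1 ≤ (d : ℝ)) {e : ℝ} (he : 2 * |C| * (d : ℝ) ^ (-(2 * a)) ≤ e)
    {h : ℝ} (hl : ((d : ℝ) ^ 3)⁻¹ ≤ h) (hu : h ≤ hi) {θ : ℝ} (hθ : 1 / 4 ≤ θ) :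
    ∃ q : Prog (Sp d) (ℝ × Sp d) (Sp d) (Sp d), (q.cost : ℝ) ≤ |C| * (d : ℝ) ^ a ∧
      ∀ {V : Sp d → ℝ} {G : Sp d → Sp d} {H : Sp d → Sp d →L[ℝ] Sp d},
        IsPot V G H 1 2 → G 0 = 0 → Continuous V → ∀ y, ‖y‖ < (d : ℝ) ^ 5 →
        ∀ {f : Sp d → ℝ}, Phases.Bdd f →
        |(∫ x, f x ∂q.law (fun x => (V x, G x)) y) -
            ∫ x, fwd (h / 2 + θ * h) f x ∂rgo V h y| ≤ e := by
  obtain ⟨p, hp, hps⟩ := hsp d hd h hl (hu.trans hhi)
  have hh : 0 < h := lt_of_lt_of_le (by positivity) hl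
  refine ⟨p.andThen (noise (θ * h)), ?_, fun {V G H} hV hG0 hVc y hy {f} hf => ?_⟩
  · rw [Prog.cost_andThen, noise, Prog.cost_ofFun, Nat.add_zero]
    exact hp.trans (mul_le_mul_of_nonneg_right (le_abs_self C) (rpow_nonneg (by linarith) _))
  have hO : Measurable fun x => (V x, G x) := (hVc.prodMk hV.continuous_grad).measurable
  have hB : 0 ≤ (d : ℝ) ^ (-(2 * a)) := rpow_nonneg (by linarith) _
  refine (smoothed_step hV hh (mul_pos (by linarith) hh) p hO (hps V G H hV hG0 y hy.le) hf).trans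
    (le_trans ?_ he)
  rw [div_le_iff₀ (sqrt_pos.2 (mul_pos (by linarith) hh)), sqrt_mul (by linarith)]
  have hθ2 : 1 / 2 ≤ √θ := le_sqrt_of_sq_le (by linarith)
  calc C * √h * (d : ℝ) ^ (-(2 * a)) ≤ |C| * √h * (d : ℝ) ^ (-(2 * a)) := by gcongr; exact le_abs_self C
    _ = 2 * |C| * (d : ℝ) ^ (-(2 * a)) * (1 / 2 * √h) := by ring
    _ ≤ _ := by gcongr

/-- The scalar facts at the chosen parameters. -/
lemma top_arith {x a L h : ℝ} (hx : 1 ≤ x) (hx50 : 50 ≤ x ^ (1 / 4 : ℝ)) (ha : 0 < a)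
    (ha4 : a ≤ 1 / 4) (hL : L = log x) (hh : h = x ^ (-a)) :
    ∃ J : ℕ, (J : ℝ) ≤ 4 * L + 4 ∧ (x ^ 3)⁻¹ ≤ h * (3 / 4) ^ J ∧ h * (3 / 4) ^ J ≤ 1 / x ∧
      (2 * (h * (3 / 4) ^ J)) ^ 7 * x ^ 5 ≤ √(h * (3 / 4) ^ J * x) := by
  have hx0 : 0 < x := by linarith
  have hL0 : 0 ≤ L := hL ▸ log_nonneg hx
  refine ⟨4 * ⌈L⌉₊, ?_, ?_⟩
  · push_cast
    linarith [Nat.ceil_lt_add_one hL0]
  set m := ⌈L⌉₊ with hm
  set q : ℝ := h * (3 / 4) ^ (4 * m) with hq
  have hxL : exp (-L) = 1 / x := by rw [exp_neg, hL, exp_log hx0, one_div]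
  have hp : (3 / 4 : ℝ) ^ (4 * m) = (81 / 256) ^ m := by rw [pow_mul]; norm_num
  have hh0 : 0 ≤ h := hh ▸ rpow_nonneg hx0.le _
  have hh1 : h ≤ 1 := hh ▸ rpow_le_one_of_one_le_of_nonpos hx (by linarith)
  have he2 : exp (2 : ℝ) ≤ 50 := by
    rw [show (2 : ℝ) = 1 + 1 by norm_num, exp_add]
    nlinarith [exp_one_lt_d9, exp_pos (1 : ℝ)]
  have hup : q ≤ 1 / x := by
    refine (mul_le_of_le_one_left (by positivity) hh1).trans ?_
    rw [hp, ← hxL]
    refine (pow_le_pow_left₀ (by norm_num) (show (81 / 256 : ℝ) ≤ exp (-1) by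
      linarith [exp_neg_one_gt_d9]) m).trans ?_
    rw [← exp_nat_mul, exp_le_exp]
    linarith [Nat.le_ceil L]
  have hdn : (x ^ 3)⁻¹ ≤ q := by
    have h2 : exp (-2 : ℝ) ≤ 81 / 256 := by
      have : (7 : ℝ) ≤ exp 2 := by
        rw [show (2 : ℝ) = 1 + 1 by norm_num, exp_add]
        nlinarith [exp_one_gt_d9]
      rw [exp_neg]
      exact (inv_anti₀ (by norm_num) this).trans (by norm_num)
    calc (x ^ 3)⁻¹ = 1 / x * (1 / x) * (1 / x) := by field_simp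
      _ ≤ exp (-2 : ℝ) * x ^ (-a) * (1 / x) * (1 / x) := by
          refine mul_le_mul_of_nonneg_right (mul_le_mul_of_nonneg_right ?_ (by positivity))
            (by positivity)
          rw [exp_neg, ← div_eq_inv_mul, le_div_iff₀ (exp_pos _), one_div, ← rpow_neg_one]
          refine (mul_le_mul_of_nonneg_left (he2.trans hx50) (rpow_nonneg hx0.le _)).trans ?_
          rw [← rpow_add hx0]
          exact rpow_le_rpow_of_exponent_le hx (by linarith)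
      _ = h * exp (-2 * (L + 1)) := by
          rw [show -2 * (L + 1) = -L + -L + -2 by ring, exp_add, exp_add, hxL, hh]
          ring
      _ ≤ h * exp (-2) ^ m := by
          refine mul_le_mul_of_nonneg_left ?_ hh0
          rw [← exp_nat_mul, exp_le_exp]
          linarith [Nat.ceil_lt_add_one hL0]
      _ ≤ q := by
          rw [hq, hp]
          exact mul_le_mul_of_nonneg_left (pow_le_pow_left₀ (exp_pos _).le h2 m) hh0
  refine ⟨hdn, hup, ?_⟩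
  have hq0 : 0 ≤ q := le_trans (by positivity) hdn
  have h128 : 128 ≤ x := by
    have h4 : (x ^ (1 / 4 : ℝ)) ^ 4 = x := by
      rw [← rpow_natCast (x ^ (1 / 4 : ℝ)), ← rpow_mul hx0.le]; norm_num
    linarith [pow_le_pow_left₀ (by norm_num) hx50 4]
  refine le_trans (b := 1 / x) ?_ (le_sqrt_of_sq_le ?_)
  · calc (2 * q) ^ 7 * x ^ 5 ≤ (2 * (1 / x)) ^ 7 * x ^ 5 := by gcongr
      _ = 128 / x * (1 / x) := by field_simp; ring
      _ ≤ 1 * (1 / x) := by gcongr; rw [div_le_one hx0]; exact h128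
      _ = _ := one_mul _
  · refine le_trans (le_of_eq ?_) (mul_le_mul_of_nonneg_right hdn hx0.le)
    field_simp

/-- The number of queries. -/
lemma count_le {x a δ L ε Q C n J q r : ℝ} (hx : 1 ≤ x) (ha : 0 < a) (haδ : 3 * a ≤ δ)
    (hL1 : 1 ≤ L) (hQ : 1 ≤ Q) (hε : ε ≤ 1 / Q) (hL : 4 ≤ L) (hLa : L ≤ ε * x ^ a) (hC : 0 ≤ C)
    (hCQ : 10 * C + 7 ≤ Q) (hn : n ≤ 5 * L * x ^ a) (hJ : J ≤ 4 * L + 4) (hn0 : 0 ≤ n)
    (hJ0 : 0 ≤ J) (hq0 : 0 ≤ q) (hq : q ≤ C * x ^ a) (hr : r ≤ J * (C * x ^ a) + (7 : ℕ)) :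
    0 + (n * q + r) ≤ x ^ δ := by
  have hx0 : 0 < x := by linarith
  have hxa1 : 1 ≤ x ^ a := one_le_rpow hx ha.le
  have hxa : 0 < x ^ a := by linarith
  have hJ2 : J ≤ 5 * L * x ^ a :=
    (hJ.trans (by linarith : 4 * L + 4 ≤ 5 * L)).trans (le_mul_of_one_le_right (by linarith) hxa1)
  have h7 : (7 : ℝ) ≤ 7 * L * (x ^ a * x ^ a) := by
    refine le_trans (le_mul_of_one_le_right (by norm_num : (0 : ℝ) ≤ 7) ?_) (le_of_eq (mul_assoc 7 L _).symm)
    exact one_le_mul_of_one_le_of_one_le hL1 (one_le_mul_of_one_le_of_one_le hxa1 hxa1)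
  have hbig : (10 * C + 7) * L ≤ x ^ a := by
    have h1 : (10 * C + 7) * L ≤ Q * L := mul_le_mul_of_nonneg_right hCQ (by linarith)
    have h2 : Q * L ≤ Q * (ε * x ^ a) := mul_le_mul_of_nonneg_left hLa (by linarith)
    have h3 : Q * ε ≤ 1 := by
      rw [le_div_iff₀ (by linarith)] at hε; linarith
    refine h1.trans (h2.trans ?_)
    rw [← mul_assoc]
    exact mul_le_of_le_one_left hxa.le h3
  have hCx : 0 ≤ C * x ^ a := mul_nonneg hC hxa.le
  rw [zero_add]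
  calc n * q + r ≤ 5 * L * x ^ a * (C * x ^ a) + (5 * L * x ^ a * (C * x ^ a) +
        7 * L * (x ^ a * x ^ a)) := by
        refine add_le_add (mul_le_mul hn hq hq0 (by positivity)) (hr.trans ?_)
        exact add_le_add (mul_le_mul_of_nonneg_right hJ2 hCx) (by exact_mod_cast h7)
    _ = (10 * C + 7) * L * (x ^ a * x ^ a) := by ring
    _ ≤ x ^ a * (x ^ a * x ^ a) := mul_le_mul_of_nonneg_right hbig (by positivity)
    _ = x ^ (a + (a + a)) := by rw [rpow_add hx0, rpow_add hx0]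
    _ ≤ x ^ δ := rpow_le_rpow_of_exponent_le hx (by linarith)

/-- The mixing term. -/
lemma mix_le {x a h L : ℝ} {n : ℕ} (hx : 1 ≤ x) (ha : 0 < a) (ha1 : a ≤ 1) (hL : L = log x)
    (hh : h = x ^ (-a)) (hn : 4 * L / h ≤ (n - 1 : ℕ)) :
    √(x / h) * (1 + h)⁻¹ ^ (n - 1) ≤ h := by
  have hx0 : 0 < x := by linarith
  have hh0 : 0 < h := hh ▸ rpow_pos_of_pos hx0 _
  have hh1 : h ≤ 1 := hh ▸ rpow_le_one_of_one_le_of_nonpos hx (by linarith)
  have hl : h / 2 ≤ log (1 + h) := by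
    refine le_trans ?_ (one_sub_inv_le_log_of_pos (by linarith))
    rw [le_sub_iff_add_le, ← le_sub_iff_add_le', inv_le_iff_one_le_mul₀ (by linarith)]
    linarith [mul_le_mul_of_nonneg_left hh1 hh0.le]
  have hpow : (1 + h)⁻¹ ^ (n - 1) ≤ 1 / x ^ 2 := by
    rw [inv_pow, one_div]
    refine inv_anti₀ (by positivity) ?_
    rw [← log_le_log_iff (by positivity) (by positivity), log_pow, log_pow, ← hL]
    have := (div_le_iff₀ hh0).1 hn
    push_cast
    linarith [mul_le_mul_of_nonneg_left hl (Nat.cast_nonneg (α := ℝ) (n - 1))]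
  have hinv : x / h ≤ x ^ 2 := by
    rw [div_le_iff₀ hh0, sq, mul_assoc]
    refine le_mul_of_one_le_right hx0.le ?_
    refine le_of_eq_of_le (rpow_zero x).symm ((rpow_le_rpow_of_exponent_le hx
      (show (0 : ℝ) ≤ 1 + -a by linarith)).trans_eq ?_)
    rw [rpow_add hx0, rpow_one, hh]
  calc √(x / h) * (1 + h)⁻¹ ^ (n - 1) ≤ x * (1 / x ^ 2) :=
        mul_le_mul ((sqrt_le_sqrt hinv).trans_eq (sqrt_sq hx0.le)) hpow (by positivity) hx0.le
    _ = x ^ (-1 : ℝ) := by rw [rpow_neg_one]; field_simp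
    _ ≤ h := hh ▸ rpow_le_rpow_of_exponent_le hx (by linarith)

/-- All contributions together. -/
lemma total_small {C C₂ C₃ C₄ Q L h : ℝ} (hC : 0 ≤ C) (h₂ : 0 ≤ C₂) (h₃ : 0 ≤ C₃) (h₄ : 0 ≤ C₄)
    (hh : 0 ≤ h) (h4h : 4 * h ≤ L * h) (hQh : Q * (L * h) ≤ 1)
    (hQ : 1000 * (C + C₂ + C₃ + C₄ + 7) ≤ Q) :
    (40 * C + 20 * C₄) * (L * h) + C₃ * h + C₂ * h + 2 * (C₄ * h) ≤ 1 / 10 := by
  set u := L * h with hu
  have hu0 : h ≤ u := by linarith
  have h5 : 1000 * (C + C₂ + C₃ + C₄ + 7) * u ≤ 1 :=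
    (mul_le_mul_of_nonneg_right hQ (hh.trans hu0)).trans hQh
  linarith [mul_le_mul_of_nonneg_left hu0 h₄, mul_le_mul_of_nonneg_left hu0 h₃,
    mul_le_mul_of_nonneg_left hu0 h₂, mul_nonneg hC (hh.trans hu0), mul_nonneg h₂ (hh.trans hu0),
    mul_nonneg h₃ (hh.trans hu0), mul_nonneg h₄ (hh.trans hu0)]

/-- **Small steps give every positive exponent.** -/
theorem subpoly_of_small (hyp : ∀ a, 0 < a → a ≤ 1 / 4 → SmallStep a) {δ : ℝ} (hδ : 0 < δ) :
    ∃ d₀ : ℕ, ∀ d : ℕ, d₀ ≤ d → ∃ p : Prog (Sp d) (ℝ × Sp d) Unit (Sp d),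
      (p.cost : ℝ) ≤ (d : ℝ) ^ δ ∧
      ∀ V : Sp d → ℝ, ContDiff ℝ 2 V → gradient V 0 = 0 →
        (∀ x v, ‖v‖ ^ 2 ≤ iteratedFDeriv ℝ 2 V x ![v, v] ∧
          iteratedFDeriv ℝ 2 V x ![v, v] ≤ 2 * ‖v‖ ^ 2) →
        ∀ B : Set (Sp d), MeasurableSet B →
          |(p.law (fun x => (V x, gradient V x)) ()).real B -
              (∫ x in B, exp (-V x)) / ∫ x, exp (-V x)| ≤ 1 / 10 := by
  set a := min (δ / 3) (1 / 4) with hadef
  have ha : 0 < a := lt_min (by linarith) (by norm_num)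
  have ha4 : a ≤ 1 / 4 := min_le_right _ _
  have haδ : 3 * a ≤ δ := by linarith [min_le_left (δ / 3) (1 / 4 : ℝ)]
  obtain ⟨C, d₁, hsp⟩ := hyp a ha ha4
  obtain ⟨C₂, c₂, hC₂, hc₂, hlast⟩ := lastOp_spec
  obtain ⟨C₃, hC₃, hmix⟩ := prox_mixing
  obtain ⟨C₄, hC₄, htail⟩ := prox_tail
  set Q := 1000 * (|C| + C₂ + C₃ + C₄ + 7) with hQ
  have hQ1 : 1 ≤ Q := by linarith [abs_nonneg C]
  set ε := min (1 / Q) c₂ with hε
  have hε0 : 0 < ε := lt_min (by positivity) hc₂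
  obtain ⟨d₂, hd₂⟩ := eventually_atTop.1
    (tendsto_natCast_atTop_atTop.eventually (eventually_large ha hε0))
  refine ⟨max d₁ d₂, fun d hd => ?_⟩
  obtain ⟨hx1, hL, h20, hLa, h50⟩ := hd₂ d ((le_max_right _ _).trans hd)
  set x : ℝ := (d : ℝ) with hx
  set L := log x with hLx
  have hx0 : 0 < x := by linarith
  have hle : ∀ {u v : ℝ}, u ≤ v → x ^ u ≤ x ^ v := fun h => rpow_le_rpow_of_exponent_le hx1 h
  set h := x ^ (-a) with hh
  have hh0 : 0 < h := rpow_pos_of_pos hx0 _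
  have hxa : 0 < x ^ a := rpow_pos_of_pos hx0 _
  have hha : h * x ^ a = 1 := by rw [hh, ← rpow_add hx0, neg_add_cancel, rpow_zero]
  have hLh : L * h ≤ ε := by
    refine (mul_le_mul_of_nonneg_right hLa hh0.le).trans_eq ?_
    rw [mul_assoc, mul_comm (x ^ a), hha, mul_one]
  have h4h : 4 * h ≤ L * h := mul_le_mul_of_nonneg_right hL hh0.le
  have hεQ : ε ≤ 1 / Q := min_le_left _ _
  have hQh : Q * (L * h) ≤ 1 := by
    have := hLh.trans hεQ
    rw [le_div_iff₀ (by linarith)] at this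
    linarith
  have hh4 : h ≤ 1 / 4 := by
    have : 1 / Q ≤ 1 := (div_le_one (by linarith)).2 hQ1
    linarith
  have hhc₂ : h ≤ c₂ := by linarith [min_le_right (1 / Q) c₂]
  obtain ⟨J, hJ, hlo, hJx, hMR⟩ := top_arith hx1 h50 ha ha4 hLx hh
  obtain ⟨N, b, K', n, -, -, -, -, -, -, -, -, hn1, hn, hn'⟩ :=
    choose_counts (p := ⌈2 / a⌉₊) hx1 hL hLx ha hh0 hh4 (Nat.le_ceil _)
  set e := 4 * |C| * x ^ (-(2 * a)) with he
  have he0 : 0 ≤ e := by positivity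
  have hbud : 2 * |C| * x ^ (-(2 * a)) ≤ e := by
    rw [he]; gcongr; norm_num
  have hJpos : 0 < h * (3 / 4 : ℝ) ^ J := by positivity
  have hJh : h * (3 / 4 : ℝ) ^ J ≤ h :=
    mul_le_of_le_one_right hh0.le (pow_le_one₀ (by norm_num) (by norm_num))
  obtain ⟨q, hqc, hq⟩ := exists_steps (θ := 1 / 2) ((le_max_left _ _).trans hd) hh.le hsp hx1 hbud
    (hlo.trans hJh) le_rfl (by norm_num)
  set T := C₄ * x ^ (-(2 * a)) with hT
  have hT0 : 0 ≤ T := by positivity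
  have hsx : √x ≤ x := (sqrt_le_left hx0.le).2 (le_self_pow₀ hx1 two_ne_zero)
  have hTle : C₄ * √x / x ^ 5 ≤ T := by
    rw [hT, mul_div_assoc]
    refine mul_le_mul_of_nonneg_left ?_ hC₄
    refine le_trans ?_ (hle (show (-4 : ℝ) ≤ -(2 * a) by linarith))
    rw [show (-4 : ℝ) = -((4 : ℕ) : ℝ) by norm_num, rpow_neg hx0.le, rpow_natCast,
      div_le_iff₀ (by positivity)]
    refine hsx.trans_eq ?_
    field_simp
  have hJx2 : (h * (3 / 4 : ℝ) ^ J) ^ 2 * x ≤ c₂ := by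
    calc (h * (3 / 4 : ℝ) ^ J) ^ 2 * x = h * (3 / 4) ^ J * (h * (3 / 4) ^ J * x) := by ring
      _ ≤ h * 1 := by
          refine mul_le_mul hJh ?_ (by positivity) hh0.le
          rw [le_div_iff₀ hx0] at hJx
          exact hJx
      _ ≤ c₂ := by rwa [mul_one]
  obtain ⟨r, hrc, hr⟩ := exists_descent (d := d) (lo := (x ^ 3)⁻¹) (hi := h) (e := e) (T := T)
    (R := x ^ 5) (c := |C| * x ^ a) (Nat.one_le_cast.1 hx1) he0 (by positivity) hh4 hC₂
    (fun {t} ht ht4 ht2 => hlast (Nat.one_le_cast.1 hx1) ht ht4 ht2)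
    (fun t htl htu => exists_steps (θ := 1 / 4) ((le_max_left _ _).trans hd) hh.le hsp hx1 hbud
      htl htu le_rfl |>.imp fun q hq => ⟨hq.1, fun hV hG0 hVc y hy f hf => by
        rw [show t / 4 = 1 / 4 * t by ring]
        exact hq.2 hV hG0 hVc y hy hf⟩)
    7 J h hlo le_rfl hJx2 hMR
  refine ⟨(Prog.ofFun Unit (Measure.dirac ()) (fun _ _ => (0 : Sp d)) measurable_const).andThen
    ((q.iter n).andThen r), ?_, fun V hV hV0 hH B hB => ?_⟩
  · -- the count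
    simp only [Prog.cost_andThen, Prog.cost_ofFun, Prog.cost_iter]
    push_cast
    exact count_le hx1 ha haδ (by linarith) hQ1 hεQ hL hLa (abs_nonneg C)
      (show 10 * |C| + 7 ≤ Q by linarith [abs_nonneg C]) (hn.trans_eq (by
        rw [hh, rpow_neg hx0.le, div_inv_eq_mul])) hJ (Nat.cast_nonneg n) (Nat.cast_nonneg J)
      (Nat.cast_nonneg _) hqc hrc
  -- the error
  set G := gradient V with hG
  have hP : IsPot V G (fderiv ℝ G) 1 2 := isPot_of_contDiff hV fun x v => by simpa using hH x v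
  have hVc := hV.continuous
  have hO : Measurable fun z => (V z, G z) := (hVc.prodMk hP.continuous_grad).measurable
  set f : Sp d → ℝ := B.indicator 1 with hfdef
  have hf : Phases.Bdd f := ⟨measurable_one.indicator hB, fun z => by
    by_cases hz : z ∈ B <;> simp [hfdef, hz]⟩
  have hd1 : 1 ≤ d := Nat.one_le_cast.1 hx1
  set g := fun y => ∫ z, f z ∂r.law (fun z => (V z, G z)) y with hg
  have bg : Phases.Bdd g := ⟨r.measurable_integral_law hO hf.1, r.abs_integral_law_le hO hf.2⟩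
  have h1 := chain_close hP (T := T) (R := x ^ 5) hh0 he0 q hO (fun y hy f hf => by
    have h' := hq hP hV0 hVc y hy hf
    rwa [show h / 2 + 1 / 2 * h = h by ring] at h')
    (fun i => ((htail hd1 hP hV0 hh0 hh4 (by positivity)).1 i).trans hTle) n bg
  have h2 := hmix hP hV0 hh0 hh4 bg.1 bg.2 n hn1
  have h3 := hr hP hV0 hVc
    (fun t ht ht4 => ((htail hd1 hP hV0 ht ht4 (by positivity)).2).trans hTle) hf
  rw [← hg] at h3
  have hlaw : ∀ p : Prog (Sp d) (ℝ × Sp d) Unit (Sp d),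
      (p.law (fun z => (V z, G z)) ()).real B = ∫ z, f z ∂p.law (fun z => (V z, G z)) () :=
    fun p => (integral_indicator_one hB).symm
  rw [hlaw, ← piLaw_apply hP hB, ← integral_indicator_one hB, ← hfdef,
    Prog.integral_andThen _ _ hO hf.1 hf.2,
    Prog.integral_law _ hO (((q.iter n).andThen r).measurable_integral_law hO hf.1)]
  change |(∫ _s : Unit, ∫ z, f z ∂((q.iter n).andThen r).law (fun z => (V z, G z)) 0
    ∂Measure.dirac ()) - ∫ z, f z ∂piLaw V| ≤ _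
  rw [integral_dirac, (q.iter n).integral_andThen r hO hf.1 hf.2, ← hg]
  -- the three contributions
  have hxa1 : 1 ≤ x ^ a := one_le_rpow hx1 ha.le
  have hn2 : (n : ℝ) ≤ 5 * L * x ^ a :=
    hn.trans_eq (by rw [hh, rpow_neg hx0.le, div_inv_eq_mul])
  have hJ2 : (J : ℝ) ≤ 5 * L * x ^ a :=
    (hJ.trans (by linarith : 4 * L + 4 ≤ 5 * L)).trans (le_mul_of_one_le_right (by linarith) hxa1)
  have hu : x ^ a * x ^ (-(2 * a)) = h := by rw [hh, ← rpow_add hx0]; ring_nf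
  have hs : e + 2 * T = (4 * |C| + 2 * C₄) * x ^ (-(2 * a)) := by rw [he, hT]; ring
  have hsum : ((n : ℝ) + J) * (e + 2 * T) ≤ (40 * |C| + 20 * C₄) * (L * h) := by
    refine (mul_le_mul_of_nonneg_right (add_le_add hn2 hJ2) (by positivity)).trans_eq ?_
    rw [hs, ← hu]; ring
  have hT' : T ≤ C₄ * h := mul_le_mul_of_nonneg_left (hle (by linarith)) hC₄
  have hmixle : C₃ * √(x / h) * (1 + h)⁻¹ ^ (n - 1) ≤ C₃ * h := by
    rw [mul_assoc]
    exact mul_le_mul_of_nonneg_left (mix_le hx1 ha (by linarith) rfl hh hn') hC₃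
  have hlastle : C₂ * (h * (3 / 4 : ℝ) ^ J) * √x ≤ C₂ * h := by
    rw [mul_assoc]
    refine mul_le_mul_of_nonneg_left ?_ hC₂
    calc h * (3 / 4 : ℝ) ^ J * √x ≤ 1 / x * √x := mul_le_mul_of_nonneg_right hJx (sqrt_nonneg _)
      _ = x ^ (-(1 / 2) : ℝ) := by
          rw [sqrt_eq_rpow, one_div x, ← rpow_neg_one, ← rpow_add hx0]; norm_num
      _ ≤ h := hle (by linarith)
  have h123 := abs_sub_le (∫ b, g b ∂(q.iter n).law (fun z => (V z, G z)) 0)
    ((prox V h)^[n] g 0) (∫ z, f z ∂piLaw V)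
  have h23 := abs_sub_le ((prox V h)^[n] g 0) (∫ z, fwd h g z ∂piLaw V) (∫ z, f z ∂piLaw V)
  refine le_trans ?_ (total_small (C := |C|) (C₂ := C₂) (C₃ := C₃) (C₄ := C₄) (Q := Q)
    (abs_nonneg C) hC₂ hC₃ hC₄ hh0.le h4h hQh hQ.ge)
  rw [← hx] at h2 h3
  linarith

/-- The statement of the full answer to the first question, from steps of every order. -/
theorem gammaZero_of_small (hyp : ∀ a, 0 < a → a ≤ 1 / 4 → SmallStep a) :
    ∀ δ : ℝ, 0 < δ → ∃ d₀ : ℕ, ∀ d : ℕ, d₀ ≤ d → ∃ q : ℕ, (q : ℝ) ≤ (d : ℝ) ^ δ ∧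
      ∃ (Ω : Type) (_ : MeasurableSpace Ω) (P : Measure Ω) (_ : IsProbabilityMeasure P)
        (query : (m : Fin q) → Ω → (Fin m → ℝ × EuclideanSpace ℝ (Fin d)) →
          EuclideanSpace ℝ (Fin d))
        (out : Ω → (Fin q → ℝ × EuclideanSpace ℝ (Fin d)) → EuclideanSpace ℝ (Fin d)),
        (∀ m, Measurable (Function.uncurry (query m))) ∧ Measurable (Function.uncurry out) ∧
        ∀ V : EuclideanSpace ℝ (Fin d) → ℝ, ContDiff ℝ 2 V → V 0 = 0 → gradient V 0 = 0 →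
          (∀ x v, ‖v‖ ^ 2 ≤ iteratedFDeriv ℝ 2 V x ![v, v] ∧
            iteratedFDeriv ℝ 2 V x ![v, v] ≤ 2 * ‖v‖ ^ 2) →
          ∃ tr : Ω → Fin q → ℝ × EuclideanSpace ℝ (Fin d), Measurable tr ∧
            (∀ ω m, tr ω m =
              (V (query m ω fun j => tr ω (Fin.castLE m.isLt.le j)),
                gradient V (query m ω fun j => tr ω (Fin.castLE m.isLt.le j)))) ∧
            ∀ B : Set (EuclideanSpace ℝ (Fin d)), MeasurableSet B →
              |(P.map fun ω => out ω (tr ω)).real B -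
                  (∫ x in B, exp (-V x)) / ∫ x, exp (-V x)| ≤ 1 / 10 := by
  intro δ hδ
  obtain ⟨d₀, h⟩ := subpoly_of_small hyp hδ
  refine ⟨d₀, fun d hd => ?_⟩
  obtain ⟨p, hq, hp⟩ := h d hd
  obtain ⟨query, out, hqm, hom, htr⟩ := p.exists_transcript ()
  refine ⟨p.cost, hq, p.Seed, inferInstance, p.seedLaw, inferInstance, query, out, hqm, hom,
    fun V hV _ hV0 hH => ?_⟩
  have hP : IsPot V (gradient V) (fderiv ℝ (gradient V)) 1 2 :=
    isPot_of_contDiff hV fun x v => by simpa using hH x v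
  obtain ⟨tr, htm, heq, hlaw⟩ := htr (fun x => (V x, gradient V x))
    (hV.continuous.prodMk hP.continuous_grad).measurable
  exact ⟨tr, htm, heq, fun B hB => by rw [hlaw]; exact hp V hV hV0 hH B hB⟩

/-- A step of high order is a small step. -/
theorem smallStep_of_chainSpec (hyp : ∀ K β, 0 < β → ChainSpec K β) {a : ℝ} (ha : 0 < a)
    (ha4 : a ≤ 1 / 4) : SmallStep a := by
  set K := ⌈1 / (2 * a)⌉₊ + 3 with hKdef
  have hK : 1 / 2 + 3 * a ≤ a * K := by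
    have h1 := Nat.le_ceil (1 / (2 * a))
    rw [div_le_iff₀ (by linarith)] at h1
    rw [hKdef]; push_cast; linarith
  obtain ⟨C, h₀, d₁, hh₀, hsp⟩ := hyp K a ha
  obtain ⟨d₂, hd₂⟩ := eventually_atTop.1 (((tendsto_rpow_neg_atTop ha).comp
    tendsto_natCast_atTop_atTop).eventually (Iio_mem_nhds hh₀))
  refine ⟨2 * |C|, max d₁ (max d₂ 1), fun d hd h hl hu => ?_⟩
  simp only [max_le_iff] at hd
  have hx1 : (1 : ℝ) ≤ d := by exact_mod_cast hd.2.2
  obtain ⟨p, hpc, hps⟩ := hsp d hd.1 h hl (hu.trans (le_of_lt (hd₂ d hd.2.1)))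
  refine ⟨p, hpc.trans (mul_le_mul_of_nonneg_right ?_ (rpow_nonneg (by linarith) _)),
    fun V G H hV hG0 y hy => (hps V G H hV hG0 y hy).mono ?_⟩
  · linarith [le_abs_self C, abs_nonneg C]
  · have hh0 : 0 ≤ h := le_trans (by positivity) hl
    have hb := budget_le hx1 ha ha4 hK hh0 hu
    have hb0 : 0 ≤ budget d K a h := by rw [budget]; positivity
    calc C * √h * budget d K a h ≤ |C| * √h * (2 * (d : ℝ) ^ (-(2 * a))) := by
          gcongr
          exact le_abs_self C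
      _ = _ := by ring

end Vale.Agent.P347.Shift
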