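import Vale.Agent.P347.Shift.Top
import Vale.Agent.P347.Shift.White

/-!
# P347: from an emitter of the half step to the top level

A seeded computed map that is within `C h ^ K (√d + ‖y‖)` of an exact half step in mean square, at
`C h ^ (-β)` queries, for every `K` and `β`, gives small steps and so the top level statement.
-/

open MeasureTheory ProbabilityTheory Real
open scoped RealInnerProductSpace

namespace Vale.Agent.P347.Shift

open Quarter

/-- The shape of a half step emitter of order `K` at cost exponent `β`. -/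
def HalfEmit (K β : ℝ) : Prop :=
  ∃ C c : ℝ, 1 ≤ C ∧ 0 < c ∧ ∀ (d : ℕ) (h : ℝ), 1 ≤ d → 0 < h → h ≤ c →
    ∃ (S : Type) (_ : MeasurableSpace S) (μ : Measure S) (_ : IsProbabilityMeasure μ) (q : ℕ)
      (run : (Sp d → Sp d) → S × Sp d → Sp d), Calc q run ∧ (q : ℝ) ≤ C * h ^ (-β) ∧
      ∀ (V : Sp d → ℝ) (G : Sp d → Sp d) (H : Sp d → Sp d →L[ℝ] Sp d),
        IsPot V G H 1 2 → G 0 = 0 → ∀ y : Sp d, ∃ Z : S → Sp d, Measurable Z ∧
          μ.map Z = halfLaw V h y ∧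
          ∫⁻ s, ENNReal.ofReal (‖run G (s, y) - Z s‖ ^ 2) ∂μ ≤
            ENNReal.ofReal ((C * h ^ K * (√d + ‖y‖)) ^ 2)

/-- Emitters of every order give small steps. -/
theorem smallStep_of_halfEmit (hyp : ∀ K β, 1 ≤ K → 0 < β → HalfEmit K β) {a : ℝ} (ha : 0 < a)
    (ha4 : a ≤ 1 / 4) : SmallStep a := by
  set K : ℝ := 6 / a + 1 / 2 with hKdef
  have h6 : 1 ≤ 6 / a := (one_le_div ha).2 (by linarith)
  obtain ⟨C, c, hC, hc, hyp⟩ := hyp K (a / 3) (by rw [hKdef]; linarith) (by positivity)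
  obtain ⟨d₁, hd₁⟩ := Filter.eventually_atTop.1 (((tendsto_rpow_neg_atTop ha).comp
    tendsto_natCast_atTop_atTop).eventually (Iio_mem_nhds hc))
  refine ⟨2 * C, max d₁ 1, fun d hd h hl hu => ?_⟩
  simp only [max_le_iff] at hd
  have hx1 : (1 : ℝ) ≤ d := by exact_mod_cast hd.2
  have hx0 : (0 : ℝ) < d := by linarith
  have hh : 0 < h := lt_of_lt_of_le (by positivity) hl
  obtain ⟨S, hS, μ, hμ, q, run, hcalc, hq, hrun⟩ :=
    hyp d h hd.2 hh (hu.trans (le_of_lt (hd₁ d hd.1)))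
  obtain ⟨p, hp, hlaw⟩ := exists_prog_of_calc μ hcalc
  have hxa : 0 ≤ (d : ℝ) ^ a := rpow_nonneg hx0.le _
  refine ⟨p, ?_, fun V G H hV hG0 y hy => ?_⟩
  · have hb : h ^ (-(a / 3)) ≤ (d : ℝ) ^ a := by
      refine (rpow_le_rpow_of_nonpos (by positivity) hl (by linarith)).trans_eq ?_
      rw [← rpow_natCast, ← rpow_neg hx0.le, ← rpow_mul hx0.le]
      norm_num
      ring_nf
    calc (p.cost : ℝ) ≤ q := by exact_mod_cast hp
      _ ≤ C * (d : ℝ) ^ a := hq.trans (mul_le_mul_of_nonneg_left hb (by linarith))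
      _ ≤ _ := by nlinarith
  have hVc : Continuous V := hV.continuous_pot
  obtain ⟨hm, hl'⟩ := hlaw hVc hV.continuous_grad
  obtain ⟨Z, hZ, hZl, hZe⟩ := hrun V G H hV hG0 y
  rw [hl' y, ← hZl]
  have hpos : 0 < C * h ^ K * (√d + ‖y‖) := by
    have := sqrt_pos.2 hx0
    have := rpow_pos_of_pos hh K
    have := norm_nonneg y
    positivity
  refine (Near.of_maps_sq (Φ := fun s => run G (s, y)) (hm.comp measurable_prodMk_right) hZ hpos
    hZe).mono ?_
  have hyd : √(d : ℝ) + ‖y‖ ≤ 2 * (d : ℝ) ^ (5 : ℝ) := by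
    have : √(d : ℝ) ≤ (d : ℝ) ^ (5 : ℝ) := by
      rw [sqrt_eq_rpow]; exact rpow_le_rpow_of_exponent_le hx1 (by norm_num)
    have h5 : (d : ℝ) ^ (5 : ℕ) = (d : ℝ) ^ (5 : ℝ) := by
      rw [← rpow_natCast (d : ℝ) 5]; norm_num
    exact (add_le_add this (hy.trans_eq h5)).trans_eq (two_mul _).symm
  have hK2 : h ^ (6 / a) * (d : ℝ) ^ (5 : ℝ) ≤ (d : ℝ) ^ (-(2 * a)) := by
    refine (mul_le_mul_of_nonneg_right (rpow_le_rpow hh.le hu (by positivity))
      (rpow_nonneg hx0.le _)).trans ?_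
    rw [← rpow_mul hx0.le, ← rpow_add hx0]
    refine rpow_le_rpow_of_exponent_le hx1 ?_
    rw [show -a * (6 / a) = -6 by field_simp]
    linarith
  calc C * h ^ K * (√(d : ℝ) + ‖y‖) ≤ C * h ^ K * (2 * (d : ℝ) ^ (5 : ℝ)) := by gcongr
    _ = 2 * C * √h * (h ^ (6 / a) * (d : ℝ) ^ (5 : ℝ)) := by
        rw [hKdef, rpow_add hh, sqrt_eq_rpow]; ring
    _ ≤ _ := by gcongr

end Vale.Agent.P347.Shift
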