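import Vale.Agent.P347.Shift.Pieces
import Vale.Agent.P347.Shift.NodeStep
import Vale.Agent.P347.Shift.MeanStep

/-!
# P347: whitened steps of every order
-/

namespace Vale.Agent.P347.Shift

/-- Whitened steps of every order exist. -/
theorem white_all : ∀ K, WhiteSpec K :=
  whiteSpec_of_node_mean (fun _ _ _ _ _ h => Node.nodeSpec_step h)
    (fun _ _ _ hn hmv h => meanSpec hmv hn h)

end Vale.Agent.P347.Shift
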